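import Crest.Agent.R302.Lor151

/-!
R302 (helper151): base cases of the Alexandrov-Fenchel inequality and closure properties.

* `AF.lim`, `AF.pull`, `AF.smul` : closure of `AF`;
* `af_indicator` : for the indicator of an M-convex set;
* `ultra_psd`, `af_tree` : (T3), (T4) imply `AF` (weights `exp(- M-convex)` of full support);
* `af_chain` : closure under cells / convolution with a log-concave kernel along `e_X - e_Y`.
-/

set_option autoImplicit false

namespace Crest.Agent.R302.Lor

open Finset

variable {V : Type*} [Fintype V]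

/-! ### closure of AF -/

theorem AF.zero : AF (fun _ _ : V => (0 : ℝ)) := by
  intro x y _
  have : Q (fun _ _ : V => (0 : ℝ)) x x = 0 := by simp [Q]
  rw [this, zero_mul]; positivity

theorem Q_smul_mat (A : V → V → ℝ) (k : ℝ) (x y : V → ℝ) :
    Q (fun u v => k * A u v) x y = k * Q A x y := by
  unfold Q
  rw [Finset.mul_sum]
  refine Finset.sum_congr rfl fun a _ => ?_
  rw [Finset.mul_sum]
  exact Finset.sum_congr rfl fun b _ => by ring

theorem AF.smul {A : V → V → ℝ} (h : AF A) {k : ℝ} (hk : 0 ≤ k) : AF (fun u v => k * A u v) := by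
  intro x y hy
  rcases hk.eq_or_lt with rfl | hk
  · simp only [Q_smul_mat]; simp
  · rw [Q_smul_mat] at hy
    have h1 := h x y (nonneg_of_mul_nonneg_right hy hk)
    simp only [Q_smul_mat]
    nlinarith [mul_le_mul_of_nonneg_left h1 (sq_nonneg k)]

/-- pull back along a linear map given by values: if `Q B x y = k * Q A (T x) (T y)`. -/
theorem AF.pull {W : Type*} [Fintype W] {A : V → V → ℝ} (h : AF A) {B : W → W → ℝ} {k : ℝ}
    (hk : 0 ≤ k) (T : (W → ℝ) → (V → ℝ)) (hT : ∀ x y, Q B x y = k * Q A (T x) (T y)) : AF B := by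
  intro x y hy
  rcases hk.eq_or_lt with rfl | hk
  · simp only [hT]; simp
  · rw [hT] at hy
    have h1 := h (T x) (T y) (nonneg_of_mul_nonneg_right hy hk)
    simp only [hT]
    nlinarith [mul_le_mul_of_nonneg_left h1 (sq_nonneg k)]

theorem AF.lim {ι : Type*} {F : Filter ι} [F.NeBot] {A : V → V → ℝ} {B : ι → V → V → ℝ}
    (hB : ∀ u v, Filter.Tendsto (fun i => B i u v) F (nhds (A u v)))
    (h : ∀ᶠ i in F, AF (B i)) : AF A := by
  intro x y hy
  have hcont : ∀ x y : V → ℝ, Filter.Tendsto (fun i => Q (B i) x y) F (nhds (Q A x y)) := by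
    intro x y
    unfold Q
    exact tendsto_finsetSum _ fun u _ => tendsto_finsetSum _ fun v _ =>
      tendsto_const_nhds.mul (hB u v)
  rcases hy.eq_or_lt with h0 | hpos
  · rw [← h0, mul_zero]; positivity
  · have hev : ∀ᶠ i in F, Q (B i) x x * Q (B i) y y ≤ (Q (B i) x y) ^ 2 := by
      filter_upwards [h, (hcont y y).eventually (lt_mem_nhds hpos)] with i h1 h2
      exact h1 x y h2.le
    exact le_of_tendsto_of_tendsto ((hcont x x).mul (hcont y y)) ((hcont x y).pow 2) hev

/-! ### equivalence relations -/

theorem per_nonneg (R : V → V → Prop) (hs : ∀ u v, R u v → R v u)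
    (ht : ∀ u v w, R u v → R v w → R u w) (x : V → ℝ) :
    0 ≤ ∑ u, ∑ v, (open Classical in if R u v then x u * x v else 0) := by
  classical
  set g : V → Finset V := fun u => univ.filter (R u) with hg
  have hR : ∀ u v, R u v ↔ R u u ∧ R v v ∧ g v = g u := by
    intro u v
    constructor
    · intro h
      refine ⟨ht _ _ _ h (hs _ _ h), ht _ _ _ (hs _ _ h) h, ?_⟩
      ext w
      simp only [hg, mem_filter, mem_univ, true_and]
      exact ⟨fun h' => ht _ _ _ h h', fun h' => ht _ _ _ (hs _ _ h) h'⟩
    · rintro ⟨_, h2, h3⟩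
      have : v ∈ g v := by simp [hg, h2]
      rw [h3] at this
      simpa [hg] using this
  have key : ∀ u v, (if R u v then x u * x v else 0)
      = ∑ G : Finset V, (if R u u ∧ g u = G then x u else 0) * (if R v v ∧ g v = G then x v else 0) := by
    intro u v
    rw [Finset.sum_eq_single (g u)]
    · by_cases h : R u v
      · have h' := (hR u v).1 h
        rw [if_pos h, if_pos ⟨h'.1, rfl⟩, if_pos ⟨h'.2.1, h'.2.2⟩]
      · rw [if_neg h]
        by_cases h1 : R u u
        · rw [if_neg (c := R v v ∧ g v = g u) (fun h2 => h ((hR u v).2 ⟨h1, h2.1, h2.2⟩)), mul_zero]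
        · rw [if_neg (c := R u u ∧ g u = g u) (fun h2 => h1 h2.1), zero_mul]
    · intro G _ hG
      rw [if_neg (fun h2 => hG h2.2.symm), zero_mul]
    · intro h; exact absurd (mem_univ _) h
  have h2 : (∑ u, ∑ v, if R u v then x u * x v else 0)
      = ∑ G : Finset V, (∑ u, if R u u ∧ g u = G then x u else 0) ^ 2 := by
    simp only [key]
    calc _ = ∑ u, ∑ G : Finset V, ∑ v, (if R u u ∧ g u = G then x u else 0) *
          (if R v v ∧ g v = G then x v else 0) :=
        Finset.sum_congr rfl fun u _ => Finset.sum_comm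
      _ = ∑ G : Finset V, ∑ u, ∑ v, (if R u u ∧ g u = G then x u else 0) *
          (if R v v ∧ g v = G then x v else 0) := Finset.sum_comm
      _ = _ := by
        refine Finset.sum_congr rfl fun G _ => ?_
        rw [sq, Finset.sum_mul_sum]
  rw [h2]
  exact Finset.sum_nonneg fun G _ => sq_nonneg _

/-! ### ultrametric matrices are positive semidefinite -/


/-! ### indicator of an M-convex set -/

section Ind

variable [DecidableEq V]

theorem af_indicator {S : Set (V → ℤ)} (hS : MCx S) {c : (V → ℤ) → ℝ} (hc1 : ∀ γ ∈ S, c γ = 1)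
    (hc0 : ∀ γ, γ ∉ S → c γ = 0) (β : V → ℤ) :
    AF (fun u v => c (β + ev u + ev v)) := by
  classical
  set I : V → Prop := fun u => ∃ v, β + ev u + ev v ∈ S with hI
  set R : V → V → Prop := fun u v => I u ∧ I v ∧ β + ev u + ev v ∉ S with hR
  have hsw : ∀ u v, β + ev u + ev v = β + ev v + ev u := fun u v => add_right_comm _ _ _
  have htr : ∀ u v w, R u v → R v w → R u w := by
    rintro u v w ⟨hu, hv, h1⟩ ⟨_, hw, h2⟩
    refine ⟨hu, hw, fun h3 => ?_⟩
    obtain ⟨t, ht⟩ := hv
    have hvu : v ≠ u := by rintro rfl; exact h2 h3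
    have hvw : v ≠ w := by rintro rfl; exact h1 h3
    obtain ⟨j, hj, hj1, hj2⟩ := hS.exch _ ht _ h3 v (by
      simp only [Pi.add_apply, ev_self, ev_ne hvu.symm, ev_ne hvw.symm]
      linarith [ev_nonneg t v])
    have hj' : j = u ∨ j = w := by
      by_contra hne
      push Not at hne
      simp only [Pi.add_apply, ev_ne hne.1.symm, ev_ne hne.2.symm] at hj
      linarith [ev_nonneg t j, ev_nonneg v j]
    rcases hj' with rfl | rfl
    · apply h2
      have : β + ev v + ev w = β + ev j + ev w + ev v - ev j := by abel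
      rw [this]; exact hj2
    · apply h1
      have : β + ev u + ev v = β + ev u + ev j + ev v - ev j := by abel
      rw [this]; exact hj2
  refine AF.of_hyper (fun a b => by simp only [hsw a b]) (fun x => ∑ u, if I u then x u else 0)
    ?_ ?_
  · intro x y t
    rw [Finset.mul_sum, ← Finset.sum_sub_distrib]
    refine Finset.sum_congr rfl fun u _ => ?_
    by_cases h : I u
    · simp [h]
    · simp [h]
  · intro x hx
    have hper := per_nonneg R (fun u v h => ⟨h.2.1, h.1, by rw [hsw]; exact h.2.2⟩) htr x
    have h1 : Q (fun u v => c (β + ev u + ev v)) x x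
        = (∑ u, if I u then x u else 0) * (∑ u, if I u then x u else 0)
          - ∑ u, ∑ v, (if R u v then x u * x v else 0) := by
      rw [Finset.sum_mul_sum, ← Finset.sum_sub_distrib]
      unfold Q
      refine Finset.sum_congr rfl fun u _ => ?_
      rw [← Finset.sum_sub_distrib]
      refine Finset.sum_congr rfl fun v _ => ?_
      show x u * x v * c (β + ev u + ev v) = _
      by_cases h : β + ev u + ev v ∈ S
      · have hIu : I u := ⟨v, h⟩
        have hIv : I v := ⟨u, by rw [hsw]; exact h⟩
        have hRn : ¬ R u v := fun h' => h'.2.2 h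
        rw [hc1 _ h, if_pos hIu, if_pos hIv, if_neg hRn]; ring
      · rw [hc0 _ h]
        by_cases hIu : I u
        · by_cases hIv : I v
          · have hRp : R u v := ⟨hIu, hIv, h⟩
            rw [if_pos hIu, if_pos hIv, if_pos hRp]; ring
          · have hRn : ¬ R u v := fun h' => hIv h'.2.1
            rw [if_neg hIv, if_neg hRn]; ring
        · have hRn : ¬ R u v := fun h' => hIu h'.1
          rw [if_neg hIu, if_neg hRn]; ring
    rw [h1, hx, zero_mul, zero_sub]
    exact neg_nonpos.2 (by convert hper using 6)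

end Ind

/-! ### trees -/


/-! ### cells: convolution with a log-concave kernel along an exchange direction -/

section Chain

theorem row_sub_smul (A : V → V → ℝ) (x y : V → ℝ) (t : ℝ) (a : V) :
    row A (x - t • y) a = row A x a - t * row A y a := by
  unfold row
  rw [Finset.mul_sum, ← Finset.sum_sub_distrib]
  exact Finset.sum_congr rfl fun b _ => by
    simp only [Pi.sub_apply, Pi.smul_apply, smul_eq_mul]; ring

variable [DecidableEq V]

theorem Q_single_left (A : V → V → ℝ) (a : V) (y : V → ℝ) :
    Q A (Pi.single a 1) y = row A y a := by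
  rw [Q_eq_row, Finset.sum_eq_single a]
  · simp
  · intro b _ hb; simp [hb]
  · intro h; exact absurd (mem_univ _) h

theorem row_single (A : V → V → ℝ) (a b : V) : row A (Pi.single b 1) a = A a b := by
  unfold row
  rw [Finset.sum_eq_single b]
  · simp
  · intro c _ hc; simp [hc]
  · intro h; exact absurd (mem_univ _) h

theorem row_add2 (A : V → V → ℝ) (x : V → ℝ) (X Y : V) (a b : ℝ) (u : V) :
    row A (x + (a • Pi.single X 1 + b • Pi.single Y 1)) u = row A x u + a * A u X + b * A u Y := by
  have h : row A (x + (a • Pi.single X 1 + b • Pi.single Y 1)) u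
      = row A x u + a * row A (Pi.single X 1) u + b * row A (Pi.single Y 1) u := by
    unfold row
    rw [Finset.mul_sum, Finset.mul_sum, ← Finset.sum_add_distrib, ← Finset.sum_add_distrib]
    exact Finset.sum_congr rfl fun c _ => by
      simp only [Pi.add_apply, Pi.smul_apply, smul_eq_mul]; ring
  rw [h, row_single, row_single]

theorem Q_add2 {A : V → V → ℝ} (hA : ∀ u v, A u v = A v u) (x : V → ℝ) (X Y : V) (a b : ℝ) :
    Q A (x + (a • Pi.single X 1 + b • Pi.single Y 1)) (x + (a • Pi.single X 1 + b • Pi.single Y 1))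
      = Q A x x + 2 * a * row A x X + 2 * b * row A x Y + a ^ 2 * A X X + 2 * (a * b) * A X Y
        + b ^ 2 * A Y Y := by
  set w := x + (a • Pi.single X (1 : ℝ) + b • Pi.single Y (1 : ℝ)) with hw
  have h1 : Q A w w = Q A x w + (a * row A w X + b * row A w Y) := by
    conv_lhs => rw [hw]
    rw [Q_add_left, Q_add_left, Q_smul_left, Q_smul_left, Q_single_left, Q_single_left]
  have h2 : Q A x w = Q A x x + (a * row A x X + b * row A x Y) := by
    rw [Q_comm hA x w, hw, Q_add_left, Q_add_left, Q_smul_left, Q_smul_left, Q_single_left,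
      Q_single_left]
  rw [h1, h2, hw, row_add2, row_add2, hA Y X]
  ring

/-- **closure under cells** -/
theorem af_chain {κ : ℕ} (A : ℕ → V → V → ℝ) (q : ℕ → ℝ) (X Y : V)
    (hsym : ∀ j ≤ κ, ∀ u v, A j u v = A j v u) (haf : ∀ j ≤ κ, AF (A j))
    (hlink : ∀ j < κ, ∀ u, A j X u = A (j + 1) Y u)
    (hpos : ∀ j ≤ κ, 0 < A j Y Y) (hXY : 0 ≤ A κ X Y)
    (hq : ∀ j ≤ κ, 0 < q j) (hlc : ∀ j, j + 2 ≤ κ → q j * q (j + 2) ≤ q (j + 1) ^ 2) :
    AF (fun u v => ∑ j ∈ range (κ + 1), q j * A j u v) := by
  have hQsum : ∀ x y, Q (fun u v => ∑ j ∈ range (κ + 1), q j * A j u v) x y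
      = ∑ j ∈ range (κ + 1), q j * Q (A j) x y := by
    intro x y
    unfold Q
    calc ∑ a, ∑ b, x a * y b * ∑ j ∈ range (κ + 1), q j * A j a b
        = ∑ a, ∑ b, ∑ j ∈ range (κ + 1), q j * (x a * y b * A j a b) :=
          Finset.sum_congr rfl fun a _ => Finset.sum_congr rfl fun b _ => by
            rw [Finset.mul_sum]; exact Finset.sum_congr rfl fun j _ => by ring
      _ = ∑ a, ∑ j ∈ range (κ + 1), ∑ b, q j * (x a * y b * A j a b) :=
          Finset.sum_congr rfl fun a _ => Finset.sum_comm
      _ = ∑ j ∈ range (κ + 1), ∑ a, ∑ b, q j * (x a * y b * A j a b) := Finset.sum_comm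
      _ = _ := Finset.sum_congr rfl fun j _ => by simp only [Finset.mul_sum]
  refine AF.of_hyper ?_ (fun x => ∑ j ∈ range (κ + 1), q j * row (A j) x Y) ?_ ?_
  · intro a b
    exact Finset.sum_congr rfl fun j hj => by rw [hsym j (by simpa [Nat.lt_succ_iff] using hj)]
  · intro x y t
    simp only [row_sub_smul]
    rw [Finset.mul_sum, ← Finset.sum_sub_distrib]
    exact Finset.sum_congr rfl fun j _ => by ring
  · intro x hx
    set f : ℕ → ℝ := fun j => row (A j) x Y with hf
    set P : ℕ → ℝ := fun m => -(∑ i ∈ range m, q i * f i) / A m Y Y with hP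
    have hP0 : P 0 = 0 := by simp [hP]
    have hPe : ∀ m ≤ κ, P m * A m Y Y = -(∑ i ∈ range m, q i * f i) := by
      intro m hm
      simp only [hP]
      exact div_mul_cancel₀ _ (hpos m hm).ne'
    have hrec : ∀ m < κ, P (m + 1) * A (m + 1) Y Y = P m * A m Y Y - q m * f m := by
      intro m hm
      rw [hPe _ (by omega), hPe _ (by omega), Finset.sum_range_succ]; ring
    have hlinkf : ∀ m < κ, row (A m) x X = f (m + 1) := by
      intro m hm
      simp only [hf]
      unfold row
      exact Finset.sum_congr rfl fun b _ => by rw [hlink m hm]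
    -- the invariant
    have hinv : ∀ m ≤ κ, ∑ j ∈ range m, q j * Q (A j) x x ≤
        -2 * P m * f m - P m ^ 2 * A m X Y / q (m - 1) + P m ^ 2 * A m Y Y / q m := by
      intro m
      induction m with
      | zero => intro _; rw [hP0]; simp
      | succ m ih =>
        intro hm
        have hm' : m < κ := by omega
        have h1 := ih hm'.le
        have hqm := hq m hm'.le
        have hqm1 := hq (m + 1) hm
        set a := P (m + 1) / q m with ha
        set b := -(P m / q m) with hb
        have e1 : A m X Y = A (m + 1) Y Y := hlink m hm' Y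
        have e2 : A m X X = A (m + 1) X Y := by rw [hlink m hm' X, hsym _ hm]
        have h2 : row (A m) (x + (a • Pi.single X 1 + b • Pi.single Y 1)) Y = 0 := by
          rw [row_add2, hsym m hm'.le Y X, e1, ha, hb]
          have := hrec m hm'
          field_simp
          simp only [hf] at this ⊢
          linarith
        have h3 : Q (A m) (x + (a • Pi.single X 1 + b • Pi.single Y 1))
            (x + (a • Pi.single X 1 + b • Pi.single Y 1)) ≤ 0 := by
          refine (haf m hm'.le).neg (y := Pi.single Y 1) ?_ ?_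
          · rw [Q_single_left, row_single]; exact hpos m hm'.le
          · rw [Q_comm (hsym m hm'.le), Q_single_left]; exact h2
        rw [Q_add2 (hsym m hm'.le), e1, e2, hlinkf m hm'] at h3
        have h4 : q m * Q (A m) x x ≤ -2 * P (m + 1) * f (m + 1) + 2 * P m * f m
            - P (m + 1) ^ 2 * A (m + 1) X Y / q m + 2 * (P (m + 1) * P m) * A (m + 1) Y Y / q m
            - P m ^ 2 * A m Y Y / q m := by
          have h5 := mul_le_mul_of_nonneg_left h3 hqm.le
          rw [mul_zero] at h5
          have e3 : q m * (Q (A m) x x + 2 * a * f (m + 1) + 2 * b * row (A m) x Y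
              + a ^ 2 * A (m + 1) X Y + 2 * (a * b) * A (m + 1) Y Y + b ^ 2 * A m Y Y)
              = q m * Q (A m) x x + 2 * P (m + 1) * f (m + 1) - 2 * P m * f m
              + P (m + 1) ^ 2 * A (m + 1) X Y / q m - 2 * (P (m + 1) * P m) * A (m + 1) Y Y / q m
              + P m ^ 2 * A m Y Y / q m := by
            rw [ha, hb]
            simp only [hf]
            field_simp
            ring
          rw [e3] at h5
          linarith
        have h6 : 2 * (P (m + 1) * P m) * A (m + 1) Y Y / q m
            - P m ^ 2 * A m X Y / q (m - 1) ≤ P (m + 1) ^ 2 * A (m + 1) Y Y / q (m + 1) := by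
          rw [e1]
          rcases Nat.eq_zero_or_pos m with h0 | hmpos
          · subst h0
            rw [hP0]
            have := (hpos 1 hm).le
            have : 0 ≤ P (0 + 1) ^ 2 * A (0 + 1) Y Y / q (0 + 1) := by positivity
            simpa using this
          · obtain ⟨k, rfl⟩ : ∃ k, m = k + 1 := ⟨m - 1, by omega⟩
            have hk := hlc k (by omega)
            have hqk := hq k (by omega)
            simp only [Nat.add_sub_cancel]
            set e := A (k + 1 + 1) Y Y with he
            have hepos : 0 < e := hpos _ hm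
            have h7 : 0 ≤ P (k + 1) ^ 2 / q k + P (k + 1 + 1) ^ 2 / q (k + 1 + 1)
                - 2 * (P (k + 1 + 1) * P (k + 1)) / q (k + 1) := by
              have e4 : P (k + 1) ^ 2 / q k + P (k + 1 + 1) ^ 2 / q (k + 1 + 1)
                - 2 * (P (k + 1 + 1) * P (k + 1)) / q (k + 1)
                = ((q (k + 1) * P (k + 1) * q (k + 1 + 1) - P (k + 1 + 1) * (q k * q (k + 1 + 1))) ^ 2
                  + (P (k + 1 + 1)) ^ 2 * (q k * q (k + 1 + 1)) *
                    (q (k + 1) ^ 2 - q k * q (k + 1 + 1)))
                  / (q k * q (k + 1 + 1) ^ 2 * q (k + 1) ^ 2) := by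
                field_simp
                ring
              rw [e4]
              have : 0 ≤ q (k + 1) ^ 2 - q k * q (k + 1 + 1) := by linarith
              positivity
            have h8 := mul_nonneg h7 hepos.le
            have e5 : (P (k + 1) ^ 2 / q k + P (k + 1 + 1) ^ 2 / q (k + 1 + 1)
                - 2 * (P (k + 1 + 1) * P (k + 1)) / q (k + 1)) * e
                = P (k + 1) ^ 2 * e / q k + P (k + 1 + 1) ^ 2 * e / q (k + 1 + 1)
                - 2 * (P (k + 1 + 1) * P (k + 1)) * e / q (k + 1) := by ring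
            rw [e5] at h8
            linarith
        rw [Finset.sum_range_succ, Nat.add_sub_cancel]
        linarith
    -- last step
    have h1 := hinv κ le_rfl
    have hqκ := hq κ le_rfl
    have hxs : q κ * f κ = P κ * A κ Y Y := by
      rw [hPe κ le_rfl]
      have : ∑ j ∈ range (κ + 1), q j * f j = 0 := hx
      rw [Finset.sum_range_succ] at this
      linarith
    have h3 : Q (A κ) (x + ((0 : ℝ) • Pi.single X 1 + (-(P κ / q κ)) • Pi.single Y 1))
        (x + ((0 : ℝ) • Pi.single X 1 + (-(P κ / q κ)) • Pi.single Y 1)) ≤ 0 := by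
      refine (haf κ le_rfl).neg (y := Pi.single Y 1) ?_ ?_
      · rw [Q_single_left, row_single]; exact hpos κ le_rfl
      · rw [Q_comm (hsym κ le_rfl), Q_single_left, row_add2]
        field_simp
        simp only [hf] at hxs
        linarith
    rw [Q_add2 (hsym κ le_rfl)] at h3
    have h4 : q κ * Q (A κ) x x ≤ 2 * P κ * f κ - P κ ^ 2 * A κ Y Y / q κ := by
      have h5 := mul_le_mul_of_nonneg_left h3 hqκ.le
      have e3 : q κ * (Q (A κ) x x + 2 * 0 * row (A κ) x X + 2 * (-(P κ / q κ)) * row (A κ) x Y
          + 0 ^ 2 * A κ X X + 2 * (0 * (-(P κ / q κ))) * A κ X Y + (-(P κ / q κ)) ^ 2 * A κ Y Y)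
          = q κ * Q (A κ) x x - 2 * P κ * f κ + P κ ^ 2 * A κ Y Y / q κ := by
        simp only [hf]
        field_simp
        ring
      rw [e3] at h5
      linarith
    rw [hQsum, Finset.sum_range_succ]
    have h5 : 0 ≤ P κ ^ 2 * A κ X Y / q (κ - 1) := by
      have := hq (κ - 1) (by omega)
      positivity
    linarith

end Chain

end Crest.Agent.R302.Lor
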