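import Crest.Agent.R302.Base151

/-!
# R302, block ANN (helper425), part B: thin stages

* `AF.mono_form`, `af_mul_sep` : the base Alexandrov-Fenchel property is stable under
  multiplication by a separable log-concave weight;
* `hW q a t = t * (a / q) + (t + a % q - q)`, `om1`, `thW` : exactly dyadic, separable,
  log-concave weights (idea of helper151); `thinW n q k` : round robin exponent vector
  `a_v = (k + v) / n`, consecutive ratios `≤ 2` on the cube of radius `q`, `k = 0` : weight `1`,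
  `k = n * (L * q)` : weight `2 ^ (-L |x-x₀|₁)`, the point mass at `x₀` up to `8 n / 2 ^ L`.
-/

set_option autoImplicit false

namespace Crest.Agent.R302.AnnBox

open Finset Crest.Agent.R302.Lor

section AF

variable {V : Type*} [Fintype V]

/-- a symmetric form below an `AF` form is `AF` -/
theorem AF.mono_form {A B : V → V → ℝ} (hB : ∀ u v, B u v = B v u)
    (h : AF A) (hle : ∀ x, Q B x x ≤ Q A x x) : AF B := by
  intro x y hy
  rcases hy.eq_or_lt with h0 | hpos
  · rw [← h0, mul_zero]; positivity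
  -- `z = x - s y` is `B`-orthogonal to `y`
  set s : ℝ := Q B x y / Q B y y with hs
  set z : V → ℝ := x - s • y with hz
  have hzy : Q B z y = 0 := by
    have e : z = x + (-s) • y := by ext a; simp [hz, sub_eq_add_neg]
    rw [e, Q_add_left, Q_smul_left, hs]
    field_simp
    ring
  have hzz : Q B z z ≤ 0 := by
    by_contra hcon
    push Not at hcon
    have hyA : 0 < Q A y y := lt_of_lt_of_le hpos (hle y)
    set t : ℝ := Q A z y / Q A y y with ht
    have h1 : Q A (z - t • y) y = 0 := by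
      have e : z - t • y = z + (-t) • y := by ext a; simp [sub_eq_add_neg]
      rw [e, Q_add_left, Q_smul_left, ht]
      field_simp
      ring
    have h2 := AF.neg h hyA h1
    have h3 := hle (z - t • y)
    have h4 : Q B (z - t • y) (z - t • y) = Q B z z + t ^ 2 * Q B y y := by
      rw [Q_sub_smul hB, hzy]; ring
    have h5 : 0 ≤ t ^ 2 * Q B y y := by positivity
    linarith
  have h6 : Q B z z = Q B x x - 2 * s * Q B x y + s ^ 2 * Q B y y := Q_sub_smul hB x y s
  have h7 : s * Q B y y = Q B x y := by rw [hs]; field_simp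
  have h8 : Q B x x - s * Q B x y ≤ 0 := by
    have : Q B z z = Q B x x - s * Q B x y := by
      rw [h6]
      have : s ^ 2 * Q B y y = s * Q B x y := by rw [pow_two, mul_assoc, h7]
      rw [this]; ring
    linarith
  nlinarith

/-- **stability under separable log-concave weights** -/
theorem af_mul_sep [DecidableEq V] {c : (V → ℤ) → ℝ} (hc : ∀ γ, 0 ≤ c γ)
    (hbase : ∀ β, AF (fun u v => c (β + ev u + ev v)))
    {ω : V → ℤ → ℝ} (hω : ∀ v k, 0 < ω v k)
    (hlc : ∀ v k, ω v k * ω v (k + 2) ≤ ω v (k + 1) ^ 2) (β : V → ℤ) :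
    AF (fun u v => (c (β + ev u + ev v)) * ∏ w, ω w ((β + ev u + ev v) w)) := by
  classical
  set W : ℝ := ∏ w, ω w (β w) with hW
  have hWpos : 0 < W := Finset.prod_pos fun w _ => hω w _
  set s : V → ℝ := fun u => ω u (β u + 1) / ω u (β u) with hs
  have hspos : ∀ u, 0 < s u := fun u => div_pos (hω _ _) (hω _ _)
  -- one factor
  have one : ∀ (α : V → ℤ) (u : V), ∏ w, ω w ((α + ev u) w)
      = (∏ w, ω w (α w)) * (ω u (α u + 1) / ω u (α u)) := by
    intro α u
    rw [← Finset.mul_prod_erase univ (fun w => ω w ((α + ev u) w)) (mem_univ u),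
      ← Finset.mul_prod_erase univ (fun w => ω w (α w)) (mem_univ u)]
    have h1 : ∏ w ∈ univ.erase u, ω w ((α + ev u) w) = ∏ w ∈ univ.erase u, ω w (α w) := by
      refine Finset.prod_congr rfl fun w hw => ?_
      have hne : w ≠ u := (Finset.mem_erase.1 hw).1
      simp [ev, hne]
    rw [h1]
    have h2 : (α + ev u) u = α u + 1 := by simp [ev]
    rw [h2]
    have := (hω u (α u)).ne'
    field_simp
  have hsym : ∀ u v, (β + ev u + ev v) = (β + ev v + ev u) := fun u v => add_right_comm _ _ _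
  -- the rescaled form
  set A' : V → V → ℝ := fun u v => W * (s u * s v * c (β + ev u + ev v)) with hA'
  have haf : AF A' := by
    refine AF.pull (hbase β) (k := W) hWpos.le (fun x u => s u * x u) ?_
    intro x y
    unfold Q
    rw [Finset.mul_sum]
    refine Finset.sum_congr rfl fun a _ => ?_
    rw [Finset.mul_sum]
    refine Finset.sum_congr rfl fun b _ => ?_
    simp only [hA']
    ring
  refine AF.mono_form (A := A') ?_ haf ?_
  · intro u v
    rw [hsym u v]
  · intro x
    unfold Q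
    refine Finset.sum_le_sum fun u _ => Finset.sum_le_sum fun v _ => ?_
    have key : ∏ w, ω w ((β + ev u + ev v) w)
        = W * s u * (ω v ((β + ev u) v + 1) / ω v ((β + ev u) v)) := by
      rw [one (β + ev u) v, one β u]
    show x u * x v * (c (β + ev u + ev v) * ∏ w, ω w ((β + ev u + ev v) w)) ≤ x u * x v * A' u v
    rw [key]
    by_cases huv : u = v
    · subst huv
      have h2 : (β + ev u) u = β u + 1 := by simp [ev]
      rw [h2]
      have h3 : ω u (β u + 1 + 1) / ω u (β u + 1) ≤ s u := by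
        rw [hs]
        rw [div_le_div_iff₀ (hω _ _) (hω _ _)]
        have := hlc u (β u)
        have e : β u + 1 + 1 = β u + 2 := by ring
        rw [e]
        nlinarith
      simp only [hA']
      have h4 : 0 ≤ x u * x u * (c (β + ev u + ev u) * (W * s u)) := by
        have := hc (β + ev u + ev u)
        have := hspos u
        have h5 : 0 ≤ x u * x u := mul_self_nonneg _
        positivity
      calc x u * x u * (c (β + ev u + ev u) * (W * s u * (ω u (β u + 1 + 1) / ω u (β u + 1))))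
          = x u * x u * (c (β + ev u + ev u) * (W * s u)) * (ω u (β u + 1 + 1) / ω u (β u + 1)) := by
            ring
        _ ≤ x u * x u * (c (β + ev u + ev u) * (W * s u)) * s u :=
            mul_le_mul_of_nonneg_left h3 h4
        _ = x u * x u * (W * (s u * s u * c (β + ev u + ev u))) := by ring
    · have h2 : (β + ev u) v = β v := by
        have : v ≠ u := fun h => huv h.symm
        simp [ev, this]
      rw [h2]
      simp only [hA']
      have : s v = ω v (β v + 1) / ω v (β v) := rfl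
      rw [← this]
      exact le_of_eq (by ring)

end AF

section Thin

variable {V : Type*} [Fintype V]

/-- `ℓ₁` distance -/
def l1 (x₀ x : V → ℤ) : ℕ := ∑ v, (x v - x₀ v).natAbs



/-- integer convex exponent with slopes `a / q`, `a / q + 1` -/
def hW (q a t : ℕ) : ℕ := t * (a / q) + (t + a % q - q)

theorem hW_aux {q : ℕ} (A r t : ℕ) (hr : r < q) : hW q (q * A + r) t = t * A + (t + r - q) := by
  have h1 : (q * A + r) / q = A := by
    rw [Nat.mul_add_div (by omega), Nat.div_eq_of_lt hr, add_zero]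
  have h2 : (q * A + r) % q = r := by
    rw [Nat.mul_add_mod, Nat.mod_eq_of_lt hr]
  unfold hW
  rw [h1, h2]

theorem hW_zero {q : ℕ} (hq : 0 < q) (a : ℕ) : hW q a 0 = 0 := by
  unfold hW
  have := Nat.mod_lt a hq
  omega

theorem hW_a_zero (q t : ℕ) : hW q 0 t = t - q := by
  unfold hW; simp

theorem hW_top {q : ℕ} (hq : 0 < q) (L t : ℕ) : hW q (L * q) t = t * L + (t - q) := by
  have := hW_aux (q := q) L 0 t hq
  rw [add_zero, add_zero, mul_comm q L] at this
  exact this

theorem hW_mono_a (q a t : ℕ) : hW q a t ≤ hW q (a + 1) t := by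
  rcases Nat.eq_zero_or_pos q with rfl | hq
  · simp [hW]
  have hr := Nat.mod_lt a hq
  have ha := (Nat.div_add_mod a q).symm
  set A := a / q
  set r := a % q
  rcases Nat.lt_or_ge (r + 1) q with h | h
  · have e : a + 1 = q * A + (r + 1) := by omega
    rw [e, ha, hW_aux A r t hr, hW_aux A (r + 1) t h]
    omega
  · have hrq : r + 1 = q := by omega
    have e : a + 1 = q * (A + 1) + 0 := by rw [mul_add, mul_one]; omega
    rw [e, ha, hW_aux A r t hr, hW_aux (A + 1) 0 t hq, mul_add, mul_one]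
    omega

theorem hW_succ_le {q a t : ℕ} (ht : t ≤ q) : hW q (a + 1) t ≤ hW q a t + 1 := by
  rcases Nat.eq_zero_or_pos q with rfl | hq
  · have : t = 0 := by omega
    subst this
    simp [hW]
  have hr := Nat.mod_lt a hq
  have ha := (Nat.div_add_mod a q).symm
  set A := a / q
  set r := a % q
  rcases Nat.lt_or_ge (r + 1) q with h | h
  · have e : a + 1 = q * A + (r + 1) := by omega
    rw [e, ha, hW_aux A r t hr, hW_aux A (r + 1) t h]
    omega
  · have hrq : r + 1 = q := by omega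
    have e : a + 1 = q * (A + 1) + 0 := by rw [mul_add, mul_one]; omega
    rw [e, ha, hW_aux A r t hr, hW_aux (A + 1) 0 t hq, mul_add, mul_one]
    omega


theorem hW_conv (q a t : ℕ) : 2 * hW q a (t + 1) ≤ hW q a t + hW q a (t + 2) := by
  unfold hW
  have e1 : (t + 1) * (a / q) = t * (a / q) + a / q := by ring
  have e2 : (t + 2) * (a / q) = t * (a / q) + 2 * (a / q) := by ring
  rw [e1, e2]
  omega

/-- one coordinate of the thin weight, centre `c` -/
noncomputable def om1 (q a : ℕ) (c k : ℤ) : ℝ := (1 / 2) ^ hW q a (k - c).natAbs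

theorem om1_pos (q a : ℕ) (c k : ℤ) : 0 < om1 q a c k := by unfold om1; positivity


/-- **log-concavity** of the thin weight -/
theorem om1_lc {q : ℕ} (hq : 0 < q) (a : ℕ) (c k : ℤ) :
    om1 q a c k * om1 q a c (k + 2) ≤ om1 q a c (k + 1) ^ 2 := by
  unfold om1
  rw [← pow_add, ← pow_mul]
  apply pow_le_pow_of_le_one (by norm_num) (by norm_num)
  rcases le_or_gt c k with h | h
  · obtain ⟨t, ht⟩ : ∃ t : ℕ, k - c = t := ⟨(k - c).toNat, by omega⟩
    have e1 : (k - c).natAbs = t := by omega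
    have e2 : (k + 1 - c).natAbs = t + 1 := by omega
    have e3 : (k + 2 - c).natAbs = t + 2 := by omega
    rw [e1, e2, e3]
    have := hW_conv q a t
    omega
  · rcases le_or_gt (k + 2) c with h' | h'
    · obtain ⟨t, ht⟩ : ∃ t : ℕ, c - (k + 2) = t := ⟨(c - (k + 2)).toNat, by omega⟩
      have e1 : (k - c).natAbs = t + 2 := by omega
      have e2 : (k + 1 - c).natAbs = t + 1 := by omega
      have e3 : (k + 2 - c).natAbs = t := by omega
      rw [e1, e2, e3]
      have := hW_conv q a t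
      omega
    · have e1 : (k + 1 - c).natAbs = 0 := by omega
      rw [e1, hW_zero hq]
      omega

/-- weight of the thin stages: separable, log-concave, dyadic -/
noncomputable def thW (q : ℕ) (a : V → ℕ) (x₀ x : V → ℤ) : ℝ := ∏ v, om1 q (a v) (x₀ v) (x v)

/-- total exponent -/
def thH (q : ℕ) (a : V → ℕ) (x₀ x : V → ℤ) : ℕ := ∑ v, hW q (a v) (x v - x₀ v).natAbs

theorem thW_eq (q : ℕ) (a : V → ℕ) (x₀ x : V → ℤ) : thW q a x₀ x = (1 / 2) ^ thH q a x₀ x := by
  unfold thW thH om1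
  rw [Finset.prod_pow_eq_pow_sum]


theorem thW_le_one (q : ℕ) (a : V → ℕ) (x₀ x : V → ℤ) : thW q a x₀ x ≤ 1 := by
  rw [thW_eq]; exact pow_le_one₀ (by norm_num) (by norm_num)

theorem thW_self {q : ℕ} (hq : 0 < q) (a : V → ℕ) (x₀ : V → ℤ) : thW q a x₀ x₀ = 1 := by
  rw [thW_eq]
  have : thH q a x₀ x₀ = 0 := by
    unfold thH
    refine Finset.sum_eq_zero fun v _ => ?_
    rw [sub_self, Int.natAbs_zero, hW_zero hq]
  rw [this, pow_zero]

/-- on the cube the weight with `a = 0` is `1` -/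
theorem thW_zero {q : ℕ} {x₀ x : V → ℤ} (h : ∀ v, x₀ v - q ≤ x v ∧ x v ≤ x₀ v + q) :
    thW q (fun _ => 0) x₀ x = 1 := by
  rw [thW_eq]
  have : thH q (fun _ : V => 0) x₀ x = 0 := by
    unfold thH
    refine Finset.sum_eq_zero fun v _ => ?_
    rw [hW_a_zero]
    have := h v
    omega
  rw [this, pow_zero]

/-- on the cube the weight with `a = L q` is `2 ^ (- L |x - x₀|₁)` -/
theorem thW_top {q : ℕ} (hq : 0 < q) (L : ℕ) {x₀ x : V → ℤ}
    (h : ∀ v, x₀ v - q ≤ x v ∧ x v ≤ x₀ v + q) :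
    thW q (fun _ => L * q) x₀ x = (1 / 2) ^ (L * l1 x₀ x) := by
  rw [thW_eq]
  congr 1
  unfold thH l1
  rw [Finset.mul_sum]
  refine Finset.sum_congr rfl fun v _ => ?_
  rw [hW_top hq]
  have := h v
  have h2 : (x v - x₀ v).natAbs - q = 0 := by omega
  rw [h2, add_zero, mul_comm]

end Thin

section RoundRobin

/-- exponent vector number `k`: round robin -/
def av (n k : ℕ) (v : Fin n) : ℕ := (k + v) / n

theorem av_zero (n : ℕ) : av n 0 = fun _ => 0 := by
  funext v
  unfold av
  rw [zero_add]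
  exact Nat.div_eq_of_lt v.2

theorem av_top (n M : ℕ) : av n (n * M) = fun _ => M := by
  funext v
  unfold av
  have hn : 0 < n := lt_of_le_of_lt (Nat.zero_le _) v.2
  rw [Nat.mul_add_div hn, Nat.div_eq_of_lt v.2, add_zero]

theorem av_succ (n k : ℕ) (v : Fin n) :
    av n (k + 1) v = av n k v + if n ∣ k + v + 1 then 1 else 0 := by
  unfold av
  have : k + 1 + (v : ℕ) = (k + v) + 1 := by ring
  rw [this, Nat.succ_div]

theorem av_count (n k : ℕ) : ∑ v : Fin n, (if n ∣ k + v + 1 then 1 else 0) ≤ 1 := by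
  rw [← Finset.card_filter, Finset.card_le_one]
  intro a ha b hb
  rw [Finset.mem_filter] at ha hb
  have h1 := ha.2
  have h2 := hb.2
  have ha2 := a.2
  have hb2 := b.2
  apply Fin.ext
  rcases le_total (a : ℕ) b with h | h
  · have h3 := Nat.dvd_sub h2 h1
    have e : k + (b : ℕ) + 1 - (k + a + 1) = b - a := by omega
    rw [e] at h3
    have := Nat.eq_zero_of_dvd_of_lt h3 (by omega)
    omega
  · have h3 := Nat.dvd_sub h1 h2
    have e : k + (a : ℕ) + 1 - (k + b + 1) = a - b := by omega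
    rw [e] at h3
    have := Nat.eq_zero_of_dvd_of_lt h3 (by omega)
    omega

theorem thH_mono (n q k : ℕ) (x₀ x : Fin n → ℤ) :
    thH q (av n k) x₀ x ≤ thH q (av n (k + 1)) x₀ x := by
  unfold thH
  refine Finset.sum_le_sum fun v _ => ?_
  rw [av_succ]
  split_ifs
  · exact hW_mono_a _ _ _
  · exact le_rfl

theorem thH_succ_le {n q : ℕ} (k : ℕ) {x₀ x : Fin n → ℤ}
    (h : ∀ v, x₀ v - q ≤ x v ∧ x v ≤ x₀ v + q) :
    thH q (av n (k + 1)) x₀ x ≤ thH q (av n k) x₀ x + 1 := by
  have h1 : thH q (av n (k + 1)) x₀ x ≤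
      ∑ v : Fin n, (hW q (av n k v) (x v - x₀ v).natAbs + if n ∣ k + v + 1 then 1 else 0) := by
    unfold thH
    refine Finset.sum_le_sum fun v _ => ?_
    rw [av_succ]
    have := h v
    split_ifs
    · exact hW_succ_le (by omega)
    · exact le_rfl
  rw [Finset.sum_add_distrib] at h1
  exact h1.trans (Nat.add_le_add_left (av_count n k) _)

/-- weight of the thin stages, exponent number `k` -/
noncomputable def thinW (n q k : ℕ) (x₀ x : Fin n → ℤ) : ℝ := thW q (av n k) x₀ x


theorem thinW_le_one (n q k : ℕ) (x₀ x : Fin n → ℤ) : thinW n q k x₀ x ≤ 1 := thW_le_one _ _ _ _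

theorem thinW_self {n q : ℕ} (hq : 0 < q) (k : ℕ) (x₀ : Fin n → ℤ) : thinW n q k x₀ x₀ = 1 :=
  thW_self hq _ _

theorem thinW_succ_le (n q k : ℕ) (x₀ x : Fin n → ℤ) :
    thinW n q (k + 1) x₀ x ≤ thinW n q k x₀ x := by
  unfold thinW
  rw [thW_eq, thW_eq]
  exact pow_le_pow_of_le_one (by norm_num) (by norm_num) (thH_mono n q k x₀ x)

theorem thinW_le_succ {n q : ℕ} (k : ℕ) {x₀ x : Fin n → ℤ}
    (h : ∀ v, x₀ v - q ≤ x v ∧ x v ≤ x₀ v + q) :
    thinW n q k x₀ x ≤ 2 * thinW n q (k + 1) x₀ x := by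
  unfold thinW
  rw [thW_eq, thW_eq]
  calc ((1 : ℝ) / 2) ^ thH q (av n k) x₀ x = 2 * (1 / 2) ^ (thH q (av n k) x₀ x + 1) := by
        rw [pow_succ]; ring
    _ ≤ 2 * (1 / 2) ^ thH q (av n (k + 1)) x₀ x := by
        apply mul_le_mul_of_nonneg_left _ (by norm_num)
        exact pow_le_pow_of_le_one (by norm_num) (by norm_num) (thH_succ_le k h)

theorem thinW_zero {n q : ℕ} {x₀ x : Fin n → ℤ} (h : ∀ v, x₀ v - q ≤ x v ∧ x v ≤ x₀ v + q) :
    thinW n q 0 x₀ x = 1 := by
  unfold thinW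
  rw [av_zero]
  exact thW_zero h

theorem thinW_top {n q : ℕ} (hq : 0 < q) (L : ℕ) {x₀ x : Fin n → ℤ}
    (h : ∀ v, x₀ v - q ≤ x v ∧ x v ≤ x₀ v + q) :
    thinW n q (n * (L * q)) x₀ x = (1 / 2) ^ (L * l1 x₀ x) := by
  unfold thinW
  rw [av_top]
  exact thW_top hq L h

end RoundRobin

section Thin

variable {V : Type*} [Fintype V]

/-- geometric sum over a symmetric window -/
theorem geo_window (a : ℝ) (ha : 0 ≤ a) (ha2 : a ≤ 1 / 2) (c : ℤ) (q : ℕ) :
    ∑ k ∈ Finset.Icc (c - q) (c + q), a ^ (k - c).natAbs ≤ 1 + 4 * a := by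
  have hsub : Finset.Icc (c - (q : ℤ)) (c + q) ⊆
      (Finset.range (q + 1)).image (fun j : ℕ => c + (j : ℤ)) ∪
        (Finset.range q).image (fun j : ℕ => c - ((j : ℤ) + 1)) := by
    intro k hk
    rw [Finset.mem_Icc] at hk
    rw [Finset.mem_union]
    by_cases h : c ≤ k
    · left
      exact Finset.mem_image.2 ⟨(k - c).toNat, Finset.mem_range.2 (by omega), by omega⟩
    · right
      exact Finset.mem_image.2 ⟨(c - k - 1).toNat, Finset.mem_range.2 (by omega), by omega⟩
  have hgeo : ∀ N : ℕ, ∑ j ∈ Finset.range N, a ^ j ≤ 2 := by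
    intro N
    have h1 := mul_neg_geom_sum a N
    have h2 : 0 ≤ a ^ N := by positivity
    have h3 : 0 ≤ ∑ j ∈ Finset.range N, a ^ j := Finset.sum_nonneg fun _ _ => by positivity
    nlinarith
  have h1 : ∑ k ∈ (Finset.range (q + 1)).image (fun j : ℕ => c + (j : ℤ)), a ^ (k - c).natAbs
      ≤ 1 + a * ∑ j ∈ Finset.range q, a ^ j := by
    rw [Finset.sum_image (by intro i _ j _ h; simpa using h), Finset.sum_range_succ']
    rw [Finset.mul_sum, add_comm]
    apply add_le_add
    · simp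
    · refine Finset.sum_le_sum fun j _ => ?_
      have : (c + ((j + 1 : ℕ) : ℤ) - c).natAbs = j + 1 := by omega
      rw [this, pow_succ]; exact le_of_eq (by ring)
  have h2 : ∑ k ∈ (Finset.range q).image (fun j : ℕ => c - ((j : ℤ) + 1)), a ^ (k - c).natAbs
      ≤ a * ∑ j ∈ Finset.range q, a ^ j := by
    rw [Finset.sum_image (by intro i _ j _ h; simpa using h), Finset.mul_sum]
    refine Finset.sum_le_sum fun j _ => ?_
    have : (c - ((j : ℤ) + 1) - c).natAbs = j + 1 := by omega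
    rw [this, pow_succ]; exact le_of_eq (by ring)
  have h3 := hgeo q
  calc ∑ k ∈ Finset.Icc (c - (q : ℤ)) (c + q), a ^ (k - c).natAbs
      ≤ ∑ k ∈ (Finset.range (q + 1)).image (fun j : ℕ => c + (j : ℤ)) ∪
        (Finset.range q).image (fun j : ℕ => c - ((j : ℤ) + 1)), a ^ (k - c).natAbs :=
        Finset.sum_le_sum_of_subset_of_nonneg hsub fun _ _ _ => by positivity
    _ ≤ ∑ k ∈ (Finset.range (q + 1)).image (fun j : ℕ => c + (j : ℤ)), a ^ (k - c).natAbs
        + ∑ k ∈ (Finset.range q).image (fun j : ℕ => c - ((j : ℤ) + 1)), a ^ (k - c).natAbs := by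
        rw [← Finset.sum_union_inter]
        have : 0 ≤ ∑ k ∈ (Finset.range (q + 1)).image (fun j : ℕ => c + (j : ℤ)) ∩
            (Finset.range q).image (fun j : ℕ => c - ((j : ℤ) + 1)), a ^ (k - c).natAbs :=
          Finset.sum_nonneg fun _ _ => by positivity
        linarith
    _ ≤ (1 + a * ∑ j ∈ Finset.range q, a ^ j) + a * ∑ j ∈ Finset.range q, a ^ j :=
        add_le_add h1 h2
    _ ≤ 1 + 4 * a := by nlinarith

/-- mass of the geometric weight on any finite subset of a cube -/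
theorem cube_mass [DecidableEq V] (a : ℝ) (ha : 0 ≤ a) (ha2 : a ≤ 1 / 2) (x₀ : V → ℤ) (q : ℕ)
    (P : Finset (V → ℤ)) (hP : ∀ x ∈ P, ∀ v, x₀ v - q ≤ x v ∧ x v ≤ x₀ v + q) :
    ∑ x ∈ P, a ^ l1 x₀ x ≤ (1 + 4 * a) ^ Fintype.card V := by
  have hsub : P ⊆ Fintype.piFinset fun v => Finset.Icc (x₀ v - (q : ℤ)) (x₀ v + q) := by
    intro x hx
    rw [Fintype.mem_piFinset]
    intro v
    rw [Finset.mem_Icc]
    exact hP x hx v
  calc ∑ x ∈ P, a ^ l1 x₀ x
      ≤ ∑ x ∈ Fintype.piFinset fun v => Finset.Icc (x₀ v - (q : ℤ)) (x₀ v + q), a ^ l1 x₀ x :=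
        Finset.sum_le_sum_of_subset_of_nonneg hsub fun _ _ _ => by positivity
    _ = ∑ x ∈ Fintype.piFinset fun v => Finset.Icc (x₀ v - (q : ℤ)) (x₀ v + q),
          ∏ v, a ^ (x v - x₀ v).natAbs := by
        refine Finset.sum_congr rfl fun x _ => ?_
        unfold l1
        rw [Finset.prod_pow_eq_pow_sum]
    _ = ∏ v, ∑ k ∈ Finset.Icc (x₀ v - (q : ℤ)) (x₀ v + q), a ^ (k - x₀ v).natAbs := by
        rw [Finset.prod_univ_sum]
    _ ≤ ∏ _v : V, (1 + 4 * a) := by
        refine Finset.prod_le_prod (fun v _ => Finset.sum_nonneg fun _ _ => by positivity)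
          fun v _ => geo_window a ha ha2 (x₀ v) q
    _ = (1 + 4 * a) ^ Fintype.card V := by simp

/-- `(1 + 4 a)^n ≤ 1 + 8 n a` if `8 n a ≤ 1` -/
theorem pow_one_add_le {n : ℕ} {a : ℝ} (ha : 0 ≤ a) (h : 8 * n * a ≤ 1) :
    (1 + 4 * a) ^ n ≤ 1 + 8 * n * a := by
  set y : ℝ := 4 * n * a with hy
  have hy0 : 0 ≤ y := by positivity
  have hy1 : y ≤ 1 / 2 := by rw [hy]; linarith
  have h1 : (1 + 4 * a) ^ n ≤ Real.exp y := by
    have h2 : 1 + 4 * a ≤ Real.exp (4 * a) := by linarith [Real.add_one_le_exp (4 * a)]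
    calc (1 + 4 * a) ^ n ≤ Real.exp (4 * a) ^ n := pow_le_pow_left₀ (by positivity) h2 n
      _ = Real.exp y := by rw [← Real.exp_nat_mul, hy]; congr 1; ring
  have h3 : Real.exp y ≤ 1 / (1 - y) := by
    have h4 : 1 - y ≤ Real.exp (-y) := by linarith [Real.add_one_le_exp (-y)]
    rw [Real.exp_neg] at h4
    rw [le_div_iff₀ (by linarith)]
    have h5 := Real.exp_pos y
    have h6 : (1 - y) * Real.exp y ≤ (Real.exp y)⁻¹ * Real.exp y :=
      mul_le_mul_of_nonneg_right h4 h5.le
    rw [inv_mul_cancel₀ h5.ne'] at h6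
    linarith
  have h7 : 1 / (1 - y) ≤ 1 + 2 * y := by
    rw [div_le_iff₀ (by linarith)]
    nlinarith
  calc (1 + 4 * a) ^ n ≤ 1 + 2 * y := h1.trans (h3.trans h7)
    _ = 1 + 8 * n * a := by rw [hy]; ring

/-- **first thin stage**: the weight `2^{-L |x-x₀|}` is concentrated at `x₀`. -/
theorem first_mass [DecidableEq V] {L : ℕ} (hL : 1 ≤ L)
    (hL2 : 8 * (Fintype.card V : ℝ) * (1 / 2) ^ L ≤ 1) (x₀ : V → ℤ) (q : ℕ)
    (P : Finset (V → ℤ)) (hP : ∀ x ∈ P, ∀ v, x₀ v - q ≤ x v ∧ x v ≤ x₀ v + q) :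
    ∑ x ∈ P, ((1 : ℝ) / 2) ^ (L * l1 x₀ x) ≤ 1 + 8 * Fintype.card V * (1 / 2) ^ L := by
  have ha : (0 : ℝ) ≤ (1 / 2) ^ L := by positivity
  have ha2 : ((1 : ℝ) / 2) ^ L ≤ 1 / 2 := by
    calc ((1 : ℝ) / 2) ^ L ≤ (1 / 2) ^ 1 :=
          pow_le_pow_of_le_one (by norm_num) (by norm_num) hL
      _ = 1 / 2 := by norm_num
  have h1 := cube_mass _ ha ha2 x₀ q P hP
  simp only [← pow_mul] at h1
  exact h1.trans (pow_one_add_le ha hL2)

end Thin

end Crest.Agent.R302.AnnBox
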