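import Crest.Agent.R302.Soft907
import Crest.Agent.R302.EDMBox

-- ▼ part R302/Ann425A
section

/-!
# R302, block ANN (helper425): the annealing schedule, part A

* `boxR lo hi r` is again a submodular function with total `R`, its integer base polytope is
  `J ∩ [lo, hi]`;
* `box_ratio`: the number of common integer bases in the cube of radius `q` around a common
  integer base `x₀` grows at most by a factor `2` when `q` is replaced by `q' = q (1 + 1/poly)`.
-/

set_option autoImplicit false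

namespace Crest.Agent.R302.AnnBox

open Finset Crest.Agent.R302.Facet Crest.Agent.R302.EDM

variable {V : Type*} [Fintype V] [DecidableEq V]

/-! ## The box-restricted rank function -/

/-- integer points of `B(boxR)` are the integer points of `B(r)` in the box -/
theorem memJ_boxR {r : Finset V → ℤ} {R : ℤ} (hr : SubM r R) (lo hi x : V → ℤ) :
    MemJ (boxR lo hi r) R x ↔ MemJ r R x ∧ ∀ v, lo v ≤ x v ∧ x v ≤ hi v := by
  constructor
  · rintro ⟨h1, h2⟩
    have hA : ∀ A, ∑ a ∈ A, x a ≤ r A := by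
      intro A
      have h3 := h1 A
      have h4 := boxR_le lo hi r A A
      rw [bx, Finset.sdiff_self, sum_empty, sum_empty, sub_zero, add_zero] at h4
      linarith
    refine ⟨⟨hA, h2⟩, fun v => ⟨?_, ?_⟩⟩
    · have c1 := h1 {v}ᶜ
      have c3 := boxR_le lo hi r {v}ᶜ Finset.univ
      have c4 := Finset.sum_add_sum_compl {v} x
      rw [Finset.sum_singleton, h2] at c4
      have e1 : ({v}ᶜ : Finset V) \ Finset.univ = ∅ := by ext; simp
      have e2 : (Finset.univ : Finset V) \ {v}ᶜ = {v} := by ext; simp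
      rw [bx, e1, e2, sum_empty, sum_singleton, hr.univ] at c3
      linarith
    · have c1 := h1 {v}
      have c3 := boxR_le lo hi r {v} ∅
      rw [Finset.sum_singleton] at c1
      rw [bx, hr.empty, sdiff_empty, sum_singleton, empty_sdiff, sum_empty] at c3
      linarith
  · rintro ⟨⟨h1, h2⟩, h3⟩
    refine ⟨fun A => ?_, h2⟩
    obtain ⟨Z, hZ⟩ := exists_boxR lo hi r A
    rw [hZ]
    have a1 := h1 Z
    have a4 : ∑ i ∈ A \ Z, x i ≤ ∑ i ∈ A \ Z, hi i := Finset.sum_le_sum fun i _ => (h3 i).2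
    have a5 : ∑ i ∈ Z \ A, lo i ≤ ∑ i ∈ Z \ A, x i := Finset.sum_le_sum fun i _ => (h3 i).1
    have a6 : ∑ i ∈ A \ Z, x i + ∑ i ∈ Z, x i = ∑ i ∈ Z \ A, x i + ∑ i ∈ A, x i := by
      have b1 := Finset.sum_sdiff (s₁ := Z) (s₂ := Z ∪ A) (f := x) subset_union_left
      have b2 := Finset.sum_sdiff (s₁ := A) (s₂ := Z ∪ A) (f := x) subset_union_right
      rw [union_sdiff_left] at b1
      rw [union_sdiff_right] at b2
      linarith
    unfold bx
    linarith

/-- the box-restricted function is a submodular function with the same total -/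
theorem subM_boxR {r : Finset V → ℤ} {R : ℤ} (hr : SubM r R) {lo hi x₀ : V → ℤ}
    (hx : MemJ r R x₀) (hbox : ∀ v, lo v ≤ x₀ v ∧ x₀ v ≤ hi v) : SubM (boxR lo hi r) R := by
  have hJ : MemJ (boxR lo hi r) R x₀ := (memJ_boxR hr lo hi x₀).2 ⟨hx, hbox⟩
  refine ⟨fun A B => ?_, ?_, ?_⟩
  · exact boxR_sub (fun v => (hbox v).1.trans (hbox v).2) (fun A B _ _ => hr.sub A B) A B
      (subset_univ _) (subset_univ _)
  · refine le_antisymm ?_ ?_
    · have c3 := boxR_le lo hi r ∅ ∅
      simpa [bx, hr.empty] using c3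
    · have := hJ.1 ∅
      simpa using this
  · refine le_antisymm ?_ ?_
    · have c3 := boxR_le lo hi r Finset.univ Finset.univ
      rw [bx, Finset.sdiff_self, sum_empty, sum_empty, sub_zero, add_zero, hr.univ] at c3
      exact c3
    · have := hJ.1 Finset.univ
      rw [hx.2] at this
      exact this

/-! ## The ratio of consecutive fat stages -/

/-- the constant of the schedule -/
def annC (n : ℕ) : ℕ := 64 * n ^ 3 * kap n

/-- cube of radius `q` around `x₀` -/
def InCube (x₀ : V → ℤ) (q : ℕ) (x : V → ℤ) : Prop := ∀ v, x₀ v - q ≤ x v ∧ x v ≤ x₀ v + q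

instance (x₀ : V → ℤ) (q : ℕ) (x : V → ℤ) : Decidable (InCube x₀ q x) := by
  unfold InCube; infer_instance



end Crest.Agent.R302.AnnBox
end

-- ▼ part R302/Ann425C

/-!
# R302, block ANN (helper425), part C

* `cap_boxR` : exchange capacities of the box-restricted polytope;
* `center_box` : a centre of `J` is a centre of `J ∩ cube(c, q)` for every `q` (remark of helper272);
* `hole_ratio` : ratio of consecutive fat stages for hole pairs `(J₁, J₂ - s)`,
  `s = 0` or `s = e_u - e_v`.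
-/

set_option autoImplicit false

namespace Crest.Agent.R302.AnnBox

open Finset Crest.Agent.R302.Facet Crest.Agent.R302.EDM

variable {V : Type*} [Fintype V] [DecidableEq V]

/-! ## Capacities in a box -/

theorem cap_boxR {r : Finset V → ℤ} {R : ℤ} (hr : SubM r R) {lo hi x : V → ℤ}
    (hx : MemJ r R x) (hbox : ∀ v, lo v ≤ x v ∧ x v ≤ hi v) {a b : V} (hab : a ≠ b) :
    cap (boxR lo hi r) x a b = min (cap r x a b) (min (hi a - x a) (x b - lo b)) := by
  apply le_antisymm
  · refine le_min ?_ (le_min ?_ ?_)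
    · obtain ⟨A, h1, h2, h3⟩ := exists_cap (r := r) (x := x) hab
      rw [← h3]
      refine (cap_le h1 h2).trans ?_
      have h4 := boxR_le lo hi r A A
      rw [bx, Finset.sdiff_self, sum_empty, sum_empty, sub_zero, add_zero] at h4
      unfold slk
      linarith
    · have h1 : a ∈ ({a} : Finset V) := mem_singleton_self a
      have h2 : b ∉ ({a} : Finset V) := by rw [mem_singleton]; exact fun h => hab h.symm
      refine (cap_le h1 h2).trans ?_
      have h3 := boxR_le lo hi r {a} ∅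
      rw [bx, hr.empty, sdiff_empty, sum_singleton, empty_sdiff, sum_empty] at h3
      unfold slk
      rw [sum_singleton]
      linarith
    · have h1 : a ∈ ({b}ᶜ : Finset V) := by rw [mem_compl, mem_singleton]; exact hab
      have h2 : b ∉ ({b}ᶜ : Finset V) := by simp
      refine (cap_le h1 h2).trans ?_
      have c3 := boxR_le lo hi r {b}ᶜ Finset.univ
      have e1 : ({b}ᶜ : Finset V) \ Finset.univ = ∅ := by ext; simp
      have e2 : (Finset.univ : Finset V) \ {b}ᶜ = {b} := by ext; simp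
      rw [bx, e1, e2, sum_empty, sum_singleton, hr.univ] at c3
      have c4 := Finset.sum_add_sum_compl {b} x
      rw [Finset.sum_singleton, hx.2] at c4
      unfold slk
      linarith
  · obtain ⟨A, h1, h2, h3⟩ := exists_cap (r := boxR lo hi r) (x := x) hab
    rw [← h3]
    obtain ⟨Z, hZ⟩ := exists_boxR lo hi r A
    have hs : slk (boxR lo hi r) x A
        = slk r x Z + ∑ i ∈ A \ Z, (hi i - x i) + ∑ i ∈ Z \ A, (x i - lo i) := by
      unfold slk
      rw [hZ, bx, sum_sub_distrib, sum_sub_distrib]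
      have a6 : ∑ i ∈ A \ Z, x i + ∑ i ∈ Z, x i = ∑ i ∈ Z \ A, x i + ∑ i ∈ A, x i := by
        have b1 := Finset.sum_sdiff (s₁ := Z) (s₂ := Z ∪ A) (f := x) subset_union_left
        have b2 := Finset.sum_sdiff (s₁ := A) (s₂ := Z ∪ A) (f := x) subset_union_right
        rw [union_sdiff_left] at b1
        rw [union_sdiff_right] at b2
        linarith
      linarith
    rw [hs]
    have n1 : 0 ≤ ∑ i ∈ A \ Z, (hi i - x i) :=
      sum_nonneg fun i _ => sub_nonneg.2 (hbox i).2
    have n2 : 0 ≤ ∑ i ∈ Z \ A, (x i - lo i) :=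
      sum_nonneg fun i _ => sub_nonneg.2 (hbox i).1
    have n3 := slk_nonneg hx Z
    by_cases ha : a ∈ Z
    · by_cases hb : b ∈ Z
      · have h4 : x b - lo b ≤ ∑ i ∈ Z \ A, (x i - lo i) :=
          single_le_sum (f := fun i => x i - lo i) (fun i _ => sub_nonneg.2 (hbox i).1)
            (mem_sdiff.2 ⟨hb, h2⟩)
        have h5 : min (cap r x a b) (min (hi a - x a) (x b - lo b)) ≤ x b - lo b :=
          (min_le_right _ _).trans (min_le_right _ _)
        linarith
      · have h4 := cap_le (r := r) (x := x) ha hb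
        have h5 : min (cap r x a b) (min (hi a - x a) (x b - lo b)) ≤ cap r x a b :=
          min_le_left _ _
        linarith
    · have h4 : hi a - x a ≤ ∑ i ∈ A \ Z, (hi i - x i) :=
        single_le_sum (f := fun i => hi i - x i) (fun i _ => sub_nonneg.2 (hbox i).2)
          (mem_sdiff.2 ⟨h1, ha⟩)
      have h5 : min (cap r x a b) (min (hi a - x a) (x b - lo b)) ≤ hi a - x a :=
        (min_le_right _ _).trans (min_le_left _ _)
      linarith



/-- **A centre of `J` is a centre of every cube around it.** -/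
theorem center_box {r₁ r₂ : Finset V → ℤ} {R : ℤ} (hr₁ : SubM r₁ R) (hr₂ : SubM r₂ R)
    {P Pq : Finset (V → ℤ)} (hP : ∀ x, x ∈ P ↔ MemJ r₁ R x ∧ MemJ r₂ R x) {C : ℕ} (hC : 1 ≤ C)
    {c : V → ℤ} (hcP : c ∈ P) (hc : IsCenter r₁ r₂ P C c) (q : ℕ)
    (hPq : ∀ x, x ∈ Pq ↔ MemJ r₁ R x ∧ MemJ r₂ R x ∧ InCube c q x) :
    IsCenter (boxR (fun v => c v - q) (fun v => c v + q) r₁)
      (boxR (fun v => c v - q) (fun v => c v + q) r₂) Pq (2 * C) c := by
  have hcb : ∀ v, (fun v => c v - (q : ℤ)) v ≤ c v ∧ c v ≤ (fun v => c v + (q : ℤ)) v := by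
    intro v; constructor <;> simp
  have hcJ := (hP c).1 hcP
  have main : ∀ r : Finset V → ℤ, SubM r R → (∀ g h, g ≠ h → ∀ x' ∈ P,
      cap r x' g h ≤ C * (cap r c g h + 1)) → (∀ x ∈ P, MemJ r R x) →
      ∀ g h, g ≠ h → ∀ x' ∈ Pq, cap (boxR (fun v => c v - q) (fun v => c v + q) r) x' g h ≤
        ((2 * C : ℕ) : ℤ) * (cap (boxR (fun v => c v - q) (fun v => c v + q) r) c g h + 1) := by
    intro r hr hcen hmem g h hgh x' hx'
    have h1 := (hPq x').1 hx'
    have hx'P : x' ∈ P := (hP x').2 ⟨h1.1, h1.2.1⟩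
    rw [cap_boxR hr (hmem c hcP) hcb hgh, cap_boxR hr (hmem x' hx'P) h1.2.2 hgh]
    have h2 := hcen g h hgh x' hx'P
    have e1 : c g + (q : ℤ) - c g = q := by ring
    have e2 : c h - (c h - (q : ℤ)) = q := by ring
    rw [e1, e2, min_self]
    have h3 := h1.2.2 g
    have hcap0 : 0 ≤ cap r c g h := by
      obtain ⟨A, _, _, h6⟩ := exists_cap (r := r) (x := c) hgh
      rw [← h6]
      exact slk_nonneg (hmem c hcP) A
    have hq0 : (0 : ℤ) ≤ q := by positivity
    have hC1 : (1 : ℤ) ≤ C := by exact_mod_cast hC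
    rcases le_total (cap r c g h) q with h7 | h7
    · rw [min_eq_left h7]
      refine (min_le_left _ _).trans (h2.trans ?_)
      push_cast
      nlinarith
    · rw [min_eq_right h7]
      refine (min_le_right _ _).trans ((min_le_left _ _).trans ?_)
      push_cast
      nlinarith [h3.1]
  intro g h hgh x' hx'
  exact ⟨main r₁ hr₁ (fun g h hgh x' hx' => (hc g h hgh x' hx').1) (fun x hx => ((hP x).1 hx).1)
      g h hgh x' hx',
    main r₂ hr₂ (fun g h hgh x' hx' => (hc g h hgh x' hx').2) (fun x hx => ((hP x).1 hx).2)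
      g h hgh x' hx'⟩

/-! ## Ratio of consecutive fat stages for hole pairs -/

theorem one_facet_e {r₁ r₂ : Finset V → ℤ} {R : ℤ} (hr₁ : SubM r₁ R) (hr₂ : SubM r₂ R)
    {x₀ : V → ℤ} (h₁ : MemJ r₁ R x₀) (h₂ : ∀ A, ∑ a ∈ A, x₀ a ≤ r₂ A + 1) {q d : ℕ} (hd : 0 < d)
    (hbig : annC (Fintype.card V) * d ≤ q)
    (P : Finset (V → ℤ)) (hP : ∀ x, x ∈ P ↔ MemJ r₁ R x ∧ MemJ r₂ R x) (A₀ : Finset V)
    (U : Finset (V → ℤ)) (hUP : U ⊆ P) (hU0 : ∀ x ∈ U, (q : ℤ) ≤ slk r₁ x₀ A₀)
    (hU1 : ∀ x ∈ U, slk r₁ x A₀ ≤ d) :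
    4 * Fintype.card V * U.card ≤ P.card := by
  classical
  set n := Fintype.card V with hn
  rcases U.eq_empty_or_nonempty with rfl | ⟨x1, hx1⟩
  · simp
  by_cases hn0 : n = 0
  · rw [hn0]; simp
  have hn1 : 1 ≤ n := Nat.one_le_iff_ne_zero.2 hn0
  have h3 := hU0 x1 hx1
  have hk := kap_pos hn1
  have hq64 : 64 * n ^ 3 * kap n * d ≤ q := hbig
  have hn2 : 0 < n ^ 2 := by positivity
  have hq2 : 64 * n ^ 3 ≤ q := by
    calc 64 * n ^ 3 = 64 * n ^ 3 * 1 * 1 := by ring
      _ ≤ 64 * n ^ 3 * kap n * d := by gcongr <;> omega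
      _ ≤ q := hq64
  have hn3 : n ^ 2 ≤ n ^ 3 := Nat.pow_le_pow_right hn1 (by norm_num)
  have hn31 : 1 ≤ n ^ 3 := Nat.one_le_pow _ _ hn1
  have hq : 0 < q := by omega
  set θ := (q - 1) / n ^ 2 with hθ
  have hθ2 : n ^ 2 * θ ≤ q - 1 := Nat.mul_div_le (q - 1) (n ^ 2)
  have hθ3 : q ≤ n ^ 2 * (θ + 1) := by
    have := Nat.lt_mul_div_succ (q - 1) hn2
    have h : q - 1 < n ^ 2 * (θ + 1) := this
    omega
  -- a pair with large capacity
  obtain ⟨a, ha, b, hb, hab⟩ : ∃ a ∈ A₀, ∃ b, b ∉ A₀ ∧ (θ : ℤ) < cap r₁ x₀ a b := by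
    by_contra hne
    push Not at hne
    have := slk_le_of_cap hr₁ h₁ (θ := (θ : ℤ)) (by positivity) (A := A₀)
      (fun a ha b hb => hne a ha b hb)
    rw [← hn] at this
    have h4 : ((n ^ 2 * θ : ℕ) : ℤ) ≤ ((q - 1 : ℕ) : ℤ) := by exact_mod_cast hθ2
    rw [Nat.cast_sub (by omega)] at h4
    push_cast at h4
    linarith
  have hne : a ≠ b := fun h => hb (h ▸ ha)
  -- `4 n ≤ θ`
  have hθ4 : 4 * n ≤ θ := by
    have : n ^ 2 * (4 * n) ≤ n ^ 2 * θ := by
      have h5 : n ^ 2 * (4 * n) + n ^ 2 ≤ q := by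
        calc n ^ 2 * (4 * n) + n ^ 2 = 4 * n ^ 3 + n ^ 2 := by ring
          _ ≤ 64 * n ^ 3 := by omega
          _ ≤ q := hq2
      have h6 : q ≤ n ^ 2 * θ + n ^ 2 := by
        calc q ≤ n ^ 2 * (θ + 1) := hθ3
          _ = n ^ 2 * θ + n ^ 2 := by ring
      omega
    exact Nat.le_of_mul_le_mul_left this hn2
  set m := θ - 4 * n with hm'
  have hm'' : m + 4 * n = θ := by omega
  have hm : ∀ A, a ∈ A → b ∉ A → (m : ℝ) + (4 * (Fintype.card V : ℝ) + 1) * 1 ≤
      r₁ A - ∑ v ∈ A, ((x₀ v : ℤ) : ℝ) := by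
    intro A h5 h6
    have h7 := cap_le (r := r₁) (x := x₀) h5 h6
    have h8 : (θ : ℤ) + 1 ≤ slk r₁ x₀ A := by linarith
    unfold slk at h8
    have h9 : ((m + 4 * n : ℕ) : ℤ) + 1 ≤ r₁ A - ∑ v ∈ A, x₀ v := by rw [hm'']; exact h8
    have h10 : (((m + 4 * n : ℕ) : ℤ) : ℝ) + 1 ≤ r₁ A - ∑ v ∈ A, ((x₀ v : ℤ) : ℝ) := by
      exact_mod_cast h9
    push_cast at h10
    rw [← hn]
    linarith
  have key := density_e hr₁ hr₂ P hP (c := fun v => ((x₀ v : ℤ) : ℝ)) (e := 1) (by norm_num)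
    (fun A => by
      have := h₁.1 A
      have h5 : (∑ a ∈ A, ((x₀ a : ℤ) : ℝ)) ≤ r₁ A := by exact_mod_cast this
      linarith)
    (fun A => by exact_mod_cast h₂ A)
    (by exact_mod_cast h₁.2) hne m d hm
  rw [← hn] at key
  have hsub : U ⊆ P.filter (fun x => cap r₁ x a b ≤ (d : ℤ)) := by
    intro x hx
    rw [mem_filter]
    refine ⟨hUP hx, ?_⟩
    have h7 := cap_le (r := r₁) (x := x) ha hb
    have h8 := hU1 x hx
    linarith
  have hcard := card_le_card hsub
  -- arithmetic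
  set T := m / kap n + 1 with hT
  have hTk : m < kap n * T := Nat.lt_mul_div_succ m hk
  have h8 : q ≤ 2 * (n ^ 2 * m) := by
    have h5 : q ≤ n ^ 2 * m + (4 * n ^ 3 + n ^ 2) := by
      calc q ≤ n ^ 2 * (θ + 1) := hθ3
        _ = n ^ 2 * m + (4 * n ^ 3 + n ^ 2) := by rw [← hm'']; ring
    omega
  have h9 : q ≤ 2 * (n ^ 2 * (kap n * T)) := by
    calc q ≤ 2 * (n ^ 2 * m) := h8
      _ ≤ 2 * (n ^ 2 * (kap n * T)) :=
        Nat.mul_le_mul_left _ (Nat.mul_le_mul_left _ hTk.le)
  have h10 : T * U.card ≤ 4 * d * P.card := by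
    calc T * U.card ≤ 2 * (d + 1) * P.card := (Nat.mul_le_mul_left _ hcard).trans key
      _ ≤ 4 * d * P.card := Nat.mul_le_mul_right _ (by omega)
  have h11 : q * (4 * n * U.card) ≤ q * P.card := by
    calc q * (4 * n * U.card) ≤ (2 * (n ^ 2 * (kap n * T))) * (4 * n * U.card) :=
          Nat.mul_le_mul_right _ h9
      _ = 8 * n ^ 3 * kap n * (T * U.card) := by ring
      _ ≤ 8 * n ^ 3 * kap n * (4 * d * P.card) := Nat.mul_le_mul_left _ h10
      _ = (32 * n ^ 3 * kap n * d) * P.card := by ring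
      _ ≤ (64 * n ^ 3 * kap n * d) * P.card := by gcongr; norm_num
      _ ≤ q * P.card := Nat.mul_le_mul_right _ hbig
  exact Nat.le_of_mul_le_mul_left h11 hq

/-- **Ratio of consecutive fat stages, hole pairs.**  `s = 0` or `s = e_u - e_v`. -/
theorem hole_ratio {r₁ r₂ : Finset V → ℤ} {R : ℤ} (hr₁ : SubM r₁ R) (hr₂ : SubM r₂ R)
    {x₀ : V → ℤ} (h₁ : MemJ r₁ R x₀) (h₂ : MemJ r₂ R x₀) {s : V → ℤ} (hs0 : ∑ v, s v = 0)
    (hs1 : ∀ A : Finset V, |∑ v ∈ A, s v| ≤ 1) {q q' : ℕ} (hqq : q ≤ q')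
    (hbig : annC (Fintype.card V) * (q' - q) ≤ q)
    (P P' : Finset (V → ℤ))
    (hP : ∀ x, x ∈ P ↔ (MemJ r₁ R x ∧ InCube x₀ q x) ∧
      MemJ r₂ R (fun v => x v + s v) ∧ InCube x₀ q (fun v => x v + s v))
    (hP' : ∀ x, x ∈ P' ↔ (MemJ r₁ R x ∧ InCube x₀ q' x) ∧
      MemJ r₂ R (fun v => x v + s v) ∧ InCube x₀ q' (fun v => x v + s v)) :
    P'.card ≤ 2 * P.card := by
  classical
  rcases Nat.eq_or_lt_of_le hqq with heq | hlt
  · have : P' = P := by
      ext x; rw [hP, hP', heq]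
    rw [this]; omega
  set d := q' - q with hd
  have hd0 : 0 < d := by omega
  set lo : V → ℤ := fun v => x₀ v - q' with hlo
  set hi : V → ℤ := fun v => x₀ v + q' with hhi
  have hbox : ∀ v, lo v ≤ x₀ v ∧ x₀ v ≤ hi v := by
    intro v; simp only [hlo, hhi]; constructor <;> omega
  have s₁ := subM_boxR hr₁ h₁ hbox
  have s₂ := subM_boxR hr₂ h₂ hbox
  have m₁ : MemJ (boxR lo hi r₁) R x₀ := (memJ_boxR hr₁ lo hi x₀).2 ⟨h₁, hbox⟩
  have m₂ : MemJ (boxR lo hi r₂) R x₀ := (memJ_boxR hr₂ lo hi x₀).2 ⟨h₂, hbox⟩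
  set ρ : Finset V → ℤ := fun A => boxR lo hi r₂ A - ∑ v ∈ A, s v with hρ
  have sρ : SubM ρ R := by
    refine ⟨fun A B => ?_, ?_, ?_⟩
    · have h3 := s₂.sub A B
      have h4 : ∑ v ∈ A ∪ B, s v + ∑ v ∈ A ∩ B, s v = ∑ v ∈ A, s v + ∑ v ∈ B, s v :=
        sum_union_inter
      simp only [hρ]
      linarith
    · simp only [hρ, s₂.empty, sum_empty, sub_zero]
    · simp only [hρ, s₂.univ, hs0, sub_zero]
  have mρ : ∀ x, MemJ ρ R x ↔ MemJ (boxR lo hi r₂) R (fun v => x v + s v) := by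
    intro x
    unfold MemJ
    simp only [hρ, sum_add_distrib, hs0, add_zero]
    constructor
    · rintro ⟨h3, h4⟩
      exact ⟨fun A => by linarith [h3 A], h4⟩
    · rintro ⟨h3, h4⟩
      exact ⟨fun A => by linarith [h3 A], h4⟩
  have cρ : ∀ A, ∑ a ∈ A, x₀ a ≤ ρ A + 1 := by
    intro A
    have h3 := m₂.1 A
    have h4 := (abs_le.1 (hs1 A)).2
    simp only [hρ]
    linarith
  have hPJ : ∀ x, x ∈ P' ↔ MemJ (boxR lo hi r₁) R x ∧ MemJ ρ R x := by
    intro x
    rw [hP', mρ, memJ_boxR hr₁, memJ_boxR hr₂]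
    unfold InCube
    tauto
  have hsv : ∀ v, |s v| ≤ 1 := by
    intro v
    have := hs1 {v}
    rwa [sum_singleton] at this
  set Up : V → Finset (V → ℤ) := fun v => P'.filter (fun x => x₀ v + q ≤ x v) with hUp
  set Dn : V → Finset (V → ℤ) := fun v => P'.filter (fun x => x v ≤ x₀ v - q) with hDn
  have hcov : P' ⊆ P ∪ ((Finset.univ : Finset V).biUnion Up ∪ (Finset.univ : Finset V).biUnion Dn) := by
    intro x hx
    by_cases hxP : x ∈ P
    · exact mem_union_left _ hxP
    · apply mem_union_right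
      have h3 := (hP' x).1 hx
      have h4 : ∃ v, ¬ (x₀ v - q + 1 ≤ x v ∧ x v ≤ x₀ v + q - 1) := by
        by_contra hcon
        push Not at hcon
        apply hxP
        rw [hP]
        refine ⟨⟨h3.1.1, fun v => ?_⟩, h3.2.1, fun v => ?_⟩
        · have := hcon v
          constructor <;> linarith
        · have h5 := hcon v
          have h6 := abs_le.1 (hsv v)
          simp only
          constructor <;> linarith
      obtain ⟨v, hv⟩ := h4
      by_cases hc : x₀ v - q + 1 ≤ x v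
      · apply mem_union_left
        rw [mem_biUnion]
        refine ⟨v, mem_univ _, mem_filter.2 ⟨hx, ?_⟩⟩
        by_contra hcc
        exact hv ⟨hc, by omega⟩
      · apply mem_union_right
        rw [mem_biUnion]
        exact ⟨v, mem_univ _, mem_filter.2 ⟨hx, by omega⟩⟩
  have hdc : ((d : ℕ) : ℤ) = q' - q := by rw [hd, Nat.cast_sub hqq]
  have hup : ∀ v, 4 * Fintype.card V * (Up v).card ≤ P'.card := by
    intro v
    refine one_facet_e s₁ sρ m₁ cρ hd0 hbig P' hPJ {v} (Up v) (filter_subset _ _) ?_ ?_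
    · intro x hx
      rw [hUp, mem_filter] at hx
      have h3 := ((hPJ x).1 hx.1).1.1 {v}
      rw [sum_singleton] at h3
      unfold slk
      rw [sum_singleton]
      linarith [hx.2]
    · intro x hx
      rw [hUp, mem_filter] at hx
      have h3 := boxR_le lo hi r₁ {v} ∅
      rw [bx, hr₁.empty, sdiff_empty, sum_singleton, empty_sdiff, sum_empty] at h3
      unfold slk
      rw [sum_singleton, hdc]
      have h4 : hi v = x₀ v + q' := rfl
      linarith [hx.2]
  have hdn : ∀ v, 4 * Fintype.card V * (Dn v).card ≤ P'.card := by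
    intro v
    have hsum : ∀ x : V → ℤ, ∑ a, x a = R → ∑ a ∈ ({v}ᶜ : Finset V), x a = R - x v := by
      intro x hx
      have c4 := Finset.sum_add_sum_compl {v} x
      rw [Finset.sum_singleton, hx] at c4
      linarith
    refine one_facet_e s₁ sρ m₁ cρ hd0 hbig P' hPJ {v}ᶜ (Dn v) (filter_subset _ _) ?_ ?_
    · intro x hx
      rw [hDn, mem_filter] at hx
      have h3 := ((hPJ x).1 hx.1).1.1 {v}ᶜ
      rw [hsum x ((hPJ x).1 hx.1).1.2] at h3
      unfold slk
      rw [hsum x₀ m₁.2]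
      linarith [hx.2]
    · intro x hx
      rw [hDn, mem_filter] at hx
      have c3 := boxR_le lo hi r₁ {v}ᶜ Finset.univ
      have e1 : ({v}ᶜ : Finset V) \ Finset.univ = ∅ := by ext; simp
      have e2 : (Finset.univ : Finset V) \ {v}ᶜ = {v} := by ext; simp
      rw [bx, e1, e2, sum_empty, sum_singleton, hr₁.univ] at c3
      unfold slk
      rw [hsum x ((hPJ x).1 hx.1).1.2, hdc]
      have h4 : lo v = x₀ v - q' := rfl
      linarith [hx.2]
  have hcard : P'.card ≤ P.card + (∑ v, (Up v).card + ∑ v, (Dn v).card) := by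
    refine (card_le_card hcov).trans ((card_union_le _ _).trans ?_)
    refine Nat.add_le_add_left ((card_union_le _ _).trans ?_) _
    exact Nat.add_le_add card_biUnion_le card_biUnion_le
  by_cases hn : Fintype.card V = 0
  · have : IsEmpty V := Fintype.card_eq_zero_iff.1 hn
    simp only [univ_eq_empty, sum_empty, add_zero] at hcard
    omega
  have hn' : 0 < Fintype.card V := Nat.pos_of_ne_zero hn
  have aux : ∀ F : V → Finset (V → ℤ), (∀ v, 4 * Fintype.card V * (F v).card ≤ P'.card) →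
      4 * ∑ v, (F v).card ≤ P'.card := by
    intro F hF
    have e1 : 4 * Fintype.card V * ∑ v, (F v).card ≤ Fintype.card V * P'.card := by
      rw [mul_sum]
      calc ∑ v, 4 * Fintype.card V * (F v).card ≤ ∑ _v : V, P'.card := sum_le_sum fun v _ => hF v
        _ = Fintype.card V * P'.card := by simp
    have : Fintype.card V * (4 * ∑ v, (F v).card) ≤ Fintype.card V * P'.card := by
      calc _ = 4 * Fintype.card V * ∑ v, (F v).card := by ring
        _ ≤ _ := e1
    exact Nat.le_of_mul_le_mul_left this hn'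
  have e3 := aux Up hup
  have e4 := aux Dn hdn
  omega

end Crest.Agent.R302.AnnBox
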