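import Crest.Agent.R302.Ann425B
import Crest.Agent.R302.Ann425C
import Crest.Agent.R302.Loop272A

-- ▼ part R302/Ann425D
section

/-!
# R302, block ANN (helper425), part D: the schedule

Parameters: `n`, `L` (precision of the start).  `cA n = annC n + 1` = radius of the thin stages,
`T0 n L = n * (L * cA n)` thin stages, then the fat stages.

* `stQ n L t` : radius of the cube of stage `t`; `stK n L t` : exponent number of the thin weight;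
* `stOm n L t x₀ x` : weight of stage `t` (separable, dyadic, log-concave);
* `stW L x₀ s t x` : weight of the hole state `(x, x + s)` at stage `t` (`s = 0`: perfect states);
* `stW_mono`, `stage_ratio` : `Σ W_t ≤ Σ W_{t+1} ≤ 2 Σ W_t`;
* `stage_first`, `stage_last`, `nStages`.
-/

set_option autoImplicit false

namespace Crest.Agent.R302.AnnBox

open Finset Crest.Agent.R302.Facet Crest.Agent.R302.EDM

/-! ## radii -/

/-- growth constant -/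
def cA (n : ℕ) : ℕ := annC n + 1

/-- radii of the fat stages -/
def rad (n : ℕ) : ℕ → ℕ
  | 0 => cA n
  | i + 1 => rad n i + rad n i / cA n

theorem cA_pos (n : ℕ) : 0 < cA n := Nat.succ_pos _

theorem rad_succ (n i : ℕ) : rad n (i + 1) = rad n i + rad n i / cA n := rfl

theorem rad_mono_succ (n i : ℕ) : rad n i ≤ rad n (i + 1) := Nat.le_add_right _ _

theorem rad_mono (n : ℕ) : Monotone (rad n) := monotone_nat_of_le_succ (rad_mono_succ n)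

theorem cA_le_rad (n i : ℕ) : cA n ≤ rad n i := rad_mono n (Nat.zero_le i)

theorem rad_step (n i : ℕ) : annC n * (rad n (i + 1) - rad n i) ≤ rad n i := by
  rw [rad_succ, Nat.add_sub_cancel_left]
  calc annC n * (rad n i / cA n) ≤ cA n * (rad n i / cA n) :=
        Nat.mul_le_mul_right _ (Nat.le_succ _)
    _ ≤ rad n i := Nat.mul_div_le _ _

theorem rad_add (n i k : ℕ) : rad n i + k * (rad n i / cA n) ≤ rad n (i + k) := by
  induction k with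
  | zero => simp
  | succ k ih =>
    calc rad n i + (k + 1) * (rad n i / cA n)
        = rad n i + k * (rad n i / cA n) + rad n i / cA n := by ring
      _ ≤ rad n (i + k) + rad n (i + k) / cA n :=
        Nat.add_le_add ih (Nat.div_le_div_right (rad_mono n (Nat.le_add_right i k)))
      _ = rad n (i + (k + 1)) := rfl

theorem rad_double (n i : ℕ) : 2 * rad n i ≤ rad n (i + 2 * cA n) := by
  refine le_trans ?_ (rad_add n i (2 * cA n))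
  have h1 : cA n ≤ rad n i := cA_le_rad n i
  have h2 : 1 ≤ rad n i / cA n := (Nat.one_le_div_iff (cA_pos n)).2 h1
  have h3 : rad n i < cA n * (rad n i / cA n + 1) := Nat.lt_mul_div_succ _ (cA_pos n)
  have h4 : cA n * 1 ≤ cA n * (rad n i / cA n) := Nat.mul_le_mul_left _ h2
  nlinarith

theorem rad_pow (n j : ℕ) : 2 ^ j ≤ rad n (2 * cA n * j) := by
  induction j with
  | zero =>
    simp only [pow_zero, mul_zero]
    exact (Nat.succ_le_of_lt (cA_pos n))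
  | succ j ih =>
    calc 2 ^ (j + 1) = 2 * 2 ^ j := by ring
      _ ≤ 2 * rad n (2 * cA n * j) := Nat.mul_le_mul_left _ ih
      _ ≤ rad n (2 * cA n * j + 2 * cA n) := rad_double n _
      _ = rad n (2 * cA n * (j + 1)) := by rw [mul_add, mul_one]

/-! ## stage parameters -/

/-- number of thin stages -/
def T0 (n L : ℕ) : ℕ := n * (L * cA n)

/-- radius of stage `t` -/
def stQ (n L t : ℕ) : ℕ := rad n (t - T0 n L)

/-- thin exponent number of stage `t` -/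
def stK (n L t : ℕ) : ℕ := T0 n L - t

/-- total number of stages if `J` lies in the cube of radius `K` -/
def nStages (n L K : ℕ) : ℕ := T0 n L + 2 * cA n * Nat.clog 2 K

theorem stQ_mono (n L : ℕ) : Monotone (stQ n L) := fun _ _ h =>
  rad_mono n (Nat.sub_le_sub_right h _)

theorem stQ_thin {n L t : ℕ} (h : t ≤ T0 n L) : stQ n L t = cA n := by
  unfold stQ
  rw [Nat.sub_eq_zero_of_le h]; rfl

theorem stQ_last (n L K : ℕ) {t : ℕ} (ht : nStages n L K ≤ t) : K ≤ stQ n L t := by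
  have h1 : 2 * cA n * Nat.clog 2 K ≤ t - T0 n L := by
    unfold nStages at ht; omega
  calc K ≤ 2 ^ Nat.clog 2 K := Nat.le_pow_clog (by norm_num) K
    _ ≤ rad n (2 * cA n * Nat.clog 2 K) := rad_pow n _
    _ ≤ stQ n L t := rad_mono n h1

theorem InCube.mono {V : Type*} {x₀ x : V → ℤ} {q q' : ℕ} (h : q ≤ q') (hx : InCube x₀ q x) :
    InCube x₀ q' x := fun v => by
  have := hx v
  have h' : (q : ℤ) ≤ q' := by exact_mod_cast h
  constructor <;> linarith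

section stage

variable {n : ℕ}

/-- coordinate weights of stage `t`: `1` in the fat stages -/
noncomputable def stOm1 (n L t : ℕ) (v : Fin n) (c k : ℤ) : ℝ :=
  if t < T0 n L then om1 (cA n) (av n (stK n L t) v) c k else 1

/-- stage weight (separable) -/
noncomputable def stOm (n L t : ℕ) (x₀ x : Fin n → ℤ) : ℝ := ∏ v, stOm1 n L t v (x₀ v) (x v)

theorem stOm1_pos (n L t : ℕ) (v : Fin n) (c k : ℤ) : 0 < stOm1 n L t v c k := by
  unfold stOm1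
  split_ifs
  · exact om1_pos _ _ _ _
  · exact one_pos

theorem stOm1_lc (n L t : ℕ) (v : Fin n) (c k : ℤ) :
    stOm1 n L t v c k * stOm1 n L t v c (k + 2) ≤ stOm1 n L t v c (k + 1) ^ 2 := by
  unfold stOm1
  split_ifs
  · exact om1_lc (cA_pos n) _ _ _
  · norm_num

theorem stOm_thin {L t : ℕ} (h : t < T0 n L) (x₀ x : Fin n → ℤ) :
    stOm n L t x₀ x = thinW n (cA n) (stK n L t) x₀ x := by
  unfold stOm thinW thW
  refine prod_congr rfl fun v _ => ?_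
  unfold stOm1
  rw [if_pos h]

theorem stOm_fat {L t : ℕ} (h : T0 n L ≤ t) (x₀ x : Fin n → ℤ) : stOm n L t x₀ x = 1 := by
  unfold stOm
  refine prod_eq_one fun v _ => ?_
  unfold stOm1
  rw [if_neg (not_lt.2 h)]

theorem stOm_pos (n L t : ℕ) (x₀ x : Fin n → ℤ) : 0 < stOm n L t x₀ x :=
  prod_pos fun _ _ => stOm1_pos _ _ _ _ _ _

theorem stOm_le_one (n L t : ℕ) (x₀ x : Fin n → ℤ) : stOm n L t x₀ x ≤ 1 := by
  rcases Nat.lt_or_ge t (T0 n L) with h | h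
  · rw [stOm_thin h]; exact thinW_le_one _ _ _ _ _
  · rw [stOm_fat h]

/-- exponent of the stage weight: `stOm = (1/2) ^ stH` -/
def stH (n L t : ℕ) (x₀ x : Fin n → ℤ) : ℕ :=
  if t < T0 n L then thH (cA n) (av n (stK n L t)) x₀ x else 0

theorem stOm_eq (n L t : ℕ) (x₀ x : Fin n → ℤ) : stOm n L t x₀ x = (1 / 2) ^ stH n L t x₀ x := by
  unfold stH
  split_ifs with h
  · rw [stOm_thin h]; unfold thinW; rw [thW_eq]
  · rw [stOm_fat (not_lt.1 h), pow_zero]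

/-- weight of the (hole) state `(x, x + s)` at stage `t` -/
noncomputable def stW (L : ℕ) (x₀ s : Fin n → ℤ) (t : ℕ) (x : Fin n → ℤ) : ℝ :=
  if InCube x₀ (stQ n L t) x ∧ InCube x₀ (stQ n L t) (fun v => x v + s v)
  then stOm n L t x₀ x else 0

theorem stW_nonneg (L : ℕ) (x₀ s : Fin n → ℤ) (t : ℕ) (x : Fin n → ℤ) : 0 ≤ stW L x₀ s t x := by
  unfold stW
  split_ifs
  · exact (stOm_pos _ _ _ _ _).le
  · exact le_rfl


/-- pointwise monotonicity -/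
theorem stOm_mono (L t : ℕ) (x₀ x : Fin n → ℤ) :
    stOm n L t x₀ x ≤ stOm n L (t + 1) x₀ x := by
  rcases Nat.lt_or_ge t (T0 n L) with h | h
  · rcases Nat.lt_or_ge (t + 1) (T0 n L) with h' | h'
    · rw [stOm_thin h, stOm_thin h']
      have e : stK n L t = stK n L (t + 1) + 1 := by unfold stK; omega
      rw [e]
      exact thinW_succ_le _ _ _ _ _
    · rw [stOm_fat h']
      exact stOm_le_one _ _ _ _ _
  · rw [stOm_fat h, stOm_fat (h.trans (Nat.le_succ t))]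

theorem stOm_ratio {L t : ℕ} {x₀ x : Fin n → ℤ} (hx : InCube x₀ (stQ n L t) x) :
    stOm n L (t + 1) x₀ x ≤ 2 * stOm n L t x₀ x := by
  rcases Nat.lt_or_ge t (T0 n L) with h | h
  · rw [stQ_thin h.le] at hx
    have e : stK n L t = stK n L (t + 1) + 1 := by unfold stK; omega
    have h1 : thinW n (cA n) (stK n L (t + 1)) x₀ x ≤ 2 * stOm n L t x₀ x := by
      rw [stOm_thin h, e]
      exact thinW_le_succ _ hx
    rcases Nat.lt_or_ge (t + 1) (T0 n L) with h' | h'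
    · rw [stOm_thin h']; exact h1
    · rw [stOm_fat h']
      have e2 : stK n L (t + 1) = 0 := by unfold stK; omega
      rw [e2, thinW_zero hx] at h1
      exact h1
  · rw [stOm_fat h, stOm_fat (h.trans (Nat.le_succ t))]; norm_num

theorem stW_mono (L : ℕ) (x₀ s : Fin n → ℤ) (t : ℕ) (x : Fin n → ℤ) :
    stW L x₀ s t x ≤ stW L x₀ s (t + 1) x := by
  unfold stW
  have hq := stQ_mono n L (Nat.le_succ t)
  split_ifs with h1 h2
  · exact stOm_mono L t x₀ x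
  · exact absurd ⟨InCube.mono hq h1.1, InCube.mono hq h1.2⟩ h2
  · exact (stOm_pos _ _ _ _ _).le
  · exact le_rfl

/-- **Ratio of consecutive stages** (total masses; all hole types). -/
theorem stage_ratio {r₁ r₂ : Finset (Fin n) → ℤ} {R : ℤ} (hr₁ : SubM r₁ R) (hr₂ : SubM r₂ R)
    {x₀ : Fin n → ℤ} (h₁ : MemJ r₁ R x₀) (h₂ : MemJ r₂ R x₀) {s : Fin n → ℤ}
    (hs0 : ∑ v, s v = 0) (hs1 : ∀ A : Finset (Fin n), |∑ v ∈ A, s v| ≤ 1) (L t : ℕ)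
    (P : Finset (Fin n → ℤ))
    (hP : ∀ x, x ∈ P ↔ MemJ r₁ R x ∧ MemJ r₂ R (fun v => x v + s v)) :
    ∑ x ∈ P, stW L x₀ s (t + 1) x ≤ 2 * ∑ x ∈ P, stW L x₀ s t x := by
  classical
  rcases Nat.lt_or_ge t (T0 n L) with h | h
  · -- thin stage: pointwise
    rw [mul_sum]
    refine sum_le_sum fun x _ => ?_
    have e2 : stQ n L (t + 1) = cA n := stQ_thin h
    have e3 : stQ n L t = cA n := stQ_thin h.le
    unfold stW
    rw [e2, e3]
    split_ifs with h1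
    · exact stOm_ratio (by rw [e3]; exact h1.1)
    · simp
  · -- fat stage
    have e3 : stQ n L (t + 1) = rad n (t - T0 n L + 1) := by
      unfold stQ; congr 1; omega
    have key := hole_ratio hr₁ hr₂ h₁ h₂ hs0 hs1 (q := stQ n L t) (q' := stQ n L (t + 1))
      (stQ_mono n L (Nat.le_succ t))
      (by
        rw [e3, Fintype.card_fin]
        exact rad_step n (t - T0 n L))
      (P.filter fun x => InCube x₀ (stQ n L t) x ∧ InCube x₀ (stQ n L t) (fun v => x v + s v))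
      (P.filter fun x => InCube x₀ (stQ n L (t + 1)) x ∧
        InCube x₀ (stQ n L (t + 1)) (fun v => x v + s v))
      (fun x => by rw [mem_filter, hP]; tauto) (fun x => by rw [mem_filter, hP]; tauto)
    have aux : ∀ u, T0 n L ≤ u → ∑ x ∈ P, stW L x₀ s u x = ((P.filter fun x =>
        InCube x₀ (stQ n L u) x ∧ InCube x₀ (stQ n L u) (fun v => x v + s v)).card : ℝ) := by
      intro u hu
      rw [card_eq_sum_ones, Nat.cast_sum, sum_filter]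
      refine sum_congr rfl fun x _ => ?_
      unfold stW
      rw [stOm_fat hu]
      split_ifs <;> simp
    rw [aux t h, aux (t + 1) (h.trans (Nat.le_succ t))]
    exact_mod_cast key

/-- weight of the start point -/
theorem stW_self (L : ℕ) (x₀ : Fin n → ℤ) (t : ℕ) : stW L x₀ 0 t x₀ = 1 := by
  unfold stW
  have h : InCube x₀ (stQ n L t) x₀ := fun v => by constructor <;> simp
  have h' : InCube x₀ (stQ n L t) (fun v => x₀ v + (0 : Fin n → ℤ) v) := by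
    simpa using h
  rw [if_pos ⟨h, h'⟩]
  rcases Nat.lt_or_ge t (T0 n L) with h | h
  · rw [stOm_thin h, thinW_self (cA_pos n)]
  · rw [stOm_fat h]

/-- **First stage**: total mass at most `1 + 8 n / 2 ^ L`, for all hole types. -/
theorem stage_first {L : ℕ} (hL : 1 ≤ L)
    (hL2 : 8 * (n : ℝ) * (1 / 2) ^ L ≤ 1) (x₀ s : Fin n → ℤ) (P : Finset (Fin n → ℤ)) :
    ∑ x ∈ P, stW L x₀ s 0 x ≤ 1 + 8 * n * (1 / 2) ^ L := by
  classical
  have hL2' : 8 * (Fintype.card (Fin n) : ℝ) * (1 / 2) ^ L ≤ 1 := by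
    rw [Fintype.card_fin]; exact hL2
  have h1 := first_mass hL hL2' x₀ (stQ n L 0) (P.filter fun x => InCube x₀ (stQ n L 0) x)
    (fun x hx v => (mem_filter.1 hx).2 v)
  rw [Fintype.card_fin] at h1
  refine le_trans ?_ h1
  rw [sum_filter]
  refine sum_le_sum fun x _ => ?_
  unfold stW
  have hq0 : stQ n L 0 = cA n := stQ_thin (Nat.zero_le _)
  split_ifs with h2 h3 h4
  · have hc := h2.1
    rw [hq0] at hc
    rcases Nat.eq_zero_or_pos (T0 n L) with h0 | h0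
    · -- `n = 0`
      have hn : n = 0 := by
        unfold T0 at h0
        have := cA_pos n
        rcases Nat.mul_eq_zero.1 h0 with h | h
        · exact h
        · rcases Nat.mul_eq_zero.1 h with h | h <;> omega
      subst hn
      rw [stOm_fat h0.le]
      have : l1 x₀ x = 0 := by simp [l1]
      rw [this, mul_zero, pow_zero]
    · rw [stOm_thin h0]
      have : stK n L 0 = n * (L * cA n) := by unfold stK T0; omega
      rw [this, thinW_top (cA_pos n) L hc]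
  · exact absurd h2.1 h3
  · positivity
  · exact le_rfl

/-- **Last stage**: the weight is one on everything. -/
theorem stage_last {L K t : ℕ} (ht : nStages n L K ≤ t) {x₀ s x : Fin n → ℤ}
    (hx : InCube x₀ K x) (hx' : InCube x₀ K (fun v => x v + s v)) : stW L x₀ s t x = 1 := by
  have hq := stQ_last n L K ht
  unfold stW
  rw [if_pos ⟨InCube.mono hq hx, InCube.mono hq hx'⟩]
  exact stOm_fat (by unfold nStages at ht; omega) _ _

end stage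

end Crest.Agent.R302.AnnBox
private theorem rz_8fd4ac6ea9 : type_of% @_root_.Crest.Agent.R302.AnnBox.rad.eq_def := @_root_.Crest.Agent.R302.AnnBox.rad.eq_def -- L29
private theorem rz_79ab6c33d5 : type_of% @_root_.Crest.Agent.R302.AnnBox.rad.eq_1 := @_root_.Crest.Agent.R302.AnnBox.rad.eq_1 -- L29
end

-- ▼ part R302/Ann425E

/-!
# R302, block ANN (helper425), part E: the stage laws

`stLaw t` = law of the perfect states at stage `t`, `Nst u v t` = one-link (hole) counts.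
-/

set_option autoImplicit false

namespace Crest.Agent.R302.AnnBox

open Finset Crest.Agent.R302.Facet Crest.Agent.R302.EDM Crest.Agent.R302.Loop

variable {V : Type*} [Fintype V] [DecidableEq V]

/-- `e_u - e_v` -/
def hs (u v : V) : V → ℤ := fun w => (if w = u then 1 else 0) - if w = v then 1 else 0

omit [Fintype V] in
theorem hs_sum (u v : V) (A : Finset V) :
    ∑ w ∈ A, hs u v w = (if u ∈ A then 1 else 0) - if v ∈ A then 1 else 0 := by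
  unfold hs
  rw [sum_sub_distrib, sum_ite_eq', sum_ite_eq']

theorem hs_sum_univ (u v : V) : ∑ w, hs u v w = 0 := by
  rw [hs_sum]; simp

omit [Fintype V] in
theorem hs_abs (u v : V) (A : Finset V) : |∑ w ∈ A, hs u v w| ≤ 1 := by
  rw [hs_sum]
  split_ifs <;> simp

omit [Fintype V] in
theorem hs_self (u : V) : hs u u = 0 := by
  funext w; simp [hs]

omit [Fintype V] [DecidableEq V] in
theorem zero_abs (A : Finset V) : |∑ w ∈ A, (0 : V → ℤ) w| ≤ 1 := by simp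

/-- the (finite) set of hole states of type `s` -/
theorem exists_PH {r₁ r₂ : Finset V → ℤ} {R : ℤ} (hr₁ : SubM r₁ R) (s : V → ℤ) :
    ∃ P : Finset (V → ℤ), ∀ x, x ∈ P ↔ MemJ r₁ R x ∧ MemJ r₂ R (fun v => x v + s v) := by
  classical
  obtain ⟨P, hP⟩ := exists_finset (r₂ := r₁) hr₁
  exact ⟨P.filter fun x => MemJ r₂ R (fun v => x v + s v), fun x => by
    rw [mem_filter, hP]; tauto⟩

/-- data of an annealing run -/
structure AnnData (n : ℕ) where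
  r₁ : Finset (Fin n) → ℤ
  r₂ : Finset (Fin n) → ℤ
  R : ℤ
  sub₁ : SubM r₁ R
  sub₂ : SubM r₂ R
  x₀ : Fin n → ℤ
  mem₁ : MemJ r₁ R x₀
  mem₂ : MemJ r₂ R x₀
  L : ℕ
  hL : 1 ≤ L
  hL2 : 8 * (n : ℝ) * (1 / 2) ^ L ≤ 1

namespace AnnData

variable {n : ℕ} (𝒜 : AnnData n)

/-- hole states of type `s` -/
noncomputable def PH (s : Fin n → ℤ) : Finset (Fin n → ℤ) :=
  (exists_PH (r₁ := 𝒜.r₁) (r₂ := 𝒜.r₂) (R := 𝒜.R) 𝒜.sub₁ s).choose

theorem mem_PH (s x : Fin n → ℤ) :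
    x ∈ 𝒜.PH s ↔ MemJ 𝒜.r₁ 𝒜.R x ∧ MemJ 𝒜.r₂ 𝒜.R (fun v => x v + s v) :=
  (exists_PH (r₁ := 𝒜.r₁) (r₂ := 𝒜.r₂) (R := 𝒜.R) 𝒜.sub₁ s).choose_spec x

theorem mem_P (x : Fin n → ℤ) : x ∈ 𝒜.PH 0 ↔ MemJ 𝒜.r₁ 𝒜.R x ∧ MemJ 𝒜.r₂ 𝒜.R x := by
  rw [mem_PH]; simp

theorem x₀_mem : 𝒜.x₀ ∈ 𝒜.PH 0 := (𝒜.mem_P _).2 ⟨𝒜.mem₁, 𝒜.mem₂⟩

/-- mass of the hole states of type `s` at stage `t` -/
noncomputable def Ns (s : Fin n → ℤ) (t : ℕ) : ℝ := ∑ x ∈ 𝒜.PH s, stW 𝒜.L 𝒜.x₀ s t x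

/-- mass of the perfect states at stage `t` -/
noncomputable def Z (t : ℕ) : ℝ := 𝒜.Ns 0 t

/-- one-link counts -/
noncomputable def Nst (t : ℕ) (u v : Fin n) : ℝ := 𝒜.Ns (hs u v) t

theorem Ns_nonneg (s : Fin n → ℤ) (t : ℕ) : 0 ≤ 𝒜.Ns s t :=
  sum_nonneg fun _ _ => stW_nonneg _ _ _ _ _

theorem one_le_Z (t : ℕ) : 1 ≤ 𝒜.Z t := by
  unfold Z Ns
  calc (1 : ℝ) = stW 𝒜.L 𝒜.x₀ 0 t 𝒜.x₀ := (stW_self _ _ _).symm
    _ ≤ _ := single_le_sum (f := fun x => stW 𝒜.L 𝒜.x₀ 0 t x) (fun _ _ => stW_nonneg _ _ _ _ _)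
      𝒜.x₀_mem

theorem Z_pos (t : ℕ) : 0 < 𝒜.Z t := lt_of_lt_of_le one_pos (𝒜.one_le_Z t)

theorem Ns_mono (s : Fin n → ℤ) (t : ℕ) : 𝒜.Ns s t ≤ 𝒜.Ns s (t + 1) :=
  sum_le_sum fun _ _ => stW_mono _ _ _ _ _

theorem Z_mono (t : ℕ) : 𝒜.Z t ≤ 𝒜.Z (t + 1) := 𝒜.Ns_mono 0 t

theorem Z_ratio (t : ℕ) : 𝒜.Z (t + 1) ≤ 2 * 𝒜.Z t :=
  stage_ratio 𝒜.sub₁ 𝒜.sub₂ 𝒜.mem₁ 𝒜.mem₂ (by simp) zero_abs 𝒜.L t _ (𝒜.mem_PH 0)


theorem Nst_ratio (t : ℕ) (u v : Fin n) : 𝒜.Nst (t + 1) u v ≤ 2 * 𝒜.Nst t u v :=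
  stage_ratio 𝒜.sub₁ 𝒜.sub₂ 𝒜.mem₁ 𝒜.mem₂ (hs_sum_univ u v) (hs_abs u v) 𝒜.L t _ (𝒜.mem_PH _)

theorem Nst_self (t : ℕ) (u : Fin n) : 𝒜.Nst t u u = 𝒜.Z t := by
  unfold Nst Z; rw [hs_self]

theorem Nst_nonneg (t : ℕ) (u v : Fin n) : 0 ≤ 𝒜.Nst t u v := 𝒜.Ns_nonneg _ t

theorem Ns_first (s : Fin n → ℤ) : 𝒜.Ns s 0 ≤ 1 + 8 * n * (1 / 2) ^ 𝒜.L :=
  stage_first 𝒜.hL 𝒜.hL2 _ _ _

/-- the one-link counts of the first stage -/
theorem Nst_first (u v : Fin n) : 𝒜.Nst 0 u v ≤ 2 * 𝒜.Z 0 := by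
  have h1 := 𝒜.Ns_first (hs u v)
  have h2 := 𝒜.one_le_Z 0
  have h3 := 𝒜.hL2
  unfold Nst
  linarith

/-- particles of the perfect states -/
noncomputable def PL : Finset (List ℤ) :=
  (𝒜.PH 0).map ⟨List.ofFn, List.ofFn_injective⟩

theorem sum_PL (f : List ℤ → ℝ) : ∑ l ∈ 𝒜.PL, f l = ∑ x ∈ 𝒜.PH 0, f (List.ofFn x) := by
  unfold PL
  rw [sum_map]
  rfl


/-- list to vector -/
def toV (n : ℕ) (l : List ℤ) : Fin n → ℤ := fun v => l.getD v 0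

theorem toV_ofFn (x : Fin n → ℤ) : toV n (List.ofFn x) = x := by
  funext v
  unfold toV
  rw [List.getD_eq_getElem?_getD, List.getElem?_eq_getElem (by rw [List.length_ofFn]; exact v.2)]
  simp

/-- law of the perfect states at stage `t`, on lists -/
noncomputable def stLaw (t : ℕ) : Law (List ℤ) where
  supp := 𝒜.PL
  wt := fun l => stW 𝒜.L 𝒜.x₀ 0 t (toV n l) / 𝒜.Z t
  nonneg := fun _ _ => div_nonneg (stW_nonneg _ _ _ _ _) (𝒜.Z_pos t).le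
  sum_eq := by
    rw [sum_PL]
    simp only [toV_ofFn]
    rw [← sum_div]
    exact div_self (𝒜.Z_pos t).ne'

theorem stLaw_E (t : ℕ) (φ : List ℤ → ℝ) :
    (𝒜.stLaw t).E φ = (∑ x ∈ 𝒜.PH 0, stW 𝒜.L 𝒜.x₀ 0 t x * φ (List.ofFn x)) / 𝒜.Z t := by
  unfold Law.E
  show ∑ l ∈ 𝒜.PL, stW 𝒜.L 𝒜.x₀ 0 t (toV n l) / 𝒜.Z t * φ l = _
  rw [sum_PL, sum_div]
  refine sum_congr rfl fun x _ => ?_
  rw [toV_ofFn]
  ring

/-- the density of `stLaw t` with respect to `stLaw (t + 1)` is at most `2` -/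
theorem stLaw_wt_le (t : ℕ) (l : List ℤ) : (𝒜.stLaw t).wt l ≤ 2 * (𝒜.stLaw (t + 1)).wt l := by
  set x := toV n l with hx
  show stW 𝒜.L 𝒜.x₀ 0 t x / 𝒜.Z t ≤ 2 * (stW 𝒜.L 𝒜.x₀ 0 (t + 1) x / 𝒜.Z (t + 1))
  have h1 := stW_mono 𝒜.L 𝒜.x₀ 0 t x
  have h2 := 𝒜.Z_ratio t
  have h3 := 𝒜.Z_pos t
  have h4 := 𝒜.Z_pos (t + 1)
  have h5 := stW_nonneg 𝒜.L 𝒜.x₀ 0 t x
  rw [← mul_div_assoc, div_le_div_iff₀ h3 h4]
  calc stW 𝒜.L 𝒜.x₀ 0 t x * 𝒜.Z (t + 1) ≤ stW 𝒜.L 𝒜.x₀ 0 t x * (2 * 𝒜.Z t) :=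
        mul_le_mul_of_nonneg_left h2 h5
    _ ≤ stW 𝒜.L 𝒜.x₀ 0 (t + 1) x * (2 * 𝒜.Z t) :=
        mul_le_mul_of_nonneg_right h1 (by linarith)
    _ = 2 * stW 𝒜.L 𝒜.x₀ 0 (t + 1) x * 𝒜.Z t := by ring


/-- the first law is almost the point mass at `x₀` -/
theorem stLaw_start {φ : List ℤ → ℝ} (hφ : ∀ x, 0 ≤ φ x ∧ φ x ≤ 1) :
    |(𝒜.stLaw 0).E φ - φ (List.ofFn 𝒜.x₀)| ≤ 8 * n * (1 / 2) ^ 𝒜.L := by
  classical
  set e : ℝ := 8 * n * (1 / 2) ^ 𝒜.L with he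
  have he0 : 0 ≤ e := by positivity
  have hZ1 := 𝒜.one_le_Z 0
  have hZ2 : 𝒜.Z 0 ≤ 1 + e := 𝒜.Ns_first 0
  rw [𝒜.stLaw_E]
  have hsplit : ∑ x ∈ 𝒜.PH 0, stW 𝒜.L 𝒜.x₀ 0 0 x * φ (List.ofFn x) = φ (List.ofFn 𝒜.x₀) +
      ∑ x ∈ (𝒜.PH 0).erase 𝒜.x₀, stW 𝒜.L 𝒜.x₀ 0 0 x * φ (List.ofFn x) := by
    rw [← add_sum_erase _ _ 𝒜.x₀_mem, stW_self, one_mul]
  have hsplit1 : 𝒜.Z 0 = 1 + ∑ x ∈ (𝒜.PH 0).erase 𝒜.x₀, stW 𝒜.L 𝒜.x₀ 0 0 x := by
    unfold Z Ns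
    rw [← add_sum_erase _ _ 𝒜.x₀_mem, stW_self]
  set S := ∑ x ∈ (𝒜.PH 0).erase 𝒜.x₀, stW 𝒜.L 𝒜.x₀ 0 0 x with hS
  set S' := ∑ x ∈ (𝒜.PH 0).erase 𝒜.x₀, stW 𝒜.L 𝒜.x₀ 0 0 x * φ (List.ofFn x) with hS'
  have hSe : S ≤ e := by linarith
  have hS'0 : 0 ≤ S' := sum_nonneg fun x _ => mul_nonneg (stW_nonneg _ _ _ _ _) (hφ _).1
  have hS'S : S' ≤ S := by
    refine sum_le_sum fun x _ => ?_
    have := mul_le_mul_of_nonneg_left (hφ (List.ofFn x)).2 (stW_nonneg 𝒜.L 𝒜.x₀ 0 0 x)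
    linarith
  have hp := hφ (List.ofFn 𝒜.x₀)
  have hZp : 0 < 𝒜.Z 0 := 𝒜.Z_pos 0
  rw [hsplit]
  have key : (φ (List.ofFn 𝒜.x₀) + S') / 𝒜.Z 0 - φ (List.ofFn 𝒜.x₀)
      = (S' - φ (List.ofFn 𝒜.x₀) * S) / 𝒜.Z 0 := by
    rw [div_sub' hZp.ne']
    congr 1
    rw [hsplit1]; ring
  rw [key, abs_div, abs_of_pos hZp, div_le_iff₀ hZp]
  have h1 : |S' - φ (List.ofFn 𝒜.x₀) * S| ≤ S := by
    rw [abs_le]
    have hS0 : 0 ≤ S := hS'0.trans hS'S
    have h2 : φ (List.ofFn 𝒜.x₀) * S ≤ S := by nlinarith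
    have h3 : 0 ≤ φ (List.ofFn 𝒜.x₀) * S := mul_nonneg hp.1 hS0
    constructor <;> linarith
  calc |S' - φ (List.ofFn 𝒜.x₀) * S| ≤ S := h1
    _ ≤ e := hSe
    _ ≤ e * 𝒜.Z 0 := le_mul_of_one_le_right he0 hZ1

/-- the last law is uniform on `J` -/
theorem stLaw_last {K t : ℕ} (ht : nStages n 𝒜.L K ≤ t)
    (hK : ∀ x ∈ 𝒜.PH 0, InCube 𝒜.x₀ K x) (φ : List ℤ → ℝ) :
    (𝒜.stLaw t).E φ = (∑ x ∈ 𝒜.PH 0, φ (List.ofFn x)) / (𝒜.PH 0).card := by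
  have h1 : ∀ x ∈ 𝒜.PH 0, stW 𝒜.L 𝒜.x₀ 0 t x = 1 := by
    intro x hx
    exact stage_last ht (hK x hx) (by simpa using hK x hx)
  rw [𝒜.stLaw_E]
  unfold Z Ns
  rw [sum_congr rfl fun x hx => by rw [h1 x hx, one_mul], sum_congr rfl h1]
  simp

/-! ### the rank functions of stage `t` -/

/-- rank function of side `r` at stage `t` -/
noncomputable def stR (r : Finset (Fin n) → ℤ) (t : ℕ) : Finset (Fin n) → ℤ :=
  boxR (fun v => 𝒜.x₀ v - stQ n 𝒜.L t) (fun v => 𝒜.x₀ v + stQ n 𝒜.L t) r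

theorem stR_sub {r : Finset (Fin n) → ℤ} (hr : SubM r 𝒜.R) (hx : MemJ r 𝒜.R 𝒜.x₀) (t : ℕ) :
    SubM (𝒜.stR r t) 𝒜.R :=
  subM_boxR hr hx (fun v => by constructor <;> simp)

theorem mem_stR {r : Finset (Fin n) → ℤ} (hr : SubM r 𝒜.R) (t : ℕ) (x : Fin n → ℤ) :
    MemJ (𝒜.stR r t) 𝒜.R x ↔ MemJ r 𝒜.R x ∧ InCube 𝒜.x₀ (stQ n 𝒜.L t) x :=
  memJ_boxR hr _ _ _

/-- one-link counts in terms of the stage polytopes and the stage weight -/
theorem Ns_eq (s : Fin n → ℤ) (t : ℕ) (P : Finset (Fin n → ℤ))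
    (hP : ∀ x, x ∈ P ↔ MemJ (𝒜.stR 𝒜.r₁ t) 𝒜.R x ∧ MemJ (𝒜.stR 𝒜.r₂ t) 𝒜.R (fun v => x v + s v)) :
    𝒜.Ns s t = ∑ x ∈ P, stOm n 𝒜.L t 𝒜.x₀ x := by
  classical
  have hPP : P = (𝒜.PH s).filter fun x => InCube 𝒜.x₀ (stQ n 𝒜.L t) x ∧
      InCube 𝒜.x₀ (stQ n 𝒜.L t) (fun v => x v + s v) := by
    ext x
    rw [hP, mem_filter, mem_PH, 𝒜.mem_stR 𝒜.sub₁, 𝒜.mem_stR 𝒜.sub₂]
    tauto
  rw [hPP, sum_filter]
  rfl

/-- the start point is a centre of all stages if it is a centre of `J` -/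
theorem stR_center {C : ℕ} (hC : 1 ≤ C) (hc : IsCenter 𝒜.r₁ 𝒜.r₂ (𝒜.PH 0) C 𝒜.x₀) (t : ℕ)
    (P : Finset (Fin n → ℤ))
    (hP : ∀ x, x ∈ P ↔ MemJ (𝒜.stR 𝒜.r₁ t) 𝒜.R x ∧ MemJ (𝒜.stR 𝒜.r₂ t) 𝒜.R x) :
    IsCenter (𝒜.stR 𝒜.r₁ t) (𝒜.stR 𝒜.r₂ t) P (2 * C) 𝒜.x₀ := by
  refine center_box 𝒜.sub₁ 𝒜.sub₂ 𝒜.mem_P hC 𝒜.x₀_mem hc (stQ n 𝒜.L t) fun x => ?_
  rw [hP, 𝒜.mem_stR 𝒜.sub₁, 𝒜.mem_stR 𝒜.sub₂]
  tauto

end AnnData

end Crest.Agent.R302.AnnBox
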