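import Crest.Agent.R302.Inst532B
import Crest.Agent.R309.Tape

/-!
R302 (helper838): the acceptance probability `Side.ff` as the law of a fresh-slack test.

* `zpt T p t` : the point `p + ∑_{fat a} t_a (e_a - e_{par a})`, `bs_zpt`, `zpt_load_iff`.
* `Side.slw` : weight of a slack vector, `Side.ff_eq` : `ff` as a sum over slack vectors.
* `ff_error`, `ff_error₂` : if the law of the drawn slack vector is `d`-close to `slw` (finite form)
  then the acceptance probability is `d`-close to `ff`.
-/

set_option autoImplicit false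
set_option linter.unusedSectionVars false

namespace Crest.Agent.R302.Inst

open Finset Crest.Agent.R302.Lor Crest.Agent.R309.Tape

variable {E : Type*} [Fintype E] [DecidableEq E]

theorem bs_sum_dq (T : MP3.Forest E) (w : E → ℤ) (b : E) : bs T (∑ a, w a • dq T a) b = w b := by
  have hs : ∀ s : Finset E, bs T (∑ a ∈ s, w a • dq T a) b = ∑ a ∈ s, w a * (if b = a then 1 else 0) := by
    intro s
    induction s using Finset.induction_on with
    | empty => simp [bs_zero]
    | insert r s hr ih => rw [Finset.sum_insert hr, Finset.sum_insert hr, bs_add, bs_smul, bs_dq, ih]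
  rw [hs]
  simp

/-- subtree sums determine the vector -/
theorem eq_of_bs (T : MP3.Forest E) {x y : E → ℤ} (h : ∀ a, bs T x a = bs T y a) : x = y := by
  rw [eq_sum_dq T x, eq_sum_dq T y]
  exact Finset.sum_congr rfl fun a _ => by rw [h]

/-- `p + ∑_{fat a} t_a (e_a - e_{par a})` -/
def zpt (T : MP3.Forest E) (p t : E → ℤ) : E → ℤ :=
  p + ∑ a, (if T.par a = none then 0 else t a) • dq T a

theorem bs_zpt (T : MP3.Forest E) (p t : E → ℤ) (a : E) :
    bs T (zpt T p t) a = bs T p a + if T.par a = none then 0 else t a := by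
  unfold zpt
  rw [bs_add, bs_sum_dq T (fun a => if T.par a = none then 0 else t a)]

theorem zpt_eq_iff (T : MP3.Forest E) (p t z : E → ℤ) : zpt T p t = z ↔
    ∀ a, bs T z a = bs T p a + if T.par a = none then 0 else t a := by
  constructor
  · rintro rfl a; exact bs_zpt T p t a
  · intro h
    exact eq_of_bs T fun a => by rw [bs_zpt, h a]

theorem zpt_apply (T : MP3.Forest E) (p t : E → ℤ) (v : E) :
    zpt T p t v = p v + (if T.par v = none then 0 else t v) -
      ∑ a, if T.par a = some v then t a else 0 := by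
  unfold zpt
  rw [Pi.add_apply, Finset.sum_apply, add_sub_assoc]
  congr 1
  have : ∀ a, ((if T.par a = none then 0 else t a) • dq T a) v =
      (if a = v then (if T.par v = none then 0 else t v) else 0) -
        (if T.par a = some v then t a else 0) := by
    intro a
    rcases h : T.par a with _ | b
    · by_cases hv : a = v
      · subst hv; simp [h]
      · simp [hv]
    · have hb : a ≠ b := by
        rintro rfl
        have := T.dep_lt a a h
        omega
      by_cases hv : a = v
      · subst hv
        simp [dq, h, ev, Pi.single_apply, hb, hb.symm]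
      · by_cases hv2 : b = v
        · subst hv2
          simp [dq, h, ev, Pi.single_apply, hb, hb.symm]
        · have h1 : ¬ v = a := fun e => hv e.symm
          have h2 : ¬ v = b := fun e => hv2 e.symm
          simp [dq, h, ev, Pi.single_apply, h1, h2, hv, hv2]
  simp only [this, Finset.sum_sub_distrib, Finset.sum_ite_eq', mem_univ, if_true]

namespace Side

variable (S : Side E)

/-- the contents of the thin elements are `β` -/
def Cons (β : S.Blk → ℤ) (z : E → ℤ) : Prop := ∀ r : S.Blk, bs S.T z r = β r

/-- the slack vector leading to `z` -/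
noncomputable def tv (x z : E → ℤ) : E → ℤ :=
  fun a => if S.T.par a = none then 0 else bs S.T z a - bs S.T x a

/-- weight of a slack vector -/
noncomputable def slw (v : E → ℤ) : ℝ :=
  ∏ a, if S.T.par a = none then (if v a = 0 then 1 else 0) else S.κ a (v a)

theorem zpt_load_iff (x : E → ℤ) (β : S.Blk → ℤ) (t z : E → ℤ)
    (ht : ∀ a, S.T.par a = none → t a = 0) :
    zpt S.T (S.load x β) t = z ↔ S.Cons β z ∧ t = S.tv x z := by
  rw [zpt_eq_iff]
  constructor
  · intro h
    refine ⟨fun r => ?_, ?_⟩
    · have := h r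
      rw [bs_load, dif_pos r.2, if_pos r.2, add_zero] at this
      exact this
    · funext a
      unfold tv
      by_cases ha : S.T.par a = none
      · rw [if_pos ha, ht a ha]
      · have := h a
        rw [bs_load, dif_neg ha, if_neg ha] at this
        rw [if_neg ha]
        linarith
  · rintro ⟨h1, h2⟩ a
    rw [bs_load]
    by_cases ha : S.T.par a = none
    · rw [dif_pos ha, if_pos ha, add_zero]
      exact h1 ⟨a, ha⟩
    · rw [dif_neg ha, if_neg ha, h2]
      unfold tv
      rw [if_neg ha]
      ring

theorem tv_inj {β : S.Blk → ℤ} {x z z' : E → ℤ} (h : S.Cons β z) (h' : S.Cons β z')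
    (e : S.tv x z = S.tv x z') : z = z' := by
  refine eq_of_bs S.T fun a => ?_
  by_cases ha : S.T.par a = none
  · rw [h ⟨a, ha⟩, h' ⟨a, ha⟩]
  · have := congrFun e a
    unfold tv at this
    rw [if_neg ha, if_neg ha] at this
    linarith

open Classical in
/-- `ff` as a sum over slack vectors -/
theorem ff_eq (x : E → ℤ) (β : S.Blk → ℤ) :
    S.ff x β = ∑ z ∈ S.J, if S.Cons β z then S.g z * S.slw (S.tv x z) else 0 := by
  unfold ff
  refine Finset.sum_congr rfl fun z _ => ?_
  by_cases hc : S.Cons β z
  · rw [if_pos hc]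
    congr 1
    unfold slw fk tv
    refine Finset.prod_congr rfl fun a _ => ?_
    by_cases ha : S.T.par a = none
    · rw [dif_pos ha, if_pos ha, if_pos ha, if_pos rfl, if_pos (hc ⟨a, ha⟩)]
    · rw [dif_neg ha, if_neg ha, if_neg ha]
  · rw [if_neg hc]
    unfold Cons at hc
    push Not at hc
    obtain ⟨r, hr⟩ := hc
    have : ∏ a, S.fk x β z a = 0 := by
      refine Finset.prod_eq_zero (mem_univ (r : E)) ?_
      unfold fk
      rw [dif_pos r.2, if_neg hr]
    rw [this, mul_zero]

theorem slw_nonneg (hκ : ∀ a t, 0 ≤ S.κ a t) (v : E → ℤ) : 0 ≤ S.slw v := by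
  unfold slw
  refine Finset.prod_nonneg fun a _ => ?_
  split_ifs
  · exact zero_le_one
  · exact le_rfl
  · exact hκ _ _

open Classical in
/-- sums over consistent points are sums over slack vectors -/
theorem sum_cons_le (x : E → ℤ) (β : S.Blk → ℤ) (G : (E → ℤ) → ℝ) (d : ℝ)
    (hd : ∀ V : Finset (E → ℤ), ∑ v ∈ V, |G v| ≤ d) (J : Finset (E → ℤ)) :
    ∑ z ∈ J, (if S.Cons β z then |G (S.tv x z)| else 0) ≤ d := by
  rw [← Finset.sum_filter]
  have hinj : Set.InjOn (S.tv x) (J.filter (S.Cons β) : Set (E → ℤ)) := by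
    intro z hz z' hz' e
    rw [Finset.mem_coe, Finset.mem_filter] at hz hz'
    exact S.tv_inj hz.2 hz'.2 e
  rw [← Finset.sum_image (f := fun v => |G v|) hinj]
  exact hd _


/-- the slack weight is a subprobability if the kernels are -/
theorem sum_slw_le (hκ : ∀ a t, 0 ≤ S.κ a t)
    (h1 : ∀ a, ∀ T : Finset ℤ, ∑ t ∈ T, S.κ a t ≤ 1) (V : Finset (E → ℤ)) :
    ∑ v ∈ V, S.slw v ≤ 1 := by
  classical
  have hsub : V ⊆ Fintype.piFinset fun a => V.image fun v => v a := by
    intro v hv
    rw [Fintype.mem_piFinset]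
    exact fun a => Finset.mem_image.2 ⟨v, hv, rfl⟩
  refine (Finset.sum_le_sum_of_subset_of_nonneg hsub fun v _ _ => S.slw_nonneg hκ v).trans ?_
  unfold slw
  rw [← Finset.prod_univ_sum (t := fun a => V.image fun v => v a)
    (f := fun a t => if S.T.par a = none then (if t = 0 then (1 : ℝ) else 0) else S.κ a t)]
  refine Finset.prod_le_one (fun a _ => Finset.sum_nonneg fun t _ => ?_) fun a _ => ?_
  · split_ifs
    · exact zero_le_one
    · exact le_rfl
    · exact hκ _ _
  · by_cases ha : S.T.par a = none
    · simp only [if_pos ha, Finset.sum_ite_eq']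
      split_ifs
      · exact le_rfl
      · exact zero_le_one
    · simp only [if_neg ha]
      exact h1 a _

end Side

/-- mean of a finitely supported function of the draw -/
theorem avg_finset {Ω : Type*} [DecidableEq Ω] (m : ℕ) (Z : List Bool → Ω) (J : Finset Ω)
    (g : Ω → ℝ) : avg m (fun l => if Z l ∈ J then g (Z l) else 0) =
      ∑ z ∈ J, g z * pr m (fun l => Z l = z) := by
  unfold pr
  rw [Finset.sum_congr rfl fun z _ => (avg_mul_left m (g z) (fun l => ind (Z l = z))).symm,
    ← avg_sum]
  refine avg_congr fun l _ => ?_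
  by_cases h : Z l ∈ J
  · rw [if_pos h, Finset.sum_eq_single_of_mem (Z l) h fun z _ hz => by
      rw [ind_of_not (fun e => hz e.symm), mul_zero], ind_of rfl, mul_one]
  · rw [if_neg h]
    refine (Finset.sum_eq_zero fun z hz => ?_).symm
    rw [ind_of_not (fun e : Z l = z => h (e ▸ hz)), mul_zero]

/-- **The fresh-slack test has acceptance probability `ff`** up to the error of the slack law. -/
theorem ff_error (S : Side E) (x : E → ℤ) (β : S.Blk → ℤ) (m : ℕ) (Tt : List Bool → E → ℤ) {d : ℝ}
    (hg0 : ∀ z, 0 ≤ S.g z) (hg1 : ∀ z, S.g z ≤ 1)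
    (hT : ∀ l : List Bool, ∀ a, S.T.par a = none → Tt l a = 0)
    (hlaw : ∀ V : Finset (E → ℤ), ∑ v ∈ V, |pr m (fun l => Tt l = v) - S.slw v| ≤ d) :
    |avg m (fun l => if zpt S.T (S.load x β) (Tt l) ∈ S.J then
      S.g (zpt S.T (S.load x β) (Tt l)) else 0) - S.ff x β| ≤ d := by
  classical
  rw [avg_finset m (fun l => zpt S.T (S.load x β) (Tt l)) S.J S.g, S.ff_eq,
    ← Finset.sum_sub_distrib]
  refine (Finset.abs_sum_le_sum_abs _ _).trans (le_trans (Finset.sum_le_sum fun z _ => ?_)
    (S.sum_cons_le x β (fun v => pr m (fun l => Tt l = v) - S.slw v) d hlaw S.J))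
  have e : pr m (fun l => zpt S.T (S.load x β) (Tt l) = z) =
      if S.Cons β z then pr m (fun l => Tt l = S.tv x z) else 0 := by
    split_ifs with h
    · exact pr_congr fun l _ => by
        rw [S.zpt_load_iff x β (Tt l) z (hT l)]
        exact ⟨fun h' => h'.2, fun h' => ⟨h, h'⟩⟩
    · exact pr_eq_zero fun l _ h' => h ((S.zpt_load_iff x β (Tt l) z (hT l)).1 h').1
  rw [e]
  split_ifs with h
  · rw [← mul_sub, abs_mul, abs_of_nonneg (hg0 z)]
    calc S.g z * |pr m (fun l => Tt l = S.tv x z) - S.slw (S.tv x z)|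
        ≤ 1 * |pr m (fun l => Tt l = S.tv x z) - S.slw (S.tv x z)| :=
          mul_le_mul_of_nonneg_right (hg1 z) (abs_nonneg _)
      _ = _ := one_mul _
  · simp


end Crest.Agent.R302.Inst
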