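import Crest.Agent.R302.Base151

/-!
R302 (helper151): the class `Lz d` of Lorentzian weights (all brackets AF) and its closure
properties; full-support perturbation; cells; products.
-/

set_option autoImplicit false

namespace Crest.Agent.R302.Lor

open Finset

variable {V : Type*} [Fintype V] [DecidableEq V]

/-- Lorentzian weights of degree `d`. -/
structure Lz (d : ℤ) (c : (V → ℤ) → ℝ) : Prop where
  nonneg : ∀ β, 0 ≤ c β
  deg : ∀ β, c β ≠ 0 → ∑ v, β v = d
  af : ∀ (L : List (V → ℝ)), (∀ a ∈ L, ∀ v, 0 ≤ a v) → ∀ β, AF (mat c L β)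

theorem br_zero (L : List (V → ℝ)) (β : V → ℤ) : br (fun _ => (0 : ℝ)) L β = 0 := by
  induction L generalizing β with
  | nil => rfl
  | cons a L ih => rw [br_cons]; simp [ih]

theorem Lz.zero (d : ℤ) : Lz d (fun _ : V → ℤ => (0 : ℝ)) where
  nonneg _ := le_rfl
  deg _ h := absurd rfl h
  af L _ β := by
    have : mat (fun _ : V → ℤ => (0 : ℝ)) L β = fun _ _ => 0 := by
      funext u v; exact br_zero L _
    rw [this]; exact AF.zero

theorem tendsto_br {ι : Type*} {F : Filter ι} {c : (V → ℤ) → ℝ} {c' : ι → (V → ℤ) → ℝ}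
    (h : ∀ β, Filter.Tendsto (fun i => c' i β) F (nhds (c β))) (L : List (V → ℝ)) :
    ∀ β, Filter.Tendsto (fun i => br (c' i) L β) F (nhds (br c L β)) := by
  induction L with
  | nil => exact h
  | cons a L ih =>
    intro β
    simp only [br_cons]
    exact tendsto_finsetSum _ fun v _ => tendsto_const_nhds.mul (ih _)

theorem Lz.lim {ι : Type*} {F : Filter ι} [F.NeBot] {d : ℤ} {c : (V → ℤ) → ℝ}
    {c' : ι → (V → ℤ) → ℝ} (h : ∀ β, Filter.Tendsto (fun i => c' i β) F (nhds (c β)))
    (hL : ∀ i, Lz d (c' i)) : Lz d c where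
  nonneg β := ge_of_tendsto' (h β) fun i => (hL i).nonneg β
  deg β hβ := by
    by_contra hne
    have h1 : (fun i => c' i β) = fun _ => 0 := by
      funext i
      by_contra h1; exact hne ((hL i).deg β h1)
    have h2 := h β
    rw [h1] at h2
    exact hβ (tendsto_nhds_unique h2 tendsto_const_nhds)
  af L hLn β := AF.lim (fun u v => tendsto_br h L _) (Filter.Eventually.of_forall fun i =>
    (hL i).af L hLn β)

theorem mcx_hyper (d : ℤ) : MCx {γ : V → ℤ | ∑ v, γ v = d} where
  deg x hx y hy := by rw [hx, hy]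
  exch x hx y hy u hu := by
    have hx' : ∑ v, x v = d := hx
    have hy' : ∑ v, y v = d := hy
    have : ∃ v, x v < y v := by
      by_contra hcon
      push Not at hcon
      have := Finset.sum_lt_sum (fun i (_ : i ∈ univ) => hcon i) ⟨u, mem_univ _, hu⟩
      omega
    obtain ⟨v, hv⟩ := this
    refine ⟨v, hv, ?_, ?_⟩
    · simp only [Set.mem_ofPred_eq, Pi.add_apply, Pi.sub_apply, Finset.sum_add_distrib,
        Finset.sum_sub_distrib, sum_ev]; omega
    · simp only [Set.mem_ofPred_eq, Pi.add_apply, Pi.sub_apply, Finset.sum_add_distrib,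
        Finset.sum_sub_distrib, sum_ev]; omega

/-- M-convex support + base AF. -/
theorem Lz.of_base {d : ℤ} {c : (V → ℤ) → ℝ} (hc : ∀ β, 0 ≤ c β)
    (hdeg : ∀ β, c β ≠ 0 → ∑ v, β v = d) (hS : MCx {γ | 0 < c γ})
    (hbase : ∀ β, AF (fun u v => c (β + ev u + ev v))) : Lz d c :=
  ⟨hc, hdeg, fun _ hL β => af_br hc hS hbase hL β⟩

/-- full support on the hyperplane + base AF. -/
theorem Lz.of_full {d : ℤ} {c : (V → ℤ) → ℝ} (hpos : ∀ β, ∑ v, β v = d → 0 < c β)
    (hdeg : ∀ β, ∑ v, β v ≠ d → c β = 0)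
    (hbase : ∀ β, ∑ v, β v + 2 = d → AF (fun u v => c (β + ev u + ev v))) : Lz d c := by
  have hc : ∀ β, 0 ≤ c β := fun β => by
    by_cases h : ∑ v, β v = d
    · exact (hpos β h).le
    · rw [hdeg β h]
  refine Lz.of_base hc (fun β h => by by_contra h1; exact h (hdeg β h1)) ?_ ?_
  · have : {γ | 0 < c γ} = {γ : V → ℤ | ∑ v, γ v = d} := by
      ext γ
      simp only [Set.mem_ofPred_eq]
      constructor
      · intro h; by_contra h1; rw [hdeg γ h1] at h; exact lt_irrefl _ h
      · exact hpos γ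
    rw [this]; exact mcx_hyper d
  · intro β
    by_cases h : ∑ v, β v + 2 = d
    · exact hbase β h
    · have : (fun u v => c (β + ev u + ev v)) = fun _ _ => 0 := by
        funext u v
        apply hdeg
        simp only [Pi.add_apply, Finset.sum_add_distrib, sum_ev]
        omega
      rw [this]; exact AF.zero

/-- indicator of an M-convex set -/
theorem Lz.indicator {d : ℤ} {S : Set (V → ℤ)} (hS : MCx S) (hd : ∀ x ∈ S, ∑ v, x v = d)
    {c : (V → ℤ) → ℝ} (hc1 : ∀ γ ∈ S, c γ = 1) (hc0 : ∀ γ, γ ∉ S → c γ = 0) : Lz d c := by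
  refine Lz.of_base ?_ ?_ ?_ (af_indicator hS hc1 hc0)
  · intro β
    by_cases h : β ∈ S
    · rw [hc1 β h]; norm_num
    · rw [hc0 β h]
  · intro β h
    by_contra h1
    exact h (hc0 β fun h2 => h1 (hd β h2))
  · have : {γ | 0 < c γ} = S := by
      ext γ
      simp only [Set.mem_ofPred_eq]
      constructor
      · intro h; by_contra h1; rw [hc0 γ h1] at h; exact lt_irrefl _ h
      · intro h; rw [hc1 γ h]; norm_num
    rw [this]; exact hS

/-! ### brackets, shifts, fields -/

theorem br_append (c : (V → ℤ) → ℝ) (L₁ L₂ : List (V → ℝ)) (κ : V → ℤ) :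
    ∀ β, br (fun γ => br c L₁ (γ + κ)) L₂ β = br c (L₂ ++ L₁) (β + κ) := by
  induction L₂ with
  | nil => intro β; rfl
  | cons a L ih =>
    intro β
    rw [br_cons, List.cons_append, br_cons]
    refine Finset.sum_congr rfl fun v _ => ?_
    rw [ih, add_right_comm]

/-- brackets (with shift) of Lorentzian weights are Lorentzian -/
theorem Lz.bracket {d : ℤ} {c : (V → ℤ) → ℝ} (h : Lz d c) {L : List (V → ℝ)}
    (hL : ∀ a ∈ L, ∀ v, 0 ≤ a v) (κ : V → ℤ) :
    Lz (d - ∑ v, κ v - L.length) (fun γ => br c L (γ + κ)) where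
  nonneg β := br_nonneg h.nonneg hL _
  deg β hβ := by
    have key : ∀ (L : List (V → ℝ)) (β : V → ℤ), br c L β ≠ 0 → ∑ v, β v + L.length = d := by
      intro L
      induction L with
      | nil => intro β h1; simpa using h.deg β h1
      | cons a L ih =>
        intro β h1
        rw [br_cons] at h1
        obtain ⟨v, _, hv⟩ := Finset.exists_ne_zero_of_sum_ne_zero h1
        have := ih _ (right_ne_zero_of_mul hv)
        simp only [Pi.add_apply, Finset.sum_add_distrib, sum_ev] at this
        simp only [List.length_cons]; push_cast; omega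
    have := key L _ hβ
    simp only [Pi.add_apply, Finset.sum_add_distrib] at this
    omega
  af L' hL' β := by
    have : mat (fun γ => br c L (γ + κ)) L' β = mat c (L' ++ L) (β + κ) := by
      funext u v
      unfold mat
      rw [br_append]
      congr 1
      abel
    rw [this]
    refine h.af _ ?_ _
    intro a ha
    rcases List.mem_append.1 ha with h1 | h1
    · exact hL' a h1
    · exact hL a h1

theorem Lz.shift {d : ℤ} {c : (V → ℤ) → ℝ} (h : Lz d c) (κ : V → ℤ) :
    Lz (d - ∑ v, κ v) (fun γ => c (γ + κ)) := by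
  have := h.bracket (L := []) (by simp) κ
  simpa using this

theorem br_smul (c : (V → ℤ) → ℝ) (k : ℝ) (L : List (V → ℝ)) :
    ∀ β, br (fun γ => k * c γ) L β = k * br c L β := by
  induction L with
  | nil => intro β; rfl
  | cons a L ih =>
    intro β
    rw [br_cons, br_cons, Finset.mul_sum]
    exact Finset.sum_congr rfl fun v _ => by rw [ih]; ring

theorem Lz.smul {d : ℤ} {c : (V → ℤ) → ℝ} (h : Lz d c) {k : ℝ} (hk : 0 ≤ k) :
    Lz d (fun γ => k * c γ) where
  nonneg β := mul_nonneg hk (h.nonneg β)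
  deg β hβ := h.deg β (right_ne_zero_of_mul hβ)
  af L hL β := by
    have : mat (fun γ => k * c γ) L β = fun u v => k * mat c L β u v := by
      funext u v; exact br_smul c k L _
    rw [this]; exact (h.af L hL β).smul hk

/-- monomial `∏ a_v ^ β_v` -/
noncomputable def mon (a : V → ℝ) (β : V → ℤ) : ℝ := ∏ v, a v ^ β v

omit [DecidableEq V] in
theorem mon_pos {a : V → ℝ} (ha : ∀ v, 0 < a v) (β : V → ℤ) : 0 < mon a β :=
  Finset.prod_pos fun v _ => zpow_pos (ha v) _




/-! ### full-support perturbation -/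

/-- the vectors `e_v + δ 1`, `v ∈ l` -/
noncomputable def pv (δ : ℝ) (l : List V) : List (V → ℝ) :=
  l.map fun v w => (if w = v then 1 else 0) + δ

omit [Fintype V] in
theorem pv_pos {δ : ℝ} (hδ : 0 < δ) (l : List V) : ∀ a ∈ pv δ l, ∀ v, 0 < a v := by
  intro a ha v
  obtain ⟨u, _, rfl⟩ := List.mem_map.1 ha
  simp only
  split_ifs <;> linarith

theorem br_pv_cons (c : (V → ℤ) → ℝ) (δ : ℝ) (v : V) (l : List V) (β : V → ℤ) :
    br c (pv δ (v :: l)) β = br c (pv δ l) (β + ev v) + δ * ∑ w, br c (pv δ l) (β + ev w) := by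
  unfold pv
  rw [List.map_cons, br_cons]
  simp only [add_mul, Finset.sum_add_distrib, ← Finset.mul_sum]
  congr 1
  simp

theorem br_pv_bound {c : (V → ℤ) → ℝ} (hc : ∀ β, 0 ≤ c β) {C : ℝ} (hC : ∀ β, c β ≤ C)
    {δ : ℝ} (hδ : 0 < δ) (l : List V) : ∀ β,
    c (β + (l.map ev).sum) ≤ br c (pv δ l) β ∧
    br c (pv δ l) β ≤ c (β + (l.map ev).sum)
      + C * ((1 + Fintype.card V * δ) ^ l.length - 1) := by
  have hC0 : 0 ≤ C := (hc 0).trans (hC 0)
  have hn : (0 : ℝ) ≤ Fintype.card V * δ := by positivity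
  induction l with
  | nil => intro β; simp [pv]
  | cons v l ih =>
    intro β
    rw [br_pv_cons]
    have e : β + ((v :: l).map ev).sum = β + ev v + (l.map ev).sum := by
      simp [add_assoc]
    rw [e]
    have h1 := ih (β + ev v)
    have hnn : 0 ≤ δ * ∑ w, br c (pv δ l) (β + ev w) := mul_nonneg hδ.le
      (Finset.sum_nonneg fun w _ => br_nonneg hc (fun a ha u => (pv_pos hδ l a ha u).le) _)
    have hpow : 1 ≤ (1 + Fintype.card V * δ) ^ l.length := one_le_pow₀ (by linarith)
    have hub : ∀ γ, br c (pv δ l) γ ≤ C * (1 + Fintype.card V * δ) ^ l.length := fun γ => by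
      have := (ih γ).2
      have := hC (γ + (l.map ev).sum)
      linarith
    have hsum : ∑ w, br c (pv δ l) (β + ev w)
        ≤ Fintype.card V * (C * (1 + Fintype.card V * δ) ^ l.length) := by
      have := Finset.sum_le_sum fun w (_ : w ∈ (univ : Finset V)) => hub (β + ev w)
      rw [Finset.sum_const, Finset.card_univ, nsmul_eq_mul] at this
      exact this
    refine ⟨by linarith [h1.1], ?_⟩
    have h2 := mul_le_mul_of_nonneg_left hsum hδ.le
    rw [List.length_cons, pow_succ]
    have h3 := h1.2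
    nlinarith [h2, h3]

/-- one perturbation step -/
noncomputable def stp (δ : ℝ) (c : (V → ℤ) → ℝ) : (V → ℤ) → ℝ :=
  fun β => br c (pv δ (univ : Finset V).toList) (β + fun _ => -1)

theorem sum_toList_ev : (((univ : Finset V).toList).map ev).sum = (fun _ => (1 : ℤ) : V → ℤ) := by
  rw [Finset.sum_map_toList]
  funext v
  rw [Finset.sum_apply, Finset.sum_eq_single v]
  · exact ev_self v
  · intro u _ hu; exact ev_ne hu
  · intro h; exact absurd (mem_univ _) h

theorem stp_bound {c : (V → ℤ) → ℝ} (hc : ∀ β, 0 ≤ c β) {C : ℝ} (hC : ∀ β, c β ≤ C)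
    {δ : ℝ} (hδ : 0 < δ) (β : V → ℤ) : c β ≤ stp δ c β ∧
    stp δ c β ≤ c β + C * (Real.exp (Fintype.card V ^ 2 * δ) - 1) := by
  have h := br_pv_bound hc hC hδ (univ : Finset V).toList (β + fun _ => -1)
  rw [sum_toList_ev] at h
  have e : (β + fun _ => (-1 : ℤ)) + (fun _ => 1) = β := by
    funext v; simp
  rw [e] at h
  refine ⟨h.1, h.2.trans ?_⟩
  have hC0 : 0 ≤ C := (hc 0).trans (hC 0)
  have h1 : (1 + Fintype.card V * δ) ^ (univ : Finset V).toList.length
      ≤ Real.exp (Fintype.card V ^ 2 * δ) := by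
    rw [Finset.length_toList, Finset.card_univ]
    have h2 : 1 + Fintype.card V * δ ≤ Real.exp (Fintype.card V * δ) := by
      have := Real.add_one_le_exp (Fintype.card V * δ); linarith
    calc (1 + Fintype.card V * δ) ^ Fintype.card V
        ≤ Real.exp (Fintype.card V * δ) ^ Fintype.card V := by
          refine pow_le_pow_left₀ (by positivity) h2 _
      _ = _ := by rw [← Real.exp_nat_mul]; congr 1; ring
  nlinarith [mul_le_mul_of_nonneg_left h1 hC0]

theorem Lz.stp {d : ℤ} {c : (V → ℤ) → ℝ} (h : Lz d c) {δ : ℝ} (hδ : 0 < δ) :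
    Lz d (Lor.stp δ c) := by
  have := h.bracket (L := pv δ (univ : Finset V).toList)
    (fun a ha v => (pv_pos hδ _ a ha v).le) (fun _ => -1)
  have e : d - ∑ _v : V, (-1 : ℤ) - ((pv δ (univ : Finset V).toList).length : ℤ) = d := by
    unfold pv
    rw [List.length_map, Finset.length_toList]
    simp
  rw [e] at this
  exact this

theorem stp_pos {d : ℤ} {c : (V → ℤ) → ℝ} (h : Lz d c) {δ : ℝ} (hδ : 0 < δ) {β ξ : V → ℤ}
    (hξ : 0 < c ξ) (hβ : ∑ v, β v = d) (hle : ∀ v, β v ≤ ξ v + 1) : 0 < stp δ c β := by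
  unfold stp
  rw [br_pos_iff h.nonneg (pv_pos hδ _)]
  refine ⟨ξ, hξ, fun v => ?_, ?_⟩
  · simp only [Pi.add_apply]; linarith [hle v]
  · rw [h.deg ξ hξ.ne']
    unfold pv
    rw [List.length_map, Finset.length_toList]
    simp only [Pi.add_apply, Finset.sum_add_distrib, hβ]
    simp

/-- iterated perturbation -/
noncomputable def pit (δ : ℝ) (c : (V → ℤ) → ℝ) : ℕ → (V → ℤ) → ℝ
  | 0 => c
  | K + 1 => stp (δ / 2 ^ (K + 1)) (pit δ c K)

theorem Lz.pit {d : ℤ} {c : (V → ℤ) → ℝ} (h : Lz d c) {δ : ℝ} (hδ : 0 < δ) (K : ℕ) :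
    Lz d (Lor.pit δ c K) := by
  induction K with
  | zero => exact h
  | succ K ih => exact ih.stp (by positivity)

theorem pit_bound {c : (V → ℤ) → ℝ} (hc : ∀ β, 0 ≤ c β) {C : ℝ} (hC : ∀ β, c β ≤ C)
    {δ : ℝ} (hδ : 0 < δ) (K : ℕ) : (∀ β, c β ≤ pit δ c K β) ∧ ∀ β, pit δ c K β ≤ c β
      + C * (Real.exp (Fintype.card V ^ 2 * (δ * (1 - 1 / 2 ^ K))) - 1) := by
  have hC0 : 0 ≤ C := (hc 0).trans (hC 0)
  induction K with
  | zero => simp [pit]
  | succ K ih =>
    set E := Real.exp (Fintype.card V ^ 2 * (δ * (1 - 1 / 2 ^ K))) with hE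
    have hδ' : 0 < δ / 2 ^ (K + 1) := by positivity
    have hub : ∀ β, pit δ c K β ≤ C * E := fun β => by
      have := ih.2 β
      have := hC β
      nlinarith
    have h1 := fun β => stp_bound (c := pit δ c K) (fun β => (hc β).trans (ih.1 β)) hub hδ' β
    refine ⟨fun β => (ih.1 β).trans (h1 β).1, fun β => ?_⟩
    have h2 : Real.exp (Fintype.card V ^ 2 * (δ * (1 - 1 / 2 ^ (K + 1))))
        = E * Real.exp (Fintype.card V ^ 2 * (δ / 2 ^ (K + 1))) := by
      rw [hE, ← Real.exp_add]
      congr 1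
      rw [pow_succ]
      field_simp
      ring
    rw [h2]
    have h3 := (h1 β).2
    have h4 := ih.2 β
    show stp (δ / 2 ^ (K + 1)) (pit δ c K) β ≤ _
    nlinarith [h3, h4]

/-- positivity spreads -/
theorem pit_pos {d : ℤ} {c : (V → ℤ) → ℝ} (h : Lz d c) {δ : ℝ} (hδ : 0 < δ) {ξ : V → ℤ}
    (hξ : 0 < c ξ) (K : ℕ) : ∀ β : V → ℤ, ∑ v, β v = d → ∑ v, max (β v - ξ v) 0 ≤ K →
      0 < pit δ c K β := by
  have hξd := h.deg ξ hξ.ne'
  induction K with
  | zero =>
    intro β hβ hK
    have h1 : ∀ v, β v ≤ ξ v := by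
      intro v
      have h2 : ∑ v, max (β v - ξ v) 0 = 0 := le_antisymm (by simpa using hK)
        (Finset.sum_nonneg fun v _ => le_max_right _ _)
      have h3 := (Finset.sum_eq_zero_iff_of_nonneg (fun v _ => le_max_right _ _)).1 h2 v
        (mem_univ v)
      have := le_max_left (β v - ξ v) 0
      omega
    have h2 : β = ξ := by
      funext v
      by_contra hne
      have := Finset.sum_lt_sum (fun i (_ : i ∈ univ) => h1 i)
        ⟨v, mem_univ _, lt_of_le_of_ne (h1 v) hne⟩
      omega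
    rw [h2]; exact hξ
  | succ K ih =>
    intro β hβ hK
    by_cases hlt : ∑ v, max (β v - ξ v) 0 ≤ K
    · have hC := h.pit hδ K
      -- `pit` is increasing: use `stp_pos` with the same point
      exact stp_pos hC (by positivity) (ih β hβ hlt) hβ (fun v => by linarith)
    · -- move one unit
      have hex : ∃ u, ξ u < β u := by
        by_contra hcon
        push Not at hcon
        apply hlt
        have : ∑ v, max (β v - ξ v) 0 = 0 := Finset.sum_eq_zero fun v _ => by
          rw [max_eq_right]; linarith [hcon v]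
        rw [this]; positivity
      obtain ⟨u, hu⟩ := hex
      obtain ⟨w, hw, _, _⟩ := (mcx_hyper d).exch β hβ ξ hξd u hu
      have huw : u ≠ w := by rintro rfl; omega
      set β' := β - ev u + ev w with hβ'
      have hsum : ∑ v, β' v = d := by
        simp only [hβ', Pi.add_apply, Pi.sub_apply, Finset.sum_add_distrib,
          Finset.sum_sub_distrib, sum_ev]; omega
      have hle : ∑ v, max (β' v - ξ v) 0 ≤ K := by
        have h1 : ∑ v, max (β' v - ξ v) 0 + 1 ≤ ∑ v, max (β v - ξ v) 0 := by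
          have : ∑ v, (max (β' v - ξ v) 0 + ev u v) ≤ ∑ v, max (β v - ξ v) 0 := by
            refine Finset.sum_le_sum fun v _ => ?_
            simp only [hβ', Pi.add_apply, Pi.sub_apply]
            by_cases h1 : u = v
            · subst h1
              rw [ev_self, ev_ne huw.symm]
              rw [max_eq_left (by omega), max_eq_left (by omega)]; omega
            · by_cases h2 : w = v
              · subst h2
                rw [ev_self, ev_ne h1, max_eq_right (by omega), max_eq_right (by omega)]; omega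
              · rw [ev_ne h1, ev_ne h2]; simp
          rw [Finset.sum_add_distrib, sum_ev] at this
          exact this
        push_cast at hK
        omega
      refine stp_pos (h.pit hδ K) (by positivity) (ih β' hsum hle) hβ (fun v => ?_)
      simp only [hβ', Pi.add_apply, Pi.sub_apply]
      linarith [ev_le_one u v, ev_nonneg w v]

theorem pit_mono {c : (V → ℤ) → ℝ} (hc : ∀ β, 0 ≤ c β) {C : ℝ} (hC : ∀ β, c β ≤ C)
    {δ : ℝ} (hδ : 0 < δ) (β : V → ℤ) : Monotone fun K => pit δ c K β := by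
  refine monotone_nat_of_le_succ fun K => ?_
  have hb := pit_bound hc hC hδ K
  exact (stp_bound (c := pit δ c K) (fun β => (hc β).trans (hb.1 β))
    (C := C + C * (Real.exp (Fintype.card V ^ 2 * (δ * (1 - 1 / 2 ^ K))) - 1))
    (fun β => (hb.2 β).trans (by linarith [hC β])) (by positivity) β).1

/-- **full-support perturbation** of a bounded Lorentzian weight -/
theorem Lz.perturb {d : ℤ} {c : (V → ℤ) → ℝ} (h : Lz d c) {C : ℝ} (hC : ∀ β, c β ≤ C)
    {ξ : V → ℤ} (hξ : 0 < c ξ) {ε : ℝ} (hε : 0 < ε) :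
    ∃ c' : (V → ℤ) → ℝ, Lz d c' ∧ (∀ β, ∑ v, β v = d → 0 < c' β) ∧ (∀ β, c β ≤ c' β) ∧
      ∀ β, c' β ≤ c β + ε := by
  have hC0 : 0 < C := hξ.trans_le (hC ξ)
  -- choose δ
  obtain ⟨δ, hδ, hδε⟩ : ∃ δ : ℝ, 0 < δ ∧ C * (Real.exp (Fintype.card V ^ 2 * δ) - 1) ≤ ε := by
    have hcont : Filter.Tendsto (fun δ : ℝ => C * (Real.exp (Fintype.card V ^ 2 * δ) - 1))
        (nhdsWithin 0 (Set.Ioi 0)) (nhds 0) := by
      have : Continuous fun δ : ℝ => C * (Real.exp (Fintype.card V ^ 2 * δ) - 1) := by fun_prop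
      have h0 := this.tendsto 0
      simp only [mul_zero, Real.exp_zero, sub_self] at h0
      exact h0.mono_left nhdsWithin_le_nhds
    have := (hcont.eventually (ge_mem_nhds hε)).and self_mem_nhdsWithin
    obtain ⟨δ, h1, h2⟩ := this.exists
    exact ⟨δ, h2, h1⟩
  have hb : ∀ K β, Lor.pit δ c K β ≤ c β + ε := fun K β => by
    refine ((pit_bound h.nonneg hC hδ K).2 β).trans ?_
    have : Real.exp (Fintype.card V ^ 2 * (δ * (1 - 1 / 2 ^ K)))
        ≤ Real.exp (Fintype.card V ^ 2 * δ) := by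
      apply Real.exp_le_exp.2
      have h2 : (0 : ℝ) ≤ 1 / 2 ^ K := by positivity
      have : δ * (1 - 1 / 2 ^ K) ≤ δ := by nlinarith
      have h3 : (0 : ℝ) ≤ Fintype.card V ^ 2 := by positivity
      nlinarith
    nlinarith
  have hbdd : ∀ β, BddAbove (Set.range fun K => Lor.pit δ c K β) := fun β =>
    ⟨c β + ε, by rintro _ ⟨K, rfl⟩; exact hb K β⟩
  have hlim : ∀ β, Filter.Tendsto (fun K => Lor.pit δ c K β) Filter.atTop
      (nhds (⨆ K, Lor.pit δ c K β)) := fun β =>
    tendsto_atTop_ciSup (pit_mono h.nonneg hC hδ β) (hbdd β)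
  refine ⟨fun β => ⨆ K, Lor.pit δ c K β, Lz.lim hlim (h.pit hδ), fun β hβ => ?_, fun β => ?_,
    fun β => ciSup_le fun K => hb K β⟩
  · have := pit_pos h hδ hξ (∑ v, max (β v - ξ v) 0).toNat β hβ (by
      rw [Int.toNat_of_nonneg (Finset.sum_nonneg fun v _ => le_max_right _ _)])
    exact this.trans_le (le_ciSup (hbdd β) _)
  · exact le_ciSup (hbdd β) 0

/-! ### cells -/

/-- cell: `∑_{j ≤ κ} q_j c (β + j e_X + (κ - j) e_Y)` -/
noncomputable def cell (q : ℕ → ℝ) (κ : ℕ) (X Y : V) (c : (V → ℤ) → ℝ) : (V → ℤ) → ℝ :=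
  fun β => ∑ j ∈ range (κ + 1), q j * c (β + (j : ℤ) • ev X + ((κ : ℤ) - j) • ev Y)

theorem sum_smul_ev (k : ℤ) (X : V) : ∑ v, (k • ev X) v = k := by
  simp only [Pi.smul_apply, smul_eq_mul, ← Finset.mul_sum, sum_ev, mul_one]

/-- **cells of Lorentzian weights are Lorentzian** -/
theorem Lz.cell {d : ℤ} {c : (V → ℤ) → ℝ} (h : Lz d c) {C : ℝ} (hC : ∀ β, c β ≤ C)
    {q : ℕ → ℝ} {κ : ℕ} (X Y : V) (hq : ∀ j ≤ κ, 0 < q j)
    (hlc : ∀ j, j + 2 ≤ κ → q j * q (j + 2) ≤ q (j + 1) ^ 2) :
    Lz (d - κ) (Lor.cell q κ X Y c) := by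
  -- full support case
  have hfull : ∀ c : (V → ℤ) → ℝ, Lz d c → (∀ β, ∑ v, β v = d → 0 < c β) →
      Lz (d - κ) (Lor.cell q κ X Y c) := by
    intro c h hpos
    have hsum : ∀ (β : V → ℤ) (j : ℕ), ∑ v, (β + (j : ℤ) • ev X + ((κ : ℤ) - j) • ev Y) v
        = ∑ v, β v + κ := by
      intro β j
      simp only [Pi.add_apply, Finset.sum_add_distrib]
      rw [sum_smul_ev, sum_smul_ev]; ring
    refine Lz.of_full ?_ ?_ ?_
    · intro β hβ
      refine Finset.sum_pos (fun j hj => mul_pos (hq j (by simpa [Nat.lt_succ_iff] using hj))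
        (hpos _ ?_)) ⟨0, by simp⟩
      rw [hsum, hβ]; ring
    · intro β hβ
      refine Finset.sum_eq_zero fun j _ => ?_
      have : c (β + (j : ℤ) • ev X + ((κ : ℤ) - j) • ev Y) = 0 := by
        by_contra hne
        have := h.deg _ hne
        rw [hsum] at this
        apply hβ; omega
      rw [this, mul_zero]
    · intro β hβ
      have key := af_chain (κ := κ)
        (fun j => mat c [] (β + (j : ℤ) • ev X + ((κ : ℤ) - j) • ev Y)) q X Y
        (fun j _ u v => mat_symm c [] _ u v) (fun j _ => h.af [] (by simp) _)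
        (fun j hj u => ?_) (fun j hj => ?_) ?_ hq hlc
      · have e : (fun u v => Lor.cell q κ X Y c (β + ev u + ev v)) = fun u v =>
            ∑ j ∈ range (κ + 1), q j *
              mat c [] (β + (j : ℤ) • ev X + ((κ : ℤ) - j) • ev Y) u v := by
          funext u v
          unfold Lor.cell mat
          refine Finset.sum_congr rfl fun j _ => ?_
          rw [br_nil]
          congr 2
          abel
        rw [e]; exact key
      · unfold mat
        rw [br_nil, br_nil]
        congr 1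
        funext v
        simp only [Pi.add_apply, Pi.smul_apply, smul_eq_mul]
        push_cast
        ring
      · unfold mat
        rw [br_nil]
        apply hpos
        simp only [Pi.add_apply, Finset.sum_add_distrib, sum_ev]
        rw [sum_smul_ev, sum_smul_ev]; omega
      · unfold mat
        rw [br_nil]
        exact h.nonneg _
  -- general case
  by_cases hz : ∃ ξ, 0 < c ξ
  · obtain ⟨ξ, hξ⟩ := hz
    choose c' h1 h2 h3 h4 using fun k : ℕ => h.perturb hC hξ (ε := 1 / ((k : ℝ) + 1))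
      (by positivity)
    have hlim : ∀ β, Filter.Tendsto (fun k => c' k β) Filter.atTop (nhds (c β)) := by
      intro β
      have h5 : Filter.Tendsto (fun k : ℕ => c β + 1 / ((k : ℝ) + 1)) Filter.atTop
          (nhds (c β + 0)) := tendsto_const_nhds.add tendsto_one_div_add_atTop_nhds_zero_nat
      rw [add_zero] at h5
      exact tendsto_of_tendsto_of_tendsto_of_le_of_le tendsto_const_nhds h5
        (fun k => h3 k β) (fun k => h4 k β)
    refine Lz.lim (F := Filter.atTop) (c' := fun k => Lor.cell q κ X Y (c' k)) ?_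
      (fun k => hfull _ (h1 k) (h2 k))
    intro β
    unfold Lor.cell
    exact tendsto_finsetSum _ fun j _ => tendsto_const_nhds.mul (hlim _)
  · have hz' : c = fun _ => 0 := by
      funext β
      by_contra hne
      exact hz ⟨β, lt_of_le_of_ne (h.nonneg β) (Ne.symm hne)⟩
    have : Lor.cell q κ X Y c = fun _ => 0 := by
      funext β
      unfold Lor.cell
      rw [hz']; simp
    rw [this]; exact Lz.zero _

end Crest.Agent.R302.Lor
private theorem rz_66e24c6962 : type_of% @_root_.Crest.Agent.R302.Lor.pit.eq_def := @_root_.Crest.Agent.R302.Lor.pit.eq_def -- L361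
private theorem rz_7e3e9b659e : type_of% @_root_.Crest.Agent.R302.Lor.pit.eq_1 := @_root_.Crest.Agent.R302.Lor.pit.eq_1 -- L361
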