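import Mathlib
import Crest.Agent.R302.Tree550
import Crest.Agent.R302.Lz151

-- ▼ part R302/Forest928
section

/-!
# Rooted forests on a finite set (helper928, R302)

`Forest E` = parent map with a rank.  `F.Le c a` : `c` lies in the subtree of `a`
(`c = a` allowed).  `F.sub a` is the subtree of `a` as a `Finset`.
Main facts: the subtrees are laminar, the ancestors of a point form a chain,
telescoping of sums along the forest, and the product formula for potentials.
-/

set_option linter.unusedSectionVars false
set_option linter.unusedVariables false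
set_option autoImplicit false

namespace Crest.Agent.R302.MP3

open Finset

/-- A rooted forest: parent map (roots have no parent) with a rank certificate. -/
structure Forest (E : Type*) where
  par : E → Option E
  dep : E → ℕ
  dep_lt : ∀ a b, par a = some b → dep b < dep a

namespace Forest

variable {E : Type*} (F : Forest E)

/-- `c` is below or equal to `a`. -/
def Le (c a : E) : Prop := Relation.ReflTransGen (fun x y => F.par x = some y) c a

theorem Le.refl (a : E) : F.Le a a := Relation.ReflTransGen.refl

variable {F}

theorem Le.trans {a b c : E} (h : F.Le a b) (h' : F.Le b c) : F.Le a c :=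
  Relation.ReflTransGen.trans h h'

theorem Le.of_par {a b : E} (h : F.par a = some b) : F.Le a b :=
  Relation.ReflTransGen.single h

theorem le_iff {c a : E} : F.Le c a ↔ c = a ∨ ∃ b, F.par c = some b ∧ F.Le b a := by
  unfold Le
  rw [Relation.ReflTransGen.cases_head_iff]

theorem Le.dep_le {c a : E} (h : F.Le c a) : F.dep a ≤ F.dep c := by
  induction h with
  | refl => exact le_refl _
  | tail _ h ih => exact (F.dep_lt _ _ h).le.trans ih

theorem Le.dep_lt {c a : E} (h : F.Le c a) (hne : c ≠ a) : F.dep a < F.dep c := by
  rcases le_iff.1 h with h | ⟨b, hb, h⟩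
  · exact absurd h hne
  · exact lt_of_le_of_lt h.dep_le (F.dep_lt _ _ hb)


theorem not_le_of_par {a b : E} (h : F.par a = some b) : ¬ F.Le b a := fun h' =>
  absurd (F.dep_lt _ _ h) (not_lt.2 h'.dep_le)

/-- the ancestors of a point form a chain -/
theorem Le.total {c a b : E} (h : F.Le c a) (h' : F.Le c b) : F.Le a b ∨ F.Le b a := by
  induction h using Relation.ReflTransGen.head_induction_on with
  | refl => exact Or.inl h'
  | head hx _ ih =>
    rcases le_iff.1 h' with rfl | ⟨y, hy, hyb⟩
    · right
      exact Relation.ReflTransGen.head hx (by assumption)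
    · rw [hx] at hy
      cases hy
      exact ih hyb

section fin

variable [Fintype E] [DecidableEq E]

variable (F)

/-- the subtree of `a` -/
noncomputable def sub (a : E) : Finset E := by
  classical exact univ.filter (fun c => F.Le c a)

variable {F}

@[simp] theorem mem_sub {a c : E} : c ∈ F.sub a ↔ F.Le c a := by
  classical
  simp [sub]




variable (F)


variable {F}


/-- decomposition of `g c` along the path from `c` to the root -/
theorem root_sum (c : E) (g : E → ℝ) [DecidableRel F.Le] :
    g c = ∑ b ∈ univ.filter (fun b => F.Le c b), (g b - (F.par b).elim 0 g) := by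
  classical
  induction hd : F.dep c using Nat.strong_induction_on generalizing c with
  | _ d ih =>
    rcases hpc : F.par c with _ | y
    · have hset : univ.filter (fun b => F.Le c b) = {c} := by
        ext b
        simp only [mem_filter, mem_univ, true_and, mem_singleton]
        constructor
        · intro h
          rcases le_iff.1 h with rfl | ⟨z, hz, -⟩
          · rfl
          · rw [hpc] at hz; cases hz
        · rintro rfl; exact Le.refl F _
      rw [hset, Finset.sum_singleton, hpc]
      simp
    · have hset : univ.filter (fun b => F.Le c b) = insert c (univ.filter (fun b => F.Le y b)) := by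
        ext b
        simp only [mem_filter, mem_univ, true_and, mem_insert]
        constructor
        · intro h
          rcases le_iff.1 h with rfl | ⟨z, hz, hzb⟩
          · exact Or.inl rfl
          · rw [hpc] at hz
            cases hz
            exact Or.inr hzb
        · rintro (rfl | h)
          · exact Le.refl F _
          · exact (Le.of_par hpc).trans h
      have hnot : c ∉ univ.filter (fun b => F.Le y b) := by
        simp only [mem_filter, mem_univ, true_and]
        exact not_le_of_par hpc
      rw [hset, Finset.sum_insert hnot, hpc]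
      have := ih (F.dep y) (hd ▸ F.dep_lt _ _ hpc) y rfl
      rw [← this]
      simp


/-- **telescoping over the whole forest** -/
theorem tele_all (w g : E → ℝ) :
    ∑ c, w c * g c = ∑ b, (∑ c ∈ F.sub b, w c) * (g b - (F.par b).elim 0 g) := by
  classical
  have h1 : ∀ c ∈ (univ : Finset E), w c * g c
      = ∑ b, if F.Le c b then w c * (g b - (F.par b).elim 0 g) else 0 := by
    intro c hc
    conv_lhs => rw [root_sum (F := F) c g]
    rw [Finset.mul_sum, ← Finset.sum_filter]
  rw [Finset.sum_congr rfl h1, Finset.sum_comm]
  apply Finset.sum_congr rfl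
  intro b hb
  rw [Finset.sum_mul, ← Finset.sum_filter]
  apply Finset.sum_congr _ (fun _ _ => rfl)
  ext c
  simp only [mem_filter, mem_sub, mem_univ, true_and]

variable (F)


variable {F}






end fin

end Forest

end Crest.Agent.R302.MP3
end

-- ▼ part R302/Inst532A

/-!
R302 (helper532): the official soft sides, states and cell weights.

* `Side E` : rooted forest `T` (`T.par a = none` : thin = block representative, `some b` : fat edge
  `(a,b)`), finite set `J` with weight `g`, fat kernels `κ a`.
* `bs T x a` : sum of `x` over the subtree of `a`.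
* `Side.ff S x β` : probability weight that `x + (links) + (fat slack)` lies in `J`, block contents `β`.
* `Side.lw S θ μ x β` : link weight, `Side.W S θ μ x` : the soft marginal, `W_eq_sum_lw`.
* `Tok E`, `tree`, `gam`, `FF` : the tokens, the rooted tree, the states and the function `F`.
-/

set_option linter.unusedSectionVars false
set_option autoImplicit false

namespace Crest.Agent.R302.Inst

open Finset Crest.Agent.R302.Lor

variable {E : Type*} [Fintype E] [DecidableEq E]

/-- subtree sum -/
noncomputable def bs (T : MP3.Forest E) (x : E → ℤ) (a : E) : ℤ := ∑ b ∈ T.sub a, x b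

theorem bs_add (T : MP3.Forest E) (x y : E → ℤ) (a : E) : bs T (x + y) a = bs T x a + bs T y a := by
  simp [bs, Finset.sum_add_distrib]

theorem bs_sub (T : MP3.Forest E) (x y : E → ℤ) (a : E) : bs T (x - y) a = bs T x a - bs T y a := by
  simp [bs, Finset.sum_sub_distrib]

theorem bs_neg (T : MP3.Forest E) (x : E → ℤ) (a : E) : bs T (-x) a = -bs T x a := by
  simp [bs, Finset.sum_neg_distrib]

theorem bs_smul (T : MP3.Forest E) (t : ℤ) (x : E → ℤ) (a : E) : bs T (t • x) a = t * bs T x a := by
  simp [bs, Finset.mul_sum]

theorem bs_zero (T : MP3.Forest E) (a : E) : bs T (0 : E → ℤ) a = 0 := by simp [bs]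

theorem bs_ev (T : MP3.Forest E) (b a : E) : bs T (ev b) a = if b ∈ T.sub a then 1 else 0 := by
  simp [bs, ev, Pi.single_apply]

/-- one soft side -/
structure Side (E : Type*) [Fintype E] [DecidableEq E] where
  T : MP3.Forest E
  J : Finset (E → ℤ)
  g : (E → ℤ) → ℝ
  κ : E → ℤ → ℝ

namespace Side

variable (S : Side E)

/-- blocks = thin elements (roots of the forest) -/
abbrev Blk : Type _ := {a : E // S.T.par a = none}

/-- factor of the edge `a` in `ff` -/
noncomputable def fk (x : E → ℤ) (β : S.Blk → ℤ) (z : E → ℤ) (a : E) : ℝ :=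
  if h : S.T.par a = none then (if bs S.T z a = β ⟨a, h⟩ then 1 else 0)
  else S.κ a (bs S.T z a - bs S.T x a)

/-- `ff x β = P(p + fat slack ∈ J)` weighted by `g`, `p = x + links`, block contents `β` -/
noncomputable def ff (x : E → ℤ) (β : S.Blk → ℤ) : ℝ := ∑ z ∈ S.J, S.g z * ∏ a, S.fk x β z a

/-- the loads: `x` with the block representatives changed so that the block contents are `β` -/
noncomputable def load (x : E → ℤ) (β : S.Blk → ℤ) (a : E) : ℤ :=
  if h : S.T.par a = none then x a + (β ⟨a, h⟩ - bs S.T x a) else x a

/-- factor of the edge `a` in `W` -/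
noncomputable def wk (θ : ℝ) (a : E) (t : ℤ) : ℝ :=
  if S.T.par a = none then θ ^ t.natAbs else S.κ a t

/-- the soft marginal -/
noncomputable def W (θ : ℝ) (μ : E → ℝ) (x : E → ℤ) : ℝ :=
  ∑ z ∈ S.J, (mon μ z * S.g z) * ∏ a, S.wk θ a (bs S.T z a - bs S.T x a)

/-- link weight of the block contents `β` at `x` -/
noncomputable def lw (θ : ℝ) (μ : E → ℝ) (x : E → ℤ) (β : S.Blk → ℤ) : ℝ :=
  (∏ r : S.Blk, θ ^ (β r - bs S.T x r).natAbs) * (∏ r : S.Blk, μ r ^ β r) * S.ff x β

/-- block contents of `z` -/
noncomputable def blk (z : E → ℤ) (r : S.Blk) : ℤ := bs S.T z r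

end Side

/-- tokens `X_e`, `Y_e` and the hub `none` -/
abbrev Tok (E : Type*) := Option (E ⊕ E)

def tX (e : E) : Tok E := some (Sum.inl e)
def tY (e : E) : Tok E := some (Sum.inr e)

/-- the rooted tree on the tokens -/
def tree (T₁ T₂ : MP3.Forest E) : Tree.RTree (Tok E) where
  par := fun p => match p with
    | none => none
    | some (Sum.inl e) => (T₁.par e).map Sum.inl
    | some (Sum.inr e) => (T₂.par e).map Sum.inr
  root := none
  dep := fun p => match p with
    | none => 0
    | some (Sum.inl e) => T₁.dep e + 1
    | some (Sum.inr e) => T₂.dep e + 1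
  dep_lt := by
    rintro (_ | e | e) hq
    · exact absurd rfl hq
    · rcases h : T₁.par e with _ | b
      · simp [h]
      · simpa [h] using T₁.dep_lt e b h
    · rcases h : T₂.par e with _ | b
      · simp [h]
      · simpa [h] using T₂.dep_lt e b h

/-- the token multiset of the state `x`, window height `m` -/
def gam (m : ℤ) (x : E → ℤ) : Tok E → ℤ := fun p => match p with
  | none => 0
  | some (Sum.inl e) => x e
  | some (Sum.inr e) => m - x e

/-- the official `F` -/
noncomputable def FF (S₁ S₂ : Side E) (θ : ℝ) (μ : E → ℝ) (m : ℤ) (d : Tok E → ℤ) : ℝ :=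
  S₁.W θ μ (fun e => d (tX e)) * S₂.W θ (fun e => (μ e)⁻¹) (fun e => m - d (tY e))

/-- the joint weight of `(x, β₁, β₂)` -/
noncomputable def nu (S₁ S₂ : Side E) (θ : ℝ) (μ : E → ℝ) (x : E → ℤ)
    (β₁ : S₁.Blk → ℤ) (β₂ : S₂.Blk → ℤ) : ℝ :=
  S₁.lw θ μ x β₁ * S₂.lw θ (fun e => (μ e)⁻¹) x β₂

theorem FF_gam (S₁ S₂ : Side E) (θ : ℝ) (μ : E → ℝ) (m : ℤ) (x : E → ℤ) :
    FF S₁ S₂ θ μ m (gam m x) = S₁.W θ μ x * S₂.W θ (fun e => (μ e)⁻¹) x := by
  simp [FF, gam, tX, tY]

theorem gam_single (m : ℤ) (x : E → ℤ) (k : E) :
    gam m (x + Pi.single k 1) = gam m x + ev (tX k) - ev (tY k) := by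
  funext p
  rcases p with _ | e | e
  · simp [gam, ev, tX, tY]
  · by_cases h : e = k
    · subst h; simp [gam, ev, tX, tY]
    · simp [gam, ev, tX, tY, h]
  · by_cases h : e = k
    · subst h; simp [gam, ev, tX, tY]; ring
    · simp [gam, ev, tX, tY, h]

end Crest.Agent.R302.Inst
private theorem rz_1c187d0bd2 : type_of% @_root_.Crest.Agent.R302.Inst.gam.eq_1 := @_root_.Crest.Agent.R302.Inst.gam.eq_1 -- L116
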