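import Mathlib
import Crest.Agent.R309.MCBox
import Crest.Agent.R302.MacroB541

/-!
Row 302 (helper541).  Metropolis chains of lattice moves `x → x ± s • d`, `s` uniform in
`1 .. 2 ^ e`, `(d, e)` from a list of directions, on a finite set `B` of a commutative group, with
an arbitrary random acceptance test, as instances of helper585's abstract chain layer.
-/

set_option autoImplicit false
open Finset

namespace Crest.Agent.R302.LatChain

open Crest.Agent.R309.MC Crest.Agent.R309.Tape Crest.Agent.Lib.PT.Arith Crest.Agent.R302.Macro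

/-! ### the tape step with a random acceptance test -/

section coin

variable {α : Type*} [Fintype α] [DecidableEq α] {S : Type*}

/-- One step: `q` bits choose a move index, the remaining bits feed the acceptance test. -/
def cstep (q : ℕ) (mv : S → ℕ → Option S) (coin : S → S → List Bool → Bool) (s : S)
    (l : List Bool) : S :=
  match mv s (msb (l.take q)) with
  | none => s
  | some s' => if coin s s' (l.drop q) then s' else s

omit [DecidableEq α] in
theorem avg_coin (m : ℕ) (P : List Bool → Bool) (u v : ℝ) :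
    avg m (fun l => if P l then u else v) = v + pr m (fun l => P l = true) * (u - v) := by
  unfold pr
  have : ∀ l, (if P l then u else v) = v + ind (P l = true) * (u - v) := by
    intro l
    by_cases h : P l = true
    · rw [ind_of h, if_pos h]; ring
    · rw [ind_of_not h, if_neg h]; ring
  simp only [this]
  rw [avg_add, avg_const, ← avg_mul_right]

theorem impl_cstep {q m : ℕ} {mv : S → ℕ → Option S} {coin : S → S → List Bool → Bool}
    {enc : α → S} {M : α → ℕ → Option α} {a : α → α → ℝ}
    (hmv : ∀ x, ∀ i < 2 ^ q, mv (enc x) i = (M x i).map enc)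
    (ha : ∀ x y, ∀ i < 2 ^ q, M x i = some y →
      pr m (fun l => coin (enc x) (enc y) l = true) = a x y) :
    Impl (cstep q mv coin) (q + m) enc (metro (prop q M) a) := by
  intro φ x
  rw [metro_apply_sum _ _ x (fun y => φ (enc y))]
  unfold markov
  have h1 : avg (q + m) (fun l => φ (cstep q mv coin (enc x) l)) =
      avg q (fun l => avg m (fun l' => φ (match mv (enc x) (msb l) with
        | none => enc x
        | some s' => if coin (enc x) s' l' then s' else enc x))) :=
    avg_take_drop q m (fun l l' => φ (match mv (enc x) (msb l) with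
        | none => enc x
        | some s' => if coin (enc x) s' l' then s' else enc x))
  rw [h1, avg_msb q (fun i => avg m (fun l' => φ (match mv (enc x) i with
        | none => enc x
        | some s' => if coin (enc x) s' l' then s' else enc x)))]
  rw [sum_prop_mul q M x (fun y => a x y * (φ (enc y) - φ (enc x)))]
  have h2 : φ (enc x) = (∑ i ∈ range (2 ^ q), φ (enc x)) / 2 ^ q := by
    rw [sum_const, card_range, nsmul_eq_mul]
    push_cast
    field_simp
  conv_rhs => enter [1]; rw [h2]
  rw [← add_div, ← sum_add_distrib]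
  congr 1
  refine sum_congr rfl fun i hi => ?_
  have hi' := mem_range.mp hi
  rw [hmv x i hi']
  cases h : M x i with
  | none => simp
  | some y =>
    simp only [Option.map_some]
    have h3 : ∀ l' : List Bool, φ (if coin (enc x) (enc y) l' then enc y else enc x) =
        if coin (enc x) (enc y) l' then φ (enc y) else φ (enc x) := by
      intro l'; split_ifs <;> rfl
    simp only [h3]
    rw [avg_coin, ha x y i hi' h]
    rfl


end coin

/-! ### lattice moves -/

section lattice

variable {G : Type*} [AddCommGroup G] [DecidableEq G]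

/-- the move of index `i` of a family of vectors -/
def latM (B : Finset G) (v : ℕ → Option G) (x : B) (i : ℕ) : Option B :=
  (v i).bind fun d => if h : x.1 + d ∈ B then some ⟨x.1 + d, h⟩ else none

theorem latM_eq_some {B : Finset G} {v : ℕ → Option G} {x y : B} {i : ℕ} :
    latM B v x i = some y ↔ ∃ d, v i = some d ∧ x.1 + d = y.1 := by
  unfold latM
  cases hv : v i with
  | none => simp
  | some d =>
    simp only [Option.bind_some]
    constructor
    · intro h
      split_ifs at h with hd
      exact ⟨d, rfl, congrArg Subtype.val (Option.some.inj h)⟩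
    · rintro ⟨d', hd', hy⟩
      have hdd : d = d' := Option.some.inj hd'
      subst hdd
      have hmem : x.1 + d ∈ B := by rw [hy]; exact y.2
      rw [dif_pos hmem]
      congr 1
      exact Subtype.ext hy

/-- the vector of the index `i < 2 ^ (a + b + 2)`: half of the indices are idle, one bit is the
sign, `a` bits choose the direction, `b` bits choose the length -/
def ivec (a b : ℕ) (cs : List (G × ℕ)) (i : ℕ) : Option G :=
  if i < 2 ^ (a + b + 1) then
    (cs[i / 2 / 2 ^ b]?).map fun p =>
      if i % 2 = 0 then (i / 2 % 2 ^ b % 2 ^ p.2 + 1) • p.1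
      else -((i / 2 % 2 ^ b % 2 ^ p.2 + 1) • p.1)
  else none

omit [DecidableEq G] in
theorem ivec_flip (a b : ℕ) (cs : List (G × ℕ)) (i : ℕ) (d : G) (h : ivec a b cs i = some d) :
    ivec a b cs (flipIdx i) = some (-d) := by
  have hpow : 2 ^ (a + b + 1) = 2 * 2 ^ (a + b) := by rw [pow_succ]; ring
  unfold ivec at h ⊢
  by_cases hi : i < 2 ^ (a + b + 1)
  swap
  · rw [if_neg hi] at h; exact absurd h (by simp)
  rw [if_pos hi] at h
  unfold flipIdx
  by_cases h2 : i % 2 = 0
  · have hlt : i + 1 < 2 ^ (a + b + 1) := by omega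
    rw [if_pos h2, if_pos hlt]
    have e1 : (i + 1) / 2 = i / 2 := by omega
    have e2 : ¬ (i + 1) % 2 = 0 := by omega
    rw [e1]
    cases hc : cs[i / 2 / 2 ^ b]? with
    | none => rw [hc] at h; simp at h
    | some p =>
      rw [hc] at h
      simp only [Option.map_some, h2, if_true, Option.some.injEq, e2, if_false] at h ⊢
      rw [h]
  · have hlt : i - 1 < 2 ^ (a + b + 1) := by omega
    rw [if_neg h2, if_pos hlt]
    have e1 : (i - 1) / 2 = i / 2 := by omega
    have e2 : (i - 1) % 2 = 0 := by omega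
    rw [e1]
    cases hc : cs[i / 2 / 2 ^ b]? with
    | none => rw [hc] at h; simp at h
    | some p =>
      rw [hc] at h
      simp only [Option.map_some, h2, if_false, Option.some.injEq, e2, if_true] at h ⊢
      rw [← h, neg_neg]

/-- the proposal of lattice moves is symmetric and lazy -/
theorem isProp_lat (B : Finset G) (a b : ℕ) (cs : List (G × ℕ)) :
    IsProp (prop (a + b + 2) (latM B (ivec a b cs))) := by
  have hpow : 2 ^ (a + b + 2) = 4 * 2 ^ (a + b) := by rw [pow_add]; ring
  have hpow1 : 2 ^ (a + b + 1) = 2 * 2 ^ (a + b) := by rw [pow_succ]; ring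
  refine isProp_prop flipIdx ?_ flipIdx_flipIdx ?_ ?_
  · intro i hi
    unfold flipIdx
    split_ifs <;> omega
  · intro x y i _ h
    rw [latM_eq_some] at h ⊢
    obtain ⟨d, hd, hxy⟩ := h
    exact ⟨-d, ivec_flip a b cs i d hd, by rw [← hxy]; abel⟩
  · intro x
    have hsub : (range (2 ^ (a + b + 2))).filter (fun i => latM B (ivec a b cs) x i ≠ none)
        ⊆ range (2 ^ (a + b + 1)) := by
      intro i hi
      rw [mem_filter] at hi
      rw [mem_range]
      by_contra hcon
      apply hi.2
      unfold latM ivec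
      rw [if_neg hcon]
      rfl
    have := card_le_card hsub
    rw [card_range] at this
    omega

/-- sum over the states of a functional of a move -/
theorem sum_latM (B : Finset G) (v : ℕ → Option G) (i : ℕ) (ψ : G → G → ℝ) :
    ∑ x : B, (latM B v x i).elim 0 (fun y => ψ x.1 y.1)
      = (v i).elim 0 (fun d => ∑ x ∈ B.filter (fun x => x + d ∈ B), ψ x (x + d)) := by
  unfold latM
  cases hv : v i with
  | none => simp
  | some d =>
    simp only [Option.bind_some, Option.elim_some]
    rw [sum_filter, ← sum_coe_sort B (fun x => if x + d ∈ B then ψ x (x + d) else 0)]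
    refine sum_congr rfl fun x _ => ?_
    by_cases h : x.1 + d ∈ B
    · rw [dif_pos h, if_pos h]; rfl
    · rw [dif_neg h, if_neg h]; rfl

theorem Dm_eq (B : Finset G) (w : G → ℝ) (c : G) (s : ℕ) (f : G → ℝ) :
    ∑ x ∈ B.filter (fun x => x + s • c ∈ B),
      min (w x) (w (x + s • c)) * (f x - f (x + s • c)) ^ 2 = Dm B w c s f := by
  unfold Dm
  refine sum_congr rfl fun x _ => ?_
  rw [← neg_sub, neg_sq]

theorem Dm_neg_eq (B : Finset G) (w : G → ℝ) (c : G) (s : ℕ) (f : G → ℝ) :
    ∑ x ∈ B.filter (fun x => x + -(s • c) ∈ B),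
      min (w x) (w (x + -(s • c))) * (f x - f (x + -(s • c))) ^ 2 = Dm B w c s f := by
  unfold Dm
  refine sum_bij' (fun x _ => x + -(s • c)) (fun x _ => x + s • c) ?_ ?_ ?_ ?_ ?_
  · intro x hx
    rw [mem_filter] at hx ⊢
    refine ⟨hx.2, ?_⟩
    rw [neg_add_cancel_right]; exact hx.1
  · intro x hx
    rw [mem_filter] at hx ⊢
    refine ⟨hx.2, ?_⟩
    rw [add_neg_cancel_right]; exact hx.1
  · intro x _; rw [neg_add_cancel_right]
  · intro x _; rw [add_neg_cancel_right]
  · intro x _
    rw [neg_add_cancel_right, min_comm]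

theorem sum_range_mul (A C : ℕ) (g : ℕ → ℝ) :
    ∑ k ∈ range (A * C), g k = ∑ j ∈ range A, ∑ r ∈ range C, g (j * C + r) := by
  induction A with
  | zero => simp
  | succ A ih =>
    rw [Nat.succ_mul, sum_range_add, ih, sum_range_succ]

theorem sum_range_mod (e b : ℕ) (h : e ≤ b) (g : ℕ → ℝ) :
    ∑ r ∈ range (2 ^ b), g (r % 2 ^ e) = 2 ^ (b - e) * ∑ s ∈ range (2 ^ e), g s := by
  have hb : 2 ^ b = 2 ^ (b - e) * 2 ^ e := by rw [← pow_add]; congr 1; omega
  rw [hb, sum_range_mul]
  have : ∀ j ∈ range (2 ^ (b - e)), ∑ r ∈ range (2 ^ e), g ((j * 2 ^ e + r) % 2 ^ e)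
      = ∑ s ∈ range (2 ^ e), g s := by
    intro j _
    refine sum_congr rfl fun r hr => ?_
    rw [Nat.mul_add_mod_of_lt (mem_range.1 hr)]
  rw [sum_congr rfl this, sum_const, card_range, nsmul_eq_mul]
  push_cast
  ring

/-- **Dirichlet form of the lattice proposal**. -/
theorem dir_lat (B : Finset G) (w : G → ℝ) (a b : ℕ) (cs : List (G × ℕ))
    (hlen : cs.length ≤ 2 ^ a) (hexp : ∀ p ∈ cs, p.2 ≤ b) (f : G → ℝ) :
    (∑ x : B, ∑ y : B, prop (a + b + 2) (latM B (ivec a b cs)) x y
        * min (w x) (w y) * (f x - f y) ^ 2) / 2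
      = (cs.map fun p => aDm B w p.1 (2 ^ p.2) f).sum / 2 ^ (a + 2) := by
  have hpow : 2 ^ (a + b + 2) = 2 * (2 ^ (a + b) * 2) := by rw [pow_add]; ring
  -- functional
  let ψ : G → G → ℝ := fun x y => min (w x) (w y) * (f x - f y) ^ 2
  have h1 : ∀ x : B, ∑ y : B, prop (a + b + 2) (latM B (ivec a b cs)) x y
        * min (w x) (w y) * (f x - f y) ^ 2
      = (∑ i ∈ range (2 ^ (a + b + 2)),
          (latM B (ivec a b cs) x i).elim 0 (fun y => ψ x.1 y.1)) / 2 ^ (a + b + 2) := by
    intro x
    rw [← sum_prop_mul (a + b + 2) (latM B (ivec a b cs)) x (fun y => ψ x.1 y.1)]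
    exact sum_congr rfl fun y _ => by simp only [ψ]; ring
  have h2 : ∑ x : B, ∑ y : B, prop (a + b + 2) (latM B (ivec a b cs)) x y
        * min (w x) (w y) * (f x - f y) ^ 2
      = (∑ i ∈ range (2 ^ (a + b + 2)), (ivec a b cs i).elim 0
          (fun d => ∑ x ∈ B.filter (fun x => x + d ∈ B), ψ x (x + d))) / 2 ^ (a + b + 2) := by
    rw [sum_congr rfl fun x _ => h1 x, ← sum_div, sum_comm]
    congr 1
    exact sum_congr rfl fun i _ => sum_latM B _ i ψ
  -- idle half
  set g : ℕ → ℝ := fun i => (ivec a b cs i).elim 0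
          (fun d => ∑ x ∈ B.filter (fun x => x + d ∈ B), ψ x (x + d)) with hg
  have h3 : ∑ i ∈ range (2 ^ (a + b + 2)), g i = ∑ i ∈ range (2 ^ (a + b) * 2), g i := by
    rw [hpow, two_mul, sum_range_add]
    have : ∑ x ∈ range (2 ^ (a + b) * 2), g (2 ^ (a + b) * 2 + x) = 0 := by
      refine sum_eq_zero fun i _ => ?_
      simp only [hg]
      unfold ivec
      rw [if_neg (by rw [pow_succ]; omega)]
      rfl
    rw [this, add_zero]
  -- pairs
  have h4 : ∀ k ∈ range (2 ^ (a + b)), ∑ r ∈ range 2, g (k * 2 + r)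
      = 2 * (cs[k / 2 ^ b]?).elim 0 (fun p => Dm B w p.1 (k % 2 ^ b % 2 ^ p.2 + 1) f) := by
    intro k hk
    have hk' := mem_range.1 hk
    rw [sum_range_succ, sum_range_one]
    simp only [hg]
    unfold ivec
    have i1 : k * 2 + 0 < 2 ^ (a + b + 1) := by rw [pow_succ]; omega
    have i2 : k * 2 + 1 < 2 ^ (a + b + 1) := by rw [pow_succ]; omega
    rw [if_pos i1, if_pos i2]
    have e1 : (k * 2 + 0) / 2 = k := by omega
    have e2 : (k * 2 + 1) / 2 = k := by omega
    have e3 : (k * 2 + 0) % 2 = 0 := by omega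
    have e4 : ¬ (k * 2 + 1) % 2 = 0 := by omega
    rw [e1, e2]
    cases hc : cs[k / 2 ^ b]? with
    | none => simp
    | some p =>
      simp only [Option.map_some, Option.elim_some, if_pos e3, if_neg e4, ψ]
      rw [Dm_eq, Dm_neg_eq]
      ring
  have h5 : ∑ i ∈ range (2 ^ (a + b) * 2), g i
      = 2 * ∑ j ∈ range (2 ^ a), ∑ r ∈ range (2 ^ b),
          (cs[j]?).elim 0 (fun p => Dm B w p.1 (r % 2 ^ p.2 + 1) f) := by
    rw [sum_range_mul, sum_congr rfl h4, ← mul_sum, pow_add, sum_range_mul]
    congr 1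
    refine sum_congr rfl fun j _ => sum_congr rfl fun r hr => ?_
    have hr' := mem_range.1 hr
    have e1 : (j * 2 ^ b + r) / 2 ^ b = j := by
      rw [mul_comm, Nat.mul_add_div (by positivity), Nat.div_eq_of_lt hr', add_zero]
    have e2 : (j * 2 ^ b + r) % 2 ^ b = r := Nat.mul_add_mod_of_lt hr'
    rw [e1, e2]
  have h6 : ∀ j ∈ range (2 ^ a), ∑ r ∈ range (2 ^ b),
          (cs[j]?).elim 0 (fun p => Dm B w p.1 (r % 2 ^ p.2 + 1) f)
      = 2 ^ b * (cs[j]?).elim 0 (fun p => aDm B w p.1 (2 ^ p.2) f) := by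
    intro j _
    cases hc : cs[j]? with
    | none => simp
    | some p =>
      simp only [Option.elim_some]
      have hp : p.2 ≤ b := hexp p (List.mem_of_getElem? hc)
      rw [sum_range_mod p.2 b hp (fun s => Dm B w p.1 (s + 1) f)]
      unfold aDm
      have hb : (2 : ℝ) ^ b = 2 ^ (b - p.2) * 2 ^ p.2 := by rw [← pow_add]; congr 1; omega
      rw [hb]
      push_cast
      field_simp
  have h7 : ∑ j ∈ range (2 ^ a), (cs[j]?).elim 0 (fun p => aDm B w p.1 (2 ^ p.2) f)
      = (cs.map fun p => aDm B w p.1 (2 ^ p.2) f).sum := by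
    clear h1 h2 h3 h4 h5 h6 hg g hexp
    have key : ∀ (cs : List (G × ℕ)) (N : ℕ), cs.length ≤ N →
        ∑ j ∈ range N, (cs[j]?).elim 0 (fun p => aDm B w p.1 (2 ^ p.2) f)
          = (cs.map fun p => aDm B w p.1 (2 ^ p.2) f).sum := by
      intro cs
      induction cs with
      | nil => intro N _; simp
      | cons p cs ih =>
        intro N hN
        obtain ⟨N', rfl⟩ : ∃ N', N = N' + 1 := ⟨N - 1, by simp at hN; omega⟩
        rw [sum_range_succ', List.map_cons, List.sum_cons]
        simp only [List.getElem?_cons_succ, List.getElem?_cons_zero, Option.elim_some]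
        rw [ih N' (by simpa using hN), add_comm]
    exact key cs _ hlen
  rw [h2, h3, h5, sum_congr rfl h6, ← mul_sum, h7]
  have hb : (2 : ℝ) ^ (a + b + 2) = 2 ^ b * 2 ^ (a + 2) := by rw [← pow_add]; congr 1; omega
  rw [hb]
  field_simp

omit [AddCommGroup G] [DecidableEq G] in
/-- the variance over `B` is helper585's `varU` -/
theorem vr_eq_varU (B : Finset G) (w f : G → ℝ) :
    vr B w f = varU (fun x : B => w x) (fun x : B => f x) := by
  unfold vr varU mn mean mass Macro.S
  rw [sum_coe_sort B (fun x => w x * f x), sum_coe_sort B w,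
    sum_coe_sort B (fun x => w x * (f x - (∑ x ∈ B, w x * f x) / ∑ x ∈ B, w x) ^ 2)]

/-- **Poincaré inequality with defect for the lattice chain** (exact Metropolis energies) from the
output form of `macro_full`. -/
theorem poinc_lat (B : Finset G) (w : G → ℝ) (a b : ℕ)
    (cs : List (G × ℕ)) (hlen : cs.length ≤ 2 ^ a) (hexp : ∀ p ∈ cs, p.2 ≤ b) {A δ : ℝ}
    {f : G → ℝ} (h : vr B w f ≤ A * (cs.map fun p => aDm B w p.1 (2 ^ p.2) f).sum + δ) :
    varU (fun x : B => w x) (fun x : B => f x)
      ≤ A * 2 ^ (a + 2) * ((∑ x : B, ∑ y : B, prop (a + b + 2) (latM B (ivec a b cs)) x y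
        * min (w x) (w y) * (f x - f y) ^ 2) / 2) + δ := by
  rw [← vr_eq_varU, dir_lat B w a b cs hlen hexp f]
  refine h.trans (le_of_eq ?_)
  field_simp

end lattice

end Crest.Agent.R302.LatChain
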