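import Crest.Agent.R309.MCMetro
import Crest.Agent.R302.Inst532A
import Crest.Agent.R302.LatChain541

-- ▼ part R302/Stage536

/-!
R302 (helper536), block STAGE: THE DEFINITION FILE (S0) of one soft chain.

* `SD E` : data of one stage; `St D` : joint states `(x, β₁, β₂)`; `bx D` : the finite state space;
* `ex D σ` : integer exponent (links, gauge, stage weight as a function of `β₁`), `u = 2 ^ ex`;
  `FG D σ = ff₁ * ff₂`; `nuG D σ = u * FG`;
* `cs D` : the list of directions of the moves (`541`'s format), `acc D` : acceptance probability,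
  `Kch D` : the transition matrix on `↥(bx D)`;
* `pf D x` : the perfect state over `x`; `IsPf`, `outG`, `evG` : perfect states, output, one-link events.
-/

set_option autoImplicit false
set_option linter.unusedSectionVars false

namespace Crest.Agent.R302.Stage

open Finset Crest.Agent.R302.Inst Crest.Agent.R302.Macro Crest.Agent.R302.LatChain
open Crest.Agent.R302.Lor (mon ev)
open Crest.Agent.R309.MC

/-- the fat slack law with ratio `q = 1 - 2 ^ (-k)` (law of `(G₁-G₂)+(G₃-G₄)`, `G` geometric) -/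
noncomputable def kapR (k : ℕ) (t : ℤ) : ℝ :=
  let q : ℝ := 1 - (1 / 2) ^ k
  ((1 - q) / (1 + q)) ^ 2 * (q ^ t.natAbs * (t.natAbs + (1 + q ^ 2) / (1 - q ^ 2)))

variable {E : Type*} [Fintype E] [DecidableEq E]

/-- data of one stage -/
structure SD (E : Type*) [Fintype E] [DecidableEq E] where
  /-- soft side 1 (forest, hard set, slack kernels; `g = 1`) -/
  S₁ : Side E
  /-- soft side 2 -/
  S₂ : Side E
  /-- exponent of the stage weight `2 ^ (-w β₁)`, a function of the block contents of side 1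
  (`0` in the fat stages; in the thin stages all elements are blocks and `β₁ = z₁`) -/
  w : (S₁.Blk → ℤ) → ℤ
  /-- a link costs `2 ^ (-a)` -/
  a : ℕ
  /-- the gauge is `μ e = 2 ^ ell e` -/
  ell : E → ℤ
  /-- centre of the window -/
  c : E → ℤ
  /-- window `|x e - c e| ≤ M` -/
  M : ℕ
  /-- window `|β r| ≤ Lb` (so large that `ff ≠ 0` implies it) -/
  Lb : ℕ
  /-- the `x`-directions with the exponents of their lengths -/
  mv : List ((E → ℤ) × ℕ)
  /-- the links moves: pairs of blocks of side 1 -/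
  lk₁ : List (S₁.Blk × S₁.Blk)
  /-- the links moves: pairs of blocks of side 2 -/
  lk₂ : List (S₂.Blk × S₂.Blk)
  /-- bits for the direction -/
  qa : ℕ
  /-- bits for the length -/
  qb : ℕ

/-- joint states `(x, β₁, β₂)` -/
abbrev St (D : SD E) : Type _ := (E → ℤ) × (D.S₁.Blk → ℤ) × (D.S₂.Blk → ℤ)

instance (D : SD E) : DecidableEq (St D) := inferInstanceAs
  (DecidableEq ((E → ℤ) × (D.S₁.Blk → ℤ) × (D.S₂.Blk → ℤ)))

namespace SD

variable (D : SD E)

/-- `θ = 2 ^ (-a)` -/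
noncomputable def θ : ℝ := (1 / 2) ^ D.a

/-- the gauge -/
noncomputable def μ (e : E) : ℝ := 2 ^ D.ell e

/-- the finite state space -/
noncomputable def bx : Finset (St D) :=
  (Fintype.piFinset fun e => Icc (D.c e - D.M) (D.c e + D.M)) ×ˢ
    ((Fintype.piFinset fun _ => Icc (-(D.Lb : ℤ)) D.Lb) ×ˢ
      (Fintype.piFinset fun _ => Icc (-(D.Lb : ℤ)) D.Lb))

/-- the exponent of the explicit part of the weight -/
noncomputable def ex (σ : St D) : ℤ :=
  -(D.a : ℤ) * (∑ r, |σ.2.1 r - bs D.S₁.T σ.1 r| + ∑ r, |σ.2.2 r - bs D.S₂.T σ.1 r|)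
    + ∑ r : D.S₁.Blk, D.ell r * σ.2.1 r - ∑ r : D.S₂.Blk, D.ell r * σ.2.2 r - D.w σ.2.1

/-- explicit part of the weight -/
noncomputable def u (σ : St D) : ℝ := 2 ^ D.ex σ

/-- side 1 with the stage weight (only for the analysis) -/
noncomputable def S₁w : Side E := { D.S₁ with g := fun z => D.S₁.g z * 2 ^ (-D.w (D.S₁.blk z)) }

/-- probability that the two fresh-slack membership tests succeed -/
noncomputable def FG (σ : St D) : ℝ := D.S₁.ff σ.1 σ.2.1 * D.S₂.ff σ.1 σ.2.2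

/-- the weight of the chain -/
noncomputable def nuG (σ : St D) : ℝ := D.u σ * D.FG σ

/-- directions of the moves: all `x`-moves keep `β`, link moves keep `x` -/
noncomputable def cs : List (St D × ℕ) :=
  D.mv.map (fun p => ((p.1, 0, 0), p.2)) ++
    (D.lk₁.map (fun p => ((0, Pi.single p.1 1 - Pi.single p.2 1, 0), 0)) ++
      D.lk₂.map (fun p => ((0, 0, Pi.single p.1 1 - Pi.single p.2 1), 0)))

instance : DecidableEq D.bx := fun a b => decidable_of_iff (a.1 = b.1) Subtype.ext_iff.symm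

/-- the move of index `i < 2 ^ (qa + qb + 2)` -/
noncomputable def move : D.bx → ℕ → Option D.bx := latM D.bx (ivec D.qa D.qb D.cs)

/-- acceptance probability: coin `2 ^ (ex σ' - ex σ)`, then the two tests at `σ'` -/
noncomputable def acc (σ σ' : St D) : ℝ := min 1 (2 ^ (D.ex σ' - D.ex σ)) * D.FG σ'

/-- the transition matrix -/
noncomputable def Kch : D.bx → D.bx → ℝ :=
  metro (prop (D.qa + D.qb + 2) D.move) (fun σ σ' => D.acc σ.1 σ'.1)

/-- the perfect state over `x` -/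
noncomputable def pf (x : E → ℤ) : St D := (x, D.S₁.blk x, D.S₂.blk x)

/-- perfect states -/
def IsPf (σ : St D) : Prop := σ = D.pf σ.1 ∧ σ.1 ∈ D.S₁.J ∧ σ.1 ∈ D.S₂.J

open Classical in
/-- the output of a state -/
noncomputable def outG (σ : St D) : Option (E → ℤ) := if D.IsPf σ then some σ.1 else none

/-- one-link event of the pair `(u, v)` -/
def EvG (u v : E) (σ : St D) : Prop :=
  σ.2.1 = D.S₁.blk (σ.1 + ev u) ∧ σ.2.2 = D.S₂.blk (σ.1 + ev v)

/-- hypotheses which make the sides probabilities -/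
structure OK (D : SD E) : Prop where
  κ₁ : ∀ e t, 0 ≤ D.S₁.κ e t
  κ₂ : ∀ e t, 0 ≤ D.S₂.κ e t
  g₁ : ∀ z, D.S₁.g z = 1
  g₂ : ∀ z, D.S₂.g z = 1
  f₁ : ∀ x β, D.S₁.ff x β ≤ 1
  f₂ : ∀ x β, D.S₂.ff x β ≤ 1

variable {D}

theorem _root_.Crest.Agent.R302.Inst.Side.fk_nonneg' {S : Side E} (hκ : ∀ e t, 0 ≤ S.κ e t)
    (x : E → ℤ) (β : S.Blk → ℤ) (z : E → ℤ) (a : E) : 0 ≤ S.fk x β z a := by
  unfold Side.fk
  split_ifs
  · exact zero_le_one
  · exact le_rfl
  · exact hκ _ _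

theorem _root_.Crest.Agent.R302.Inst.Side.ff_nonneg' {S : Side E} (hκ : ∀ e t, 0 ≤ S.κ e t)
    (hg : ∀ z, 0 ≤ S.g z) (x : E → ℤ) (β : S.Blk → ℤ) : 0 ≤ S.ff x β :=
  Finset.sum_nonneg fun z _ => mul_nonneg (hg z)
    (Finset.prod_nonneg fun a _ => Side.fk_nonneg' hκ x β z a)

theorem u_pos (σ : St D) : 0 < D.u σ := by unfold u; positivity

theorem FG_nonneg (h : D.OK) (σ : St D) : 0 ≤ D.FG σ :=
  mul_nonneg (Side.ff_nonneg' h.κ₁ (fun z => by rw [h.g₁]; exact zero_le_one) _ _)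
    (Side.ff_nonneg' h.κ₂ (fun z => by rw [h.g₂]; exact zero_le_one) _ _)

theorem FG_le_one (h : D.OK) (σ : St D) : D.FG σ ≤ 1 :=
  mul_le_one₀ (h.f₁ _ _) (Side.ff_nonneg' h.κ₂ (fun z => by rw [h.g₂]; exact zero_le_one) _ _)
    (h.f₂ _ _)

theorem nuG_nonneg (h : D.OK) (σ : St D) : 0 ≤ D.nuG σ := mul_nonneg (u_pos σ).le (FG_nonneg h σ)

theorem acc_nonneg (h : D.OK) (σ σ' : St D) : 0 ≤ D.acc σ σ' :=
  mul_nonneg (le_min zero_le_one (by positivity)) (FG_nonneg h σ')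

theorem acc_le_one (h : D.OK) (σ σ' : St D) : D.acc σ σ' ≤ 1 :=
  mul_le_one₀ (min_le_left _ _) (FG_nonneg h σ') (FG_le_one h σ')

theorem u_mul_min (σ σ' : St D) :
    D.u σ * min 1 (2 ^ (D.ex σ' - D.ex σ)) = min (D.u σ) (D.u σ') := by
  unfold u
  rw [mul_min_of_nonneg _ _ (by positivity), mul_one, ← zpow_add₀ (by norm_num)]
  congr 2
  ring

/-- **detailed balance** in explicit form -/
theorem nuG_acc (σ σ' : St D) :
    D.nuG σ * D.acc σ σ' = min (D.u σ) (D.u σ') * (D.FG σ * D.FG σ') := by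
  unfold nuG acc
  rw [← u_mul_min]
  ring

theorem isAcc (h : D.OK) (S : D.bx → D.bx → ℝ) :
    IsAcc (fun σ : D.bx => D.nuG σ.1) S (fun σ σ' => D.acc σ.1 σ'.1) :=
  ⟨fun _ _ => acc_nonneg h _ _, fun _ _ => acc_le_one h _ _, fun σ σ' _ => by
    rw [nuG_acc, nuG_acc, min_comm, mul_comm (D.FG σ.1)]⟩

/-- `ff` with the stage weight -/
theorem ff_S₁w (x : E → ℤ) (β : D.S₁.Blk → ℤ) :
    D.S₁w.ff x β = 2 ^ (-D.w β) * D.S₁.ff x β := by
  unfold Side.ff
  rw [Finset.mul_sum]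
  refine Finset.sum_congr rfl fun z _ => ?_
  by_cases hz : D.S₁.blk z = β
  · show D.S₁.g z * 2 ^ (-D.w (D.S₁.blk z)) * _ = _
    rw [hz]
    have : ∀ a, D.S₁w.fk x β z a = D.S₁.fk x β z a := fun a => rfl
    simp only [this]
    ring
  · obtain ⟨r, hr⟩ := Function.ne_iff.1 hz
    have h0 : ∏ a, D.S₁.fk x β z a = 0 := by
      refine Finset.prod_eq_zero (Finset.mem_univ r.1) ?_
      unfold Side.fk
      rw [dif_pos r.2, if_neg]
      exact hr
    have h1 : ∏ a, D.S₁w.fk x β z a = 0 := h0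
    rw [h0, h1, mul_zero, mul_zero, mul_zero]

/-- the weight is 532's `nu` -/
theorem nuG_eq (σ : St D) :
    D.nuG σ = nu D.S₁w D.S₂ D.θ D.μ σ.1 σ.2.1 σ.2.2 := by
  have h2 : (2 : ℝ) ≠ 0 := by norm_num
  have e1 : ∀ s : ℤ, D.θ ^ s.natAbs = 2 ^ (-(D.a : ℤ) * |s|) := by
    intro s
    unfold θ
    rw [← pow_mul, one_div, inv_pow, ← zpow_natCast, ← zpow_neg]
    congr 1
    push_cast [Int.natCast_natAbs]
    ring
  have e2 : ∀ (r : E) (b : ℤ), D.μ r ^ b = 2 ^ (D.ell r * b) := by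
    intro r b; unfold μ; rw [← zpow_mul]
  have e3 : ∀ (r : E) (b : ℤ), ((D.μ r)⁻¹) ^ b = 2 ^ (-(D.ell r * b)) := by
    intro r b; rw [inv_zpow, e2, zpow_neg]
  have p1 : ∀ {ι : Type _} (s : Finset ι) (f : ι → ℤ),
      ∏ i ∈ s, (2 : ℝ) ^ f i = 2 ^ ∑ i ∈ s, f i := by
    intro ι s f
    classical
    induction s using Finset.induction_on with
    | empty => simp
    | insert i s hi ih => rw [Finset.prod_insert hi, Finset.sum_insert hi, ih, zpow_add₀ h2]
  have hT : D.S₁w.T = D.S₁.T := rfl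
  have key : nu D.S₁w D.S₂ D.θ D.μ σ.1 σ.2.1 σ.2.2 =
      ((∏ r : D.S₁.Blk, D.θ ^ (σ.2.1 r - bs D.S₁.T σ.1 r).natAbs) *
        (∏ r : D.S₁.Blk, D.μ r ^ σ.2.1 r) * (2 ^ (-D.w σ.2.1) * D.S₁.ff σ.1 σ.2.1)) *
      ((∏ r : D.S₂.Blk, D.θ ^ (σ.2.2 r - bs D.S₂.T σ.1 r).natAbs) *
        (∏ r : D.S₂.Blk, ((D.μ r)⁻¹) ^ σ.2.2 r) * D.S₂.ff σ.1 σ.2.2) := by
    rw [← ff_S₁w]
    rfl
  rw [key]
  simp only [e1, e2, e3]
  unfold nuG u FG
  rw [show ∀ (A B W C A' B' C' : ℝ), A * B * (W * C) * (A' * B' * C') =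
    (A * A' * (B * B') * W) * (C * C') by intros; ring]
  rw [p1, p1, p1, p1, ← zpow_add₀ h2, ← zpow_add₀ h2, ← zpow_add₀ h2, ← zpow_add₀ h2]
  congr 2
  unfold ex
  rw [← Finset.mul_sum, ← Finset.mul_sum, Finset.sum_neg_distrib]
  ring

end SD

end Crest.Agent.R302.Stage
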