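import Mathlib
import Crest.Agent.R302.Lor151
import Crest.Agent.R302.Lz151
import Crest.Agent.R302.Facet907
import Crest.Agent.R302.Ff838
import Crest.Agent.R302.Inst532D
import Crest.Agent.R302.Ann425B
import Crest.Agent.R302.Stage536

-- ▼ part R302/Gau970A
section

/-!
R302 (helper970), block GAUGE, part A: elementary consequences of the Alexandrov-Fenchel inequality
for a symmetric function `N : (V → ℤ) → ℝ` all of whose second difference matrices
`N (β + e_u + e_v)` are `AF`.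

* `AF.two_mul` : `Q v v * Q u w ≤ 2 * Q v u * Q v w` for nonnegative entries;
* `cyc` : `N (e - f) * N (f - g) ≤ 2 * N 0 * N (e - g)`;
* `gauge` : the explicit product gauge `lam e = N 0 / N (e - f0)`.
-/

set_option autoImplicit false

namespace Crest.Agent.R302.Gau

open Finset Crest.Agent.R302.Lor

variable {V : Type*} [Fintype V] [DecidableEq V]

omit [DecidableEq V] in
theorem Q_add_right (A : V → V → ℝ) (x y y' : V → ℝ) : Q A x (y + y') = Q A x y + Q A x y' := by
  simp only [Q, Pi.add_apply, mul_add, add_mul, Finset.sum_add_distrib]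

omit [DecidableEq V] in
theorem Q_smul_right (A : V → V → ℝ) (t : ℝ) (x y : V → ℝ) : Q A x (t • y) = t * Q A x y := by
  simp only [Q, Pi.smul_apply, smul_eq_mul, Finset.mul_sum]
  exact Finset.sum_congr rfl fun a _ => Finset.sum_congr rfl fun b _ => by ring

omit [DecidableEq V] in
/-- reverse Khovanskii-Teissier inequality -/
theorem AF_two_mul {A : V → V → ℝ} (hA : ∀ a b, A a b = A b a) (h : AF A) {v u w : V → ℝ}
    (hvv : 0 ≤ Q A v v) (huu : 0 ≤ Q A u u) (hww : 0 ≤ Q A w w) (huv : 0 ≤ Q A u v)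
    (hwv : 0 ≤ Q A w v) :
    Q A v v * Q A u w ≤ 2 * (Q A u v * Q A w v) := by
  rcases hvv.eq_or_lt with h0 | hpos
  · rw [← h0, zero_mul]; positivity
  · -- B x y = Q x v * Q y v - Q v v * Q x y is positive semidefinite
    have key : ∀ t : ℝ, 0 ≤ (Q A u v + t * Q A w v) ^ 2
        - Q A v v * (Q A u u + 2 * t * Q A u w + t ^ 2 * Q A w w) := by
      intro t
      have h1 := h (u + t • w) v hvv
      have h2 : Q A (u + t • w) (u + t • w) = Q A u u + 2 * t * Q A u w + t ^ 2 * Q A w w := by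
        rw [Q_add_left, Q_add_right, Q_add_right, Q_smul_left, Q_smul_left, Q_smul_right,
          Q_smul_right, Q_comm hA w u]
        ring
      have h3 : Q A (u + t • w) v = Q A u v + t * Q A w v := by
        rw [Q_add_left, Q_smul_left]
      rw [h2, h3] at h1
      linarith
    -- discriminant
    set a := (Q A u v) ^ 2 - Q A v v * Q A u u with ha
    set b := Q A u v * Q A w v - Q A v v * Q A u w with hb
    set c := (Q A w v) ^ 2 - Q A v v * Q A w w with hc
    have key2 : ∀ t : ℝ, 0 ≤ c * (t * t) + (2 * b) * t + a := by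
      intro t
      have := key t
      nlinarith
    have hd := discrim_le_zero key2
    unfold discrim at hd
    have hb2 : b ^ 2 ≤ a * c := by nlinarith
    have ha0 : 0 ≤ a := by simpa using key2 0
    have ha1 : a ≤ (Q A u v) ^ 2 := by rw [ha]; nlinarith [mul_nonneg hvv huu]
    have hc1 : c ≤ (Q A w v) ^ 2 := by rw [hc]; nlinarith [mul_nonneg hvv hww]
    have hac : a * c ≤ (Q A u v * Q A w v) ^ 2 := by
      rw [mul_pow]
      rcases le_or_gt 0 c with hc0 | hc0
      · exact mul_le_mul ha1 hc1 hc0 (by positivity)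
      · have : a * c ≤ 0 := mul_nonpos_of_nonneg_of_nonpos ha0 hc0.le
        have h5 : 0 ≤ (Q A u v) ^ 2 * (Q A w v) ^ 2 := by positivity
        linarith
    have hb3 : |b| ≤ Q A u v * Q A w v :=
      abs_le_of_sq_le_sq (hb2.trans hac) (mul_nonneg huv hwv)
    have := neg_le_of_abs_le hb3
    rw [hb] at this
    linarith

/-- entries of the form at unit vectors -/
theorem Q_single (A : V → V → ℝ) (a b : V) :
    Q A (Pi.single a 1) (Pi.single b 1) = A a b := by
  unfold Q
  rw [Finset.sum_eq_single a, Finset.sum_eq_single b]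
  · simp
  · intro c _ hc; simp [hc]
  · simp
  · intro c _ hc
    apply Finset.sum_eq_zero
    intro d _
    simp [hc]
  · simp

/-- "Lorentzian": every second difference matrix is `AF` -/
def LorN (N : (V → ℤ) → ℝ) : Prop := ∀ β, AF (fun u v => N (β + ev u + ev v))

theorem LorN.sq_le {N : (V → ℤ) → ℝ} (h : LorN N) (h0 : ∀ β, 0 ≤ N β) (β : V → ℤ) (a b : V) :
    N (β + ev a + ev a) * N (β + ev b + ev b) ≤ (N (β + ev a + ev b)) ^ 2 := by
  have := h β (Pi.single a 1) (Pi.single b 1) (by rw [Q_single]; exact h0 _)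
  simpa only [Q_single] using this

theorem LorN.tri {N : (V → ℤ) → ℝ} (h : LorN N) (h0 : ∀ β, 0 ≤ N β) (β : V → ℤ) (v u w : V) :
    N (β + ev v + ev v) * N (β + ev u + ev w) ≤
      2 * (N (β + ev u + ev v) * N (β + ev w + ev v)) := by
  have := AF_two_mul (A := fun u v => N (β + ev u + ev v))
    (fun a b => by rw [add_right_comm]) (h β) (v := Pi.single v 1) (u := Pi.single u 1)
    (w := Pi.single w 1) (by rw [Q_single]; exact h0 _) (by rw [Q_single]; exact h0 _)
    (by rw [Q_single]; exact h0 _) (by rw [Q_single]; exact h0 _) (by rw [Q_single]; exact h0 _)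
  simpa only [Q_single] using this

/-- the cycle inequality -/
theorem cyc {N : (V → ℤ) → ℝ} (h : LorN N) (h0 : ∀ β, 0 ≤ N β) (e f g : V) :
    N (ev e - ev f) * N (ev f - ev g) ≤ 2 * (N 0 * N (ev e - ev g)) := by
  have := h.tri h0 (-ev f - ev g) f e g
  have e1 : (-ev f - ev g + ev f + ev f : V → ℤ) = ev f - ev g := by abel
  have e2 : (-ev f - ev g + ev e + ev g : V → ℤ) = ev e - ev f := by abel
  have e3 : (-ev f - ev g + ev e + ev f : V → ℤ) = ev e - ev g := by abel
  have e4 : (-ev f - ev g + ev g + ev f : V → ℤ) = 0 := by abel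
  rw [e1, e2, e3, e4] at this
  linarith


end Crest.Agent.R302.Gau
end

-- ▼ part R302/Soft151
section

/-!
R302 (helper151): M-convexity (`T34`) of soft weights
`c x = max { w z * ∏ q_j (t_j) : z ∈ J, x = z + ∑ t_j (e_{X_j} - e_{Y_j}) }`.
-/

set_option autoImplicit false

namespace Crest.Agent.R302.Lor

open Finset

variable {V : Type*} [Fintype V] [DecidableEq V]

/-- local exchange inequalities of an M-concave function (multiplicative form) -/
structure T34 (c : (V → ℤ) → ℝ) : Prop where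
  t3 : ∀ (β : V → ℤ) (u v w : V), u ≠ v → u ≠ w →
    c (β + ev u + ev u) * c (β + ev v + ev w) ≤ c (β + ev u + ev v) * c (β + ev u + ev w)
  t4 : ∀ (β : V → ℤ) (u v w z : V), u ≠ v → u ≠ w → u ≠ z → v ≠ w → v ≠ z → w ≠ z →
    c (β + ev u + ev v) * c (β + ev w + ev z) ≤
      max (c (β + ev u + ev w) * c (β + ev v + ev z)) (c (β + ev u + ev z) * c (β + ev v + ev w))


omit [Fintype V] in
/-- reflection preserves (T3), (T4) -/
theorem T34.reflect {c : (V → ℤ) → ℝ} (h : T34 c) (κ : V → ℤ) : T34 (fun γ => c (κ - γ)) where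
  t3 β u v w h1 h2 := by
    have := h.t3 (κ - β - ev u - ev u - ev v - ev w) u v w h1 h2
    have e1 : κ - β - ev u - ev u - ev v - ev w + ev u + ev u = κ - (β + ev v + ev w) := by abel
    have e2 : κ - β - ev u - ev u - ev v - ev w + ev v + ev w = κ - (β + ev u + ev u) := by abel
    have e3 : κ - β - ev u - ev u - ev v - ev w + ev u + ev v = κ - (β + ev u + ev w) := by abel
    have e4 : κ - β - ev u - ev u - ev v - ev w + ev u + ev w = κ - (β + ev u + ev v) := by abel
    rw [e1, e2, e3, e4] at this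
    linarith
  t4 β u v w z h1 h2 h3 h4 h5 h6 := by
    have := h.t4 (κ - β - ev u - ev v - ev w - ev z) u v w z h1 h2 h3 h4 h5 h6
    have e1 : κ - β - ev u - ev v - ev w - ev z + ev u + ev v = κ - (β + ev w + ev z) := by abel
    have e2 : κ - β - ev u - ev v - ev w - ev z + ev w + ev z = κ - (β + ev u + ev v) := by abel
    have e3 : κ - β - ev u - ev v - ev w - ev z + ev u + ev w = κ - (β + ev v + ev z) := by abel
    have e4 : κ - β - ev u - ev v - ev w - ev z + ev v + ev z = κ - (β + ev u + ev w) := by abel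
    have e5 : κ - β - ev u - ev v - ev w - ev z + ev u + ev z = κ - (β + ev v + ev w) := by abel
    have e6 : κ - β - ev u - ev v - ev w - ev z + ev v + ev w = κ - (β + ev u + ev z) := by abel
    rw [e1, e2, e3, e4, e5, e6] at this
    rw [mul_comm (c (κ - (β + ev v + ev z))), mul_comm (c (κ - (β + ev v + ev w)))] at this
    linarith

omit [Fintype V] in
theorem T34.shift {c : (V → ℤ) → ℝ} (h : T34 c) (κ : V → ℤ) : T34 (fun γ => c (γ + κ)) where
  t3 β u v w h1 h2 := by
    have := h.t3 (β + κ) u v w h1 h2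
    have e : ∀ a b : V → ℤ, β + κ + a + b = β + a + b + κ := fun a b => by abel
    simp only [e] at this
    exact this
  t4 β u v w z h1 h2 h3 h4 h5 h6 := by
    have := h.t4 (β + κ) u v w z h1 h2 h3 h4 h5 h6
    have e : ∀ a b : V → ℤ, β + κ + a + b = β + a + b + κ := fun a b => by abel
    simp only [e] at this
    exact this


/-! ### AF gives (T3), (T4) up to constants -/

theorem Q_two (A : V → V → ℝ) (u v : V) (s t : ℝ) (w z : V)
    (s' t' : ℝ) :
    Q A (s • Pi.single u 1 + t • Pi.single v 1) (s' • Pi.single w 1 + t' • Pi.single z 1)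
      = s * s' * A u w + s * t' * A u z + t * s' * A v w + t * t' * A v z := by
  rw [Q_add_left, Q_smul_left, Q_smul_left, Q_single_left, Q_single_left]
  have : ∀ a, row A (s' • Pi.single w 1 + t' • Pi.single z 1) a = s' * A a w + t' * A a z := by
    intro a
    have h := row_add2 A 0 w z s' t' a
    rw [zero_add] at h
    rw [h]
    have : row A 0 a = 0 := by simp [row]
    rw [this, zero_add]
  rw [this, this]
  ring

theorem AF.t3 {A : V → V → ℝ} (h : AF A) (hA : ∀ u v, A u v = A v u) (h0 : ∀ u v, 0 ≤ A u v)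
    (u v w : V) : A u u * A v w ≤ 2 * (A u v * A u w) := by
  have key : ∀ η : ℝ, 0 < η → A u u * A v w ≤ 2 * ((A u v + η) * (A u w + η)) := by
    intro η hη
    have huv := h0 u v
    have huw := h0 u w
    set s := A u w + η with hs
    set t := A u v + η with ht
    have hspos : 0 < s := by linarith
    have htpos : 0 < t := by linarith
    have h1 := h (s • Pi.single v 1 + t • Pi.single w 1) ((1 : ℝ) • Pi.single u 1 + (0 : ℝ) •
      Pi.single u 1)
    rw [Q_two A, Q_two A, Q_two A] at h1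
    have h2 := h1 (by
      have := h0 u u
      nlinarith)
    rw [hA w v, hA v u, hA w u] at h2
    have h3 : 0 ≤ A u u := h0 u u
    have h4 : 2 * (s * t) * (A u u * A v w) ≤ (2 * (s * t)) ^ 2 := by
      have e : (s * s * A v v + s * t * A v w + t * s * A v w + t * t * A w w)
          * (1 * 1 * A u u + 1 * 0 * A u u + 0 * 1 * A u u + 0 * 0 * A u u)
          ≤ (s * A u v + t * A u w) ^ 2 := by
        refine h2.trans (le_of_eq ?_); ring
      have e2 : 2 * (s * t) * (A u u * A v w) ≤ (s * s * A v v + s * t * A v w + t * s * A v w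
          + t * t * A w w) * (1 * 1 * A u u + 1 * 0 * A u u + 0 * 1 * A u u + 0 * 0 * A u u) := by
        have := mul_nonneg (mul_nonneg (mul_nonneg hspos.le hspos.le) (h0 v v)) h3
        have := mul_nonneg (mul_nonneg (mul_nonneg htpos.le htpos.le) (h0 w w)) h3
        nlinarith
      refine e2.trans (e.trans ?_)
      refine pow_le_pow_left₀ (by positivity) ?_ 2
      have : A u v ≤ t := by linarith
      have : A u w ≤ s := by linarith
      nlinarith
    have h5 : 0 < 2 * (s * t) := by positivity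
    have h6 : A u u * A v w ≤ 2 * (s * t) := by
      by_contra hcon
      push Not at hcon
      nlinarith [mul_lt_mul_of_pos_left hcon h5]
    linarith [mul_comm s t]
  have hc : Filter.Tendsto (fun η : ℝ => 2 * ((A u v + η) * (A u w + η)))
      (nhdsWithin 0 (Set.Ioi 0)) (nhds (2 * (A u v * A u w))) := by
    have : Continuous fun η : ℝ => 2 * ((A u v + η) * (A u w + η)) := by fun_prop
    have h0 := this.tendsto 0
    simp only [add_zero] at h0
    exact h0.mono_left nhdsWithin_le_nhds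
  exact ge_of_tendsto hc (Filter.eventually_of_mem self_mem_nhdsWithin fun η hη => key η hη)

theorem AF.t4 {A : V → V → ℝ} (h : AF A) (hA : ∀ u v, A u v = A v u) (h0 : ∀ u v, 0 ≤ A u v)
    (u v w z : V) : A u v * A w z ≤ 4 * max (A u w * A v z) (A u z * A v w) := by
  have key : ∀ η : ℝ, 0 < η → A u v * A w z ≤
      4 * max ((A u w + η) * (A v z + η)) ((A u z + η) * (A v w + η)) := by
    intro η hη
    have p1 : 0 < A u w + η := by linarith [h0 u w]
    have p2 : 0 < A u z + η := by linarith [h0 u z]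
    have p3 : 0 < A v w + η := by linarith [h0 v w]
    have p4 : 0 < A v z + η := by linarith [h0 v z]
    obtain ⟨a1, ha1, e1⟩ : ∃ a : ℝ, 0 < a ∧ A u w + η = a ^ 2 :=
      ⟨√(A u w + η), Real.sqrt_pos.2 p1, (Real.sq_sqrt p1.le).symm⟩
    obtain ⟨a2, ha2, e2⟩ : ∃ a : ℝ, 0 < a ∧ A u z + η = a ^ 2 :=
      ⟨√(A u z + η), Real.sqrt_pos.2 p2, (Real.sq_sqrt p2.le).symm⟩
    obtain ⟨b1, hb1, e3⟩ : ∃ a : ℝ, 0 < a ∧ A v w + η = a ^ 2 :=
      ⟨√(A v w + η), Real.sqrt_pos.2 p3, (Real.sq_sqrt p3.le).symm⟩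
    obtain ⟨b2, hb2, e4⟩ : ∃ a : ℝ, 0 < a ∧ A v z + η = a ^ 2 :=
      ⟨√(A v z + η), Real.sqrt_pos.2 p4, (Real.sq_sqrt p4.le).symm⟩
    rw [e1, e2, e3, e4]
    have h1 := h ((b1 * b2) • Pi.single u 1 + (a1 * a2) • Pi.single v 1)
      ((a2 * b2) • Pi.single w 1 + (a1 * b1) • Pi.single z 1)
    rw [Q_two A, Q_two A, Q_two A] at h1
    have h2 := h1 (by
      have := h0 w w; have := h0 w z; have := h0 z w; have := h0 z z
      positivity)
    rw [hA v u, hA z w] at h2
    set m := a1 * a2 * b1 * b2 with hm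
    have hmpos : 0 < m := by positivity
    have h3 : 4 * m ^ 2 * (A u v * A w z) ≤
        4 * m ^ 2 * (a1 * b2 + a2 * b1) ^ 2 := by
      have l1 : 4 * m ^ 2 * (A u v * A w z) ≤
          (b1 * b2 * (b1 * b2) * A u u + b1 * b2 * (a1 * a2) * A u v
            + a1 * a2 * (b1 * b2) * A u v + a1 * a2 * (a1 * a2) * A v v) *
          (a2 * b2 * (a2 * b2) * A w w + a2 * b2 * (a1 * b1) * A w z
            + a1 * b1 * (a2 * b2) * A w z + a1 * b1 * (a1 * b1) * A z z) := by
        have q1 : 0 ≤ A u v := h0 u v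
        have q2 : 0 ≤ A w z := h0 w z
        have q3 : 0 ≤ A u u := h0 u u
        have q4 : 0 ≤ A v v := h0 v v
        have q5 : 0 ≤ A w w := h0 w w
        have q6 : 0 ≤ A z z := h0 z z
        have l2 : 2 * m * A u v ≤ b1 * b2 * (b1 * b2) * A u u + b1 * b2 * (a1 * a2) * A u v
            + a1 * a2 * (b1 * b2) * A u v + a1 * a2 * (a1 * a2) * A v v := by
          have r1 : 0 ≤ b1 * b2 * (b1 * b2) * A u u := by positivity
          have r2 : 0 ≤ a1 * a2 * (a1 * a2) * A v v := by positivity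
          rw [hm]; nlinarith
        have l3 : 2 * m * A w z ≤ a2 * b2 * (a2 * b2) * A w w + a2 * b2 * (a1 * b1) * A w z
            + a1 * b1 * (a2 * b2) * A w z + a1 * b1 * (a1 * b1) * A z z := by
          have r1 : 0 ≤ a2 * b2 * (a2 * b2) * A w w := by positivity
          have r2 : 0 ≤ a1 * b1 * (a1 * b1) * A z z := by positivity
          rw [hm]; nlinarith
        calc 4 * m ^ 2 * (A u v * A w z) = (2 * m * A u v) * (2 * m * A w z) := by ring
          _ ≤ _ := mul_le_mul l2 l3 (by positivity) (by positivity)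
      refine (l1.trans h2).trans ?_
      have l4 : b1 * b2 * (a2 * b2) * A u w + b1 * b2 * (a1 * b1) * A u z
          + a1 * a2 * (a2 * b2) * A v w + a1 * a2 * (a1 * b1) * A v z
          ≤ 2 * m * (a1 * b2 + a2 * b1) := by
        have r1 : A u w ≤ a1 ^ 2 := by linarith
        have r2 : A u z ≤ a2 ^ 2 := by linarith
        have r3 : A v w ≤ b1 ^ 2 := by linarith
        have r4 : A v z ≤ b2 ^ 2 := by linarith
        have s1 := mul_le_mul_of_nonneg_left r1 (by positivity : 0 ≤ b1 * b2 * (a2 * b2))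
        have s2 := mul_le_mul_of_nonneg_left r2 (by positivity : 0 ≤ b1 * b2 * (a1 * b1))
        have s3 := mul_le_mul_of_nonneg_left r3 (by positivity : 0 ≤ a1 * a2 * (a2 * b2))
        have s4 := mul_le_mul_of_nonneg_left r4 (by positivity : 0 ≤ a1 * a2 * (a1 * b1))
        calc _ ≤ b1 * b2 * (a2 * b2) * a1 ^ 2 + b1 * b2 * (a1 * b1) * a2 ^ 2
              + a1 * a2 * (a2 * b2) * b1 ^ 2 + a1 * a2 * (a1 * b1) * b2 ^ 2 := by linarith
          _ = _ := by rw [hm]; ring
      have l5 : 0 ≤ b1 * b2 * (a2 * b2) * A u w + b1 * b2 * (a1 * b1) * A u z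
          + a1 * a2 * (a2 * b2) * A v w + a1 * a2 * (a1 * b1) * A v z := by
        have := h0 u w; have := h0 u z; have := h0 v w; have := h0 v z
        positivity
      calc _ ≤ (2 * m * (a1 * b2 + a2 * b1)) ^ 2 := pow_le_pow_left₀ l5 l4 2
        _ = _ := by ring
    have h4 : A u v * A w z ≤ (a1 * b2 + a2 * b1) ^ 2 := by
      have : 0 < 4 * m ^ 2 := by positivity
      exact le_of_mul_le_mul_left h3 this
    refine h4.trans ?_
    have n1 : 0 < a1 * b2 := by positivity
    have n2 : 0 < a2 * b1 := by positivity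
    rcases le_total (a1 * b2) (a2 * b1) with hle | hle
    · refine le_trans ?_ (mul_le_mul_of_nonneg_left (le_max_right _ _) (by norm_num))
      nlinarith
    · refine le_trans ?_ (mul_le_mul_of_nonneg_left (le_max_left _ _) (by norm_num))
      nlinarith
  have hc : Filter.Tendsto (fun η : ℝ => 4 * max ((A u w + η) * (A v z + η))
      ((A u z + η) * (A v w + η))) (nhdsWithin 0 (Set.Ioi 0))
      (nhds (4 * max (A u w * A v z) (A u z * A v w))) := by
    have : Continuous fun η : ℝ => 4 * max ((A u w + η) * (A v z + η))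
      ((A u z + η) * (A v w + η)) := by fun_prop
    have h0 := this.tendsto 0
    simp only [add_zero] at h0
    exact h0.mono_left nhdsWithin_le_nhds
  exact ge_of_tendsto hc (Filter.eventually_of_mem self_mem_nhdsWithin fun η hη => key η hη)

/-! ### soft weights -/

/-- values of decompositions `x = z + ∑ t_j (e_{X_j} - e_{Y_j})`, `z ∈ J`:
`r = w z * ∏ q_j (t_j)`, all `|t_j| ≤ N`. -/
inductive Dec (J : Set (V → ℤ)) (w : (V → ℤ) → ℝ) (N : ℕ) :
    List (V × V × (ℤ → ℝ)) → (V → ℤ) → ℝ → Prop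
  | nil {z : V → ℤ} : z ∈ J → Dec J w N [] z (w z)
  | cons {D : List (V × V × (ℤ → ℝ))} {x : V → ℤ} {r : ℝ} (X Y : V) (q : ℤ → ℝ) (t : ℤ) :
      |t| ≤ N → Dec J w N D x r →
      Dec J w N ((X, Y, q) :: D) (x + t • (ev X - ev Y)) (q t * r)

omit [Fintype V] in
theorem Dec.mono {J : Set (V → ℤ)} {w : (V → ℤ) → ℝ} {N M : ℕ} (hNM : N ≤ M)
    {D : List (V × V × (ℤ → ℝ))} {x : V → ℤ} {r : ℝ} (h : Dec J w N D x r) : Dec J w M D x r := by
  induction h with
  | nil hz => exact Dec.nil hz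
  | cons X Y q t ht _ ih => exact Dec.cons X Y q t (ht.trans (by exact_mod_cast hNM)) ih



/-- admissible kernels -/
def LC (D : List (V × V × (ℤ → ℝ))) : Prop :=
  ∀ p ∈ D, (∀ t : ℤ, 0 < p.2.2 t) ∧ ∀ t : ℤ, p.2.2 (t - 1) * p.2.2 (t + 1) ≤ p.2.2 t ^ 2

/-- powers of the kernels -/
def Dpow (D : List (V × V × (ℤ → ℝ))) (τ : ℕ) : List (V × V × (ℤ → ℝ)) :=
  D.map fun p => (p.1, p.2.1, fun t => p.2.2 t ^ τ)

omit [Fintype V] [DecidableEq V] in
theorem LC.pow {D : List (V × V × (ℤ → ℝ))} (h : LC D) (τ : ℕ) : LC (Dpow D τ) := by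
  intro p hp
  obtain ⟨p', hp', rfl⟩ := List.mem_map.1 hp
  have := h p' hp'
  refine ⟨fun t => pow_pos (this.1 t) τ, fun t => ?_⟩
  show p'.2.2 (t - 1) ^ τ * p'.2.2 (t + 1) ^ τ ≤ (p'.2.2 t ^ τ) ^ 2
  rw [← mul_pow, ← pow_mul, mul_comm τ 2, pow_mul]
  exact pow_le_pow_left₀ (mul_nonneg (this.1 _).le (this.1 _).le) (this.2 t) τ








end Crest.Agent.R302.Lor
end

-- ▼ part R302/MConv151
section

/-!
R302 (helper151): integer points of base polytopes are M-convex; products; instances.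
-/

set_option autoImplicit false

namespace Crest.Agent.R302.Lor

open Finset Crest.Agent.R302.Facet

section Base

variable {V : Type*} [Fintype V] [DecidableEq V]

/-- **integer points of a base polytope are M-convex** -/
theorem mcx_memJ {r : Finset V → ℤ} {R : ℤ} (hr : SubM r R) : MCx {x : V → ℤ | MemJ r R x} where
  deg x hx y hy := by rw [hx.2, hy.2]
  exch x hx y hy u hu := by
    obtain ⟨hx1, hx2⟩ := hx
    obtain ⟨hy1, hy2⟩ := hy
    -- smallest `y`-tight set containing `u`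
    obtain ⟨D, hD, hDmin⟩ := Finset.exists_min_image
      ((univ : Finset (Finset V)).filter fun A => u ∈ A ∧ ∑ a ∈ A, y a = r A) Finset.card
      ⟨univ, by simp [hy2, hr.univ]⟩
    simp only [mem_filter, mem_univ, true_and] at hD hDmin
    have hDsub : ∀ A, u ∈ A → ∑ a ∈ A, y a = r A → D ⊆ A := by
      intro A huA hA
      have h1 := hr.sub A D
      have h2 := hy1 (A ∪ D)
      have h3 := hy1 (A ∩ D)
      have h4 : ∑ a ∈ A ∪ D, y a + ∑ a ∈ A ∩ D, y a = ∑ a ∈ A, y a + ∑ a ∈ D, y a :=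
        Finset.sum_union_inter
      have h5 : ∑ a ∈ A ∩ D, y a = r (A ∩ D) := by linarith [hD.2]
      have h6 := hDmin (A ∩ D) ⟨mem_inter.2 ⟨huA, hD.1⟩, h5⟩
      have h7 : A ∩ D = D := Finset.eq_of_subset_of_card_le inter_subset_right h6
      rw [← h7]; exact inter_subset_left
    -- largest `x`-tight set not containing `u`
    obtain ⟨F, hF, hFmax⟩ := Finset.exists_max_image
      ((univ : Finset (Finset V)).filter fun A => u ∉ A ∧ ∑ a ∈ A, x a = r A) Finset.card
      ⟨∅, by simp [hr.empty]⟩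
    simp only [mem_filter, mem_univ, true_and] at hF hFmax
    have hFsup : ∀ A, u ∉ A → ∑ a ∈ A, x a = r A → A ⊆ F := by
      intro A huA hA
      have h1 := hr.sub A F
      have h2 := hx1 (A ∪ F)
      have h3 := hx1 (A ∩ F)
      have h4 : ∑ a ∈ A ∪ F, x a + ∑ a ∈ A ∩ F, x a = ∑ a ∈ A, x a + ∑ a ∈ F, x a :=
        Finset.sum_union_inter
      have h5 : ∑ a ∈ A ∪ F, x a = r (A ∪ F) := by linarith [hF.2]
      have h6 := hFmax (A ∪ F) ⟨by simp [huA, hF.1], h5⟩
      have h7 : F = A ∪ F := Finset.eq_of_subset_of_card_le subset_union_right h6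
      rw [h7]; exact subset_union_left
    -- the exchange partner
    obtain ⟨v, hvD, hvF, hv⟩ : ∃ v, v ∈ D ∧ v ∉ F ∧ x v < y v := by
      by_contra hcon
      push Not at hcon
      have h1 := hr.sub D F
      have h2 := hx1 (D ∪ F)
      have h3 := hy1 (D ∩ F)
      have e1 : ∑ a ∈ D \ F, y a + ∑ a ∈ D ∩ F, y a = ∑ a ∈ D, y a := by
        rw [← Finset.sum_union (Finset.disjoint_left.2 fun a ha hb =>
          (mem_sdiff.1 ha).2 (mem_inter.1 hb).2), Finset.sdiff_union_inter]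
      have e2 : ∑ a ∈ D ∪ F, x a = ∑ a ∈ D \ F, x a + ∑ a ∈ F, x a := by
        rw [← Finset.sum_union (Finset.sdiff_disjoint), Finset.sdiff_union_self_eq_union]
      have h4 : ∑ a ∈ D \ F, y a < ∑ a ∈ D \ F, x a := by
        refine Finset.sum_lt_sum (fun a ha => ?_) ⟨u, mem_sdiff.2 ⟨hD.1, hF.1⟩, hu⟩
        rw [mem_sdiff] at ha
        exact hcon a ha.1 ha.2
      linarith [hD.2, hF.2]
    have huv : u ≠ v := by rintro rfl; omega
    have hsum : ∀ (z : V → ℤ) (a b : V) (A : Finset V), ∑ w ∈ A, (z - ev a + ev b) w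
        = ∑ w ∈ A, z w - (if a ∈ A then 1 else 0) + (if b ∈ A then 1 else 0) := by
      intro z a b A
      have h1 : ∀ a : V, ∑ w ∈ A, ev a w = if a ∈ A then 1 else 0 := by
        intro a
        by_cases h : a ∈ A
        · rw [if_pos h, Finset.sum_eq_single a]
          · exact ev_self a
          · intro b _ hb; exact ev_ne hb.symm
          · intro h'; exact absurd h h'
        · rw [if_neg h]
          exact Finset.sum_eq_zero fun w hw => ev_ne (by rintro rfl; exact h hw)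
      simp only [Pi.add_apply, Pi.sub_apply, Finset.sum_add_distrib, Finset.sum_sub_distrib, h1]
    refine ⟨v, hv, ⟨fun A => ?_, ?_⟩, ⟨fun A => ?_, ?_⟩⟩
    · rw [hsum]
      have h1 := hx1 A
      by_cases hvA : v ∈ A
      · by_cases huA : u ∈ A
        · simp [hvA, huA, h1]
        · have : ∑ a ∈ A, x a ≠ r A := fun h => hvF (hFsup A huA h hvA)
          simp only [hvA, huA, if_true, if_false]
          omega
      · by_cases huA : u ∈ A
        · simp only [hvA, huA, if_true, if_false]; omega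
        · simp [hvA, huA, h1]
    · have := hsum x u v univ
      simp only [mem_univ, if_true] at this
      omega
    · have e : y + ev u - ev v = y - ev v + ev u := by abel
      rw [e, hsum]
      have h1 := hy1 A
      by_cases huA : u ∈ A
      · by_cases hvA : v ∈ A
        · simp [hvA, huA, h1]
        · have : ∑ a ∈ A, y a ≠ r A := fun h => hvA (hDsub A huA h hvD)
          simp only [hvA, huA, if_true, if_false]
          omega
      · by_cases hvA : v ∈ A
        · simp only [hvA, huA, if_true, if_false]; omega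
        · simp [hvA, huA, h1]
    · have e : y + ev u - ev v = y - ev v + ev u := by abel
      rw [e]
      have := hsum y v u univ
      simp only [mem_univ, if_true] at this
      omega

/-- reflection of an M-convex set -/
theorem MCx.reflect {S : Set (V → ℤ)} (h : MCx S) (κ : V → ℤ) : MCx {x | κ - x ∈ S} where
  deg x hx y hy := by
    have := h.deg _ hx _ hy
    simp only [Pi.sub_apply, Finset.sum_sub_distrib] at this
    omega
  exch x hx y hy u hu := by
    obtain ⟨v, hv, h1, h2⟩ := h.exch _ hy _ hx u (by simp only [Pi.sub_apply]; omega)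
    refine ⟨v, by simp only [Pi.sub_apply] at hv; omega, ?_, ?_⟩
    · show κ - (x - ev u + ev v) ∈ S
      have e : κ - (x - ev u + ev v) = κ - x + ev u - ev v := by abel
      rw [e]; exact h2
    · show κ - (y + ev u - ev v) ∈ S
      have e : κ - (y + ev u - ev v) = κ - y - ev u + ev v := by abel
      rw [e]; exact h1

/-- indicator of the integer points of a base polytope -/
theorem Lz.memJ {r : Finset V → ℤ} {R : ℤ} (hr : SubM r R) {c : (V → ℤ) → ℝ}
    (hc1 : ∀ γ, MemJ r R γ → c γ = 1) (hc0 : ∀ γ, ¬ MemJ r R γ → c γ = 0) : Lz R c :=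
  Lz.indicator (mcx_memJ hr) (fun _ hx => hx.2) hc1 hc0

/-- reflected indicator -/
theorem Lz.memJ_reflect {r : Finset V → ℤ} {R : ℤ} (hr : SubM r R) (κ : V → ℤ)
    {c : (V → ℤ) → ℝ} (hc1 : ∀ γ, MemJ r R (κ - γ) → c γ = 1)
    (hc0 : ∀ γ, ¬ MemJ r R (κ - γ) → c γ = 0) : Lz (∑ v, κ v - R) c := by
  refine Lz.indicator ((mcx_memJ hr).reflect κ) (fun x hx => ?_) hc1 hc0
  have := hx.2
  simp only [Pi.sub_apply, Finset.sum_sub_distrib] at this
  omega

end Base

/-! ### products -/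

section Prod

variable {V₁ V₂ : Type*} [Fintype V₁] [DecidableEq V₁] [Fintype V₂] [DecidableEq V₂]

/-- product weight on the disjoint union -/
def pw (c₁ : (V₁ → ℤ) → ℝ) (c₂ : (V₂ → ℤ) → ℝ) : (V₁ ⊕ V₂ → ℤ) → ℝ :=
  fun β => c₁ (fun v => β (Sum.inl v)) * c₂ (fun v => β (Sum.inr v))

theorem ev_inl_inl (u : V₁) : (fun v => ev (Sum.inl u : V₁ ⊕ V₂) (Sum.inl v)) = ev u := by
  funext v
  by_cases h : u = v
  · subst h; rw [ev_self, ev_self]
  · rw [ev_ne h, ev_ne (by simpa using h)]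

theorem ev_inl_inr (u : V₁) : (fun v => ev (Sum.inl u : V₁ ⊕ V₂) (Sum.inr v)) = 0 := by
  funext v; exact ev_ne (by simp)

theorem ev_inr_inl (u : V₂) : (fun v => ev (Sum.inr u : V₁ ⊕ V₂) (Sum.inl v)) = 0 := by
  funext v; exact ev_ne (by simp)

theorem ev_inr_inr (u : V₂) : (fun v => ev (Sum.inr u : V₁ ⊕ V₂) (Sum.inr v)) = ev u := by
  funext v
  by_cases h : u = v
  · subst h; rw [ev_self, ev_self]
  · rw [ev_ne h, ev_ne (by simpa using h)]

omit [Fintype V₁] [DecidableEq V₁] [Fintype V₂] [DecidableEq V₂] in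
theorem inl_add (β γ : V₁ ⊕ V₂ → ℤ) : (fun v => (β + γ) (Sum.inl v))
    = (fun v => β (Sum.inl v)) + fun v => γ (Sum.inl v) := rfl

omit [Fintype V₁] [DecidableEq V₁] [Fintype V₂] [DecidableEq V₂] in
theorem inr_add (β γ : V₁ ⊕ V₂ → ℤ) : (fun v => (β + γ) (Sum.inr v))
    = (fun v => β (Sum.inr v)) + fun v => γ (Sum.inr v) := rfl

/-- base AF for products -/
theorem af_pw {d₁ d₂ : ℤ} {c₁ : (V₁ → ℤ) → ℝ} {c₂ : (V₂ → ℤ) → ℝ} (h₁ : Lz d₁ c₁)
    (h₂ : Lz d₂ c₂) (β : V₁ ⊕ V₂ → ℤ) : AF (fun u v => pw c₁ c₂ (β + ev u + ev v)) := by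
  set β₁ : V₁ → ℤ := fun v => β (Sum.inl v) with hβ₁
  set β₂ : V₂ → ℤ := fun v => β (Sum.inr v) with hβ₂
  have e11 : ∀ u v : V₁, pw c₁ c₂ (β + ev (Sum.inl u) + ev (Sum.inl v))
      = c₁ (β₁ + ev u + ev v) * c₂ β₂ := by
    intro u v
    unfold pw
    rw [inl_add, inl_add, inr_add, inr_add, ev_inl_inl, ev_inl_inl, ev_inl_inr, ev_inl_inr,
      add_zero, add_zero]
  have e12 : ∀ (u : V₁) (v : V₂), pw c₁ c₂ (β + ev (Sum.inl u) + ev (Sum.inr v))
      = c₁ (β₁ + ev u) * c₂ (β₂ + ev v) := by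
    intro u v
    unfold pw
    rw [inl_add, inl_add, inr_add, inr_add, ev_inl_inl, ev_inr_inl, ev_inl_inr, ev_inr_inr,
      add_zero, add_zero]
  have e21 : ∀ (u : V₂) (v : V₁), pw c₁ c₂ (β + ev (Sum.inr u) + ev (Sum.inl v))
      = c₁ (β₁ + ev v) * c₂ (β₂ + ev u) := by
    intro u v
    rw [add_right_comm, e12]
  have e22 : ∀ u v : V₂, pw c₁ c₂ (β + ev (Sum.inr u) + ev (Sum.inr v))
      = c₁ β₁ * c₂ (β₂ + ev u + ev v) := by
    intro u v
    unfold pw
    rw [inl_add, inl_add, inr_add, inr_add, ev_inr_inl, ev_inr_inl, ev_inr_inr, ev_inr_inr,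
      add_zero, add_zero]
  have hs₁ : ∀ u : V₁, ∑ v, (β₁ + ev u) v = ∑ v, β₁ v + 1 := fun u => by
    simp only [Pi.add_apply, Finset.sum_add_distrib, sum_ev]
  have hs₂ : ∀ u : V₂, ∑ v, (β₂ + ev u) v = ∑ v, β₂ v + 1 := fun u => by
    simp only [Pi.add_apply, Finset.sum_add_distrib, sum_ev]
  -- the three slices
  by_cases hA : ∑ v, β₂ v = d₂
  · -- only the (1,1) block
    have z12 : ∀ v : V₂, c₂ (β₂ + ev v) = 0 := fun v => by
      by_contra h
      have := h₂.deg _ h
      rw [hs₂] at this; omega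
    have z22 : ∀ u v : V₂, c₂ (β₂ + ev u + ev v) = 0 := fun u v => by
      by_contra h
      have := h₂.deg _ h
      simp only [Pi.add_apply, Finset.sum_add_distrib, sum_ev] at this
      omega
    refine (h₁.af [] (by simp) β₁).pull (h₂.nonneg β₂) (fun x v => x (Sum.inl v)) ?_
    intro x y
    unfold Q
    rw [Fintype.sum_sum_type]
    simp only [Fintype.sum_sum_type, e11, e12, e21, e22, z12, z22, mul_zero,
      Finset.sum_const_zero, add_zero, mat, br_nil, Finset.mul_sum]
    exact Finset.sum_congr rfl fun u _ => Finset.sum_congr rfl fun v _ => by ring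
  by_cases hB : ∑ v, β₁ v = d₁
  · have z11 : ∀ u v : V₁, c₁ (β₁ + ev u + ev v) = 0 := fun u v => by
      by_contra h
      have := h₁.deg _ h
      simp only [Pi.add_apply, Finset.sum_add_distrib, sum_ev] at this
      omega
    have z12 : ∀ v : V₁, c₁ (β₁ + ev v) = 0 := fun v => by
      by_contra h
      have := h₁.deg _ h
      rw [hs₁] at this; omega
    refine (h₂.af [] (by simp) β₂).pull (h₁.nonneg β₁) (fun x v => x (Sum.inr v)) ?_
    intro x y
    unfold Q
    rw [Fintype.sum_sum_type]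
    simp only [Fintype.sum_sum_type, e11, e12, e21, e22, z12, z11, zero_mul, mul_zero,
      Finset.sum_const_zero, zero_add, mat, br_nil, Finset.mul_sum]
    exact Finset.sum_congr rfl fun u _ => Finset.sum_congr rfl fun v _ => by ring
  · -- rank one bipartite
    have z11 : ∀ u v : V₁, pw c₁ c₂ (β + ev (Sum.inl u) + ev (Sum.inl v)) = 0 := fun u v => by
      rw [e11]
      have : c₂ β₂ = 0 := by by_contra h; exact hA (h₂.deg _ h)
      rw [this, mul_zero]
    have z22 : ∀ u v : V₂, pw c₁ c₂ (β + ev (Sum.inr u) + ev (Sum.inr v)) = 0 := fun u v => by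
      rw [e22]
      have : c₁ β₁ = 0 := by by_contra h; exact hB (h₁.deg _ h)
      rw [this, zero_mul]
    intro x y _
    set a : (V₁ ⊕ V₂ → ℝ) → ℝ := fun x => ∑ u, x (Sum.inl u) * c₁ (β₁ + ev u) with ha
    set b : (V₁ ⊕ V₂ → ℝ) → ℝ := fun x => ∑ u, x (Sum.inr u) * c₂ (β₂ + ev u) with hb
    have hQ : ∀ x y, Q (fun u v => pw c₁ c₂ (β + ev u + ev v)) x y
        = a x * b y + a y * b x := by
      intro x y
      unfold Q
      rw [Fintype.sum_sum_type]
      simp only [Fintype.sum_sum_type, z11, z22, e12, e21, mul_zero, Finset.sum_const_zero,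
        zero_add, add_zero, ha, hb, Finset.sum_mul_sum]
      rw [Finset.sum_comm (s := (univ : Finset V₂))]
      congr 1
      · exact Finset.sum_congr rfl fun u _ => Finset.sum_congr rfl fun v _ => by ring
      · exact Finset.sum_congr rfl fun u _ => Finset.sum_congr rfl fun v _ => by ring
    rw [hQ, hQ, hQ]
    nlinarith [sq_nonneg (a x * b y - a y * b x)]

theorem mcx_prod_hyper (d₁ d₂ : ℤ) : MCx {γ : V₁ ⊕ V₂ → ℤ |
    ∑ v, γ (Sum.inl v) = d₁ ∧ ∑ v, γ (Sum.inr v) = d₂} where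
  deg x hx y hy := by
    rw [Fintype.sum_sum_type, Fintype.sum_sum_type, hx.1, hx.2, hy.1, hy.2]
  exch x hx y hy u hu := by
    have hs1 : ∀ (u : V₁), ∑ v, ev (Sum.inl u : V₁ ⊕ V₂) (Sum.inl v) = 1 := fun u => by
      rw [ev_inl_inl u]; exact sum_ev u
    have hs2 : ∀ (u : V₁), ∑ v, ev (Sum.inl u : V₁ ⊕ V₂) (Sum.inr v) = 0 := fun u =>
      Finset.sum_eq_zero fun v _ => ev_ne (by simp)
    have hs3 : ∀ (u : V₂), ∑ v, ev (Sum.inr u : V₁ ⊕ V₂) (Sum.inl v) = 0 := fun u =>
      Finset.sum_eq_zero fun v _ => ev_ne (by simp)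
    have hs4 : ∀ (u : V₂), ∑ v, ev (Sum.inr u : V₁ ⊕ V₂) (Sum.inr v) = 1 := fun u => by
      rw [ev_inr_inr u]; exact sum_ev u
    obtain ⟨hx1, hx2⟩ := hx
    obtain ⟨hy1, hy2⟩ := hy
    cases u with
    | inl u =>
      obtain ⟨v, hv, _, _⟩ := (mcx_hyper d₁).exch (fun v => x (Sum.inl v)) hx1
        (fun v => y (Sum.inl v)) hy1 u hu
      refine ⟨Sum.inl v, hv, ⟨?_, ?_⟩, ⟨?_, ?_⟩⟩ <;>
        simp only [Pi.add_apply, Pi.sub_apply, Finset.sum_add_distrib, Finset.sum_sub_distrib,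
          hs1, hs2, hx1, hx2, hy1, hy2] <;> omega
    | inr u =>
      obtain ⟨v, hv, _, _⟩ := (mcx_hyper d₂).exch (fun v => x (Sum.inr v)) hx2
        (fun v => y (Sum.inr v)) hy2 u hu
      refine ⟨Sum.inr v, hv, ⟨?_, ?_⟩, ⟨?_, ?_⟩⟩ <;>
        simp only [Pi.add_apply, Pi.sub_apply, Finset.sum_add_distrib, Finset.sum_sub_distrib,
          hs3, hs4, hx1, hx2, hy1, hy2] <;> omega

/-- **products of Lorentzian weights are Lorentzian** -/
theorem Lz.prod {d₁ d₂ : ℤ} {c₁ : (V₁ → ℤ) → ℝ} {c₂ : (V₂ → ℤ) → ℝ} (h₁ : Lz d₁ c₁)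
    (h₂ : Lz d₂ c₂) {C₁ C₂ : ℝ} (hC₁ : ∀ β, c₁ β ≤ C₁) (hC₂ : ∀ β, c₂ β ≤ C₂) :
    Lz (d₁ + d₂) (pw c₁ c₂) := by
  have hfull : ∀ c₁ c₂, Lz (V := V₁) d₁ c₁ → Lz (V := V₂) d₂ c₂ →
      (∀ β, ∑ v, β v = d₁ → 0 < c₁ β) → (∀ β, ∑ v, β v = d₂ → 0 < c₂ β) →
      Lz (d₁ + d₂) (pw c₁ c₂) := by
    intro c₁ c₂ h₁ h₂ hp₁ hp₂
    refine Lz.of_base (fun β => mul_nonneg (h₁.nonneg _) (h₂.nonneg _)) ?_ ?_ (af_pw h₁ h₂)
    · intro β h
      rw [Fintype.sum_sum_type, h₁.deg _ (left_ne_zero_of_mul h), h₂.deg _ (right_ne_zero_of_mul h)]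
    · have : {γ | 0 < pw c₁ c₂ γ} = {γ : V₁ ⊕ V₂ → ℤ |
          ∑ v, γ (Sum.inl v) = d₁ ∧ ∑ v, γ (Sum.inr v) = d₂} := by
        ext γ
        simp only [Set.mem_ofPred_eq]
        constructor
        · intro h
          have hne : pw c₁ c₂ γ ≠ 0 := h.ne'
          exact ⟨h₁.deg _ (left_ne_zero_of_mul hne), h₂.deg _ (right_ne_zero_of_mul hne)⟩
        · rintro ⟨h, h'⟩
          exact mul_pos (hp₁ _ h) (hp₂ _ h')
      rw [this]; exact mcx_prod_hyper d₁ d₂
  by_cases hz₁ : ∃ ξ, 0 < c₁ ξ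
  · by_cases hz₂ : ∃ ξ, 0 < c₂ ξ
    · obtain ⟨ξ₁, hξ₁⟩ := hz₁
      obtain ⟨ξ₂, hξ₂⟩ := hz₂
      choose a a1 a2 a3 a4 using fun k : ℕ => h₁.perturb hC₁ hξ₁ (ε := 1 / ((k : ℝ) + 1))
        (by positivity)
      choose b b1 b2 b3 b4 using fun k : ℕ => h₂.perturb hC₂ hξ₂ (ε := 1 / ((k : ℝ) + 1))
        (by positivity)
      have hlim₁ : ∀ β, Filter.Tendsto (fun k => a k β) Filter.atTop (nhds (c₁ β)) := by
        intro β
        have h5 : Filter.Tendsto (fun k : ℕ => c₁ β + 1 / ((k : ℝ) + 1)) Filter.atTop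
            (nhds (c₁ β + 0)) := tendsto_const_nhds.add tendsto_one_div_add_atTop_nhds_zero_nat
        rw [add_zero] at h5
        exact tendsto_of_tendsto_of_tendsto_of_le_of_le tendsto_const_nhds h5
          (fun k => a3 k β) (fun k => a4 k β)
      have hlim₂ : ∀ β, Filter.Tendsto (fun k => b k β) Filter.atTop (nhds (c₂ β)) := by
        intro β
        have h5 : Filter.Tendsto (fun k : ℕ => c₂ β + 1 / ((k : ℝ) + 1)) Filter.atTop
            (nhds (c₂ β + 0)) := tendsto_const_nhds.add tendsto_one_div_add_atTop_nhds_zero_nat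
        rw [add_zero] at h5
        exact tendsto_of_tendsto_of_tendsto_of_le_of_le tendsto_const_nhds h5
          (fun k => b3 k β) (fun k => b4 k β)
      exact Lz.lim (F := Filter.atTop) (c' := fun k => pw (a k) (b k))
        (fun β => (hlim₁ _).mul (hlim₂ _)) (fun k => hfull _ _ (a1 k) (b1 k) (a2 k) (b2 k))
    · have hz : pw c₁ c₂ = fun _ => 0 := by
        funext β
        have : c₂ (fun v => β (Sum.inr v)) = 0 := by
          by_contra hne
          exact hz₂ ⟨_, lt_of_le_of_ne (h₂.nonneg _) (Ne.symm hne)⟩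
        unfold pw; rw [this, mul_zero]
      rw [hz]; exact Lz.zero _
  · have hz : pw c₁ c₂ = fun _ => 0 := by
      funext β
      have : c₁ (fun v => β (Sum.inl v)) = 0 := by
        by_contra hne
        exact hz₁ ⟨_, lt_of_le_of_ne (h₁.nonneg _) (Ne.symm hne)⟩
      unfold pw; rw [this, zero_mul]
    rw [hz]; exact Lz.zero _

end Prod

end Crest.Agent.R302.Lor
end

-- ▼ part R302/Gau970B
section

/-!
R302 (helper970), block GAUGE, part B.

* `Lz.multi` : finite families of cells in one formula: if `c` is Lorentzian (`Lz`) and bounded,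
  then `β ↦ ∑_{S ∈ ∏ [0, κ i]} (∏ q i (S i)) c (β + ∑ S i • (e_{X i} - e_{Y i}))` is Lorentzian.
* `cnt` : the number (weight) of states with `h` link pairs, `cnt_lc` its log-concavity,
  `growth` : `cnt h ≤ K ^ h * A 0`, and the link mass bounds.
-/

set_option autoImplicit false
set_option linter.unusedSectionVars false

namespace Crest.Agent.R302.Gau

open Finset Crest.Agent.R302.Lor

section Multi

variable {V : Type*} [Fintype V] [DecidableEq V]

/-- action of a finitely supported weight on functions -/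
noncomputable def act (c : (V → ℤ) → ℝ) (β : V → ℤ) (P : AddMonoidAlgebra ℝ (V → ℤ)) : ℝ :=
  P.coeff.sum fun δ a => a * c (β + δ)

omit [Fintype V] [DecidableEq V] in
theorem act_add (c : (V → ℤ) → ℝ) (β : V → ℤ) (P Q : AddMonoidAlgebra ℝ (V → ℤ)) :
    act c β (P + Q) = act c β P + act c β Q := by
  classical
  unfold act
  rw [AddMonoidAlgebra.coeff_add]
  exact Finsupp.sum_add_index' (by simp) (by intros; ring)

omit [Fintype V] [DecidableEq V] in
theorem act_zero (c : (V → ℤ) → ℝ) (β : V → ℤ) : act c β 0 = 0 := by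
  simp [act]

omit [Fintype V] [DecidableEq V] in
theorem act_single (c : (V → ℤ) → ℝ) (β δ : V → ℤ) (a : ℝ) :
    act c β (AddMonoidAlgebra.single δ a) = a * c (β + δ) := by
  unfold act
  rw [AddMonoidAlgebra.coeff_single]
  exact Finsupp.sum_single_index (by simp)

omit [Fintype V] [DecidableEq V] in
theorem act_sum {ι : Type*} (c : (V → ℤ) → ℝ) (β : V → ℤ) (s : Finset ι)
    (P : ι → AddMonoidAlgebra ℝ (V → ℤ)) :
    act c β (∑ i ∈ s, P i) = ∑ i ∈ s, act c β (P i) := by
  classical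
  induction s using Finset.induction_on with
  | empty => simp [act_zero]
  | insert i s hi ih => rw [Finset.sum_insert hi, Finset.sum_insert hi, act_add, ih]

omit [Fintype V] [DecidableEq V] in
theorem act_single_mul (c : (V → ℤ) → ℝ) (β δ : V → ℤ) (a : ℝ)
    (P : AddMonoidAlgebra ℝ (V → ℤ)) :
    act c β (AddMonoidAlgebra.single δ a * P) = a * act c (β + δ) P := by
  induction P using AddMonoidAlgebra.induction_linear with
  | zero => simp [act_zero]
  | add P Q hP hQ => rw [mul_add, act_add, act_add, hP, hQ]; ring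
  | single ξ b =>
    rw [AddMonoidAlgebra.single_mul_single, act_single, act_single, add_assoc]; ring

/-- one cell, normalised -/
theorem cell1 {d : ℤ} {c : (V → ℤ) → ℝ} (h : Lz d c) {C : ℝ} (hC : ∀ β, c β ≤ C)
    {q : ℕ → ℝ} {κ : ℕ} (X Y : V) (hq : ∀ j ≤ κ, 0 < q j)
    (hlc : ∀ j, j + 2 ≤ κ → q j * q (j + 2) ≤ q (j + 1) ^ 2) :
    Lz d (fun β => ∑ s ∈ range (κ + 1), q s * c (β + (s : ℤ) • (ev X - ev Y))) := by
  have h1 := (h.cell hC X Y hq hlc).shift (-(κ : ℤ) • ev Y)
  have e1 : d - (κ : ℤ) - ∑ v, ((-(κ : ℤ)) • ev Y) v = d := by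
    rw [sum_smul_ev]; ring
  rw [e1] at h1
  have e2 : (fun γ => Lor.cell q κ X Y c (γ + (-(κ : ℤ)) • ev Y)) =
      fun β => ∑ s ∈ range (κ + 1), q s * c (β + (s : ℤ) • (ev X - ev Y)) := by
    funext β
    unfold Lor.cell
    refine Finset.sum_congr rfl fun j _ => ?_
    congr 2
    rw [smul_sub, sub_smul, neg_smul]
    abel
  rw [e2] at h1
  exact h1

/-- **families of cells** -/
theorem multi {d : ℤ} {c : (V → ℤ) → ℝ} (h : Lz d c) {C : ℝ} (hC : ∀ β, c β ≤ C)
    {ι : Type*} [Fintype ι] [DecidableEq ι] (X Y : ι → V) (q : ι → ℕ → ℝ) (κ : ι → ℕ)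
    (hq : ∀ i, ∀ j ≤ κ i, 0 < q i j)
    (hlc : ∀ i j, j + 2 ≤ κ i → q i j * q i (j + 2) ≤ q i (j + 1) ^ 2) :
    Lz d (fun β => ∑ S ∈ Fintype.piFinset (fun i => range (κ i + 1)),
      (∏ i, q i (S i)) * c (β + ∑ i, (S i : ℤ) • (ev (X i) - ev (Y i)))) ∧
    ∃ C', ∀ β, ∑ S ∈ Fintype.piFinset (fun i => range (κ i + 1)),
      (∏ i, q i (S i)) * c (β + ∑ i, (S i : ℤ) • (ev (X i) - ev (Y i))) ≤ C' := by
  classical
  set P : ι → AddMonoidAlgebra ℝ (V → ℤ) := fun i => ∑ s ∈ range (κ i + 1),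
    AddMonoidAlgebra.single ((s : ℤ) • (ev (X i) - ev (Y i))) (q i s) with hP
  have key : ∀ t : Finset ι, Lz d (fun β => act c β (∏ i ∈ t, P i)) ∧
      ∃ C', ∀ β, act c β (∏ i ∈ t, P i) ≤ C' := by
    intro t
    induction t using Finset.induction_on with
    | empty =>
      have e : ∀ β, act c β (∏ i ∈ (∅ : Finset ι), P i) = c β := by
        intro β
        rw [Finset.prod_empty, AddMonoidAlgebra.one_def, act_single, one_mul, add_zero]
      simp only [e]
      exact ⟨h, C, hC⟩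
    | insert i t hi ih =>
      obtain ⟨ih1, C', ih2⟩ := ih
      have e : ∀ β, act c β (∏ i ∈ insert i t, P i) = ∑ s ∈ range (κ i + 1), q i s *
          (fun β => act c β (∏ i ∈ t, P i)) (β + (s : ℤ) • (ev (X i) - ev (Y i))) := by
        intro β
        rw [Finset.prod_insert hi]
        simp only [hP]
        rw [Finset.sum_mul, act_sum]
        exact Finset.sum_congr rfl fun s _ => act_single_mul _ _ _ _ _
      simp only [e]
      refine ⟨cell1 ih1 ih2 (X i) (Y i) (hq i) (hlc i), ∑ s ∈ range (κ i + 1), q i s * C', ?_⟩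
      intro β
      exact Finset.sum_le_sum fun s hs =>
        mul_le_mul_of_nonneg_left (ih2 _) (hq i s (by simpa [Nat.lt_succ_iff] using hs)).le
  have e : ∀ β, act c β (∏ i, P i) = ∑ S ∈ Fintype.piFinset (fun i => range (κ i + 1)),
      (∏ i, q i (S i)) * c (β + ∑ i, (S i : ℤ) • (ev (X i) - ev (Y i))) := by
    intro β
    simp only [hP]
    rw [Finset.prod_univ_sum, act_sum]
    refine Finset.sum_congr rfl fun S _ => ?_
    rw [AddMonoidAlgebra.prod_single, act_single]
  have := key univ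
  simp only [e] at this
  exact this

end Multi

/-! ### log-concave sequences -/

theorem lc_pos {c : ℕ → ℝ} (hpos : ∀ h, 0 < c h) (hlc : ∀ h, c h * c (h + 2) ≤ c (h + 1) ^ 2) :
    ∀ h, c h * c 0 ^ h ≤ c 0 * c 1 ^ h := by
  -- ratios are nonincreasing
  have h1 : ∀ h, c (h + 1) * c 0 ≤ c h * c 1 := by
    intro h
    induction h with
    | zero => rw [mul_comm]
    | succ h ih =>
      have h2 := hlc h
      have p0 := hpos h
      have p1 := hpos (h + 1)
      -- c (h+2) c 0 ≤ c (h+1) c 1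
      have h3 : c h * (c (h + 2) * c 0) ≤ c h * (c (h + 1) * c 1) := by
        calc c h * (c (h + 2) * c 0) = (c h * c (h + 2)) * c 0 := by ring
          _ ≤ c (h + 1) ^ 2 * c 0 := mul_le_mul_of_nonneg_right h2 (hpos 0).le
          _ = c (h + 1) * (c (h + 1) * c 0) := by ring
          _ ≤ c (h + 1) * (c h * c 1) := mul_le_mul_of_nonneg_left ih p1.le
          _ = _ := by ring
      exact le_of_mul_le_mul_left h3 p0
  intro h
  induction h with
  | zero => simp
  | succ h ih =>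
    calc c (h + 1) * c 0 ^ (h + 1) = (c (h + 1) * c 0) * c 0 ^ h := by ring
      _ ≤ (c h * c 1) * c 0 ^ h :=
          mul_le_mul_of_nonneg_right (h1 h) (pow_nonneg (hpos 0).le _)
      _ = (c h * c 0 ^ h) * c 1 := by ring
      _ ≤ (c 0 * c 1 ^ h) * c 1 := mul_le_mul_of_nonneg_right ih (hpos 1).le
      _ = _ := by ring

/-! ### hubs -/

section Hub

variable {V : Type*} [Fintype V] [DecidableEq V]

/-- the indicator of `0` on the two hubs -/
noncomputable def d0 : (Bool → ℤ) → ℝ := fun α => if α = 0 then 1 else 0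

theorem Lz_d0 : Lz 0 d0 := by
  refine Lz.indicator (S := {0}) ⟨?_, ?_⟩ ?_ ?_ ?_
  · intro x hx y hy
    rw [Set.mem_singleton_iff] at hx hy
    rw [hx, hy]
  · intro x hx y hy u hu
    rw [Set.mem_singleton_iff] at hx hy
    rw [hx, hy] at hu
    exact absurd hu (lt_irrefl _)
  · intro x hx
    rw [Set.mem_singleton_iff] at hx
    rw [hx]; simp
  · intro γ hγ
    rw [Set.mem_singleton_iff] at hγ
    simp [d0, hγ]
  · intro γ hγ
    rw [Set.mem_singleton_iff] at hγ
    simp [d0, hγ]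

variable {ι : Type*} [Fintype ι] [DecidableEq ι]

/-- the base point of the hubs -/
def pt (p q : ℤ) : V ⊕ Bool → ℤ := Sum.elim (fun _ => 0) (fun b => if b then -q else p)

/-- the hub sums -/
noncomputable def hub (A : (V → ℤ) → ℝ) (g : ι → V) (w : ι → ℝ) (κ : ℕ) (β : V ⊕ Bool → ℤ) : ℝ :=
  ∑ T ∈ Fintype.piFinset (fun _ : ι => range (κ + 1)), (∏ i, (w i)⁻¹ ^ T i) *
    ∑ S ∈ Fintype.piFinset (fun _ : ι => range (κ + 1)), (∏ i, w i ^ S i) *
      pw A d0 (β + ∑ i, (T i : ℤ) • (ev (Sum.inr true) - ev (Sum.inl (g i)))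
        + ∑ i, (S i : ℤ) • (ev (Sum.inl (g i)) - ev (Sum.inr false)))

theorem pow_lc {x : ℝ} (j : ℕ) : x ^ j * x ^ (j + 2) ≤ (x ^ (j + 1)) ^ 2 := by
  apply le_of_eq; ring

theorem Lz_hub {A : (V → ℤ) → ℝ} {d : ℤ} (hA : Lz d A) {C : ℝ} (hC : ∀ β, A β ≤ C) (g : ι → V)
    {w : ι → ℝ} (hw : ∀ i, 0 < w i) (κ : ℕ) :
    Lz d (hub A g w κ) ∧ ∃ C', ∀ β, hub A g w κ β ≤ C' := by
  have hd : ∀ α : Bool → ℤ, d0 α ≤ 1 := by
    intro α; unfold d0; split <;> norm_num
  have h0 : Lz d (pw A d0) := by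
    have := Lz.prod hA Lz_d0 hC hd
    rwa [add_zero] at this
  have hb0 : ∀ β, pw A d0 β ≤ |C| := by
    intro β
    unfold pw
    have h1 := hA.nonneg fun v => β (Sum.inl v)
    have h2 := hd fun v => β (Sum.inr v)
    have h3 : 0 ≤ d0 fun v => β (Sum.inr v) := Lz_d0.nonneg _
    have h4 := hC fun v => β (Sum.inl v)
    have h5 := le_abs_self C
    nlinarith
  obtain ⟨h1, C1, h1'⟩ := multi h0 hb0 (fun i => Sum.inl (g i)) (fun _ : ι => Sum.inr false)
    (fun i s => w i ^ s) (fun _ => κ) (fun i j _ => pow_pos (hw i) j) (fun i j _ => pow_lc j)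
  exact multi h1 h1' (fun _ => Sum.inr true) (fun i : ι => Sum.inl (g i))
    (fun i s => (w i)⁻¹ ^ s) (fun _ => κ) (fun i j _ => pow_pos (inv_pos.2 (hw i)) j)
    (fun i j _ => pow_lc j)

theorem pw_pt (A : (V → ℤ) → ℝ) (g : ι → V) (p q : ℤ) (S T : ι → ℕ) :
    pw A d0 (pt p q + ∑ i, (T i : ℤ) • (ev (Sum.inr true) - ev (Sum.inl (g i)))
        + ∑ i, (S i : ℤ) • (ev (Sum.inl (g i)) - ev (Sum.inr false))) =
      if (∑ i, (S i : ℤ)) = p ∧ (∑ i, (T i : ℤ)) = q then A (∑ i, ((S i : ℤ) - T i) • ev (g i))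
      else 0 := by
  have e1 : (fun v => (pt p q + ∑ i, (T i : ℤ) • (ev (Sum.inr true) - ev (Sum.inl (g i)))
        + ∑ i, (S i : ℤ) • (ev (Sum.inl (g i)) - ev (Sum.inr false)) : V ⊕ Bool → ℤ) (Sum.inl v))
      = ∑ i, ((S i : ℤ) - T i) • ev (g i) := by
    funext v
    simp only [pt, Pi.add_apply, Sum.elim_inl, Finset.sum_apply, Pi.smul_apply, Pi.sub_apply,
      smul_eq_mul, zero_add]
    rw [← Finset.sum_add_distrib]
    refine Finset.sum_congr rfl fun i _ => ?_
    have a1 : ev (Sum.inr true : V ⊕ Bool) (Sum.inl v) = 0 := ev_ne (by simp)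
    have a2 : ev (Sum.inr false : V ⊕ Bool) (Sum.inl v) = 0 := ev_ne (by simp)
    have a3 : ev (Sum.inl (g i) : V ⊕ Bool) (Sum.inl v) = ev (g i) v :=
      congrFun (ev_inl_inl (V₂ := Bool) (g i)) v
    rw [a1, a2, a3]; ring
  have e2 : (pt p q + ∑ i, (T i : ℤ) • (ev (Sum.inr true) - ev (Sum.inl (g i)))
        + ∑ i, (S i : ℤ) • (ev (Sum.inl (g i)) - ev (Sum.inr false)) : V ⊕ Bool → ℤ)
        (Sum.inr false) = p - ∑ i, (S i : ℤ) := by
    simp only [pt, Pi.add_apply, Sum.elim_inr, Finset.sum_apply, Pi.smul_apply, Pi.sub_apply,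
      smul_eq_mul]
    have a1 : ev (Sum.inr true : V ⊕ Bool) (Sum.inr false) = 0 := ev_ne (by simp)
    have a2 : ev (Sum.inr false : V ⊕ Bool) (Sum.inr false) = 1 := ev_self _
    have a3 : ∀ i, ev (Sum.inl (g i) : V ⊕ Bool) (Sum.inr false) = 0 := fun i => ev_ne (by simp)
    simp only [a1, a2, a3]
    simp only [sub_zero, mul_zero, Finset.sum_const_zero, zero_sub, mul_neg, mul_one,
      Finset.sum_neg_distrib]
    simp [sub_eq_add_neg]
  have e3 : (pt p q + ∑ i, (T i : ℤ) • (ev (Sum.inr true) - ev (Sum.inl (g i)))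
        + ∑ i, (S i : ℤ) • (ev (Sum.inl (g i)) - ev (Sum.inr false)) : V ⊕ Bool → ℤ)
        (Sum.inr true) = (∑ i, (T i : ℤ)) - q := by
    simp only [pt, Pi.add_apply, Sum.elim_inr, Finset.sum_apply, Pi.smul_apply, Pi.sub_apply,
      smul_eq_mul]
    have a1 : ev (Sum.inr true : V ⊕ Bool) (Sum.inr true) = 1 := ev_self _
    have a2 : ev (Sum.inr false : V ⊕ Bool) (Sum.inr true) = 0 := ev_ne (by simp)
    have a3 : ∀ i, ev (Sum.inl (g i) : V ⊕ Bool) (Sum.inr true) = 0 := fun i => ev_ne (by simp)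
    simp only [a1, a2, a3]
    simp only [sub_zero, mul_zero, Finset.sum_const_zero, mul_one]
    simp [sub_eq_add_neg, add_comm]
  unfold pw
  rw [e1]
  unfold d0
  by_cases hS : (∑ i, (S i : ℤ)) = p
  · by_cases hT : (∑ i, (T i : ℤ)) = q
    · rw [if_pos, if_pos ⟨hS, hT⟩, mul_one]
      funext b
      cases b
      · rw [e2, hS, sub_self]; rfl
      · rw [e3, hT, sub_self]; rfl
    · rw [if_neg, if_neg (fun h => hT h.2), mul_zero]
      intro h
      have := congrFun h true
      rw [e3] at this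
      exact hT (by simpa [sub_eq_zero] using this)
  · rw [if_neg, if_neg (fun h => hS h.1), mul_zero]
    intro h
    have h1 : p - ∑ i, (S i : ℤ) = 0 := e2.symm.trans (congrFun h false)
    exact hS (by linarith)

/-- `cw h` : weight of the states with `h` up-links and `h` down-links (windows `κ`) -/
noncomputable def cnt (A : (V → ℤ) → ℝ) (g : ι → V) (w : ι → ℝ) (κ h : ℕ) : ℝ :=
  hub A g w κ (pt h h)

theorem cnt_eq (A : (V → ℤ) → ℝ) (g : ι → V) (w : ι → ℝ) (κ h : ℕ) :
    cnt A g w κ h = ∑ T ∈ Fintype.piFinset (fun _ : ι => range (κ + 1)),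
      ∑ S ∈ Fintype.piFinset (fun _ : ι => range (κ + 1)),
        if (∑ i, S i) = h ∧ (∑ i, T i) = h then
          (∏ i, (w i)⁻¹ ^ T i) * (∏ i, w i ^ S i) * A (∑ i, ((S i : ℤ) - T i) • ev (g i))
        else 0 := by
  unfold cnt hub
  refine Finset.sum_congr rfl fun T _ => ?_
  rw [Finset.mul_sum]
  refine Finset.sum_congr rfl fun S _ => ?_
  rw [pw_pt]
  by_cases hh : (∑ i, S i) = h ∧ (∑ i, T i) = h
  · rw [if_pos hh, if_pos ⟨by exact_mod_cast hh.1, by exact_mod_cast hh.2⟩]; ring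
  · rw [if_neg hh, if_neg, mul_zero, mul_zero]
    intro h2
    exact hh ⟨by exact_mod_cast h2.1, by exact_mod_cast h2.2⟩

theorem cnt_zero (A : (V → ℤ) → ℝ) (g : ι → V) (w : ι → ℝ) (κ : ℕ) : cnt A g w κ 0 = A 0 := by
  rw [cnt_eq]
  rw [Finset.sum_eq_single (0 : ι → ℕ), Finset.sum_eq_single (0 : ι → ℕ)]
  · simp
  · intro S _ hS
    rw [if_neg]
    rintro ⟨h1, _⟩
    exact hS (funext fun i => (Finset.sum_eq_zero_iff.1 h1) i (mem_univ i))
  · intro h; exfalso; apply h; simp
  · intro T _ hT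
    refine Finset.sum_eq_zero fun S _ => ?_
    rw [if_neg]
    rintro ⟨_, h1⟩
    exact hT (funext fun i => (Finset.sum_eq_zero_iff.1 h1) i (mem_univ i))
  · intro h; exfalso; apply h; simp

/-- functions with sum `1` are unit vectors -/
theorem sum_one {S : ι → ℕ} (h : ∑ i, S i = 1) : ∃ i, S = Pi.single i 1 := by
  obtain ⟨i, hi⟩ : ∃ i, S i ≠ 0 := by
    by_contra hcon
    push Not at hcon
    simp [hcon] at h
  refine ⟨i, funext fun j => ?_⟩
  have h1 : S i + ∑ k ∈ univ.erase i, S k = 1 := by rw [Finset.add_sum_erase _ _ (mem_univ i), h]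
  by_cases hj : j = i
  · subst hj; rw [Pi.single_eq_same]; omega
  · rw [Pi.single_eq_of_ne hj]
    have h2 : ∑ k ∈ univ.erase i, S k = 0 := by omega
    exact (Finset.sum_eq_zero_iff.1 h2) j (mem_erase.2 ⟨hj, mem_univ j⟩)

theorem sum_filter_one (κ : ℕ) (hκ : 1 ≤ κ) (f : (ι → ℕ) → ℝ) :
    (∑ S ∈ Fintype.piFinset (fun _ : ι => range (κ + 1)), if (∑ i, S i) = 1 then f S else 0) =
      ∑ i, f (Pi.single i 1) := by
  rw [← Finset.sum_filter]
  symm
  refine Finset.sum_bij (fun i _ => Pi.single i 1) ?_ ?_ ?_ ?_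
  · intro i _
    rw [mem_filter, Fintype.mem_piFinset]
    refine ⟨fun j => ?_, by simp⟩
    rw [mem_range]
    by_cases hj : j = i
    · subst hj; rw [Pi.single_eq_same]; omega
    · rw [Pi.single_eq_of_ne hj]; omega
  · intro i _ j _ hij
    by_contra hne
    have := congrFun hij i
    rw [Pi.single_eq_same, Pi.single_eq_of_ne hne] at this
    exact one_ne_zero this
  · intro S hS
    rw [mem_filter] at hS
    obtain ⟨i, hi⟩ := sum_one hS.2
    exact ⟨i, mem_univ _, hi.symm⟩
  · intro i _; rfl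

theorem prod_pow_single (x : ι → ℝ) (i : ι) : ∏ j, x j ^ (Pi.single i 1 : ι → ℕ) j = x i := by
  rw [Finset.prod_eq_single i]
  · simp
  · intro j _ hj; simp [Pi.single_eq_of_ne hj]
  · simp

theorem cnt_one (A : (V → ℤ) → ℝ) (g : ι → V) (w : ι → ℝ) (κ : ℕ) (hκ : 1 ≤ κ) :
    cnt A g w κ 1 = ∑ i, ∑ j, w i / w j * A (ev (g i) - ev (g j)) := by
  rw [cnt_eq]
  have e1 : ∀ T : ι → ℕ, (∑ S ∈ Fintype.piFinset (fun _ : ι => range (κ + 1)),
        if (∑ i, S i) = 1 ∧ (∑ i, T i) = 1 then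
          (∏ i, (w i)⁻¹ ^ T i) * (∏ i, w i ^ S i) * A (∑ i, ((S i : ℤ) - T i) • ev (g i))
        else 0) = if (∑ i, T i) = 1 then ∑ i, (∏ i, (w i)⁻¹ ^ T i) * w i *
          A (∑ k, (((Pi.single i 1 : ι → ℕ) k : ℤ) - T k) • ev (g k)) else 0 := by
    intro T
    by_cases hT : (∑ i, T i) = 1
    · rw [if_pos hT]
      simp only [hT, and_true]
      rw [sum_filter_one κ hκ]
      refine Finset.sum_congr rfl fun i _ => ?_
      rw [prod_pow_single]
    · rw [if_neg hT]
      exact Finset.sum_eq_zero fun S _ => by rw [if_neg (fun h => hT h.2)]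
  simp only [e1]
  rw [sum_filter_one κ hκ, Finset.sum_comm]
  refine Finset.sum_congr rfl fun i _ => Finset.sum_congr rfl fun j _ => ?_
  rw [prod_pow_single]
  have e2 : ∑ k, (((Pi.single i 1 : ι → ℕ) k : ℤ) - ((Pi.single j 1 : ι → ℕ) k : ℤ)) • ev (g k)
      = ev (g i) - ev (g j) := by
    simp only [sub_smul, Finset.sum_sub_distrib]
    congr 1
    · rw [Finset.sum_eq_single i]
      · simp
      · intro k _ hk; simp [Pi.single_eq_of_ne hk]
      · simp
    · rw [Finset.sum_eq_single j]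
      · simp
      · intro k _ hk; simp [Pi.single_eq_of_ne hk]
      · simp
  rw [e2]; ring

theorem sum_pt (p q : ℤ) : ∑ v, (pt p q : V ⊕ Bool → ℤ) v = p - q := by
  rw [Fintype.sum_sum_type]
  simp [pt]
  ring

theorem pt_add (p q : ℤ) : (pt p q : V ⊕ Bool → ℤ) + ev (Sum.inr false) = pt (p + 1) q := by
  funext v
  rcases v with v | b
  · have : ev (Sum.inr false : V ⊕ Bool) (Sum.inl v) = 0 := ev_ne (by simp)
    simp [pt, this]
  · cases b
    · have : ev (Sum.inr false : V ⊕ Bool) (Sum.inr false) = 1 := ev_self _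
      simp [pt, this]
    · have : ev (Sum.inr false : V ⊕ Bool) (Sum.inr true) = 0 := ev_ne (by simp)
      simp [pt, this]

theorem pt_add' (p q : ℤ) : (pt p q : V ⊕ Bool → ℤ) + ev (Sum.inr true) = pt p (q - 1) := by
  funext v
  rcases v with v | b
  · have : ev (Sum.inr true : V ⊕ Bool) (Sum.inl v) = 0 := ev_ne (by simp)
    simp [pt, this]
  · cases b
    · have : ev (Sum.inr true : V ⊕ Bool) (Sum.inr false) = 0 := ev_ne (by simp)
      simp [pt, this]
    · have : ev (Sum.inr true : V ⊕ Bool) (Sum.inr true) = 1 := ev_self _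
      simp [pt, this]
      ring

/-- log-concavity along the hubs for any Lorentzian function on `V ⊕ Bool` -/
theorem hub_lc {c : (V ⊕ Bool → ℤ) → ℝ} {d : ℤ} (h : Lz d c) (k : ℕ) :
    c (pt k k) * c (pt (k + 2 : ℕ) (k + 2 : ℕ)) ≤ c (pt (k + 1 : ℕ) (k + 1 : ℕ)) ^ 2 := by
  have hl : LorN c := fun β => h.af [] (by simp) β
  have h1 := hl.sq_le h.nonneg (pt k (k + 2 : ℕ)) (Sum.inr true) (Sum.inr false)
  rw [pt_add', pt_add', pt_add, pt_add, pt_add] at h1
  push_cast at h1 ⊢
  rw [show (k : ℤ) + 2 - 1 - 1 = k by ring, show (k : ℤ) + 1 + 1 = k + 2 by ring,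
    show (k : ℤ) + 2 - 1 = k + 1 by ring] at h1
  exact h1

/-- **growth** : `cnt h * A 0 ^ h ≤ A 0 * cnt 1 ^ h` -/
theorem growth_aux {A : (V → ℤ) → ℝ} {d : ℤ} (hA : Lz d A) {C : ℝ} (hC : ∀ β, A β ≤ C)
    (hpos : 0 < A 0) (g : ι → V) {w : ι → ℝ} (hw : ∀ i, 0 < w i) (κ h : ℕ) :
    cnt A g w κ h * A 0 ^ h ≤ A 0 * cnt A g w κ 1 ^ h := by
  obtain ⟨hL, C', hC'⟩ := Lz_hub hA hC g hw κ
  have hd : d = 0 := by
    have := hA.deg 0 hpos.ne'
    simpa using this.symm
  subst hd
  have h0 : hub A g w κ (pt 0 0) = A 0 := by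
    have := cnt_zero A g w κ
    unfold cnt at this
    simpa using this
  have key : ∀ ε : ℝ, 0 < ε → cnt A g w κ h * A 0 ^ h ≤
      (A 0 + ε) * (cnt A g w κ 1 + ε) ^ h := by
    intro ε hε
    obtain ⟨c', h1, h2, h3, h4⟩ := hL.perturb hC' (ξ := pt 0 0) (by rw [h0]; exact hpos) hε
    have h5 := lc_pos (c := fun k : ℕ => c' (pt k k)) (fun k => h2 _ (by rw [sum_pt]; ring))
      (fun k => hub_lc h1 k) h
    have c0 : A 0 ≤ c' (pt (0 : ℕ) (0 : ℕ)) := by
      have := h3 (pt (0 : ℕ) (0 : ℕ))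
      have e : hub A g w κ (pt (0 : ℕ) (0 : ℕ)) = A 0 := by simpa using h0
      rwa [e] at this
    have c0' : c' (pt (0 : ℕ) (0 : ℕ)) ≤ A 0 + ε := by
      have := h4 (pt (0 : ℕ) (0 : ℕ))
      have e : hub A g w κ (pt (0 : ℕ) (0 : ℕ)) = A 0 := by simpa using h0
      rwa [e] at this
    have c1 : c' (pt (1 : ℕ) (1 : ℕ)) ≤ cnt A g w κ 1 + ε := h4 (pt (1 : ℕ) (1 : ℕ))
    have ch : cnt A g w κ h ≤ c' (pt (h : ℕ) (h : ℕ)) := h3 (pt (h : ℕ) (h : ℕ))
    have chp : 0 ≤ cnt A g w κ h := hL.nonneg _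
    calc cnt A g w κ h * A 0 ^ h ≤ c' (pt (h : ℕ) (h : ℕ)) * c' (pt (0 : ℕ) (0 : ℕ)) ^ h := by
          apply mul_le_mul ch (pow_le_pow_left₀ hpos.le c0 h) (by positivity) (chp.trans ch)
      _ ≤ c' (pt (0 : ℕ) (0 : ℕ)) * c' (pt (1 : ℕ) (1 : ℕ)) ^ h := h5
      _ ≤ _ := by
          apply mul_le_mul c0' (pow_le_pow_left₀ (h1.nonneg _) c1 h)
            (pow_nonneg (h1.nonneg _) _)
          linarith
  have hc : Filter.Tendsto (fun ε : ℝ => (A 0 + ε) * (cnt A g w κ 1 + ε) ^ h)
      (nhdsWithin 0 (Set.Ioi 0)) (nhds (A 0 * cnt A g w κ 1 ^ h)) := by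
    have : Continuous fun ε : ℝ => (A 0 + ε) * (cnt A g w κ 1 + ε) ^ h := by fun_prop
    have h0 := this.tendsto 0
    simp only [add_zero] at h0
    exact h0.mono_left nhdsWithin_le_nhds
  exact ge_of_tendsto hc (Filter.eventually_of_mem self_mem_nhdsWithin fun ε hε => key ε hε)

/-- **growth** : if the one-link weight is at most `K * A 0`, the weight of the states with `h`
up-links and `h` down-links is at most `K ^ h * A 0`. -/
theorem growth {A : (V → ℤ) → ℝ} {d : ℤ} (hA : Lz d A) {C : ℝ} (hC : ∀ β, A β ≤ C)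
    (hpos : 0 < A 0) (g : ι → V) {w : ι → ℝ} (hw : ∀ i, 0 < w i) {K : ℝ}
    (hK : ∑ i, ∑ j, w i / w j * A (ev (g i) - ev (g j)) ≤ K * A 0) (κ h : ℕ) (hκ : 1 ≤ κ) :
    cnt A g w κ h ≤ K ^ h * A 0 := by
  have h1 := growth_aux hA hC hpos g hw κ h
  rw [cnt_one A g w κ hκ] at h1
  have h2 : 0 ≤ ∑ i, ∑ j, w i / w j * A (ev (g i) - ev (g j)) :=
    Finset.sum_nonneg fun i _ => Finset.sum_nonneg fun j _ =>
      mul_nonneg (div_nonneg (hw i).le (hw j).le) (hA.nonneg _)
  have h3 : cnt A g w κ h * A 0 ^ h ≤ (K ^ h * A 0) * A 0 ^ h := by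
    calc _ ≤ A 0 * (K * A 0) ^ h :=
          h1.trans (mul_le_mul_of_nonneg_left (pow_le_pow_left₀ h2 hK h) hpos.le)
      _ = _ := by rw [mul_pow]; ring
  exact le_of_mul_le_mul_right h3 (pow_pos hpos h)

/-- number of up-links -/
def ups (s : ι → ℤ) : ℕ := ∑ i, (s i).toNat

/-- number of down-links -/
def downs (s : ι → ℤ) : ℕ := ∑ i, (-s i).toNat

theorem ups_sub_downs (s : ι → ℤ) : (ups s : ℤ) - downs s = ∑ i, s i := by
  unfold ups downs
  push_cast
  rw [← Finset.sum_sub_distrib]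
  refine Finset.sum_congr rfl fun i _ => ?_
  omega

theorem ups_add_downs (s : ι → ℤ) : ups s + downs s = ∑ i, (s i).natAbs := by
  unfold ups downs
  rw [← Finset.sum_add_distrib]
  refine Finset.sum_congr rfl fun i _ => ?_
  omega

theorem eq_zero_of_ups {s : ι → ℤ} (h1 : ups s = 0) (h2 : downs s = 0) : s = 0 := by
  have h3 := ups_add_downs s
  rw [h1, h2] at h3
  funext i
  have := (Finset.sum_eq_zero_iff.1 h3.symm) i (mem_univ i)
  simpa using this

theorem class_le {A : (V → ℤ) → ℝ} (hA : ∀ β, 0 ≤ A β) (g : ι → V) {w : ι → ℝ}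
    (hw : ∀ i, 0 < w i) {κ h : ℕ} (hκ : h ≤ κ) (F : Finset (ι → ℤ))
    (hF : ∀ s ∈ F, ups s = h ∧ downs s = h) :
    ∑ s ∈ F, (∏ i, w i ^ s i) * A (∑ i, s i • ev (g i)) ≤ cnt A g w κ h := by
  classical
  rw [cnt_eq, ← Finset.sum_product']
  set f : (ι → ℕ) × (ι → ℕ) → ℝ := fun p => if (∑ i, p.2 i) = h ∧ (∑ i, p.1 i) = h then
          (∏ i, (w i)⁻¹ ^ p.1 i) * (∏ i, w i ^ p.2 i) *
            A (∑ i, ((p.2 i : ℤ) - p.1 i) • ev (g i)) else 0 with hf
  set φ : (ι → ℤ) → (ι → ℕ) × (ι → ℕ) := fun s => (fun i => (-s i).toNat, fun i => (s i).toNat)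
    with hφ
  have hinj : Function.Injective φ := by
    intro s s' hs
    funext i
    have h1 := congrFun (Prod.ext_iff.1 hs).1 i
    have h2 := congrFun (Prod.ext_iff.1 hs).2 i
    simp only [hφ] at h1 h2
    omega
  have h1 : ∑ s ∈ F, (∏ i, w i ^ s i) * A (∑ i, s i • ev (g i)) = ∑ p ∈ F.image φ, f p := by
    rw [Finset.sum_image (fun a _ b _ hab => hinj hab)]
    refine Finset.sum_congr rfl fun s hs => ?_
    obtain ⟨hu, hd⟩ := hF s hs
    simp only [hf, hφ]
    rw [if_pos ⟨hu, hd⟩, ← Finset.prod_mul_distrib]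
    congr 1
    · refine Finset.prod_congr rfl fun i _ => ?_
      rw [inv_pow, ← zpow_natCast, ← zpow_natCast, ← zpow_neg, ← zpow_add₀ (hw i).ne']
      congr 1; omega
    · congr 1
      refine Finset.sum_congr rfl fun i _ => ?_
      congr 1; omega
  rw [h1]
  refine Finset.sum_le_sum_of_subset_of_nonneg ?_ ?_
  · intro p hp
    obtain ⟨s, hs, rfl⟩ := Finset.mem_image.1 hp
    obtain ⟨hu, hd⟩ := hF s hs
    rw [Finset.mem_product, Fintype.mem_piFinset, Fintype.mem_piFinset]
    refine ⟨fun i => ?_, fun i => ?_⟩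
    · rw [mem_range]
      have := Finset.single_le_sum (f := fun i => (-s i).toNat) (fun i _ => Nat.zero_le _)
        (mem_univ i)
      unfold downs at hd
      simp only [hφ]; omega
    · rw [mem_range]
      have := Finset.single_le_sum (f := fun i => (s i).toNat) (fun i _ => Nat.zero_le _)
        (mem_univ i)
      unfold ups at hu
      simp only [hφ]; omega
  · intro p _ _
    simp only [hf]
    split
    · refine mul_nonneg (mul_nonneg ?_ ?_) (hA _)
      · exact Finset.prod_nonneg fun i _ => pow_nonneg (inv_nonneg.2 (hw i).le) _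
      · exact Finset.prod_nonneg fun i _ => pow_nonneg (hw i).le _
    · exact le_rfl

/-- **link mass** : if the one-link weight is at most `K * A 0` and a link pair costs `θ ^ 2` with
`θ ^ 2 * K < 1`, then the states with at least `h₀` link pairs have weight at most
`(θ ^ 2 * K) ^ h₀ / (1 - θ ^ 2 * K) * A 0`. -/
theorem link_mass {A : (V → ℤ) → ℝ} {d : ℤ} (hA : Lz d A) {C : ℝ} (hC : ∀ β, A β ≤ C)
    (hpos : 0 < A 0) (g : ι → V) {w : ι → ℝ} (hw : ∀ i, 0 < w i) {K : ℝ}
    (hK : ∑ i, ∑ j, w i / w j * A (ev (g i) - ev (g j)) ≤ K * A 0) {θ : ℝ} (hθ : 0 ≤ θ)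
    (hq : θ ^ 2 * K < 1) (h₀ : ℕ) (F : Finset (ι → ℤ)) (hF : ∀ s ∈ F, h₀ ≤ ups s) :
    ∑ s ∈ F, θ ^ (∑ i, (s i).natAbs) * (∏ i, w i ^ s i) * A (∑ i, s i • ev (g i)) ≤
      (θ ^ 2 * K) ^ h₀ / (1 - θ ^ 2 * K) * A 0 := by
  classical
  have hd : d = 0 := by
    have := hA.deg 0 hpos.ne'
    simpa using this.symm
  subst hd
  have hK0 : 0 ≤ K := by
    have h2 : 0 ≤ ∑ i, ∑ j, w i / w j * A (ev (g i) - ev (g j)) :=
      Finset.sum_nonneg fun i _ => Finset.sum_nonneg fun j _ =>
        mul_nonneg (div_nonneg (hw i).le (hw j).le) (hA.nonneg _)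
    exact nonneg_of_mul_nonneg_left (h2.trans hK) hpos
  have hq0 : 0 ≤ θ ^ 2 * K := by positivity
  -- only the states with `∑ s = 0`
  set F' := F.filter fun s => ups s = downs s with hF'
  have h1 : ∑ s ∈ F, θ ^ (∑ i, (s i).natAbs) * (∏ i, w i ^ s i) * A (∑ i, s i • ev (g i)) =
      ∑ s ∈ F', θ ^ (∑ i, (s i).natAbs) * (∏ i, w i ^ s i) * A (∑ i, s i • ev (g i)) := by
    symm
    refine Finset.sum_subset (Finset.filter_subset _ _) fun s hs hs' => ?_
    have h2 : ups s ≠ downs s := fun h => hs' (Finset.mem_filter.2 ⟨hs, h⟩)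
    have h3 : A (∑ i, s i • ev (g i)) = 0 := by
      by_contra hne
      have h4 := hA.deg _ hne
      have h5 : ∑ v, (∑ i, s i • ev (g i)) v = ∑ i, s i := by
        simp only [Finset.sum_apply]
        rw [Finset.sum_comm]
        exact Finset.sum_congr rfl fun i _ => sum_smul_ev (s i) (g i)
      rw [h5, ← ups_sub_downs] at h4
      apply h2; omega
    rw [h3, mul_zero]
  rw [h1]
  -- sort by the number of links
  set H := F'.sup ups with hH
  have hmaps : ∀ s ∈ F', ups s ∈ Finset.Ico h₀ (H + 1) := by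
    intro s hs
    rw [Finset.mem_Ico]
    refine ⟨hF s (Finset.mem_filter.1 hs).1, Nat.lt_succ_of_le (Finset.le_sup (f := ups) hs)⟩
  rw [← Finset.sum_fiberwise_of_maps_to hmaps]
  have h2 : ∀ h ∈ Finset.Ico h₀ (H + 1), ∑ s ∈ F' with ups s = h,
      θ ^ (∑ i, (s i).natAbs) * (∏ i, w i ^ s i) * A (∑ i, s i • ev (g i)) ≤
        (θ ^ 2 * K) ^ h * A 0 := by
    intro h _
    have e1 : ∀ s ∈ F'.filter (fun s => ups s = h), ups s = h ∧ downs s = h := by
      intro s hs
      rw [Finset.mem_filter] at hs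
      have := (Finset.mem_filter.1 hs.1).2
      exact ⟨hs.2, by rw [← this]; exact hs.2⟩
    have e2 : ∀ s ∈ F'.filter (fun s => ups s = h), θ ^ (∑ i, (s i).natAbs) * (∏ i, w i ^ s i) *
        A (∑ i, s i • ev (g i)) = θ ^ (2 * h) * ((∏ i, w i ^ s i) * A (∑ i, s i • ev (g i))) := by
      intro s hs
      obtain ⟨hu, hd⟩ := e1 s hs
      have := ups_add_downs s
      rw [hu, hd] at this
      rw [← this, ← two_mul, mul_assoc]
    rw [Finset.sum_congr rfl e2, ← Finset.mul_sum]
    have h3 := class_le hA.nonneg g hw (κ := h + 1) (h := h) (by omega) _ e1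
    have h4 := growth hA hC hpos g hw hK (h + 1) h (by omega)
    calc _ ≤ θ ^ (2 * h) * (K ^ h * A 0) :=
          mul_le_mul_of_nonneg_left (h3.trans h4) (pow_nonneg hθ _)
      _ = _ := by rw [mul_pow, ← pow_mul]; ring
  refine (Finset.sum_le_sum h2).trans ?_
  rw [← Finset.sum_mul]
  exact mul_le_mul_of_nonneg_right (geom_sum_Ico_le_of_lt_one hq0 hq) hpos.le

/-- total link mass without the states without link -/
theorem link_mass' {A : (V → ℤ) → ℝ} {d : ℤ} (hA : Lz d A) {C : ℝ} (hC : ∀ β, A β ≤ C)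
    (hpos : 0 < A 0) (g : ι → V) {w : ι → ℝ} (hw : ∀ i, 0 < w i) {K : ℝ}
    (hK : ∑ i, ∑ j, w i / w j * A (ev (g i) - ev (g j)) ≤ K * A 0) {θ : ℝ} (hθ : 0 ≤ θ)
    (hq : θ ^ 2 * K < 1) (F : Finset (ι → ℤ)) (hF : (0 : ι → ℤ) ∉ F) :
    ∑ s ∈ F, θ ^ (∑ i, (s i).natAbs) * (∏ i, w i ^ s i) * A (∑ i, s i • ev (g i)) ≤
      (θ ^ 2 * K) / (1 - θ ^ 2 * K) * A 0 := by
  classical
  have hd : d = 0 := by
    have := hA.deg 0 hpos.ne'
    simpa using this.symm
  subst hd
  have h1 := link_mass hA hC hpos g hw hK hθ hq 1 (F.filter fun s => 1 ≤ ups s)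
    (fun s hs => (Finset.mem_filter.1 hs).2)
  rw [pow_one] at h1
  refine le_trans (le_of_eq ?_) h1
  symm
  refine Finset.sum_subset (Finset.filter_subset _ _) fun s hs hs' => ?_
  have h2 : ups s = 0 := by
    by_contra hne
    exact hs' (Finset.mem_filter.2 ⟨hs, by omega⟩)
  have h3 : A (∑ i, s i • ev (g i)) = 0 := by
    by_contra hne
    have h4 := hA.deg _ hne
    have h5 : ∑ v, (∑ i, s i • ev (g i)) v = ∑ i, s i := by
      simp only [Finset.sum_apply]
      rw [Finset.sum_comm]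
      exact Finset.sum_congr rfl fun i _ => sum_smul_ev (s i) (g i)
    rw [h5, ← ups_sub_downs, h2] at h4
    have h6 : downs s = 0 := by omega
    rw [eq_zero_of_ups h2 h6] at hs
    exact hF hs
  rw [h3, mul_zero]

end Hub

end Crest.Agent.R302.Gau
end

-- ▼ part R302/Gau970C

/-!
R302 (helper970), block GAUGE, part C: the soft weights of the official sides are Lorentzian
(`Lz`), hence the link mass bound of `Gau970B` for the official chain.

* `Lz_win`, `Lz_soft` : `p ↦ S.ff p (S.blk p)` is `Lz` (kernels with windows, resp. full kernels);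
* `Lz_pair` : `g ↦ ∑_{x ∈ box} F₁ (x + g_X) F₂ (x - g_Y)` is `Lz 0`.
-/

set_option autoImplicit false
set_option linter.unusedSectionVars false

namespace Crest.Agent.R302.Gau

open Finset Crest.Agent.R302.Lor Crest.Agent.R302.Inst
open Crest.Agent.R302.Facet (MemJ SubM)

variable {E : Type*} [Fintype E] [DecidableEq E]

/-- the weight of the points of a side -/
noncomputable def base (S : Side E) (z : E → ℤ) : ℝ := if z ∈ S.J then S.g z else 0

/-- the soft weight of a side -/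
noncomputable def soft (S : Side E) (p : E → ℤ) : ℝ := S.ff p (S.blk p)

theorem base_bdd (S : Side E) : ∃ C, ∀ z, base S z ≤ C := by
  refine ⟨∑ z ∈ S.J, |S.g z|, fun z => ?_⟩
  unfold base
  split_ifs with h
  · exact (le_abs_self _).trans (Finset.single_le_sum (f := fun z => |S.g z|)
      (fun z _ => abs_nonneg _) h)
  · exact Finset.sum_nonneg fun z _ => abs_nonneg _

/-- the other end of the edge -/
def oth (T : MP3.Forest E) (a : E) : E := (T.par a).getD a

theorem dir_thin {T : MP3.Forest E} {a : E} (h : T.par a = none) :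
    (ev a - ev (oth T a) : E → ℤ) = 0 := by
  unfold oth; rw [h]; simp

theorem dir_fat {T : MP3.Forest E} {a : E} (h : T.par a ≠ none) :
    (ev a - ev (oth T a) : E → ℤ) = dq T a := by
  unfold oth dq
  rcases h' : T.par a with _ | b
  · exact absurd h' h
  · simp

/-- `zpt` through the directions -/
theorem zpt_dir (T : MP3.Forest E) (p t : E → ℤ) :
    zpt T p t = p + ∑ a, t a • (ev a - ev (oth T a)) := by
  unfold zpt
  congr 1
  refine Finset.sum_congr rfl fun a _ => ?_
  by_cases h : T.par a = none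
  · rw [if_pos h, dir_thin h, zero_smul, smul_zero]
  · rw [if_neg h, dir_fat h]

theorem blk_eq (S : Side E) (p : E → ℤ) : S.load p (S.blk p) = p := by
  funext a
  unfold Side.load Side.blk
  split_ifs with h
  · ring
  · rfl

open Classical in
/-- windowed form -/
theorem soft_win {S : Side E} {N : E → ℕ} {κ' : E → ℤ → ℝ}
    (hS : ∀ a, S.T.par a ≠ none → ∀ t : ℤ, S.κ a t = if |t| ≤ N a then κ' a t else 0)
    (p : E → ℤ) :
    soft S p = ∑ t ∈ Fintype.piFinset (fun a => range ((if S.T.par a = none then 0 else 2 * N a) + 1)),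
      (∏ a, if S.T.par a = none then 1 else κ' a ((t a : ℤ) - N a)) *
        base S ((p - ∑ a, (N a : ℤ) • (ev a - ev (oth S.T a)))
          + ∑ a, (t a : ℤ) • (ev a - ev (oth S.T a))) := by
  unfold soft
  rw [S.ff_eq]
  have e1 : ∀ t : E → ℕ, (p - ∑ a, (N a : ℤ) • (ev a - ev (oth S.T a)))
          + ∑ a, (t a : ℤ) • (ev a - ev (oth S.T a)) = zpt S.T p (fun a => (t a : ℤ) - N a) := by
    intro t
    rw [zpt_dir]
    simp only [sub_smul, Finset.sum_sub_distrib]
    abel
  simp only [e1]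
  -- restrict both sums
  set t0 : (E → ℕ) → E → ℤ := fun t a => if S.T.par a = none then 0 else (t a : ℤ) - N a with ht0
  have e2 : ∀ t : E → ℕ, zpt S.T p (fun a => (t a : ℤ) - N a) = zpt S.T p (t0 t) := by
    intro t
    rw [zpt_dir, zpt_dir]
    congr 1
    refine Finset.sum_congr rfl fun a _ => ?_
    by_cases h : S.T.par a = none
    · rw [dir_thin h, smul_zero, smul_zero]
    · simp only [ht0, if_neg h]
  have hiff : ∀ (t : E → ℕ) (z : E → ℤ), zpt S.T p (t0 t) = z ↔
      S.Cons (S.blk p) z ∧ t0 t = S.tv p z := by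
    intro t z
    have := S.zpt_load_iff p (S.blk p) (t0 t) z (fun a ha => by simp only [ht0, if_pos ha])
    rwa [blk_eq] at this
  -- left side: only the points with slacks in the windows
  have hL : ∑ z ∈ S.J, (if S.Cons (S.blk p) z then S.g z * S.slw (S.tv p z) else 0) =
      ∑ z ∈ S.J.filter (fun z => S.Cons (S.blk p) z ∧ ∀ a, |S.tv p z a| ≤ N a),
        S.g z * S.slw (S.tv p z) := by
    rw [Finset.sum_filter]
    refine Finset.sum_congr rfl fun z _ => ?_
    by_cases hc : S.Cons (S.blk p) z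
    · by_cases hw : ∀ a, |S.tv p z a| ≤ N a
      · rw [if_pos hc, if_pos ⟨hc, hw⟩]
      · rw [if_pos hc, if_neg (fun h => hw h.2)]
        push Not at hw
        obtain ⟨a, ha⟩ := hw
        have hf : S.T.par a ≠ none := by
          intro h
          have : S.tv p z a = 0 := by unfold Side.tv; rw [if_pos h]
          rw [this, abs_zero] at ha
          have : (0 : ℤ) ≤ N a := Int.natCast_nonneg _
          omega
        have : S.slw (S.tv p z) = 0 := by
          unfold Side.slw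
          refine Finset.prod_eq_zero (mem_univ a) ?_
          rw [if_neg hf, hS a hf, if_neg (not_le.2 ha)]
        rw [this, mul_zero]
    · rw [if_neg hc, if_neg (fun h => hc h.1)]
  have hR : ∑ t ∈ Fintype.piFinset (fun a => range ((if S.T.par a = none then 0 else 2 * N a) + 1)),
      (∏ a, if S.T.par a = none then 1 else κ' a ((t a : ℤ) - N a)) *
        base S (zpt S.T p (fun a => (t a : ℤ) - N a)) =
      ∑ t ∈ (Fintype.piFinset (fun a => range ((if S.T.par a = none then 0 else 2 * N a) + 1))).filter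
        (fun t => zpt S.T p (t0 t) ∈ S.J),
      (∏ a, if S.T.par a = none then 1 else κ' a ((t a : ℤ) - N a)) * S.g (zpt S.T p (t0 t)) := by
    rw [Finset.sum_filter]
    refine Finset.sum_congr rfl fun t _ => ?_
    rw [e2]
    unfold base
    split_ifs
    · rfl
    · rw [mul_zero]
  rw [hL, hR]
  symm
  refine Finset.sum_nbij' (fun t => zpt S.T p (t0 t))
    (fun z a => if S.T.par a = none then 0 else (S.tv p z a + N a).toNat) ?_ ?_ ?_ ?_ ?_
  · intro t ht
    rw [mem_filter] at ht ⊢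
    obtain ⟨h1, h2⟩ := (hiff t _).1 rfl
    refine ⟨ht.2, h1, fun a => ?_⟩
    rw [← h2]
    have h3 := (Fintype.mem_piFinset.1 ht.1) a
    rw [mem_range] at h3
    simp only [ht0]
    by_cases h : S.T.par a = none
    · rw [if_pos h, abs_zero]; exact Int.natCast_nonneg _
    · rw [if_neg h] at h3 ⊢
      rw [abs_le]; omega
  · intro z hz
    rw [mem_filter] at hz ⊢
    obtain ⟨hzJ, hc, hw⟩ := hz
    have h3 : t0 (fun a => if S.T.par a = none then 0 else (S.tv p z a + N a).toNat) = S.tv p z := by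
      funext a
      simp only [ht0]
      have := abs_le.1 (hw a)
      by_cases h : S.T.par a = none
      · rw [if_pos h]; unfold Side.tv; rw [if_pos h]
      · rw [if_neg h, if_neg h]; omega
    refine ⟨?_, ?_⟩
    · rw [Fintype.mem_piFinset]
      intro a
      rw [mem_range]
      have := abs_le.1 (hw a)
      by_cases h : S.T.par a = none
      · simp [h]
      · simp only [if_neg h]; omega
    · rw [(hiff _ z).2 ⟨hc, h3⟩]; exact hzJ
  · intro t ht
    rw [mem_filter] at ht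
    obtain ⟨h1, h2⟩ := (hiff t _).1 rfl
    funext a
    have h3 := (Fintype.mem_piFinset.1 ht.1) a
    rw [mem_range] at h3
    rw [← h2]
    simp only [ht0]
    by_cases h : S.T.par a = none
    · rw [if_pos h] at h3; rw [if_pos h]; omega
    · rw [if_neg h] at h3; rw [if_neg h, if_neg h]; omega
  · intro z hz
    rw [mem_filter] at hz
    obtain ⟨hzJ, hc, hw⟩ := hz
    have h3 : t0 (fun a => if S.T.par a = none then 0 else (S.tv p z a + N a).toNat) = S.tv p z := by
      funext a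
      simp only [ht0]
      have := abs_le.1 (hw a)
      by_cases h : S.T.par a = none
      · rw [if_pos h]; unfold Side.tv; rw [if_pos h]
      · rw [if_neg h, if_neg h]; omega
    exact (hiff _ z).2 ⟨hc, h3⟩
  · intro t ht
    rw [mem_filter] at ht
    obtain ⟨h1, h2⟩ := (hiff t _).1 rfl
    rw [mul_comm]
    congr 1
    rw [← h2]
    unfold Side.slw
    refine Finset.prod_congr rfl fun a _ => ?_
    have h3 := (Fintype.mem_piFinset.1 ht.1) a
    rw [mem_range] at h3
    by_cases h : S.T.par a = none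
    · rw [if_pos h, if_pos h]; simp [ht0, h]
    · rw [if_neg h] at h3
      rw [if_neg h, if_neg h, hS a h]
      simp only [ht0, if_neg h]
      rw [if_pos]
      rw [abs_le]; omega

/-- **windowed kernels** : the soft weight is Lorentzian and bounded -/
theorem Lz_win {S : Side E} {d : ℤ} (hb : Lz d (base S)) {N : E → ℕ} {κ' : E → ℤ → ℝ}
    (hS : ∀ a, S.T.par a ≠ none → ∀ t : ℤ, S.κ a t = if |t| ≤ N a then κ' a t else 0)
    (hpos : ∀ a, S.T.par a ≠ none → ∀ t : ℤ, |t| ≤ N a → 0 < κ' a t)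
    (hlc : ∀ a, S.T.par a ≠ none → ∀ t : ℤ, κ' a t * κ' a (t + 2) ≤ κ' a (t + 1) ^ 2) :
    Lz d (soft S) ∧ ∃ C, ∀ p, soft S p ≤ C := by
  obtain ⟨C, hC⟩ := base_bdd S
  obtain ⟨h1, C', h2⟩ := multi hb hC (fun a : E => a) (fun a => oth S.T a)
    (fun a s => if S.T.par a = none then 1 else κ' a ((s : ℤ) - N a))
    (fun a => if S.T.par a = none then 0 else 2 * N a) (fun a j hj => by
      by_cases h : S.T.par a = none
      · simp only [if_pos h]; norm_num
      · rw [if_neg h] at hj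
        simp only [if_neg h]
        apply hpos a h
        rw [abs_le]; omega) (fun a j _ => by
      by_cases h : S.T.par a = none
      · simp only [if_pos h]; norm_num
      · simp only [if_neg h]
        have := hlc a h ((j : ℤ) - N a)
        have e1 : ((j + 2 : ℕ) : ℤ) - N a = (j : ℤ) - N a + 2 := by push_cast; ring
        have e2 : ((j + 1 : ℕ) : ℤ) - N a = (j : ℤ) - N a + 1 := by push_cast; ring
        rw [e1, e2]; exact this)
  have h3 := h1.shift (-(∑ a, (N a : ℤ) • (ev a - ev (oth S.T a))))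
  have e0 : ∑ v, (-(∑ a, (N a : ℤ) • (ev a - ev (oth S.T a))) : E → ℤ) v = 0 := by
    simp only [Pi.neg_apply, Finset.sum_apply, Finset.sum_neg_distrib]
    rw [Finset.sum_comm, Finset.sum_eq_zero, neg_zero]
    intro a _
    simp only [Pi.smul_apply, Pi.sub_apply, smul_eq_mul, mul_sub, Finset.sum_sub_distrib,
      ← Finset.mul_sum, sum_ev]
    ring
  rw [e0, sub_zero] at h3
  have e1 : soft S = fun p => ∑ t ∈ Fintype.piFinset
      (fun a => range ((if S.T.par a = none then 0 else 2 * N a) + 1)),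
      (∏ a, if S.T.par a = none then 1 else κ' a ((t a : ℤ) - N a)) *
        base S ((p + -∑ a, (N a : ℤ) • (ev a - ev (oth S.T a)))
          + ∑ a, (t a : ℤ) • (ev a - ev (oth S.T a))) := by
    funext p
    rw [soft_win hS p]
    simp only [sub_eq_add_neg]
  refine ⟨?_, C', fun p => ?_⟩
  · rw [e1]; exact h3
  · rw [e1]; exact h2 _

/-- restriction of the kernels to windows -/
noncomputable def trunc (S : Side E) (N : ℕ) : Side E :=
  { S with κ := fun a t => if |t| ≤ N then S.κ a t else 0 }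

open Classical in
theorem soft_trunc_eventually (S : Side E) (p : E → ℤ) :
    ∃ N₀ : ℕ, ∀ N, N₀ ≤ N → soft (trunc S N) p = soft S p := by
  refine ⟨∑ z ∈ S.J, ∑ a, (S.tv p z a).natAbs, fun N hN => ?_⟩
  unfold soft
  rw [Side.ff_eq, Side.ff_eq]
  refine Finset.sum_congr rfl fun z hz => ?_
  have hc : (trunc S N).Cons ((trunc S N).blk p) z ↔ S.Cons (S.blk p) z := Iff.rfl
  by_cases h : S.Cons (S.blk p) z
  · rw [if_pos h, if_pos (hc.2 h)]
    have hg : (trunc S N).g z = S.g z := rfl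
    rw [hg]
    congr 1
    unfold Side.slw
    refine Finset.prod_congr rfl fun a _ => ?_
    have hT : (trunc S N).T = S.T := rfl
    have htv : (trunc S N).tv p z = S.tv p z := rfl
    rw [hT, htv]
    by_cases hth : S.T.par a = none
    · rw [if_pos hth, if_pos hth]
    · rw [if_neg hth, if_neg hth]
      show (if |S.tv p z a| ≤ (N : ℤ) then S.κ a (S.tv p z a) else 0) = _
      rw [if_pos]
      have h1 : (S.tv p z a).natAbs ≤ ∑ a, (S.tv p z a).natAbs :=
        Finset.single_le_sum (f := fun a => (S.tv p z a).natAbs) (fun _ _ => Nat.zero_le _)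
          (mem_univ a)
      have h2 : ∑ a, (S.tv p z a).natAbs ≤ ∑ z ∈ S.J, ∑ a, (S.tv p z a).natAbs :=
        Finset.single_le_sum (f := fun z => ∑ a, (S.tv p z a).natAbs) (fun _ _ => Nat.zero_le _) hz
      rw [Int.abs_eq_natAbs]
      exact_mod_cast h1.trans (h2.trans hN)
  · rw [if_neg h, if_neg (fun h' => h (hc.1 h'))]

/-- **full kernels** -/
theorem Lz_soft {S : Side E} {d : ℤ} (hb : Lz d (base S))
    (hpos : ∀ a, S.T.par a ≠ none → ∀ t : ℤ, 0 < S.κ a t)
    (hlc : ∀ a, S.T.par a ≠ none → ∀ t : ℤ, S.κ a t * S.κ a (t + 2) ≤ S.κ a (t + 1) ^ 2) :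
    Lz d (soft S) := by
  refine Lz.lim (F := Filter.atTop) (c' := fun N : ℕ => soft (trunc S N)) (fun p => ?_)
    (fun N => ?_)
  · obtain ⟨N₀, hN⟩ := soft_trunc_eventually S p
    exact tendsto_const_nhds.congr' (Filter.eventually_atTop.2 ⟨N₀, fun N h => (hN N h).symm⟩)
  · have hb' : Lz d (base (trunc S N)) := hb
    exact (Lz_win hb' (N := fun _ => N) (κ' := S.κ) (fun a _ t => rfl)
      (fun a ha t _ => hpos a ha t) hlc).1

/-- the base weight of a side of base-polytope shape is Lorentzian -/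
theorem Lz_base_of {r : Finset E → ℤ} {R : ℤ} (hr : SubM r R) {c : (E → ℤ) → ℝ}
    {ω : E → ℤ → ℝ} (hω : ∀ v k, 0 < ω v k)
    (hlc : ∀ v k, ω v k * ω v (k + 2) ≤ ω v (k + 1) ^ 2)
    (hc1 : ∀ z, MemJ r R z → c z = ∏ v, ω v (z v)) (hc0 : ∀ z, ¬ MemJ r R z → c z = 0) :
    Lz R c := by
  classical
  set i : (E → ℤ) → ℝ := fun z => if MemJ r R z then 1 else 0 with hi
  have hi0 : ∀ z, 0 ≤ i z := by
    intro z; simp only [hi]; split_ifs <;> norm_num
  have hL : Lz R i := Lz.memJ hr (fun z hz => by simp only [hi, if_pos hz])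
    (fun z hz => by simp only [hi, if_neg hz])
  have he : ∀ z, c z = i z * ∏ v, ω v (z v) := by
    intro z
    by_cases hz : MemJ r R z
    · rw [hc1 z hz]; simp only [hi, if_pos hz, one_mul]
    · rw [hc0 z hz]; simp only [hi, if_neg hz, zero_mul]
  have hp : ∀ z : E → ℤ, 0 < ∏ v, ω v (z v) := fun z => Finset.prod_pos fun v _ => hω v _
  refine Lz.of_base ?_ ?_ ?_ ?_
  · intro z; rw [he]; exact mul_nonneg (hi0 z) (hp z).le
  · intro z hz
    rw [he] at hz
    exact hL.deg z (left_ne_zero_of_mul hz)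
  · have : {γ | 0 < c γ} = {γ | MemJ r R γ} := by
      ext z
      simp only [Set.mem_ofPred_eq]
      by_cases hz : MemJ r R z
      · simp only [hz, iff_true]; rw [hc1 z hz]; exact hp z
      · simp only [hz, iff_false]; rw [hc0 z hz]; exact lt_irrefl _
    rw [this]; exact mcx_memJ hr
  · intro β
    have h1 := Crest.Agent.R302.AnnBox.af_mul_sep (c := i) hi0
      (fun β => hL.af [] (by simp) β) hω hlc β
    have e : (fun u v => c (β + ev u + ev v)) =
        fun u v => i (β + ev u + ev v) * ∏ w, ω w ((β + ev u + ev v) w) := by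
      funext u v; rw [he]
    rw [e]; exact h1

theorem Lz_base {S : Side E} {r : Finset E → ℤ} {R : ℤ} {ω : E → ℤ → ℝ}
    (hr : SubM r R) (hmem : ∀ z, z ∈ S.J ↔ MemJ r R z) (hwt : ∀ z ∈ S.J, S.g z = ∏ v, ω v (z v))
    (hω : ∀ v k, 0 < ω v k) (hlc : ∀ v k, ω v k * ω v (k + 2) ≤ ω v (k + 1) ^ 2) :
    Lz R (base S) := by
  refine Lz_base_of hr hω hlc (fun z hz => ?_) (fun z hz => ?_)
  · unfold base; rw [if_pos ((hmem z).2 hz), hwt z ((hmem z).2 hz)]
  · unfold base; rw [if_neg (fun h => hz ((hmem z).1 h))]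

/-! ### reflection -/

/-- reflected side -/
def refl (S : Side E) : Side E where
  T := S.T
  J := S.J.image fun z => -z
  g := fun z => S.g (-z)
  κ := fun a t => S.κ a (-t)

theorem soft_refl (S : Side E) (p : E → ℤ) : soft (refl S) p = soft S (-p) := by
  unfold soft Side.ff
  show ∑ z ∈ S.J.image (fun z => -z), _ = _
  rw [Finset.sum_image (fun a _ b _ h => neg_injective h)]
  refine Finset.sum_congr rfl fun z _ => ?_
  have e1 : (refl S).g (-z) = S.g z := by
    show S.g (- -z) = _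
    rw [neg_neg]
  rw [e1]
  congr 1
  refine Finset.prod_congr rfl fun a _ => ?_
  unfold Side.fk
  by_cases h : S.T.par a = none
  · rw [dif_pos (show (refl S).T.par a = none from h), dif_pos h]
    have e2 : (bs (refl S).T (-z) a = (refl S).blk p ⟨a, h⟩) ↔
        (bs S.T z a = S.blk (-p) ⟨a, h⟩) := by
      show bs S.T (-z) a = bs S.T p a ↔ bs S.T z a = bs S.T (-p) a
      rw [bs_neg, bs_neg]
      constructor <;> intro h' <;> omega
    exact if_congr e2 rfl rfl
  · rw [dif_neg (show ¬ (refl S).T.par a = none from h), dif_neg h]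
    show S.κ a (-(bs S.T (-z) a - bs S.T p a)) = _
    rw [bs_neg, bs_neg]
    congr 1; ring

theorem Lz_base_refl {S : Side E} {r : Finset E → ℤ} {R : ℤ} {ω : E → ℤ → ℝ}
    (hr : SubM r R) (hmem : ∀ z, z ∈ S.J ↔ MemJ r R z) (hwt : ∀ z ∈ S.J, S.g z = ∏ v, ω v (z v))
    (hω : ∀ v k, 0 < ω v k) (hlc : ∀ v k, ω v k * ω v (k + 2) ≤ ω v (k + 1) ^ 2) :
    Lz (-R) (base (refl S)) := by
  classical
  set i : (E → ℤ) → ℝ := fun z => if MemJ r R (-z) then 1 else 0 with hi
  have hi0 : ∀ z, 0 ≤ i z := by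
    intro z; simp only [hi]; split_ifs <;> norm_num
  have hL : Lz (-R) i := by
    have := Lz.memJ_reflect hr 0 (c := i) (fun z hz => by
      rw [zero_sub] at hz; simp only [hi, if_pos hz]) (fun z hz => by
      rw [zero_sub] at hz; simp only [hi, if_neg hz])
    simpa using this
  set ω' : E → ℤ → ℝ := fun v k => ω v (-k) with hω'
  have he : ∀ z, base (refl S) z = i z * ∏ v, ω' v (z v) := by
    intro z
    have hz' : z ∈ (refl S).J ↔ MemJ r R (-z) := by
      show z ∈ S.J.image (fun z => -z) ↔ _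
      rw [Finset.mem_image, ← hmem]
      constructor
      · rintro ⟨y, hy, rfl⟩; rw [neg_neg]; exact hy
      · intro h; exact ⟨-z, h, neg_neg z⟩
    unfold base
    by_cases hz : MemJ r R (-z)
    · rw [if_pos (hz'.2 hz)]
      simp only [hi, if_pos hz, one_mul, hω']
      show S.g (-z) = _
      rw [hwt _ ((hmem _).2 hz)]
      rfl
    · rw [if_neg (fun h => hz (hz'.1 h))]; simp only [hi, if_neg hz, zero_mul]
  have hp : ∀ z : E → ℤ, 0 < ∏ v, ω' v (z v) := fun z => Finset.prod_pos fun v _ => hω v _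
  have hlc' : ∀ v k, ω' v k * ω' v (k + 2) ≤ ω' v (k + 1) ^ 2 := by
    intro v k
    have := hlc v (-(k + 2))
    simp only [hω']
    rw [show -(k + 2) + 2 = -k by ring, show -(k + 2) + 1 = -(k + 1) by ring] at this
    rw [mul_comm]; exact this
  refine Lz.of_base ?_ ?_ ?_ ?_
  · intro z; rw [he]; exact mul_nonneg (hi0 z) (hp z).le
  · intro z hz
    rw [he] at hz
    exact hL.deg z (left_ne_zero_of_mul hz)
  · have : {γ | 0 < base (refl S) γ} = {γ | 0 - γ ∈ {x | MemJ r R x}} := by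
      ext z
      simp only [Set.mem_ofPred_eq, zero_sub]
      rw [he]
      by_cases hz : MemJ r R (-z)
      · simp only [hz, iff_true, hi, if_true, one_mul]; exact hp z
      · simp only [hz, iff_false, hi, if_false, zero_mul]; exact lt_irrefl _
    rw [this]; exact (mcx_memJ hr).reflect 0
  · intro β
    have h1 := Crest.Agent.R302.AnnBox.af_mul_sep (c := i) hi0
      (fun β => hL.af [] (by simp) β) (ω := ω') (fun v k => hω v _) hlc' β
    have e : (fun u v => base (refl S) (β + ev u + ev v)) =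
        fun u v => i (β + ev u + ev v) * ∏ w, ω' w ((β + ev u + ev v) w) := by
      funext u v; rw [he]
    rw [e]; exact h1

/-! ### pairs -/

/-- joint soft mass over the window `B` with the shifts `g_X`, `-g_Y` -/
noncomputable def pairA (B : Finset (E → ℤ)) (F₁ F₂ : (E → ℤ) → ℝ) (g : E ⊕ E → ℤ) : ℝ :=
  ∑ x ∈ B, F₁ (x + fun e => g (Sum.inl e)) * F₂ (x - fun e => g (Sum.inr e))

theorem ev_inl_apply (e v : E) : ev (Sum.inl e : E ⊕ E) (Sum.inl v) = ev e v :=
  congrFun (ev_inl_inl (V₂ := E) e) v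

theorem ev_inr_apply (e v : E) : ev (Sum.inr e : E ⊕ E) (Sum.inr v) = ev e v :=
  congrFun (ev_inr_inr (V₁ := E) e) v

theorem sum_smul_ev_apply (t : E → ℤ) (v : E) : ∑ e, t e * ev e v = t v := by
  rw [Finset.sum_eq_single v]
  · rw [ev_self, mul_one]
  · intro b _ hb; rw [ev_ne hb, mul_zero]
  · intro h; exact absurd (mem_univ v) h

/-- **the pair weight is Lorentzian** -/
theorem Lz_pair {F₁ F₂ : (E → ℤ) → ℝ} {R : ℤ} (h₁ : Lz R F₁)
    (h₂ : Lz (-R) (fun p => F₂ (-p))) {C₁ C₂ : ℝ} (hC₁ : ∀ p, F₁ p ≤ C₁) (hC₂ : ∀ p, F₂ p ≤ C₂)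
    (lo : E → ℤ) (m : E → ℕ) :
    Lz 0 (pairA (Fintype.piFinset fun e => Icc (lo e) (lo e + m e)) F₁ F₂) ∧
      ∃ C, ∀ g, pairA (Fintype.piFinset fun e => Icc (lo e) (lo e + m e)) F₁ F₂ g ≤ C := by
  have hp : Lz 0 (pw F₁ fun p => F₂ (-p)) := by
    have := Lz.prod h₁ h₂ hC₁ (C₂ := C₂) (fun β => hC₂ _)
    rwa [add_neg_cancel] at this
  have hpb : ∀ β, pw F₁ (fun p => F₂ (-p)) β ≤ |C₁| * |C₂| := by
    intro β
    unfold pw
    exact mul_le_mul ((hC₁ _).trans (le_abs_self _)) ((hC₂ _).trans (le_abs_self _))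
      (h₂.nonneg _) (abs_nonneg _)
  obtain ⟨k1, C, k2⟩ := multi hp hpb (fun e : E => (Sum.inl e : E ⊕ E)) (fun e => Sum.inr e)
    (fun _ _ => (1 : ℝ)) m (fun _ _ _ => one_pos) (fun _ _ _ => by norm_num)
  set κ : E ⊕ E → ℤ := Sum.elim lo (fun e => -lo e) with hκ
  have k3 := k1.shift κ
  have e0 : (0 : ℤ) - ∑ v, κ v = 0 := by
    rw [Fintype.sum_sum_type]
    simp [hκ]
  rw [e0] at k3
  have e1 : ∀ g : E ⊕ E → ℤ, pairA (Fintype.piFinset fun e => Icc (lo e) (lo e + m e)) F₁ F₂ g =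
      ∑ S ∈ Fintype.piFinset (fun e : E => range (m e + 1)), (∏ _i : E, (1 : ℝ)) *
        pw F₁ (fun p => F₂ (-p)) (g + κ + ∑ e, (S e : ℤ) • (ev (Sum.inl e) - ev (Sum.inr e))) := by
    intro g
    unfold pairA
    symm
    refine Finset.sum_nbij' (fun S e => lo e + (S e : ℤ)) (fun x e => (x e - lo e).toNat)
      ?_ ?_ ?_ ?_ ?_
    · intro S hS
      rw [Fintype.mem_piFinset] at hS ⊢
      intro e
      have := hS e
      rw [mem_range] at this
      rw [mem_Icc]; omega
    · intro x hx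
      rw [Fintype.mem_piFinset] at hx ⊢
      intro e
      have := hx e
      rw [mem_Icc] at this
      rw [mem_range]; omega
    · intro S hS
      funext e
      simp
    · intro x hx
      rw [Fintype.mem_piFinset] at hx
      funext e
      have := hx e
      rw [mem_Icc] at this
      simp only
      omega
    · intro S _
      rw [Finset.prod_const_one, one_mul]
      unfold pw
      have a1 : (fun v => (g + κ + ∑ e, (S e : ℤ) • (ev (Sum.inl e) - ev (Sum.inr e)) :
          E ⊕ E → ℤ) (Sum.inl v)) = (fun e => lo e + (S e : ℤ)) + fun e => g (Sum.inl e) := by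
        funext v
        simp only [Pi.add_apply, Finset.sum_apply, Pi.smul_apply, Pi.sub_apply, smul_eq_mul]
        have b1 : ∀ e : E, ev (Sum.inr e : E ⊕ E) (Sum.inl v) = 0 := fun e => ev_ne (by simp)
        simp only [b1, ev_inl_apply, sub_zero]
        rw [sum_smul_ev_apply (fun e => (S e : ℤ)) v]
        simp only [hκ, Sum.elim_inl]
        ring
      have a2 : -(fun v => (g + κ + ∑ e, (S e : ℤ) • (ev (Sum.inl e) - ev (Sum.inr e)) :
          E ⊕ E → ℤ) (Sum.inr v)) = (fun e => lo e + (S e : ℤ)) - fun e => g (Sum.inr e) := by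
        funext v
        simp only [Pi.neg_apply, Pi.add_apply, Finset.sum_apply, Pi.smul_apply, Pi.sub_apply,
          smul_eq_mul]
        have b1 : ∀ e : E, ev (Sum.inl e : E ⊕ E) (Sum.inr v) = 0 := fun e => ev_ne (by simp)
        simp only [b1, ev_inr_apply, zero_sub, mul_neg, Finset.sum_neg_distrib]
        rw [sum_smul_ev_apply (fun e => (S e : ℤ)) v]
        simp only [hκ, Sum.elim_inr]
        ring
      rw [a1]
      beta_reduce
      rw [a2]
  refine ⟨?_, C, fun g => ?_⟩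
  · have : pairA (Fintype.piFinset fun e => Icc (lo e) (lo e + m e)) F₁ F₂ = fun g =>
        ∑ S ∈ Fintype.piFinset (fun e : E => range (m e + 1)), (∏ _i : E, (1 : ℝ)) *
        pw F₁ (fun p => F₂ (-p)) (g + κ + ∑ e, (S e : ℤ) • (ev (Sum.inl e) - ev (Sum.inr e))) := by
      funext g; exact e1 g
    rw [this]; exact k3
  · rw [e1]; exact k2 _

end Crest.Agent.R302.Gau
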