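import Crest.Agent.R302.MSP893H
import Crest.Agent.R302.Inst532C
import Crest.Agent.R302.MacroB541

-- ▼ part R302/S1x893A
section

/-!
R302 (helper893), block (S1x), part A: `msp_moves` for helper532's `FF`.
-/

set_option autoImplicit false
set_option linter.unusedSectionVars false
set_option linter.unusedVariables false

namespace Crest.Agent.R302.T893

open Finset Lor
open Crest.Agent.R302.Tree (RTree)
open Crest.Agent.R302.Cut (cw ind dvec)
open Crest.Agent.R302.Inst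

variable {E : Type*} [Fintype E] [DecidableEq E]

section Tok

theorem tX_inj : Function.Injective (tX : E → Tok E) := by
  intro a b h
  simpa [tX] using h

theorem tY_inj : Function.Injective (tY : E → Tok E) := by
  intro a b h
  simpa [tY] using h

theorem tX_ne_tY (e e' : E) : tX e ≠ tY e' := by simp [tX, tY]

variable (T₁ T₂ : MP3.Forest E)

theorem desc_tX_iff (e : E) (q : Tok E) :
    (tree T₁ T₂).Desc (tX e) q ↔ ∃ c, T₁.Le c e ∧ q = tX c := by
  constructor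
  · intro h
    induction h with
    | refl => exact ⟨e, MP3.Forest.Le.refl _ _, rfl⟩
    | step q hq _ ih =>
      obtain ⟨c, hc, hqc⟩ := ih
      rcases q with _ | a | a
      · exact absurd rfl hq
      · rcases hp : T₁.par a with _ | b
        · simp [tree, tX, hp] at hqc
        · simp only [tree, tX, hp, Option.map_some, Option.some.injEq, Sum.inl.injEq] at hqc
          subst hqc
          exact ⟨a, (MP3.Forest.Le.of_par hp).trans hc, rfl⟩
      · rcases hp : T₂.par a with _ | b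
        · simp [tree, tX, hp] at hqc
        · simp [tree, tX, hp] at hqc
  · rintro ⟨c, hc, rfl⟩
    unfold MP3.Forest.Le at hc
    induction hc using Relation.ReflTransGen.head_induction_on with
    | refl => exact RTree.Desc.refl
    | @head a b hx _ ih =>
      refine RTree.Desc.step _ (by simp [tree, tX]) ?_
      have : (tree T₁ T₂).par (tX a) = tX b := by simp [tree, tX, hx]
      rw [this]
      exact ih

theorem desc_tY_iff (e : E) (q : Tok E) :
    (tree T₁ T₂).Desc (tY e) q ↔ ∃ c, T₂.Le c e ∧ q = tY c := by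
  constructor
  · intro h
    induction h with
    | refl => exact ⟨e, MP3.Forest.Le.refl _ _, rfl⟩
    | step q hq _ ih =>
      obtain ⟨c, hc, hqc⟩ := ih
      rcases q with _ | a | a
      · exact absurd rfl hq
      · rcases hp : T₁.par a with _ | b
        · simp [tree, tY, hp] at hqc
        · simp [tree, tY, hp] at hqc
      · rcases hp : T₂.par a with _ | b
        · simp [tree, tY, hp] at hqc
        · simp only [tree, tY, hp, Option.map_some, Option.some.injEq, Sum.inr.injEq] at hqc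
          subst hqc
          exact ⟨a, (MP3.Forest.Le.of_par hp).trans hc, rfl⟩
  · rintro ⟨c, hc, rfl⟩
    unfold MP3.Forest.Le at hc
    induction hc using Relation.ReflTransGen.head_induction_on with
    | refl => exact RTree.Desc.refl
    | @head a b hx _ ih =>
      refine RTree.Desc.step _ (by simp [tree, tY]) ?_
      have : (tree T₁ T₂).par (tY a) = tY b := by simp [tree, tY, hx]
      rw [this]
      exact ih

theorem desc_tX (e : E) : (tree T₁ T₂).desc (tX e) = (T₁.sub e).map ⟨tX, tX_inj⟩ := by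
  ext q
  rw [RTree.mem_desc, desc_tX_iff, Finset.mem_map]
  constructor
  · rintro ⟨c, hc, rfl⟩; exact ⟨c, MP3.Forest.mem_sub.2 hc, rfl⟩
  · rintro ⟨c, hc, rfl⟩; exact ⟨c, MP3.Forest.mem_sub.1 hc, rfl⟩

theorem desc_tY (e : E) : (tree T₁ T₂).desc (tY e) = (T₂.sub e).map ⟨tY, tY_inj⟩ := by
  ext q
  rw [RTree.mem_desc, desc_tY_iff, Finset.mem_map]
  constructor
  · rintro ⟨c, hc, rfl⟩; exact ⟨c, MP3.Forest.mem_sub.2 hc, rfl⟩
  · rintro ⟨c, hc, rfl⟩; exact ⟨c, MP3.Forest.mem_sub.1 hc, rfl⟩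

theorem lev_tX (e : E) (m : ℤ) (y : E → ℤ) :
    lev (tree T₁ T₂) (tX e) (gam m y) = (bs T₁ y e : ℝ) := by
  unfold lev bs
  rw [desc_tX, Finset.sum_map]
  rfl

theorem lev_tY (e : E) (y : E → ℤ) :
    lev (tree T₁ T₂) (tY e) (gam 0 y) = -(bs T₂ y e : ℝ) := by
  unfold lev bs
  rw [desc_tY, Finset.sum_map]
  rw [← Int.cast_neg, ← Finset.sum_neg_distrib]
  congr 1
  refine Finset.sum_congr rfl fun c _ => ?_
  show (0 : ℤ) - y c = - y c
  ring

end Tok

/-- the level of a token (side 1: subtree sum in forest 1; side 2: subtree sum in forest 2) -/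
noncomputable def lvl (T₁ T₂ : MP3.Forest E) (p : Tok E) (y : E → ℤ) : ℝ := match p with
  | none => 0
  | some (Sum.inl e) => (bs T₁ y e : ℝ)
  | some (Sum.inr e) => (bs T₂ y e : ℝ)

/-- sign flip on side 2 -/
noncomputable def cfl (c : Tok E → ℝ) (p : Tok E) : ℝ := match p with
  | none => 0
  | some (Sum.inl e) => c (some (Sum.inl e))
  | some (Sum.inr e) => -c (some (Sum.inr e))

theorem lev_lvl (T₁ T₂ : MP3.Forest E) (c : Tok E → ℝ) (p : Tok E) (hp : p ≠ none) (y : E → ℤ) :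
    |lev (tree T₁ T₂) p (gam 0 y) - cfl c p| = |lvl T₁ T₂ p y - c p| := by
  rcases p with _ | e | e
  · exact absurd rfl hp
  · have := lev_tX T₁ T₂ e 0 y
    unfold tX at this
    rw [this]
    rfl
  · have := lev_tY T₁ T₂ e y
    unfold tY at this
    rw [this]
    show |-(bs T₂ y e : ℝ) - -c (some (Sum.inr e))| = |(bs T₂ y e : ℝ) - c (some (Sum.inr e))|
    rw [← abs_neg]
    congr 1
    ring

/-- the marginal weight of `x` -/
noncomputable def ww (S₁ S₂ : Side E) (θ : ℝ) (μ : E → ℝ) (y : E → ℤ) : ℝ :=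
  S₁.W θ μ y * S₂.W θ (fun e => (μ e)⁻¹) y

theorem FF_gam0 (S₁ S₂ : Side E) (θ : ℝ) (μ : E → ℝ) (y : E → ℤ) :
    FF S₁ S₂ θ μ 0 (gam 0 y) = ww S₁ S₂ θ μ y := FF_gam S₁ S₂ θ μ 0 y

section Msp

variable {S₁ S₂ : Side E} {b₁ D₁ b₂ D₂ : E → ℝ} {θ : ℝ} {μ : E → ℝ} {β₀ : ℝ}

/-- multiplicative slope of a token edge -/
noncomputable def be (S₁ S₂ : Side E) (θ : ℝ) (b₁ b₂ : E → ℝ) (p : Tok E) : ℝ :=
  Real.exp (tb S₁ S₂ θ b₁ b₂ p)

theorem be_ge (h : Pair S₁ S₂ b₁ D₁ b₂ D₂ θ μ β₀) (q : Tok E) : 1 ≤ be S₁ S₂ θ b₁ b₂ q :=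
  Real.one_le_exp (h.tb_nonneg q)

theorem be_up (h : Pair S₁ S₂ b₁ D₁ b₂ D₂ θ μ β₀) (m : ℤ) (q : Tok E)
    (hq : q ≠ (tree S₁.T S₂.T).root) (d : Tok E → ℤ) :
    FF S₁ S₂ θ μ m (d + ev q) ≤
      be S₁ S₂ θ b₁ b₂ q * FF S₁ S₂ θ μ m (d + ev ((tree S₁.T S₂.T).par q)) := by
  have h1 := (h.FF_line m q hq (d + ev ((tree S₁.T S₂.T).par q))).up 0
  simp only [zero_add, one_smul, zero_smul, add_zero] at h1
  rw [show d + ev ((tree S₁.T S₂.T).par q) + (ev q - ev ((tree S₁.T S₂.T).par q))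
    = d + ev q from by abel] at h1
  exact h1

theorem be_dn (h : Pair S₁ S₂ b₁ D₁ b₂ D₂ θ μ β₀) (m : ℤ) (q : Tok E)
    (hq : q ≠ (tree S₁.T S₂.T).root) (d : Tok E → ℤ) :
    FF S₁ S₂ θ μ m (d + ev ((tree S₁.T S₂.T).par q)) ≤
      be S₁ S₂ θ b₁ b₂ q * FF S₁ S₂ θ μ m (d + ev q) := by
  have h1 := (h.FF_line m q hq (d + ev ((tree S₁.T S₂.T).par q))).dn 0
  simp only [zero_add, one_smul, zero_smul, add_zero] at h1
  rw [show d + ev ((tree S₁.T S₂.T).par q) + (ev q - ev ((tree S₁.T S₂.T).par q))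
    = d + ev q from by abel] at h1
  exact h1

theorem be_thin (h : Pair S₁ S₂ b₁ D₁ b₂ D₂ θ μ β₀) (q : Tok E)
    (hq : (tree S₁.T S₂.T).par q = (tree S₁.T S₂.T).root) : be S₁ S₂ θ b₁ b₂ q ≤ θ⁻¹ := by
  have h1 : 1 ≤ θ⁻¹ := (one_le_inv₀ h.θ0).2 h.θ1
  unfold be
  rcases q with _ | e | e
  · simpa [tb] using h1
  · have h2 : S₁.T.par e = none := by
      rcases hp : S₁.T.par e with _ | b
      · rfl
      · simp [tree, hp] at hq
    have h3 : tb S₁ S₂ θ b₁ b₂ (some (Sum.inl e)) = -Real.log θ := by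
      simp [tb, Side.bb, h2]
    rw [h3, Real.exp_neg, Real.exp_log h.θ0]
  · have h2 : S₂.T.par e = none := by
      rcases hp : S₂.T.par e with _ | b
      · rfl
      · simp [tree, hp] at hq
    have h3 : tb S₁ S₂ θ b₁ b₂ (some (Sum.inr e)) = -Real.log θ := by
      simp [tb, Side.bb, h2]
    rw [h3, Real.exp_neg, Real.exp_log h.θ0]

theorem sum_tok (f : Tok E → ℝ) : ∑ p, f p = f none + (∑ e, f (tX e) + ∑ e, f (tY e)) := by
  rw [Fintype.sum_option, Fintype.sum_sum_type]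
  rfl

theorem card_tok : Fintype.card (Tok E) = 2 * Fintype.card E + 1 := by
  unfold Tok
  rw [Fintype.card_option, Fintype.card_sum]
  ring

theorem be_fat (h : Pair S₁ S₂ b₁ D₁ b₂ D₂ θ μ β₀) :
    ∏ q ∈ univ.filter (fun q => (tree S₁.T S₂.T).par q ≠ (tree S₁.T S₂.T).root),
      be S₁ S₂ θ b₁ b₂ q ≤ Real.exp β₀ ^ 2 := by
  classical
  unfold be
  rw [← Real.exp_sum, ← Real.exp_nat_mul]
  refine Real.exp_le_exp.2 ?_
  rw [Finset.sum_filter, sum_tok]
  have e0 : (if (tree S₁.T S₂.T).par none ≠ (tree S₁.T S₂.T).root then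
      tb S₁ S₂ θ b₁ b₂ none else 0) = 0 := by simp [tree]
  have e1 : ∀ e, (if (tree S₁.T S₂.T).par (tX e) ≠ (tree S₁.T S₂.T).root then
      tb S₁ S₂ θ b₁ b₂ (tX e) else 0) ≤ if S₁.T.par e ≠ none then b₁ e else 0 := by
    intro e
    rcases hp : S₁.T.par e with _ | b
    · simp [tree, tX, hp]
    · simp [tree, tX, hp, tb, Side.bb]
  have e2 : ∀ e, (if (tree S₁.T S₂.T).par (tY e) ≠ (tree S₁.T S₂.T).root then
      tb S₁ S₂ θ b₁ b₂ (tY e) else 0) ≤ if S₂.T.par e ≠ none then b₂ e else 0 := by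
    intro e
    rcases hp : S₂.T.par e with _ | b
    · simp [tree, tY, hp]
    · simp [tree, tY, hp, tb, Side.bb]
  rw [e0]
  have h1 := (Finset.sum_le_sum fun e (_ : e ∈ univ) => e1 e).trans h.hβ₁
  have h2 := (Finset.sum_le_sum fun e (_ : e ∈ univ) => e2 e).trans h.hβ₂
  push_cast
  linarith

/-- **(S1x), fine form**: `msp_moves` for the marginal weight `W₁ W₂`. -/
theorem msp_FF (h : Pair S₁ S₂ b₁ D₁ b₂ D₂ θ μ β₀)
    (hAF : ∀ d, AF (fun p q => FF S₁ S₂ θ μ 0 (d + ev p + ev q)))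
    {PP : ℝ} {L c : Tok E → ℝ} (hL : ∀ p, 1 ≤ L p)
    (hPP : ∑ q ∈ univ.erase (none : Tok E),
      (2 * kap θ β₀ * tB S₁ S₂ θ b₁ b₂ q + 1 / L q) ^ 2 * L q ^ 2 ≤ PP)
    (hsL : ∀ p : Tok E, p ≠ none →
      6 * (Fintype.card (Tok E) * ∑ q ∈ ((tree S₁.T S₂.T).desc p).erase p,
        ts S₁ S₂ θ b₁ b₂ D₁ D₂ β₀ q * L q ^ 2) ≤ L p ^ 2)
    (order : List E) (hnd : order.Nodup) (hall : ∀ e, e ∈ order)
    (R : E → Tok E → E → ℤ) {b' : Tok E → ℝ} (hRep : Rep (tree S₁.T S₂.T) tX tY b' order R)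
    (f : (E → ℤ) → ℝ) {A : ℝ} (hf : ∀ y, |f y| ≤ A) (x : E → ℤ) (m : ℕ)
    (B Bp : Finset (E → ℤ))
    (hB : B = Fintype.piFinset fun e => Icc (x e) (x e + m))
    (hBp : Bp = Fintype.piFinset fun e => Icc (x e - 1) (x e + m + 1)) :
    Macro.vr B (ww S₁ S₂ θ μ) f ≤
      ∑ i, ∑ p ∈ univ.erase (none : Tok E),
        C1 (Fintype.card (Tok E)) (kap θ β₀) PP * kap θ β₀ ^ 2 * L p ^ 2 *
        Macro.S Bp (ww S₁ S₂ θ μ)
          (fun y => (f (y + (R i p - R i ((tree S₁.T S₂.T).par p))) - f y) ^ 2)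
      + Fintype.card E * (C2 m (Fintype.card E) (kap θ β₀) * A ^ 2 *
        ∑ p ∈ univ.erase (none : Tok E),
          ∑ y ∈ B.filter (fun y => ¬ |lvl S₁.T S₂.T p y - c p| ≤ L p - 2), ww S₁ S₂ θ μ y) := by
  classical
  have hθ1 : 1 ≤ θ⁻¹ := (one_le_inv₀ h.θ0).2 h.θ1
  have key := msp_moves (m := m) (X := tX) (Y := tY) (F := FF S₁ S₂ θ μ 0) (γ := gam 0)
    (fun δ => h.FF_pos 0 δ) hAF (fun y k => Inst.gam_single 0 y k) h.kap_ge
    (fun δ p q => h.FF_kap 0 δ p q) (tree S₁.T S₂.T) (L := L) (c := cfl c)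
    (b := tB S₁ S₂ θ b₁ b₂) (s := ts S₁ S₂ θ b₁ b₂ D₁ D₂ β₀) (β := be S₁ S₂ θ b₁ b₂) hL
    h.ts_nonneg (fun p q hq hqp δ => h.FF_s 0 p q (RTree.mem_desc_ne_root hq hqp) δ)
    h.tB_nonneg (fun q hq δ => h.FF_b 0 q hq δ) hPP hsL (be_ge h) (fun q hq δ => be_up h 0 q hq δ)
    (fun q hq δ => be_dn h 0 q hq δ) (κt := θ⁻¹) (K3 := Real.exp β₀ ^ 2) (be_thin h) hθ1 (be_fat h)
    order hnd hall R ⟨b', hRep⟩ f hf x B Bp hB hBp
  have e1 : kap θ β₀ * (Real.exp β₀ ^ 2 * θ⁻¹ ^ 2) = kap θ β₀ ^ 2 := by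
    unfold kap; ring
  have e2 : ∀ p ∈ univ.erase (none : Tok E), ∑ y ∈ B, tl (FF S₁ S₂ θ μ 0) (gam 0)
      (tree S₁.T S₂.T) L (cfl c) p y =
      ∑ y ∈ B.filter (fun y => ¬ |lvl S₁.T S₂.T p y - c p| ≤ L p - 2), ww S₁ S₂ θ μ y := by
    intro p hp
    rw [Finset.sum_filter]
    refine Finset.sum_congr rfl fun y _ => ?_
    unfold tl
    rw [lev_lvl _ _ _ _ (Finset.ne_of_mem_erase hp), FF_gam0]
    by_cases hc : |lvl S₁.T S₂.T p y - c p| ≤ L p - 2
    · rw [if_pos hc, if_neg (not_not.2 hc)]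
    · rw [if_neg hc, if_pos hc]
  simp only [e1, FF_gam0] at key
  have hroot : (tree S₁.T S₂.T).root = none := rfl
  rw [hroot, Finset.sum_congr rfl e2] at key
  exact key

end Msp

end Crest.Agent.R302.T893
end

-- ▼ part R302/S1x893B
section

/-!
R302 (helper893), block (S1x), part B: slopes of the marginal weight along the moves.
-/

set_option autoImplicit false
set_option linter.unusedSectionVars false
set_option linter.unusedVariables false

namespace Crest.Agent.R302.T893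

open Finset Lor
open Crest.Agent.R302.Tree (RTree)
open Crest.Agent.R302.Cut (cw ind dvec)
open Crest.Agent.R302.Inst

variable {E : Type*} [Fintype E] [DecidableEq E]

/-- the move `c_{i,p}` -/
def cdir {V : Type*} (T : RTree V) (R : E → V → E → ℤ) (i : E) (p : V) : E → ℤ :=
  R i p - R i (T.par p)

theorem disp_sub {V : Type*} [DecidableEq V] (X Y : E → V) (a b : E → ℤ) (v : V) :
    disp X Y (a - b) v = disp X Y a v - disp X Y b v := by
  unfold disp
  rw [← Finset.sum_sub_distrib]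
  refine Finset.sum_congr rfl fun k _ => ?_
  rw [Pi.sub_apply]; ring

theorem xch_sub {V : Type*} [Fintype V] [DecidableEq V] (T : RTree V) (a b : V → ℤ) (v : V) :
    xch T (a - b) v = xch T a v - xch T b v := by
  unfold xch
  rw [← Finset.sum_sub_distrib]
  refine Finset.sum_congr rfl fun k _ => ?_
  rw [Pi.sub_apply]; ring

variable {S₁ S₂ : Side E} {b₁ D₁ b₂ D₂ : E → ℝ} {θ : ℝ} {μ : E → ℝ} {β₀ : ℝ}
  {order : List E} {R : E → Tok E → E → ℤ} {b' : Tok E → ℝ}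

theorem ww_pos (h : Pair S₁ S₂ b₁ D₁ b₂ D₂ θ μ β₀) (y : E → ℤ) : 0 < ww S₁ S₂ θ μ y :=
  mul_pos (h.W₁_pos y) (h.W₂_pos y)

/-- a route of the move gives a ratio bound, both for forward and backward steps -/
theorem ww_route (h : Pair S₁ S₂ b₁ D₁ b₂ D₂ θ μ β₀) (c : E → ℤ) (lam : Tok E → ℤ)
    (hlam : lam none = 0) (hr : ∀ v, disp tX tY c v = xch (tree S₁.T S₂.T) lam v) (s : ℕ)
    (y : E → ℤ) :
    ww S₁ S₂ θ μ y ≤ (∏ q, be S₁ S₂ θ b₁ b₂ q ^ (lam q).natAbs) ^ s * ww S₁ S₂ θ μ (y + s • c) := by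
  have := slope_le (X := tX) (Y := tY) (F := FF S₁ S₂ θ μ 0) (γ := gam 0)
    (fun δ => h.FF_pos 0 δ) (fun y k => Inst.gam_single 0 y k) (tree S₁.T S₂.T)
    (be_ge h) (fun q hq δ => be_up h 0 q hq δ) (fun q hq δ => be_dn h 0 q hq δ) c lam hlam hr
    (-(s : ℤ)) (y + s • c)
  rw [FF_gam0, FF_gam0, Int.natAbs_neg, Int.natAbs_natCast, neg_zsmul, natCast_zsmul,
    add_neg_cancel_right] at this
  exact this

/-- **slope along a fat move** -/
theorem ww_fat (h : Pair S₁ S₂ b₁ D₁ b₂ D₂ θ μ β₀)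
    (hRep : Rep (tree S₁.T S₂.T) tX tY b' order R) (i : E) (p : Tok E) (hp : p ≠ none)
    (hmono : ∀ q, q ≠ none → b' q ≤ b' p → tb S₁ S₂ θ b₁ b₂ q ≤ tb S₁ S₂ θ b₁ b₂ p) (s : ℕ)
    (y : E → ℤ) :
    ww S₁ S₂ θ μ y ≤ Real.exp (Fintype.card (Tok E) * tb S₁ S₂ θ b₁ b₂ p * s) *
      ww S₁ S₂ θ μ (y + s • cdir (tree S₁.T S₂.T) R i p) := by
  have ht := h.tb_nonneg p
  rcases hRep.edge i p hp with h1 | ⟨lam, l1, l2, l3⟩
  · have e : cdir (tree S₁.T S₂.T) R i p = 0 := by unfold cdir; rw [h1, sub_self]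
    rw [e, smul_zero, add_zero]
    have h2 : 1 ≤ Real.exp (Fintype.card (Tok E) * tb S₁ S₂ θ b₁ b₂ p * s) :=
      Real.one_le_exp (by positivity)
    have := (ww_pos h y).le
    nlinarith
  · have hl0 : lam none = 0 := by
      by_contra hne
      exact (l2 _ hne).1 rfl
    refine (ww_route h _ lam hl0 l3 s y).trans ?_
    refine mul_le_mul_of_nonneg_right ?_ (ww_pos h _).le
    have h3 : ∏ q, be S₁ S₂ θ b₁ b₂ q ^ (lam q).natAbs ≤
        Real.exp (tb S₁ S₂ θ b₁ b₂ p) ^ Fintype.card (Tok E) := by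
      rw [← Finset.card_univ, ← Finset.prod_const]
      refine Finset.prod_le_prod (fun q _ => pow_nonneg (by linarith [be_ge h q]) _) fun q _ => ?_
      by_cases hq : lam q = 0
      · rw [hq, Int.natAbs_zero, pow_zero]
        exact Real.one_le_exp ht
      · have hn1 : (lam q).natAbs ≤ 1 := by
          have := l1 q
          rw [← Int.natCast_natAbs] at this
          exact_mod_cast this
        calc be S₁ S₂ θ b₁ b₂ q ^ (lam q).natAbs ≤ be S₁ S₂ θ b₁ b₂ q ^ 1 :=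
              pow_le_pow_right₀ (be_ge h q) hn1
          _ = be S₁ S₂ θ b₁ b₂ q := pow_one _
          _ ≤ _ := Real.exp_le_exp.2 (hmono q (l2 q hq).1 (l2 q hq).2)
    calc (∏ q, be S₁ S₂ θ b₁ b₂ q ^ (lam q).natAbs) ^ s
        ≤ (Real.exp (tb S₁ S₂ θ b₁ b₂ p) ^ Fintype.card (Tok E)) ^ s :=
          pow_le_pow_left₀ (Finset.prod_nonneg fun q _ => pow_nonneg (by linarith [be_ge h q]) _)
            h3 s
      _ = _ := by
          rw [← Real.exp_nat_mul, ← Real.exp_nat_mul]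
          congr 1
          ring

/-- **comparison along any move** -/
theorem ww_any (h : Pair S₁ S₂ b₁ D₁ b₂ D₂ θ μ β₀)
    (hRep : Rep (tree S₁.T S₂.T) tX tY b' order R) (i : E) (p : Tok E) (hp : p ≠ none)
    (y : E → ℤ) :
    ww S₁ S₂ θ μ y ≤ kap θ β₀ ^ 3 * ww S₁ S₂ θ μ (y + cdir (tree S₁.T S₂.T) R i p) := by
  have hθ1 : 1 ≤ θ⁻¹ := (one_le_inv₀ h.θ0).2 h.θ1
  have hk := h.kap_ge
  obtain ⟨mu, m1, m2, m3, m4⟩ := hRep.route i p
  obtain ⟨nu, n1, n2, n3, n4⟩ := hRep.route i ((tree S₁.T S₂.T).par p)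
  set lam : Tok E → ℤ := Pi.single p 1 - (mu - nu) with hlamdef
  have hkap : Real.exp β₀ ^ 2 * θ⁻¹ ^ 2 = kap θ β₀ := by unfold kap; ring
  have hmu := prod_route_le (tree S₁.T S₂.T) (be_ge h) (be_thin h) hθ1 (be_fat h) mu m1 m3
  have hnu := prod_route_le (tree S₁.T S₂.T) (be_ge h) (be_thin h) hθ1 (be_fat h) nu n1 n3
  have hsg := prod_route_le (tree S₁.T S₂.T) (be_ge h) (be_thin h) hθ1 (be_fat h)
    (Pi.single p 1 : Tok E → ℤ) (fun q => by
      by_cases hq : q = p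
      · subst hq; simp
      · rw [Pi.single_eq_of_ne hq]; norm_num) (by
      have : ∑ q ∈ univ.filter (fun q => (tree S₁.T S₂.T).par q = (tree S₁.T S₂.T).root),
          |(Pi.single p 1 : Tok E → ℤ) q| ≤ ∑ q, |(Pi.single p 1 : Tok E → ℤ) q| :=
        Finset.sum_le_sum_of_subset_of_nonneg (Finset.subset_univ _) fun _ _ _ => abs_nonneg _
      refine this.trans ?_
      rw [Finset.sum_eq_single p]
      · simp
      · intro q _ hq; rw [Pi.single_eq_of_ne hq]; simp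
      · intro h; exact absurd (Finset.mem_univ _) h)
  rw [hkap] at hmu hnu hsg
  have hroot : (tree S₁.T S₂.T).root = none := rfl
  have hl0 : lam none = 0 := by
    rw [hlamdef, Pi.sub_apply, Pi.sub_apply, Pi.single_eq_of_ne (Ne.symm hp)]
    rw [hroot] at m2 n2
    rw [m2, n2]; ring
  have hdisp : ∀ v, disp tX tY (cdir (tree S₁.T S₂.T) R i p) v = xch (tree S₁.T S₂.T) lam v := by
    intro v
    unfold cdir
    rw [disp_sub, hlamdef, xch_sub, xch_sub]
    have h1 := m4 v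
    have h2 := n4 v
    have h3 := congrFun (xch_single (tree S₁.T S₂.T) p 1) v
    simp only [Pi.smul_apply, Pi.sub_apply, smul_eq_mul, one_mul] at h3
    rw [h3]
    linarith
  have key := ww_route h (cdir (tree S₁.T S₂.T) R i p) lam hl0 hdisp 1 y
  rw [one_smul, pow_one] at key
  refine key.trans (mul_le_mul_of_nonneg_right ?_ (ww_pos h _).le)
  have hb0 : ∀ q, 0 ≤ be S₁ S₂ θ b₁ b₂ q := fun q => by linarith [be_ge h q]
  calc ∏ q, be S₁ S₂ θ b₁ b₂ q ^ (lam q).natAbs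
      ≤ ∏ q, (be S₁ S₂ θ b₁ b₂ q ^ ((Pi.single p 1 : Tok E → ℤ) q).natAbs *
        (be S₁ S₂ θ b₁ b₂ q ^ (mu q).natAbs * be S₁ S₂ θ b₁ b₂ q ^ (nu q).natAbs)) := by
        refine Finset.prod_le_prod (fun q _ => pow_nonneg (hb0 q) _) fun q _ => ?_
        rw [← pow_add, ← pow_add]
        refine pow_le_pow_right₀ (be_ge h q) ?_
        rw [hlamdef, Pi.sub_apply, Pi.sub_apply]
        omega
    _ = (∏ q, be S₁ S₂ θ b₁ b₂ q ^ ((Pi.single p 1 : Tok E → ℤ) q).natAbs) *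
        ((∏ q, be S₁ S₂ θ b₁ b₂ q ^ (mu q).natAbs) *
          ∏ q, be S₁ S₂ θ b₁ b₂ q ^ (nu q).natAbs) := by
        rw [Finset.prod_mul_distrib, Finset.prod_mul_distrib]
    _ ≤ kap θ β₀ * (kap θ β₀ * kap θ β₀) := by
        refine mul_le_mul hsg (mul_le_mul hmu hnu
          (Finset.prod_nonneg fun q _ => pow_nonneg (hb0 q) _) (by linarith))
          (mul_nonneg (Finset.prod_nonneg fun q _ => pow_nonneg (hb0 q) _)
            (Finset.prod_nonneg fun q _ => pow_nonneg (hb0 q) _)) (by linarith)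
    _ = _ := by ring

end Crest.Agent.R302.T893
end

-- ▼ part R302/S1x893C

/-!
R302 (helper893), block (S1x), part C: Poincare inequality with defect for the marginal weight
`W₁ W₂` along the macro moves.
-/

set_option autoImplicit false
set_option linter.unusedSectionVars false
set_option linter.unusedVariables false

namespace Crest.Agent.R302.T893

open Finset Lor
open Crest.Agent.R302.Tree (RTree)
open Crest.Agent.R302.Inst

variable {E : Type*} [Fintype E] [DecidableEq E]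

/-- the mass of the states outside some window -/
noncomputable def badm (T₁ T₂ : MP3.Forest E) (L c : Tok E → ℝ) (w : (E → ℤ) → ℝ)
    (Bp : Finset (E → ℤ)) : ℝ := by
  classical
  exact ∑ y ∈ Bp.filter (fun y => ∃ p : Tok E, p ≠ none ∧ ¬ |lvl T₁ T₂ p y - c p| ≤ L p - 2), w y

section Sums

variable {V : Type*} [Fintype V] [DecidableEq V]

/-- splitting of the sum over the moves -/
theorem sum_moves (F0 : V → Prop) [DecidablePred F0] (r : V) (g : E → V → ℝ) :
    ∑ i, ∑ p ∈ univ.erase r, g i p =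
      ∑ j : E × {p : V // p ≠ r ∧ F0 p}, g j.1 j.2 +
      ∑ j : E × {p : V // p ≠ r ∧ ¬ F0 p}, g j.1 j.2 := by
  rw [Fintype.sum_prod_type, Fintype.sum_prod_type, ← Finset.sum_add_distrib]
  refine Finset.sum_congr rfl fun i _ => ?_
  have e1 : univ.erase r = univ.filter (fun p => p ≠ r) := by
    ext p; simp
  rw [e1, ← Finset.sum_filter_add_sum_filter_not (univ.filter (fun p => p ≠ r)) F0,
    Finset.filter_filter, Finset.filter_filter]
  congr 1
  · exact Finset.sum_subtype _ (fun p => by simp) _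
  · exact Finset.sum_subtype _ (fun p => by simp) _

end Sums

variable {S₁ S₂ : Side E} {b₁ D₁ b₂ D₂ : E → ℝ} {θ : ℝ} {μ : E → ℝ} {β₀ : ℝ}
  {order : List E} {R : E → Tok E → E → ℤ} {b' : Tok E → ℝ}

theorem badm_nonneg {w : (E → ℤ) → ℝ} (hw : ∀ y, 0 ≤ w y) (T₁ T₂ : MP3.Forest E)
    (L c : Tok E → ℝ) (Bp : Finset (E → ℤ)) : 0 ≤ badm T₁ T₂ L c w Bp :=
  Finset.sum_nonneg fun y _ => hw y

/-- the constant of the fine inequality -/
noncomputable def CC (N : ℕ) (κ PP : ℝ) : ℝ := C1 N κ PP * κ ^ 2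

/-- the constant of the defect -/
noncomputable def CD (n N m : ℕ) (κ KS : ℝ) : ℝ :=
  2 * (n * N) * C2 m n κ + 24 * KS + (72 * KS + 48 * κ ^ 3 * KS + 48 * (n * N) ^ 2) * (n * N)

theorem CC_nonneg {N : ℕ} {κ PP : ℝ} (hκ : 1 ≤ κ) (hPP : 0 ≤ PP) : 0 ≤ CC N κ PP :=
  mul_nonneg (C1_nonneg hκ hPP) (by positivity)

/-- **(S1x)**: Poincare inequality with defect for the marginal weight `W₁ W₂` on a box, along
the macro moves `c_{i,p}` with lengths `≤ l p`. -/
theorem S1x (h : Pair S₁ S₂ b₁ D₁ b₂ D₂ θ μ β₀)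
    (hAF : ∀ d, AF (fun p q => FF S₁ S₂ θ μ 0 (d + ev p + ev q)))
    {PP : ℝ} {L c : Tok E → ℝ} (hL : ∀ p, 1 ≤ L p)
    (hPP : ∑ q ∈ univ.erase (none : Tok E),
      (2 * kap θ β₀ * tB S₁ S₂ θ b₁ b₂ q + 1 / L q) ^ 2 * L q ^ 2 ≤ PP)
    (hsL : ∀ p : Tok E, p ≠ none →
      6 * (Fintype.card (Tok E) * ∑ q ∈ ((tree S₁.T S₂.T).desc p).erase p,
        ts S₁ S₂ θ b₁ b₂ D₁ D₂ β₀ q * L q ^ 2) ≤ L p ^ 2)
    (hnd : order.Nodup) (hall : ∀ e, e ∈ order)
    (hRep : Rep (tree S₁.T S₂.T) tX tY b' order R)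
    (hmono : ∀ p q, (tree S₁.T S₂.T).par p ≠ none → q ≠ none → b' q ≤ b' p →
      tb S₁ S₂ θ b₁ b₂ q ≤ tb S₁ S₂ θ b₁ b₂ p)
    {l : Tok E → ℕ} (hl1 : ∀ p, 1 ≤ l p) (hlthin : ∀ p, (tree S₁.T S₂.T).par p = none → l p = 1)
    (hls : (Fintype.card E * Fintype.card (Tok E) : ℝ) *
      ∑ p ∈ univ.filter (fun p => (tree S₁.T S₂.T).par p ≠ none),
        tb S₁ S₂ θ b₁ b₂ p * l p ≤ 1)
    (x : E → ℤ) (m : ℕ) (B Bp : Finset (E → ℤ))
    (hB : B = Fintype.piFinset fun e => Icc (x e) (x e + m))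
    (hBp : Bp = Fintype.piFinset fun e => Icc (x e - 1) (x e + m + 1))
    {lm : ℕ} (hlm : ∀ p, l p ≤ lm)
    (hwin : ∀ y, (∀ p : Tok E, p ≠ none → |lvl S₁.T S₂.T p y - c p| ≤ L p - 2) →
      ∀ e, x e + 2 * lm ≤ y e ∧ y e + 2 * lm ≤ x e + m)
    {A0 KS : ℝ}
    (hA0fat : ∀ p, (tree S₁.T S₂.T).par p ≠ none →
      144 * (CC (Fintype.card (Tok E)) (kap θ β₀) PP * L p ^ 2 / (l p : ℝ) ^ 2)
        + 18 * (Fintype.card E * Fintype.card (Tok E)) ≤ A0)
    (hA0thin : ∀ p : Tok E, p ≠ none → (tree S₁.T S₂.T).par p = none →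
      6 * (kap θ β₀ ^ 3 * (CC (Fintype.card (Tok E)) (kap θ β₀) PP * L p ^ 2)) ≤ A0)
    (hKS : ∑ _i : E, ∑ p ∈ univ.erase (none : Tok E),
      CC (Fintype.card (Tok E)) (kap θ β₀) PP * L p ^ 2 ≤ KS)
    (f : (E → ℤ) → ℝ) {A : ℝ} (hf : ∀ y, |f y| ≤ A) :
    Macro.vr B (ww S₁ S₂ θ μ) f ≤
      A0 * ∑ i, ∑ p ∈ univ.erase (none : Tok E),
        Macro.aDm B (ww S₁ S₂ θ μ) (cdir (tree S₁.T S₂.T) R i p) (l p) f
      + CD (Fintype.card E) (Fintype.card (Tok E)) m (kap θ β₀) KS * A ^ 2 *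
        badm S₁.T S₂.T L c (ww S₁ S₂ θ μ) Bp := by
  classical
  set w := ww S₁ S₂ θ μ with hwdef
  set T := tree S₁.T S₂.T with hT
  set N := Fintype.card (Tok E) with hN
  set n := Fintype.card E with hn
  set κ := kap θ β₀ with hκdef
  set bad := badm S₁.T S₂.T L c w Bp with hbad
  have hκ1 : 1 ≤ κ := h.kap_ge
  have hw : ∀ y, 0 ≤ w y := fun y => (ww_pos h y).le
  have hbad0 : 0 ≤ bad := badm_nonneg hw _ _ _ _ _
  have hA : 0 ≤ A := (abs_nonneg _).trans (hf 0)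
  have hPP0 : 0 ≤ PP := le_trans (Finset.sum_nonneg fun q _ => by positivity) hPP
  have hCC : 0 ≤ CC N κ PP := CC_nonneg hκ1 hPP0
  have hroot : T.root = none := rfl
  have hBsub : B ⊆ Bp := by
    intro y hy
    rw [hB, Fintype.mem_piFinset] at hy
    rw [hBp, Fintype.mem_piFinset]
    intro e
    have := Finset.mem_Icc.1 (hy e)
    rw [Finset.mem_Icc]
    constructor <;> linarith [this.1, this.2]
  have hBne : B.Nonempty := by
    refine ⟨x, ?_⟩
    rw [hB, Fintype.mem_piFinset]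
    intro e
    rw [Finset.mem_Icc]
    constructor
    · exact le_rfl
    · have : (0 : ℤ) ≤ m := by positivity
      linarith
  have hm : ∑ y ∈ B, w y ≠ 0 := (Finset.sum_pos (fun y _ => ww_pos h y) hBne).ne'
  -- the moves have entries at most 2
  have hcd : ∀ i p e, |cdir T R i p e| ≤ 2 := by
    intro i p e
    have h1 := abs_le.1 (hRep.bd i p e)
    have h2 := abs_le.1 (hRep.bd i (T.par p) e)
    unfold cdir
    rw [Pi.sub_apply, abs_le]
    constructor <;> linarith [h1.1, h1.2, h2.1, h2.2]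
  -- a state of `Bp` in all windows stays in `B`
  have hgood : ∀ y, (∀ p : Tok E, p ≠ none → |lvl S₁.T S₂.T p y - c p| ≤ L p - 2) →
      ∀ i p, ∀ s ≤ lm, y + s • cdir T R i p ∈ B := by
    intro y hy i p s hs
    rw [hB, Fintype.mem_piFinset]
    intro e
    have h1 := hwin y hy e
    have h2 := abs_le.1 (hcd i p e)
    rw [Finset.mem_Icc, Pi.add_apply, Pi.smul_apply, nsmul_eq_mul]
    have hs0 : (0 : ℤ) ≤ s := by positivity
    have hs1 : (s : ℤ) ≤ lm := by exact_mod_cast hs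
    have h3 : -(2 * (lm : ℤ)) ≤ s * cdir T R i p e := by nlinarith [h2.1]
    have h4 : s * cdir T R i p e ≤ 2 * lm := by nlinarith [h2.2]
    constructor <;> linarith [h1.1, h1.2]
  have hbadsub : ∀ (P : (E → ℤ) → Prop) [DecidablePred P] (B' : Finset (E → ℤ)), B' ⊆ Bp →
      (∀ y ∈ B', P y → ∃ p : Tok E, p ≠ none ∧ ¬ |lvl S₁.T S₂.T p y - c p| ≤ L p - 2) →
      ∑ y ∈ B'.filter P, w y ≤ bad := by
    intro P _ B' hB' hP
    rw [hbad]
    unfold badm
    refine Finset.sum_le_sum_of_subset_of_nonneg ?_ fun y _ _ => hw y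
    intro y hy
    rw [Finset.mem_filter] at hy ⊢
    exact ⟨hB' hy.1, hP y hy.1 hy.2⟩
  have hrim : ∀ i p, Macro.rim B w (cdir T R i p) (l p) ≤ bad := by
    intro i p
    unfold Macro.rim
    refine hbadsub _ B hBsub ?_
    rintro y hy ⟨s, hs, hys⟩
    by_contra hcon
    push Not at hcon
    exact hys (hgood y hcon i p s (by have := Finset.mem_range.1 hs; have := hlm p; omega))
  have hdiff : ∑ y ∈ Bp \ B, w y ≤ bad := by
    have h1 : Bp \ B = (Bp.filter (fun y => y ∉ B)) := by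
      ext y; simp
    rw [h1]
    refine hbadsub _ Bp (Finset.Subset.refl _) ?_
    intro y hy hyB
    by_contra hcon
    push Not at hcon
    refine hyB ?_
    rw [hB, Fintype.mem_piFinset]
    intro e
    have h2 := hwin y hcon e
    rw [Finset.mem_Icc]
    have : (0 : ℤ) ≤ lm := by positivity
    constructor <;> linarith [h2.1, h2.2]
  have htails : ∑ p ∈ univ.erase (none : Tok E),
      ∑ y ∈ B.filter (fun y => ¬ |lvl S₁.T S₂.T p y - c p| ≤ L p - 2), w y ≤ N * bad := by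
    calc _ ≤ ∑ _p ∈ univ.erase (none : Tok E), bad := by
          refine Finset.sum_le_sum fun p hp => hbadsub _ B hBsub ?_
          intro y _ hy
          exact ⟨p, Finset.ne_of_mem_erase hp, hy⟩
      _ ≤ _ := by
          rw [Finset.sum_const, nsmul_eq_mul]
          refine mul_le_mul_of_nonneg_right ?_ hbad0
          exact_mod_cast (Finset.card_le_card (Finset.erase_subset _ _)).trans
            (le_of_eq Finset.card_univ)
  -- the two families
  set ι := E × {p : Tok E // p ≠ none ∧ T.par p ≠ none} with hι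
  set ι' := E × {p : Tok E // p ≠ none ∧ ¬ T.par p ≠ none} with hι'
  have hcardι : (Fintype.card ι : ℝ) ≤ n * N := by
    show ((Fintype.card (E × {p : Tok E // p ≠ none ∧ T.par p ≠ none}) : ℕ) : ℝ) ≤ _
    rw [Fintype.card_prod]
    push_cast
    refine mul_le_mul_of_nonneg_left ?_ (by positivity)
    exact_mod_cast Fintype.card_subtype_le _
  have hsplit := fun g : E → Tok E → ℝ => sum_moves (E := E) (V := Tok E)
    (fun p => T.par p ≠ none) none g
  -- fine inequality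
  have hfine : ∀ g : (E → ℤ) → ℝ, (∀ y, |g y| ≤ A) → Macro.vr B w g ≤
      ∑ j : ι, CC N κ PP * L j.2 ^ 2 *
        Macro.S Bp w (fun y => (g (y + cdir T R j.1 j.2) - g y) ^ 2)
      + ∑ j : ι', κ ^ 3 * (CC N κ PP * L j.2 ^ 2) * Macro.Dm B w (cdir T R j.1 j.2) 1 g
      + ((n * (C2 m n κ * N) + 8 * KS) * bad) * A ^ 2 := by
    intro g hg
    have h1 := msp_FF h hAF hL hPP hsL order hnd hall R hRep g hg x m B Bp hB hBp (c := c)
    have h2 : ∀ j : ι', Macro.S Bp w (fun y => (g (y + cdir T R j.1 j.2) - g y) ^ 2) ≤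
        κ ^ 3 * Macro.Dm B w (cdir T R j.1 j.2) 1 g + 8 * A ^ 2 * bad := by
      intro j
      have hsq : ∀ y, (g (y + cdir T R j.1 j.2) - g y) ^ 2 ≤ 4 * A ^ 2 := by
        intro y
        have a1 := abs_le.1 (hg (y + cdir T R j.1 j.2))
        have a2 := abs_le.1 (hg y)
        nlinarith [a1.1, a1.2, a2.1, a2.2]
      unfold Macro.S Macro.Dm
      simp only [one_smul]
      have h3 : ∑ y ∈ Bp, w y * (g (y + cdir T R j.1 j.2) - g y) ^ 2 =
          ∑ y ∈ Bp \ B, w y * (g (y + cdir T R j.1 j.2) - g y) ^ 2 +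
          (∑ y ∈ B.filter (fun y => y + cdir T R j.1 j.2 ∈ B),
            w y * (g (y + cdir T R j.1 j.2) - g y) ^ 2 +
          ∑ y ∈ B.filter (fun y => ¬ y + cdir T R j.1 j.2 ∈ B),
            w y * (g (y + cdir T R j.1 j.2) - g y) ^ 2) := by
        rw [Finset.sum_filter_add_sum_filter_not, Finset.sum_sdiff hBsub]
      rw [h3]
      have h4 : ∑ y ∈ Bp \ B, w y * (g (y + cdir T R j.1 j.2) - g y) ^ 2 ≤ 4 * A ^ 2 * bad := by
        calc _ ≤ ∑ y ∈ Bp \ B, w y * (4 * A ^ 2) :=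
              Finset.sum_le_sum fun y _ => mul_le_mul_of_nonneg_left (hsq y) (hw y)
          _ = (∑ y ∈ Bp \ B, w y) * (4 * A ^ 2) := by rw [Finset.sum_mul]
          _ ≤ bad * (4 * A ^ 2) := mul_le_mul_of_nonneg_right hdiff (by positivity)
          _ = _ := by ring
      have h5 : ∑ y ∈ B.filter (fun y => ¬ y + cdir T R j.1 j.2 ∈ B),
          w y * (g (y + cdir T R j.1 j.2) - g y) ^ 2 ≤ 4 * A ^ 2 * bad := by
        have h6 : ∑ y ∈ B.filter (fun y => ¬ y + cdir T R j.1 j.2 ∈ B), w y ≤ bad := by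
          refine hbadsub _ B hBsub ?_
          intro y hy hys
          by_contra hcon
          push Not at hcon
          have := hgood y hcon j.1 j.2 1 ((hl1 none).trans (hlm none))
          rw [one_smul] at this
          exact hys this
        calc _ ≤ ∑ y ∈ B.filter (fun y => ¬ y + cdir T R j.1 j.2 ∈ B), w y * (4 * A ^ 2) :=
              Finset.sum_le_sum fun y _ => mul_le_mul_of_nonneg_left (hsq y) (hw y)
          _ = (∑ y ∈ B.filter (fun y => ¬ y + cdir T R j.1 j.2 ∈ B), w y) * (4 * A ^ 2) := by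
              rw [Finset.sum_mul]
          _ ≤ bad * (4 * A ^ 2) := mul_le_mul_of_nonneg_right h6 (by positivity)
          _ = _ := by ring
      have h7 : ∑ y ∈ B.filter (fun y => y + cdir T R j.1 j.2 ∈ B),
          w y * (g (y + cdir T R j.1 j.2) - g y) ^ 2 ≤
          κ ^ 3 * ∑ y ∈ B.filter (fun y => y + cdir T R j.1 j.2 ∈ B),
            min (w y) (w (y + cdir T R j.1 j.2)) * (g (y + cdir T R j.1 j.2) - g y) ^ 2 := by
        rw [Finset.mul_sum]
        refine Finset.sum_le_sum fun y _ => ?_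
        rw [← mul_assoc]
        refine mul_le_mul_of_nonneg_right ?_ (sq_nonneg _)
        rcases le_total (w y) (w (y + cdir T R j.1 j.2)) with h8 | h8
        · rw [min_eq_left h8]
          have : 1 ≤ κ ^ 3 := one_le_pow₀ hκ1
          nlinarith [hw y]
        · rw [min_eq_right h8]
          exact ww_any h hRep j.1 j.2 j.2.2.1 y
      linarith
    have h9 : ∀ j : ι', CC N κ PP * L j.2 ^ 2 *
        Macro.S Bp w (fun y => (g (y + cdir T R j.1 j.2) - g y) ^ 2) ≤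
        κ ^ 3 * (CC N κ PP * L j.2 ^ 2) * Macro.Dm B w (cdir T R j.1 j.2) 1 g +
        CC N κ PP * L j.2 ^ 2 * (8 * A ^ 2 * bad) := by
      intro j
      have := mul_le_mul_of_nonneg_left (h2 j) (mul_nonneg hCC (sq_nonneg (L j.2)))
      refine this.trans (le_of_eq (by ring))
    have h10 := (Finset.sum_le_sum fun j (_ : j ∈ (univ : Finset ι')) => h9 j)
    rw [Finset.sum_add_distrib, ← Finset.sum_mul] at h10
    have h11 : ∑ j : ι', CC N κ PP * L j.2 ^ 2 ≤ KS := by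
      refine le_trans ?_ hKS
      rw [hsplit (fun _ p => CC N κ PP * L p ^ 2)]
      have : 0 ≤ ∑ j : E × {p : Tok E // p ≠ none ∧ T.par p ≠ none}, CC N κ PP * L j.2 ^ 2 :=
        Finset.sum_nonneg fun j _ => mul_nonneg hCC (sq_nonneg _)
      linarith
    have h12 : (∑ j : ι', CC N κ PP * L j.2 ^ 2) * (8 * A ^ 2 * bad) ≤ KS * (8 * A ^ 2 * bad) :=
      mul_le_mul_of_nonneg_right h11 (by positivity)
    have h13 : (n : ℝ) * (C2 m n κ * A ^ 2 * ∑ p ∈ univ.erase (none : Tok E),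
        ∑ y ∈ B.filter (fun y => ¬ |lvl S₁.T S₂.T p y - c p| ≤ L p - 2), w y) ≤
        n * (C2 m n κ * A ^ 2 * (N * bad)) := by
      refine mul_le_mul_of_nonneg_left (mul_le_mul_of_nonneg_left htails ?_) (by positivity)
      exact mul_nonneg (C2_nonneg hκ1) (sq_nonneg _)
    have h14 := hsplit (fun i p => CC N κ PP * L p ^ 2 *
      Macro.S Bp w (fun y => (g (y + cdir T R i p) - g y) ^ 2))
    refine h1.trans ?_
    have h15 : ∑ i, ∑ p ∈ univ.erase (none : Tok E), C1 N κ PP * κ ^ 2 * L p ^ 2 *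
        Macro.S Bp w (fun y => (g (y + (R i p - R i (T.par p))) - g y) ^ 2) =
        ∑ i, ∑ p ∈ univ.erase (none : Tok E), CC N κ PP * L p ^ 2 *
        Macro.S Bp w (fun y => (g (y + cdir T R i p) - g y) ^ 2) := rfl
    rw [h15, h14]
    calc _ ≤ ∑ j : ι, CC N κ PP * L j.2 ^ 2 *
          Macro.S Bp w (fun y => (g (y + cdir T R j.1 j.2) - g y) ^ 2)
        + (∑ j : ι', κ ^ 3 * (CC N κ PP * L j.2 ^ 2) * Macro.Dm B w (cdir T R j.1 j.2) 1 g
          + KS * (8 * A ^ 2 * bad)) + n * (C2 m n κ * A ^ 2 * (N * bad)) :=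
          add_le_add (add_le_add le_rfl (h10.trans (add_le_add le_rfl h12))) h13
      _ = _ := by ring
  have htb : ∀ p, 0 ≤ tb S₁ S₂ θ b₁ b₂ p := h.tb_nonneg
  have key := Macro.macro_full (B := B) (w := w) (c := fun j : ι => cdir T R j.1 j.2)
    (l := fun j : ι => l j.2)
    (R := fun j : ι => Real.exp (N * tb S₁ S₂ θ b₁ b₂ j.2 * l j.2)) (Bp := Bp) hBsub
    (d := fun j : ι' => cdir T R j.1 j.2) (fun y _ => hw y) hm (fun j => hl1 _) ?_ ?_ ?_
    (K := fun j : ι => CC N κ PP * L j.2 ^ 2)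
    (fun j => mul_nonneg hCC (sq_nonneg _))
    (K' := fun j : ι' => κ ^ 3 * (CC N κ PP * L j.2 ^ 2))
    (fun j => mul_nonneg (by positivity) (mul_nonneg hCC (sq_nonneg _))) hfine hf
  · have hD0 : ∀ i p, 0 ≤ Macro.aDm B w (cdir T R i p) (l p) f := fun i p =>
      Macro.aDm_nonneg (fun y _ => hw y) _ f
    have k1 : ∀ j : ι, (144 * (CC N κ PP * L j.2 ^ 2 / (l j.2 : ℝ) ^ 2) + 18 * Fintype.card ι) *
        Macro.aDm B w (cdir T R j.1 j.2) (l j.2) f ≤
        A0 * Macro.aDm B w (cdir T R j.1 j.2) (l j.2) f := by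
      intro j
      refine mul_le_mul_of_nonneg_right ?_ (hD0 _ _)
      have := hA0fat j.2 j.2.2.2
      linarith
    have k2 : ∀ j : ι', 6 * (κ ^ 3 * (CC N κ PP * L j.2 ^ 2)) *
        Macro.Dm B w (cdir T R j.1 j.2) 1 f ≤
        A0 * Macro.aDm B w (cdir T R j.1 j.2) (l j.2) f := by
      intro j
      have hp : T.par j.2 = none := not_not.1 j.2.2.2
      have e1 : Macro.aDm B w (cdir T R j.1 j.2) (l j.2) f =
          Macro.Dm B w (cdir T R j.1 j.2) 1 f := by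
        rw [hlthin _ hp]
        unfold Macro.aDm
        simp
      rw [e1]
      exact mul_le_mul_of_nonneg_right (hA0thin j.2 j.2.2.1 hp) (Macro.Dm_nonneg (fun y _ => hw y) _ f)
    have k3 := Finset.sum_le_sum fun j (_ : j ∈ (univ : Finset ι)) => k1 j
    have k4 := Finset.sum_le_sum fun j (_ : j ∈ (univ : Finset ι')) => k2 j
    rw [← Finset.mul_sum] at k3 k4
    have k5 := hsplit (fun i p => Macro.aDm B w (cdir T R i p) (l p) f)
    rw [k5, mul_add]
    refine key.trans (add_le_add (add_le_add k3 k4) ?_)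
    -- the defect
    have hKSn : 0 ≤ KS := le_trans (Finset.sum_nonneg fun _ _ => Finset.sum_nonneg fun _ _ =>
      mul_nonneg hCC (sq_nonneg _)) hKS
    have hsumK := hsplit (fun _ p => CC N κ PP * L p ^ 2)
    have hnn1 : 0 ≤ ∑ j : ι, CC N κ PP * L j.2 ^ 2 :=
      Finset.sum_nonneg fun j _ => mul_nonneg hCC (sq_nonneg _)
    have hnn2 : 0 ≤ ∑ j : ι', CC N κ PP * L j.2 ^ 2 :=
      Finset.sum_nonneg fun j _ => mul_nonneg hCC (sq_nonneg _)
    have d1 : ∑ j : ι, CC N κ PP * L j.2 ^ 2 ≤ KS := by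
      have := hKS
      rw [hsumK] at this
      linarith
    have d2 : ∑ j : ι', CC N κ PP * L j.2 ^ 2 ≤ KS := by
      have := hKS
      rw [hsumK] at this
      linarith
    have d3 : ∑ j : ι, CC N κ PP * L j.2 ^ 2 / (l j.2 : ℝ) ^ 2 ≤ KS := by
      refine le_trans (Finset.sum_le_sum fun j _ => ?_) d1
      have h1 : (1 : ℝ) ≤ (l j.2 : ℝ) := by exact_mod_cast hl1 j.2
      have h2 : (1 : ℝ) ≤ (l j.2 : ℝ) ^ 2 := one_le_pow₀ h1
      exact div_le_self (mul_nonneg hCC (sq_nonneg _)) h2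
    have d4 : ∑ j : ι', κ ^ 3 * (CC N κ PP * L j.2 ^ 2) ≤ κ ^ 3 * KS := by
      rw [← Finset.mul_sum]
      exact mul_le_mul_of_nonneg_left d2 (by positivity)
    have d5 : ∑ j : ι, Macro.rim B w (cdir T R j.1 j.2) (l j.2) ≤ n * N * bad := by
      calc _ ≤ ∑ _j : ι, bad := Finset.sum_le_sum fun j _ => hrim _ _
        _ = Fintype.card ι * bad := by rw [Finset.sum_const, Finset.card_univ, nsmul_eq_mul]
        _ ≤ _ := mul_le_mul_of_nonneg_right hcardι hbad0
    have hnN : (0 : ℝ) ≤ n * N := by positivity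
    have hcsq : (Fintype.card ι : ℝ) ^ 2 ≤ (n * N) ^ 2 :=
      pow_le_pow_left₀ (Nat.cast_nonneg _) hcardι 2
    have hrim0 : 0 ≤ ∑ j : ι, Macro.rim B w (cdir T R j.1 j.2) (l j.2) :=
      Finset.sum_nonneg fun j _ => Macro.rim_nonneg fun y _ => hw y
    have d6 : (72 * ∑ j : ι, CC N κ PP * L j.2 ^ 2 / (l j.2 : ℝ) ^ 2
        + 48 * ∑ j : ι', κ ^ 3 * (CC N κ PP * L j.2 ^ 2)
          + 48 * (Fintype.card ι : ℝ) ^ 2) *
        ∑ j : ι, Macro.rim B w (cdir T R j.1 j.2) (l j.2) ≤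
        (72 * KS + 48 * κ ^ 3 * KS + 48 * (n * N) ^ 2) * (n * N * bad) := by
      refine mul_le_mul ?_ d5 hrim0 ?_
      · linarith
      · positivity
    have d7 : 8 * (∑ j : ι, CC N κ PP * L j.2 ^ 2) * ∑ y ∈ Bp \ B, w y ≤ 8 * KS * bad := by
      refine mul_le_mul (by linarith) hdiff (Finset.sum_nonneg fun y _ => hw y) (by positivity)
    have d8 : 2 * ((n * (C2 m n κ * N) + 8 * KS) * bad) +
        (72 * ∑ j : ι, CC N κ PP * L j.2 ^ 2 / (l j.2 : ℝ) ^ 2
        + 48 * ∑ j : ι', κ ^ 3 * (CC N κ PP * L j.2 ^ 2)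
          + 48 * (Fintype.card ι : ℝ) ^ 2) *
        ∑ j : ι, Macro.rim B w (cdir T R j.1 j.2) (l j.2)
        + 8 * (∑ j : ι, CC N κ PP * L j.2 ^ 2) * ∑ y ∈ Bp \ B, w y ≤
        CD n N m κ KS * bad := by
      refine (add_le_add (add_le_add le_rfl d6) d7).trans (le_of_eq ?_)
      unfold CD
      ring
    calc _ ≤ (CD n N m κ KS * bad) * A ^ 2 := mul_le_mul_of_nonneg_right d8 (sq_nonneg _)
      _ = _ := by ring
  · -- ratios
    intro j s hs y _ _
    have hs' : s ≤ l j.2 := hs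
    have h1 := ww_fat h hRep j.1 j.2 j.2.2.1
      (fun q hq hbq => hmono j.2 q j.2.2.2 hq hbq) s y
    refine h1.trans (mul_le_mul_of_nonneg_right ?_ (hw _))
    refine Real.exp_le_exp.2 ?_
    have : (s : ℝ) ≤ l j.2 := by exact_mod_cast hs'
    exact mul_le_mul_of_nonneg_left this (mul_nonneg (by positivity) (htb _))
  · intro j
    exact Real.one_le_exp (mul_nonneg (mul_nonneg (by positivity) (htb _)) (by positivity))
  · -- product of the ratios
    rw [← Real.exp_sum]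
    have h1 : ∑ j : ι, (N : ℝ) * tb S₁ S₂ θ b₁ b₂ j.2 * l j.2 =
        (n * N : ℝ) * ∑ p ∈ univ.filter (fun p => T.par p ≠ none),
          tb S₁ S₂ θ b₁ b₂ p * l p := by
      show ∑ j : E × {p : Tok E // p ≠ none ∧ T.par p ≠ none},
        (N : ℝ) * tb S₁ S₂ θ b₁ b₂ j.2 * l j.2 = _
      rw [Fintype.sum_prod_type]
      simp only
      have hmem : ∀ p : Tok E, p ∈ univ.filter (fun p => T.par p ≠ none) ↔
          (p ≠ none ∧ T.par p ≠ none) := by
        intro p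
        rw [Finset.mem_filter]
        constructor
        · rintro ⟨_, h2⟩
          refine ⟨?_, h2⟩
          rintro rfl
          exact h2 rfl
        · rintro ⟨_, h2⟩
          exact ⟨Finset.mem_univ _, h2⟩
      rw [Finset.sum_const, Finset.card_univ, nsmul_eq_mul,
        Finset.sum_subtype _ hmem (fun p => tb S₁ S₂ θ b₁ b₂ p * (l p : ℝ)), mul_assoc]
      refine congrArg _ ?_
      rw [Finset.mul_sum]
      refine Finset.sum_congr rfl fun p _ => ?_
      ring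
    rw [h1]
    have h2 : Real.exp ((n * N : ℝ) * ∑ p ∈ univ.filter (fun p => T.par p ≠ none),
          tb S₁ S₂ θ b₁ b₂ p * l p) ≤ Real.exp 1 := Real.exp_le_exp.2 hls
    have h3 := Real.exp_one_lt_d9
    linarith

end Crest.Agent.R302.T893
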