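import Crest.Agent.R302.Tail907D
import Crest.Agent.R302.S1x893C
import Crest.Agent.R302.Joint536
import Crest.Agent.R302.Gau970D

-- ▼ part R302/Badm907
section

/-!
# R302: the defect mass `badm` of the x-marginal

Author: helper907.  `badm_fat` : the mass outside the windows is at most the mass of the states
with more than `h₀` links plus an exponentially small multiple of the hard link mass;
`badm_thin` : the same without the second term if there are no fat edges (arbitrary weights `g`);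
`far3_le_farM` : the mass with more than `h₀` links in the form of `Joint536`.
-/

set_option autoImplicit false
set_option linter.unusedSectionVars false

namespace Crest.Agent.R302.Tail907

open Finset Crest.Agent.R302.Facet
open Crest.Agent.R302.Inst Crest.Agent.R302.Lor
open Crest.Agent.R302.T893 (lvl badm ww)

variable {E : Type*} [Fintype E] [DecidableEq E]

/-! ### Monomials -/

theorem mon_add {μ : E → ℝ} (hμ : ∀ e, 0 < μ e) (y z : E → ℤ) :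
    mon μ (y + z) = mon μ y * mon μ z := by
  unfold mon
  rw [← prod_mul_distrib]
  exact prod_congr rfl fun e _ => by rw [Pi.add_apply, zpow_add₀ (hμ e).ne']

theorem mon_inv (μ : E → ℝ) (z : E → ℤ) : mon (fun e => (μ e)⁻¹) z = (mon μ z)⁻¹ := by
  unfold mon
  rw [← prod_inv_distrib]
  exact prod_congr rfl fun e _ => by rw [inv_zpow]

theorem mon_rootPart {S : Side E} {μ : E → ℝ} (hμ : S.Gauge μ) (z : E → ℤ) :
    mon μ z = mon μ (rootPart S.T.par (bs S.T z)) := by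
  rw [Side.mon_eq hμ]
  unfold mon rootPart
  have h1 : ∀ e, μ e ^ (if S.T.par e = none then bs S.T z e else 0) =
      if S.T.par e = none then μ e ^ bs S.T z e else 1 := by
    intro e; split_ifs
    · rfl
    · exact zpow_zero _
  rw [prod_congr rfl fun e _ => h1 e, ← prod_filter]
  exact (prod_subtype (p := fun a => S.T.par a = none) (univ.filter (fun a => S.T.par a = none))
      (fun a => by simp) (fun a => μ a ^ bs S.T z a)).symm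

/-- weight of the link vectors -/
noncomputable def Gl (θ : ℝ) (μ : E → ℝ) (s₁ s₂ : E → ℤ) : ℝ :=
  θ ^ (∑ v, (s₁ v).natAbs + ∑ v, (s₂ v).natAbs) * (mon μ s₁ * mon (fun e => (μ e)⁻¹) s₂)

theorem Gl_nonneg {θ : ℝ} (hθ : 0 ≤ θ) {μ : E → ℝ} (hμ : ∀ e, 0 < μ e) (s₁ s₂ : E → ℤ) :
    0 ≤ Gl θ μ s₁ s₂ :=
  mul_nonneg (pow_nonneg hθ _) (mul_nonneg (mon_pos hμ _).le
    (mon_pos (fun e => inv_pos.2 (hμ e)) _).le)

theorem prod_wk (S : Side E) (θ : ℝ) (τ : E → ℤ) :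
    ∏ a, S.wk θ a (τ a) =
      θ ^ (∑ v, (rootPart S.T.par τ v).natAbs) * prodK S.T.par S.κ τ := by
  rw [prodK_eq, ← prod_pow_eq_pow_sum, ← prod_mul_distrib]
  apply prod_congr rfl
  intro a _
  unfold Side.wk rootPart
  by_cases h : S.T.par a = none <;> simp [h]

/-- one triple -/
noncomputable def w1 (S : Side E) (θ : ℝ) (μ : E → ℝ) (x z : E → ℤ) : ℝ :=
  (mon μ z * S.g z) * ∏ a, S.wk θ a (bs S.T z a - bs S.T x a)

theorem w1_mul {S₁ S₂ : Side E} (θ : ℝ) {μ : E → ℝ} (h₁ : S₁.Gauge μ) (h₂ : S₂.Gauge μ)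
    (x z₁ z₂ : E → ℤ) :
    w1 S₁ θ μ x z₁ * w1 S₂ θ (fun e => (μ e)⁻¹) x z₂ =
      S₁.g z₁ * S₂.g z₂ * wt3 S₁.T S₂.T S₁.κ S₂.κ (Gl θ μ) x z₁ z₂ := by
  have hμ := h₁.1
  have h2' : S₂.Gauge (fun e => (μ e)⁻¹) :=
    ⟨fun e => inv_pos.2 (hμ e), fun a b h => by simp only; rw [h₂.2 a b h]⟩
  have e1 : mon μ z₁ * mon (fun e => (μ e)⁻¹) z₂ =
      mon μ (rootPart S₁.T.par (bs S₁.T (z₁ - x))) *
        mon (fun e => (μ e)⁻¹) (rootPart S₂.T.par (bs S₂.T (z₂ - x))) := by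
    rw [← mon_rootPart h₁, ← mon_rootPart h2']
    have a1 : mon μ z₁ = mon μ (z₁ - x) * mon μ x := by
      rw [← mon_add hμ]; congr 1; funext v; simp
    have a2 : mon (fun e => (μ e)⁻¹) z₂ =
        mon (fun e => (μ e)⁻¹) (z₂ - x) * mon (fun e => (μ e)⁻¹) x := by
      rw [← mon_add (fun e => inv_pos.2 (hμ e))]; congr 1; funext v; simp
    have a3 : mon μ x * mon (fun e => (μ e)⁻¹) x = 1 := by
      rw [mon_inv, mul_inv_cancel₀ (mon_pos hμ x).ne']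
    rw [a1, a2]
    calc _ = mon μ (z₁ - x) * mon (fun e => (μ e)⁻¹) (z₂ - x) *
          (mon μ x * mon (fun e => (μ e)⁻¹) x) := by ring
      _ = _ := by rw [a3, mul_one]
  have hb : ∀ (S : Side E) (z : E → ℤ), (fun a => bs S.T z a - bs S.T x a) = bs S.T (z - x) := by
    intro S z; funext a; rw [bs_sub]
  have e2 : ∀ (S : Side E) (z : E → ℤ), ∏ a, S.wk θ a (bs S.T z a - bs S.T x a) =
      θ ^ (∑ v, (rootPart S.T.par (bs S.T (z - x)) v).natAbs) *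
        prodK S.T.par S.κ (bs S.T (z - x)) := by
    intro S z
    rw [← prod_wk, ← hb S z]
  unfold w1 wt3 Gl
  rw [e2, e2, pow_add]
  calc _ = (mon μ z₁ * mon (fun e => (μ e)⁻¹) z₂) * (S₁.g z₁ * S₂.g z₂) *
      ((θ ^ (∑ v, (rootPart S₁.T.par (bs S₁.T (z₁ - x)) v).natAbs) *
        prodK S₁.T.par S₁.κ (bs S₁.T (z₁ - x))) *
      (θ ^ (∑ v, (rootPart S₂.T.par (bs S₂.T (z₂ - x)) v).natAbs) *
        prodK S₂.T.par S₂.κ (bs S₂.T (z₂ - x)))) := by ring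
    _ = _ := by rw [e1]; ring

/-- the weight of the x-marginal as a sum over pairs of points -/
theorem ww_eq {S₁ S₂ : Side E} (θ : ℝ) {μ : E → ℝ} (h₁ : S₁.Gauge μ) (h₂ : S₂.Gauge μ)
    (x : E → ℤ) :
    ww S₁ S₂ θ μ x = ∑ z₁ ∈ S₁.J, ∑ z₂ ∈ S₂.J,
      S₁.g z₁ * S₂.g z₂ * wt3 S₁.T S₂.T S₁.κ S₂.κ (Gl θ μ) x z₁ z₂ := by
  unfold ww
  have : S₁.W θ μ x * S₂.W θ (fun e => (μ e)⁻¹) x =
      (∑ z₁ ∈ S₁.J, w1 S₁ θ μ x z₁) * ∑ z₂ ∈ S₂.J, w1 S₂ θ (fun e => (μ e)⁻¹) x z₂ := rfl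
  rw [this, sum_mul_sum]
  exact sum_congr rfl fun z₁ _ => sum_congr rfl fun z₂ _ => w1_mul θ h₁ h₂ x z₁ z₂

/-- mass of the states with more than `h₀` links -/
noncomputable def far3 (S₁ S₂ : Side E) (θ : ℝ) (μ : E → ℝ) (h₀ : ℕ) (B : Finset (E → ℤ)) : ℝ :=
  ∑ x ∈ B, ∑ z₁ ∈ S₁.J, ∑ z₂ ∈ S₂.J, (if (h₀ : ℤ) < nlink S₁.T S₂.T x z₁ z₂ then
    S₁.g z₁ * S₂.g z₂ * wt3 S₁.T S₂.T S₁.κ S₂.κ (Gl θ μ) x z₁ z₂ else 0)

/-! ### The windows of `S1x` -/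

variable {r₁ r₂ : Finset E → ℤ} {R : ℤ} {c : E → ℤ} {m₁ m₂ : E → ℕ} {h₀ b : ℕ} {bt₁ bt₂ : E → ℤ}
  {A ε : ℝ} {S₁ S₂ : Side E} {θ : ℝ} {μ : E → ℝ}

/-- a bad point violates one of the integral windows -/
theorem bad_of {T₁ T₂ : MP3.Forest E} {L c' : Tok E → ℝ} {lam : ℕ} {M₁ M₂ : E → ℤ}
    (hM₁ : ∀ e z, MemJ r₁ R z → MemJ r₂ R z → |bs T₁ z e - bs T₁ c e| ≤ M₁ e)
    (hM₂ : ∀ e z, MemJ r₁ R z → MemJ r₂ R z → |bs T₂ z e - bs T₂ c e| ≤ M₂ e)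
    (hc₁ : ∀ e, c' (tX e) = bs T₁ c e) (hc₂ : ∀ e, c' (tY e) = bs T₂ c e)
    (hL₁ : ∀ e, ((lam * (M₁ e + Fintype.card E * (3 * Fintype.card E + 4)) + h₀ : ℤ) : ℝ) ≤
      L (tX e) - 2)
    (hL₂ : ∀ e, ((lam * (M₂ e + Fintype.card E * (3 * Fintype.card E + 4)) + h₀ : ℤ) : ℝ) ≤
      L (tY e) - 2)
    {y : E → ℤ} (hy : ∃ p : Tok E, p ≠ none ∧ ¬ |lvl T₁ T₂ p y - c' p| ≤ L p - 2) :
    ∃ (U : Finset E) (M : ℤ),
      (∀ z, MemJ r₁ R z → MemJ r₂ R z → |∑ a ∈ U, z a - ∑ a ∈ U, c a| ≤ M) ∧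
      lam * (M + Fintype.card E * (3 * Fintype.card E + 4)) + h₀ <
        |∑ a ∈ U, y a - ∑ a ∈ U, c a| := by
  obtain ⟨p, hp, hlt⟩ := hy
  rcases p with _ | e | e
  · exact absurd rfl hp
  · refine ⟨T₁.sub e, M₁ e, fun z h1 h2 => hM₁ e z h1 h2, ?_⟩
    have h3 : lvl T₁ T₂ (some (Sum.inl e)) y = (bs T₁ y e : ℝ) := rfl
    have h4 : c' (some (Sum.inl e)) = (bs T₁ c e : ℝ) := hc₁ e
    rw [h3, h4, not_le] at hlt
    have h5 := lt_of_le_of_lt (hL₁ e) hlt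
    have h6 : |(bs T₁ y e : ℝ) - bs T₁ c e| = ((|bs T₁ y e - bs T₁ c e| : ℤ) : ℝ) := by push_cast; rfl
    rw [h6] at h5
    exact_mod_cast h5
  · refine ⟨T₂.sub e, M₂ e, fun z h1 h2 => hM₂ e z h1 h2, ?_⟩
    have h3 : lvl T₁ T₂ (some (Sum.inr e)) y = (bs T₂ y e : ℝ) := rfl
    have h4 : c' (some (Sum.inr e)) = (bs T₂ c e : ℝ) := hc₂ e
    rw [h3, h4, not_le] at hlt
    have h5 := lt_of_le_of_lt (hL₂ e) hlt
    have h6 : |(bs T₂ y e : ℝ) - bs T₂ c e| = ((|bs T₂ y e - bs T₂ c e| : ℤ) : ℝ) := by push_cast; rfl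
    rw [h6] at h5
    exact_mod_cast h5

open Classical in
theorem badm_eq (h₁ : S₁.Gauge μ) (h₂ : S₂.Gauge μ) (L c' : Tok E → ℝ) (B : Finset (E → ℤ)) :
    badm S₁.T S₂.T L c' (ww S₁ S₂ θ μ) B =
      ∑ x ∈ B, ∑ z₁ ∈ S₁.J, ∑ z₂ ∈ S₂.J,
        (if (∃ p : Tok E, p ≠ none ∧ ¬ |lvl S₁.T S₂.T p x - c' p| ≤ L p - 2) then
          S₁.g z₁ * S₂.g z₂ * wt3 S₁.T S₂.T S₁.κ S₂.κ (Gl θ μ) x z₁ z₂ else 0) := by
  unfold badm
  rw [sum_filter]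
  apply sum_congr rfl
  intro x _
  rw [ww_eq θ h₁ h₂]
  split_ifs
  · rfl
  · simp

/-- **The defect mass, fat stages** (`g = 1`). -/
theorem badm_fat (hr₁ : SubM r₁ R) (hr₂ : SubM r₂ R) (hc₁ : MemJ r₁ R c) (hc₂ : MemJ r₂ R c)
    (hJ₁ : ∀ z, z ∈ S₁.J ↔ MemJ r₁ R z) (hJ₂ : ∀ z, z ∈ S₂.J ↔ MemJ r₂ R z)
    (hg₁ : ∀ z ∈ S₁.J, S₁.g z = 1) (hg₂ : ∀ z ∈ S₂.J, S₂.g z = 1)
    (D₁ : SideData S₁.T S₁.κ r₁ c m₁ h₀ bt₁ A ε) (D₂ : SideData S₂.T S₂.κ r₂ c m₂ h₀ bt₂ A ε)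
    (hbt₁ : ∀ p, S₁.T.par p ≠ none → bt₁ p ≤ b * m₁ p)
    (hbt₂ : ∀ p, S₂.T.par p ≠ none → bt₂ p ≤ b * m₂ p)
    (hA : 1 ≤ A) (hε : 0 ≤ ε) (hθ : 0 ≤ θ) (h₁ : S₁.Gauge μ) (h₂ : S₂.Gauge μ)
    (B : Finset (E → ℤ)) (lam : ℕ) (hlam : Fintype.card E * b + 1 ≤ lam) (hlam' : h₀ ≤ lam)
    {L c' : Tok E → ℝ} {M₁ M₂ : E → ℤ}
    (hM₁ : ∀ e z, MemJ r₁ R z → MemJ r₂ R z → |bs S₁.T z e - bs S₁.T c e| ≤ M₁ e)
    (hM₂ : ∀ e z, MemJ r₁ R z → MemJ r₂ R z → |bs S₂.T z e - bs S₂.T c e| ≤ M₂ e)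
    (hc'₁ : ∀ e, c' (tX e) = bs S₁.T c e) (hc'₂ : ∀ e, c' (tY e) = bs S₂.T c e)
    (hL₁ : ∀ e, ((lam * (M₁ e + Fintype.card E * (3 * Fintype.card E + 4)) + h₀ : ℤ) : ℝ) ≤
      L (tX e) - 2)
    (hL₂ : ∀ e, ((lam * (M₂ e + Fintype.card E * (3 * Fintype.card E + 4)) + h₀ : ℤ) : ℝ) ≤
      L (tY e) - 2) :
    badm S₁.T S₂.T L c' (ww S₁ S₂ θ μ) B ≤ far3 S₁ S₂ θ μ h₀ B +
      2 * Fintype.card E * (ε * A ^ (2 * Fintype.card E)) *
        ∑ s₁ ∈ linkSet S₁.T.par h₀, ∑ s₂ ∈ linkSet S₂.T.par h₀, gN S₁.J S₂.J (Gl θ μ) h₀ s₁ s₂ := by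
  classical
  have h := fat_tail hr₁ hr₂ hc₁ hc₂ S₁.J S₂.J hJ₁ hJ₂ D₁ D₂ hbt₁ hbt₂ hA hε (Gl θ μ)
    (Gl_nonneg hθ h₁.1) B lam hlam hlam'
    (fun x => ∃ p : Tok E, p ≠ none ∧ ¬ |lvl S₁.T S₂.T p x - c' p| ≤ L p - 2)
    (fun x hx => bad_of hM₁ hM₂ hc'₁ hc'₂ hL₁ hL₂ hx)
  have e1 : badm S₁.T S₂.T L c' (ww S₁ S₂ θ μ) B =
      ∑ x ∈ B, ∑ z₁ ∈ S₁.J, ∑ z₂ ∈ S₂.J,
        (if (∃ p : Tok E, p ≠ none ∧ ¬ |lvl S₁.T S₂.T p x - c' p| ≤ L p - 2) then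
          wt3 S₁.T S₂.T S₁.κ S₂.κ (Gl θ μ) x z₁ z₂ else 0) := by
    rw [badm_eq h₁ h₂]
    refine sum_congr rfl fun x _ => sum_congr rfl fun z₁ hz₁ => sum_congr rfl fun z₂ hz₂ => ?_
    rw [hg₁ z₁ hz₁, hg₂ z₂ hz₂, one_mul, one_mul]
  have e2 : far3 S₁ S₂ θ μ h₀ B = ∑ x ∈ B, ∑ z₁ ∈ S₁.J, ∑ z₂ ∈ S₂.J,
      (if (h₀ : ℤ) < nlink S₁.T S₂.T x z₁ z₂ then
        wt3 S₁.T S₂.T S₁.κ S₂.κ (Gl θ μ) x z₁ z₂ else 0) := by
    unfold far3
    refine sum_congr rfl fun x _ => sum_congr rfl fun z₁ hz₁ => sum_congr rfl fun z₂ hz₂ => ?_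
    rw [hg₁ z₁ hz₁, hg₂ z₂ hz₂, one_mul, one_mul]
  rw [e1, e2]
  exact h

/-- **The defect mass, thin stages** (no fat edge, arbitrary `g ≥ 0`). -/
theorem badm_thin (hr₁ : SubM r₁ R) (hr₂ : SubM r₂ R) (hc₁ : MemJ r₁ R c) (hc₂ : MemJ r₂ R c)
    (hJ₁ : ∀ z, z ∈ S₁.J ↔ MemJ r₁ R z) (hJ₂ : ∀ z, z ∈ S₂.J ↔ MemJ r₂ R z)
    (hg₁ : ∀ z ∈ S₁.J, 0 ≤ S₁.g z) (hg₂ : ∀ z ∈ S₂.J, 0 ≤ S₂.g z)
    (hT₁ : ∀ p, S₁.T.par p = none) (hT₂ : ∀ p, S₂.T.par p = none)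
    (hθ : 0 ≤ θ) (h₁ : S₁.Gauge μ) (h₂ : S₂.Gauge μ)
    (B : Finset (E → ℤ)) (lam : ℕ) (hlam : 1 ≤ lam) (hlam' : h₀ ≤ lam)
    {L c' : Tok E → ℝ} {M₁ M₂ : E → ℤ}
    (hM₁ : ∀ e z, MemJ r₁ R z → MemJ r₂ R z → |bs S₁.T z e - bs S₁.T c e| ≤ M₁ e)
    (hM₂ : ∀ e z, MemJ r₁ R z → MemJ r₂ R z → |bs S₂.T z e - bs S₂.T c e| ≤ M₂ e)
    (hc'₁ : ∀ e, c' (tX e) = bs S₁.T c e) (hc'₂ : ∀ e, c' (tY e) = bs S₂.T c e)
    (hL₁ : ∀ e, ((lam * (M₁ e + Fintype.card E * (3 * Fintype.card E + 4)) + h₀ : ℤ) : ℝ) ≤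
      L (tX e) - 2)
    (hL₂ : ∀ e, ((lam * (M₂ e + Fintype.card E * (3 * Fintype.card E + 4)) + h₀ : ℤ) : ℝ) ≤
      L (tY e) - 2) :
    badm S₁.T S₂.T L c' (ww S₁ S₂ θ μ) B ≤ far3 S₁ S₂ θ μ h₀ B := by
  classical
  have D₁ : SideData S₁.T S₁.κ r₁ c (fun _ => 0) h₀ (fun _ => 0) 1 0 :=
    ⟨fun p q h => by rw [hT₁ p] at h; exact absurd h (by simp), fun p h => absurd (hT₁ p) h,
      fun p h => absurd (hT₁ p) h, fun p h => absurd (hT₁ p) h⟩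
  have D₂ : SideData S₂.T S₂.κ r₂ c (fun _ => 0) h₀ (fun _ => 0) 1 0 :=
    ⟨fun p q h => by rw [hT₂ p] at h; exact absurd h (by simp), fun p h => absurd (hT₂ p) h,
      fun p h => absurd (hT₂ p) h, fun p h => absurd (hT₂ p) h⟩
  rw [badm_eq h₁ h₂]
  unfold far3
  refine sum_le_sum fun x _ => sum_le_sum fun z₁ hz₁ => sum_le_sum fun z₂ hz₂ => ?_
  have hw : 0 ≤ S₁.g z₁ * S₂.g z₂ * wt3 S₁.T S₂.T S₁.κ S₂.κ (Gl θ μ) x z₁ z₂ :=
    mul_nonneg (mul_nonneg (hg₁ z₁ hz₁) (hg₂ z₂ hz₂)) (mul_nonneg (Gl_nonneg hθ h₁.1 _ _)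
      (mul_nonneg (prodK_nonneg' D₁ _) (prodK_nonneg' D₂ _)))
  by_cases hb : ∃ p : Tok E, p ≠ none ∧ ¬ |lvl S₁.T S₂.T p x - c' p| ≤ L p - 2
  · rw [if_pos hb]
    rcases bad_cases (b := 0) hr₁ hr₂ hc₁ hc₂ hJ₁ hJ₂ D₁ D₂ (fun p h => absurd (hT₁ p) h)
      (fun p h => absurd (hT₂ p) h) (lam := lam) (by simpa using hlam) hlam'
      (bad_of hM₁ hM₂ hc'₁ hc'₂ hL₁ hL₂ hb) hz₁ hz₂ with h | ⟨p, hp, _⟩ | ⟨p, hp, _⟩
    · rw [if_pos h]
    · exact absurd (hT₁ p) hp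
    · exact absurd (hT₂ p) hp
  · rw [if_neg hb]
    split_ifs
    · exact hw
    · exact le_rfl

/-! ### The mass with many links in the form of `Joint536` -/

theorem lw_eq {S : Side E} (θ : ℝ) {μ : E → ℝ} (h : S.Gauge μ) (x : E → ℤ) (β : S.Blk → ℤ) :
    S.lw θ μ x β = ∑ z ∈ S.J, if S.blk z = β then w1 S θ μ x z else 0 := by
  classical
  unfold Side.lw Side.ff
  rw [mul_sum]
  apply sum_congr rfl
  intro z _
  split_ifs with hz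
  · subst hz
    have e1 : ∏ a, S.fk x (S.blk z) z a
        = ∏ a, (if S.T.par a = none then 1 else S.κ a (bs S.T z a - bs S.T x a)) := by
      refine Finset.prod_congr rfl fun a _ => ?_
      unfold Side.fk Side.blk
      by_cases h : S.T.par a = none
      · simp [h]
      · simp [h]
    have e2 : ∏ a, S.wk θ a (bs S.T z a - bs S.T x a)
        = (∏ a, (if S.T.par a = none then θ ^ (bs S.T z a - bs S.T x a).natAbs else 1))
          * ∏ a, (if S.T.par a = none then 1 else S.κ a (bs S.T z a - bs S.T x a)) := by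
      rw [← Finset.prod_mul_distrib]
      refine Finset.prod_congr rfl fun a _ => ?_
      unfold Side.wk
      by_cases h : S.T.par a = none
      · simp [h]
      · simp [h]
    have e3 : ∏ a, (if S.T.par a = none then θ ^ (bs S.T z a - bs S.T x a).natAbs else 1)
        = ∏ r : S.Blk, θ ^ (S.blk z r - bs S.T x r).natAbs := by
      rw [← Finset.prod_filter, Finset.prod_subtype (p := fun a => S.T.par a = none)
        (univ.filter (fun a => S.T.par a = none))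
        (fun a => by simp) (fun a => θ ^ (bs S.T z a - bs S.T x a).natAbs)]
      rfl
    unfold w1
    rw [e1, e2, e3, Side.mon_eq h]
    unfold Side.blk
    ring
  · obtain ⟨r, hr⟩ := Function.ne_iff.1 hz
    have : ∏ a, S.fk x β z a = 0 := by
      refine Finset.prod_eq_zero (mem_univ (r : E)) ?_
      unfold Side.fk
      rw [dif_pos r.2, if_neg]
      exact hr
    rw [this]
    ring

theorem w1_nonneg {S : Side E} (hθ : 0 ≤ θ) {μ : E → ℝ} (hμ : ∀ e, 0 < μ e)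
    (hκ : ∀ p, S.T.par p ≠ none → ∀ t, 0 ≤ S.κ p t) (x : E → ℤ) {z : E → ℤ} (hg : 0 ≤ S.g z) :
    0 ≤ w1 S θ μ x z := by
  unfold w1
  refine mul_nonneg (mul_nonneg (mon_pos hμ _).le hg) (prod_nonneg fun a _ => ?_)
  unfold Side.wk
  split_ifs with h
  · exact pow_nonneg hθ _
  · exact hκ a h _

/-- sum over the link states as a sum over the points of `J` -/
theorem sum_lw {S : Side E} (θ : ℝ) {μ : E → ℝ} (h : S.Gauge μ) (x : E → ℤ)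
    (Λ : Finset (S.Blk → ℤ)) (hΛ : ∀ z ∈ S.J, S.blk z ∈ Λ) (P : (S.Blk → ℤ) → ℝ) :
    ∑ β ∈ Λ, P β * S.lw θ μ x β = ∑ z ∈ S.J, P (S.blk z) * w1 S θ μ x z := by
  classical
  simp only [lw_eq θ h, mul_sum]
  rw [sum_comm]
  apply sum_congr rfl
  intro z hz
  rw [sum_eq_single (S.blk z)]
  · rw [if_pos rfl]
  · intro β _ hne
    rw [if_neg (Ne.symm hne), mul_zero]
  · intro h; exact absurd (hΛ z hz) h

theorem rootPart_abs_sum (S : Side E) (x z : E → ℤ) {K : ℕ} (h : Joint.InW (S.blk x) K (S.blk z)) :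
    ∑ v, |rootPart S.T.par (bs S.T (z - x)) v| ≤ Fintype.card E * K := by
  have h1 : ∀ v, |rootPart S.T.par (bs S.T (z - x)) v| ≤ (K : ℤ) := by
    intro v
    unfold rootPart
    split_ifs with hv
    · have := h ⟨v, hv⟩
      unfold Side.blk at this
      rw [bs_sub]
      exact this
    · simp
  calc _ ≤ ∑ _v : E, (K : ℤ) := sum_le_sum fun v _ => h1 v
    _ = _ := by rw [sum_const, card_univ, nsmul_eq_mul]

/-- **the mass with more than `h₀` links is at most the far mass of `Joint536`** -/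
theorem far3_le_farM (hg₁ : ∀ z ∈ S₁.J, 0 ≤ S₁.g z) (hg₂ : ∀ z ∈ S₂.J, 0 ≤ S₂.g z)
    (hκ₁ : ∀ p, S₁.T.par p ≠ none → ∀ t, 0 ≤ S₁.κ p t)
    (hκ₂ : ∀ p, S₂.T.par p ≠ none → ∀ t, 0 ≤ S₂.κ p t)
    (hθ : 0 ≤ θ) (h₁ : S₁.Gauge μ) (h₂ : S₂.Gauge μ) (B : Finset (E → ℤ))
    (Λ₁ : Finset (S₁.Blk → ℤ)) (hΛ₁ : ∀ z ∈ S₁.J, S₁.blk z ∈ Λ₁)
    (Λ₂ : Finset (S₂.Blk → ℤ)) (hΛ₂ : ∀ z ∈ S₂.J, S₂.blk z ∈ Λ₂) {K : ℕ}
    (hK : 2 * Fintype.card E * K ≤ h₀) :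
    far3 S₁ S₂ θ μ h₀ B ≤ Joint.farM B (fun x β => S₁.lw θ μ x β)
      (fun x β => S₂.lw θ (fun e => (μ e)⁻¹) x β) Λ₁ Λ₂ (fun x => S₁.blk x) (fun x => S₂.blk x) K := by
  classical
  have h2' : S₂.Gauge (fun e => (μ e)⁻¹) :=
    ⟨fun e => inv_pos.2 (h₁.1 e), fun a b h => by simp only; rw [h₂.2 a b h]⟩
  unfold Joint.farM far3
  rw [sum_filter, sum_product]
  apply sum_le_sum
  intro x _
  have e1 : ∑ y ∈ Λ₁ ×ˢ Λ₂, (if ¬ (Joint.InW (S₁.blk x) K y.1 ∧ Joint.InW (S₂.blk x) K y.2) then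
      Joint.nu (fun x β => S₁.lw θ μ x β) (fun x β => S₂.lw θ (fun e => (μ e)⁻¹) x β) (x, y)
        else 0) =
      ∑ z₁ ∈ S₁.J, ∑ z₂ ∈ S₂.J,
        (if ¬ (Joint.InW (S₁.blk x) K (S₁.blk z₁) ∧ Joint.InW (S₂.blk x) K (S₂.blk z₂)) then
          w1 S₁ θ μ x z₁ * w1 S₂ θ (fun e => (μ e)⁻¹) x z₂ else 0) := by
    rw [sum_product]
    have e2 : ∀ β₁ ∈ Λ₁, ∑ β₂ ∈ Λ₂,
        (if ¬ (Joint.InW (S₁.blk x) K β₁ ∧ Joint.InW (S₂.blk x) K β₂) then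
          Joint.nu (fun x β => S₁.lw θ μ x β) (fun x β => S₂.lw θ (fun e => (μ e)⁻¹) x β)
            (x, β₁, β₂) else 0) =
        (∑ z₂ ∈ S₂.J, (if ¬ (Joint.InW (S₁.blk x) K β₁ ∧ Joint.InW (S₂.blk x) K (S₂.blk z₂)) then 1
          else 0) * w1 S₂ θ (fun e => (μ e)⁻¹) x z₂) * S₁.lw θ μ x β₁ := by
      intro β₁ _
      have h3 := sum_lw θ h2' x Λ₂ hΛ₂
        (fun β₂ => if ¬ (Joint.InW (S₁.blk x) K β₁ ∧ Joint.InW (S₂.blk x) K β₂) then 1 else 0)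
      rw [← h3, sum_mul]
      apply sum_congr rfl
      intro β₂ _
      unfold Joint.nu
      split_ifs
      · ring
      · ring
    rw [sum_congr rfl e2]
    have h4 := sum_lw θ h₁ x Λ₁ hΛ₁ (fun β₁ => ∑ z₂ ∈ S₂.J,
      (if ¬ (Joint.InW (S₁.blk x) K β₁ ∧ Joint.InW (S₂.blk x) K (S₂.blk z₂)) then 1
          else 0) * w1 S₂ θ (fun e => (μ e)⁻¹) x z₂)
    rw [h4]
    apply sum_congr rfl
    intro z₁ _
    rw [sum_mul]
    apply sum_congr rfl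
    intro z₂ _
    split_ifs
    · ring
    · ring
  rw [e1]
  refine sum_le_sum fun z₁ hz₁ => sum_le_sum fun z₂ hz₂ => ?_
  have hw : 0 ≤ w1 S₁ θ μ x z₁ * w1 S₂ θ (fun e => (μ e)⁻¹) x z₂ :=
    mul_nonneg (w1_nonneg hθ h₁.1 hκ₁ x (hg₁ z₁ hz₁)) (w1_nonneg hθ h2'.1 hκ₂ x (hg₂ z₂ hz₂))
  rw [w1_mul θ h₁ h₂] at hw ⊢
  by_cases hl : (h₀ : ℤ) < nlink S₁.T S₂.T x z₁ z₂
  · rw [if_pos hl, if_pos]
    rintro ⟨k1, k2⟩
    have a1 := rootPart_abs_sum S₁ x z₁ k1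
    have a2 := rootPart_abs_sum S₂ x z₂ k2
    have a3 : (2 * Fintype.card E * K : ℤ) ≤ h₀ := by exact_mod_cast hK
    unfold nlink at hl
    linarith
  · rw [if_neg hl]
    split_ifs <;> first | exact hw | exact le_rfl

end Crest.Agent.R302.Tail907
end

-- ▼ part R302/Badm907B

/-!
# R302: the hard link mass

Author: helper907.  `sum_gN_stage` : with a good gauge the weighted number of the hard link states
is at most `1 / (1 - q)` times the number of the points of `J₁ ∩ J₂` (from helper970's `link_mass'`,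
applied to the chain with trivial slack laws).
-/

set_option autoImplicit false
set_option linter.unusedSectionVars false

namespace Crest.Agent.R302.Tail907

open Finset
open Crest.Agent.R302.Facet (SubM MemJ)
open Crest.Agent.R302.Inst Crest.Agent.R302.Lor Crest.Agent.R302.Stage Crest.Agent.R302.Gau

variable {E : Type*} [Fintype E] [DecidableEq E]

theorem bs_inj {T : MP3.Forest E} {x y : E → ℤ} (h : ∀ a, bs T x a = bs T y a) : x = y := by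
  have h1 : code T.par x = code T.par y := by
    rw [code_funext, code_funext]; exact funext h
  have h2 := congrArg (dec T.par) h1
  rwa [dec_code T.par T.dep T.dep_lt, dec_code T.par T.dep T.dep_lt] at h2

theorem soft_of_hard {S : Side E} (hg : ∀ z, S.g z = 1)
    (hκ : ∀ a t, S.κ a t = if t = 0 then 1 else 0) (p : E → ℤ) :
    soft S p = if p ∈ S.J then 1 else 0 := by
  unfold soft Side.ff
  have h1 : ∀ z, ∏ a, S.fk p (S.blk p) z a = if z = p then 1 else 0 := by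
    intro z
    have h2 : ∀ a, S.fk p (S.blk p) z a = if bs S.T z a = bs S.T p a then 1 else 0 := by
      intro a
      unfold Side.fk
      by_cases h : S.T.par a = none
      · rw [dif_pos h]; rfl
      · rw [dif_neg h, hκ]
        simp only [sub_eq_zero]
    rw [prod_congr rfl fun a _ => h2 a]
    by_cases hz : z = p
    · subst hz; simp
    · rw [if_neg hz]
      have : ∃ a, bs S.T z a ≠ bs S.T p a := by
        by_contra hcon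
        push Not at hcon
        exact hz (bs_inj hcon)
      obtain ⟨a, ha⟩ := this
      exact prod_eq_zero (mem_univ a) (if_neg ha)
  simp only [h1, hg, one_mul]
  rw [sum_ite_eq' S.J p]

/-- chain data without slacks -/
structure Hard (D : SD E) : Prop where
  w : ∀ β, D.w β = 0
  g₁ : ∀ z, D.S₁.g z = 1
  g₂ : ∀ z, D.S₂.g z = 1
  κ₁ : ∀ a t, D.S₁.κ a t = if t = 0 then 1 else 0
  κ₂ : ∀ a t, D.S₂.κ a t = if t = 0 then 1 else 0
  c : ∀ e, D.c e = 0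

variable {D : SD E}

theorem Hard.F₁ (h : Hard D) (p : E → ℤ) : Gau.F₁ D p = if p ∈ D.S₁.J then 1 else 0 := by
  refine soft_of_hard (S := D.S₁w) (fun z => ?_) (fun a t => h.κ₁ a t) p
  show D.S₁.g z * 2 ^ (-D.w (D.S₁.blk z)) = 1
  rw [h.g₁, h.w]
  norm_num

theorem Hard.F₂ (h : Hard D) (p : E → ℤ) : Gau.F₂ D p = if p ∈ D.S₂.J then 1 else 0 :=
  soft_of_hard (S := D.S₂) h.g₂ h.κ₂ p

theorem Hard.lzD (h : Hard D) {r₁ r₂ : Finset E → ℤ} {R : ℤ} (hr₁ : SubM r₁ R) (hr₂ : SubM r₂ R)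
    (hJ₁ : ∀ z, z ∈ D.S₁.J ↔ MemJ r₁ R z) (hJ₂ : ∀ z, z ∈ D.S₂.J ↔ MemJ r₂ R z)
    (g₁ : D.S₁.Gauge D.μ) (g₂ : D.S₂.Gauge D.μ) : LzD D where
  gauge₁ := g₁
  gauge₂ := g₂
  lz := by
    classical
    refine ⟨R, ?_, ?_⟩
    · refine Lz.memJ hr₁ (fun z hz => ?_) (fun z hz => ?_)
      · rw [h.F₁, if_pos ((hJ₁ z).2 hz)]
      · rw [h.F₁, if_neg (fun h => hz ((hJ₁ z).1 h))]
    · have := Lz.memJ_reflect hr₂ 0 (c := fun p => Gau.F₂ D (-p))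
        (fun z hz => by
          rw [zero_sub] at hz
          rw [h.F₂, if_pos ((hJ₂ _).2 hz)])
        (fun z hz => by
          rw [zero_sub] at hz
          rw [h.F₂, if_neg (fun h => hz ((hJ₂ _).1 h))])
      simpa using this
  bdd₁ := ⟨1, fun p => by rw [h.F₁]; split_ifs <;> norm_num⟩
  bdd₂ := ⟨1, fun p => by rw [h.F₂]; split_ifs <;> norm_num⟩

/-- signed link vector of a pair of root-supported vectors -/
def svec (D : SD E) (s₁ s₂ : E → ℤ) : Lk D → ℤ := Sum.elim (fun r => s₁ r.1) (fun r => -s₂ r.1)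

theorem sh_svec (D : SD E) {s₁ s₂ : E → ℤ} (h₁ : ∀ e, D.S₁.T.par e ≠ none → s₁ e = 0)
    (h₂ : ∀ e, D.S₂.T.par e ≠ none → s₂ e = 0) :
    (fun e => sh D (svec D s₁ s₂) (Sum.inl e)) = s₁ ∧
    (fun e => sh D (svec D s₁ s₂) (Sum.inr e)) = fun e => -s₂ e := by
  let σ : St D := ((0 : E → ℤ), (fun r => s₁ r.1), (fun r => s₂ r.1))
  have hb : ∀ (T : MP3.Forest E) e, bs T (0 : E → ℤ) e = 0 := bs_zero
  have hsv : sv D σ = svec D s₁ s₂ := by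
    funext i
    rcases i with r | r
    · show s₁ r.1 - bs D.S₁.T (0 : E → ℤ) r = s₁ r.1
      rw [hb, sub_zero]
    · show -(s₂ r.1 - bs D.S₂.T (0 : E → ℤ) r) = -s₂ r.1
      rw [hb, sub_zero]
  have e1 := sh_inl D σ
  have e2 := sh_inr D σ
  rw [hsv] at e1 e2
  constructor
  · funext e
    have := congrFun e1 e
    simp only [σ, Pi.add_apply, Pi.zero_apply, zero_add] at this
    rw [this]
    unfold Side.load
    by_cases h : D.S₁.T.par e = none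
    · rw [dif_pos h, hb]; simp
    · rw [dif_neg h, h₁ e h]; rfl
  · funext e
    have := congrFun e2 e
    simp only [σ, Pi.sub_apply, Pi.zero_apply, zero_sub] at this
    have h3 : Side.load D.S₂ (0 : E → ℤ) (fun r => s₂ r.1) e = s₂ e := by
      unfold Side.load
      by_cases h : D.S₂.T.par e = none
      · rw [dif_pos h, hb]; simp
      · rw [dif_neg h, h₂ e h]; rfl
    rw [h3] at this
    linarith

theorem Hard.pair (h : Hard D) (x a b : E → ℤ) : Gau.F₁ D (x + a) * Gau.F₂ D (x + b) =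
    if (x + a ∈ D.S₁.J ∧ x + b ∈ D.S₂.J) then 1 else 0 := by
  rw [h.F₁, h.F₂]
  by_cases k1 : x + a ∈ D.S₁.J <;> by_cases k2 : x + b ∈ D.S₂.J <;> simp [k1, k2]

/-- the hard pair count -/
theorem Hard.AA (h : Hard D) {s₁ s₂ : E → ℤ} (h₁ : ∀ e, D.S₁.T.par e ≠ none → s₁ e = 0)
    (h₂ : ∀ e, D.S₂.T.par e ≠ none → s₂ e = 0) (hM : ∀ z ∈ D.S₁.J, ∀ e, |z e - s₁ e| ≤ D.M) :
    Gau.AA D (sh D (svec D s₁ s₂)) = hardN D.S₁.J D.S₂.J s₁ s₂ := by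
  obtain ⟨e1, e2⟩ := sh_svec D (s₁ := s₁) (s₂ := s₂) h₁ h₂
  unfold Gau.AA pairA
  rw [e1, e2]
  have e3 : ∀ x : E → ℤ, Gau.F₁ D (x + s₁) * Gau.F₂ D (x - fun e => -s₂ e) =
      if (x + s₁ ∈ D.S₁.J ∧ x + s₂ ∈ D.S₂.J) then 1 else 0 := by
    intro x
    have : (x - fun e => -s₂ e) = x + s₂ := by funext e; simp
    rw [this, h.pair]
  rw [sum_congr rfl fun x _ => e3 x, ← sum_filter, sum_const, nsmul_eq_mul, mul_one]
  congr 1
  unfold hardN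
  refine card_bij' (fun x _ => x + s₁) (fun z _ => z - s₁) ?_ ?_ ?_ ?_
  · intro x hx
    obtain ⟨_, k1, k2⟩ := mem_filter.1 hx
    refine mem_filter.2 ⟨k1, ?_⟩
    have : (fun v => (x + s₁) v - s₁ v + s₂ v) = x + s₂ := by funext v; simp
    rw [this]; exact k2
  · intro z hz
    obtain ⟨k1, k2⟩ := mem_filter.1 hz
    refine mem_filter.2 ⟨?_, by simpa using k1, ?_⟩
    · unfold bx1
      rw [Fintype.mem_piFinset]
      intro e
      have := abs_le.1 (hM z k1 e)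
      rw [mem_Icc, h.c]
      show (0 : ℤ) - D.M ≤ (z - s₁) e ∧ (z - s₁) e ≤ 0 + D.M
      rw [Pi.sub_apply]
      constructor <;> linarith
    · have : z - s₁ + s₂ = (fun v => z v - s₁ v + s₂ v) := by funext v; simp
      rw [this]; exact k2
  · intro x _; simp
  · intro z _; simp

theorem linkSet_root {par : E → Option E} {h₀ : ℕ} {s : E → ℤ} (hs : s ∈ linkSet par h₀) :
    ∀ e, par e ≠ none → s e = 0 := by
  intro e he
  unfold linkSet at hs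
  rw [Fintype.mem_piFinset] at hs
  have := hs e
  rwa [if_neg he, mem_singleton] at this

theorem linkSet_abs {par : E → Option E} {h₀ : ℕ} {s : E → ℤ} (hs : s ∈ linkSet par h₀) (e : E) :
    |s e| ≤ h₀ := by
  unfold linkSet at hs
  rw [Fintype.mem_piFinset] at hs
  have := hs e
  by_cases he : par e = none
  · rw [if_pos he, mem_Icc] at this
    exact abs_le.2 this
  · rw [if_neg he, mem_singleton] at this
    rw [this]; simp

theorem sum_root {T : MP3.Forest E} {s : E → ℤ} (h : ∀ e, T.par e ≠ none → s e = 0) :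
    ∑ r : {e // T.par e = none}, (s r.1).natAbs = ∑ v, (s v).natAbs := by
  rw [← sum_subtype (p := fun e => T.par e = none) (univ.filter (fun e => T.par e = none))
    (fun e => by simp) (fun e => (s e).natAbs), sum_filter]
  apply sum_congr rfl
  intro e _
  split_ifs with he
  · rfl
  · rw [h e he]; rfl

theorem prod_root {T : MP3.Forest E} {μ : E → ℝ} {s : E → ℤ} (h : ∀ e, T.par e ≠ none → s e = 0) :
    ∏ r : {e // T.par e = none}, μ r.1 ^ s r.1 = mon μ s := by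
  rw [← prod_subtype (p := fun e => T.par e = none) (univ.filter (fun e => T.par e = none))
    (fun e => by simp) (fun e => μ e ^ s e), prod_filter]
  unfold mon
  apply prod_congr rfl
  intro e _
  split_ifs with he
  · rfl
  · rw [h e he, zpow_zero]

theorem sum_le_insert_aux {ι : Type*} [DecidableEq ι] (f : ι → ℝ) (hf : ∀ i, 0 ≤ f i)
    (F : Finset ι) (i₀ : ι) : ∑ i ∈ F, f i ≤ f i₀ + ∑ i ∈ F.erase i₀, f i := by
  by_cases h : i₀ ∈ F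
  · rw [← add_sum_erase F f h]
  · rw [erase_eq_of_notMem h]
    linarith [hf i₀]

/-- weight of a link vector -/
noncomputable def lt (D : SD E) (s : Lk D → ℤ) : ℝ :=
  D.θ ^ (∑ i, (s i).natAbs) * (∏ i, wt D i ^ s i) * Gau.AA D (sh D s)

theorem lt_zero (D : SD E) : lt D 0 = Gau.AA D 0 := by
  have : sh D 0 = 0 := by unfold sh; simp
  unfold lt
  rw [this]
  simp

/-- all link vectors -/
theorem sum_lt_le (hL : LzD D) (hpos : 0 < Gau.AA D 0) {K : ℝ}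
    (hK : ∑ i : Lk D, ∑ j : Lk D, wt D i / wt D j * Gau.AA D (ev (tok D i) - ev (tok D j)) ≤
      K * Gau.AA D 0) (hq : D.θ ^ 2 * K < 1) (F : Finset (Lk D → ℤ)) :
    ∑ s ∈ F, lt D s ≤ 1 / (1 - D.θ ^ 2 * K) * Gau.AA D 0 := by
  classical
  obtain ⟨hLp, C, hC⟩ := hL.pair
  have h2 := link_mass' hLp hC hpos (tok D) (wt_pos D) hK (θ_pos D).le hq (F.erase 0)
    (notMem_erase _ _)
  have h0 : ∀ s : Lk D → ℤ, 0 ≤ lt D s := fun s =>
    mul_nonneg (mul_nonneg (pow_nonneg (θ_pos D).le _)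
      (prod_nonneg fun i _ => (zpow_pos (wt_pos D i) _).le)) (hLp.nonneg _)
  have h3 := sum_le_insert_aux (lt D) h0 F 0
  rw [lt_zero] at h3
  have h4 : ∑ s ∈ F.erase 0, lt D s ≤ D.θ ^ 2 * K / (1 - D.θ ^ 2 * K) * Gau.AA D 0 := h2
  have h5 : (1 : ℝ) - D.θ ^ 2 * K ≠ 0 := by linarith
  have h6 : 1 / (1 - D.θ ^ 2 * K) * Gau.AA D 0 =
      Gau.AA D 0 + D.θ ^ 2 * K / (1 - D.θ ^ 2 * K) * Gau.AA D 0 := by
    field_simp
    ring
  rw [h6]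
  linarith

theorem card_Lk (D : SD E) : (Fintype.card (Lk D) : ℝ) ≤ 2 * Fintype.card E := by
  have h1 : Fintype.card (Lk D) ≤ 2 * Fintype.card E := by
    have h2 : Fintype.card (Lk D) = Fintype.card D.S₁.Blk + Fintype.card D.S₂.Blk :=
      Fintype.card_sum
    have h3 : Fintype.card D.S₁.Blk ≤ Fintype.card E := Fintype.card_subtype_le _
    have h4 : Fintype.card D.S₂.Blk ≤ Fintype.card E := Fintype.card_subtype_le _
    omega
  exact_mod_cast h1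

/-- the one-link constant of the hard chain -/
theorem Hard.oneLink (h : Hard D) (hL : LzD D) (hA0 : 0 ≤ Gau.AA D 0) {Γ : ℝ} (hΓ0 : 0 ≤ Γ)
    (hΓ : ∀ i j : Lk D, (hardN D.S₁.J D.S₂.J (ev (el D i)) (ev (el D j)) : ℝ) * D.μ (el D i) ≤
      Γ * Gau.AA D 0 * D.μ (el D j)) :
    ∑ i : Lk D, ∑ j : Lk D, wt D i / wt D j * Gau.AA D (ev (tok D i) - ev (tok D j)) ≤
      (Γ * (2 * Fintype.card E) ^ 2) * Gau.AA D 0 := by
  have hN : ∀ u v : E, ∀ B : Finset (E → ℤ), ∑ x ∈ B, Gau.F₁ D (x + ev u) * Gau.F₂ D (x + ev v) ≤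
      (hardN D.S₁.J D.S₂.J (ev u) (ev v) : ℝ) := by
    intro u v B
    rw [sum_congr rfl fun x _ => h.pair x (ev u) (ev v), ← sum_filter, sum_const, nsmul_eq_mul,
      mul_one]
    have : (B.filter (fun x => x + ev u ∈ D.S₁.J ∧ x + ev v ∈ D.S₂.J)).card ≤
        hardN D.S₁.J D.S₂.J (ev u) (ev v) := by
      unfold hardN
      refine card_le_card_of_injOn (fun x => x + ev u) ?_ ?_
      · intro x hx
        obtain ⟨_, k1, k2⟩ := mem_filter.1 (mem_coe.1 hx)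
        refine mem_coe.2 (mem_filter.2 ⟨k1, ?_⟩)
        have : (fun w => (x + ev u : E → ℤ) w - (ev u : E → ℤ) w + (ev v : E → ℤ) w) = x + ev v := by
          funext w; simp
        rw [this]; exact k2
      · intro x _ y _ h
        exact add_right_cancel h
    exact_mod_cast this
  have hK1 := oneLink_le hL (Γ := Γ)
    (Nb := fun u v => (hardN D.S₁.J D.S₂.J (ev u) (ev v) : ℝ)) hN hΓ
  refine hK1.trans (mul_le_mul_of_nonneg_right ?_ hA0)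
  apply mul_le_mul_of_nonneg_left _ hΓ0
  exact pow_le_pow_left₀ (by positivity) (card_Lk D) 2

/-- one link vector -/
theorem Hard.term (h : Hard D) (hL : LzD D) {h₀ : ℕ}
    (hM : ∀ z ∈ D.S₁.J, ∀ s : E → ℤ, (∀ e, |s e| ≤ (h₀ : ℤ)) → ∀ e, |z e - s e| ≤ D.M)
    {s₁ s₂ : E → ℤ} (hs₁ : s₁ ∈ linkSet D.S₁.T.par h₀) (hs₂ : s₂ ∈ linkSet D.S₂.T.par h₀) :
    gN D.S₁.J D.S₂.J (Gl D.θ D.μ) h₀ s₁ s₂ ≤ lt D (svec D s₁ s₂) := by
  have k1 := linkSet_root hs₁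
  have k2 := linkSet_root hs₂
  have e1 : Gau.AA D (sh D (svec D s₁ s₂)) = hardN D.S₁.J D.S₂.J s₁ s₂ :=
    h.AA k1 k2 (fun z hz e => hM z hz s₁ (linkSet_abs hs₁) e)
  have e2 : ∑ i, (svec D s₁ s₂ i).natAbs = ∑ v, (s₁ v).natAbs + ∑ v, (s₂ v).natAbs := by
    rw [Fintype.sum_sum_type]
    congr 1
    · exact sum_root k1
    · have : ∀ r : D.S₂.Blk, (svec D s₁ s₂ (Sum.inr r)).natAbs = (s₂ r.1).natAbs := by
        intro r
        show (-s₂ r.1).natAbs = _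
        rw [Int.natAbs_neg]
      rw [sum_congr rfl fun r _ => this r]
      exact sum_root k2
  have e3 : (∏ i, wt D i ^ svec D s₁ s₂ i) = mon D.μ s₁ * mon (fun e => (D.μ e)⁻¹) s₂ := by
    rw [Fintype.prod_sum_type]
    congr 1
    · exact prod_root (μ := D.μ) k1
    · have : ∀ r : D.S₂.Blk, wt D (Sum.inr r) ^ svec D s₁ s₂ (Sum.inr r) =
          (D.μ r.1)⁻¹ ^ s₂ r.1 := by
        intro r
        show (D.μ r.1) ^ (-s₂ r.1) = _
        rw [zpow_neg, inv_zpow]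
      rw [prod_congr rfl fun r _ => this r]
      exact prod_root (μ := fun e => (D.μ e)⁻¹) k2
  unfold lt
  rw [e1, e2, e3]
  unfold gN Gl
  split_ifs
  · exact le_rfl
  · exact mul_nonneg (Gl_nonneg (θ_pos D).le hL.gauge₁.1 s₁ s₂) (by positivity)

/-- the hard link mass of a hard chain -/
theorem Hard.sum_gN (h : Hard D) (hL : LzD D) (hpos : 0 < Gau.AA D 0) {K : ℝ}
    (hK : ∑ i : Lk D, ∑ j : Lk D, wt D i / wt D j * Gau.AA D (ev (tok D i) - ev (tok D j)) ≤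
      K * Gau.AA D 0) (hq : D.θ ^ 2 * K < 1) {h₀ : ℕ}
    (hM : ∀ z ∈ D.S₁.J, ∀ s : E → ℤ, (∀ e, |s e| ≤ (h₀ : ℤ)) → ∀ e, |z e - s e| ≤ D.M) :
    ∑ s₁ ∈ linkSet D.S₁.T.par h₀, ∑ s₂ ∈ linkSet D.S₂.T.par h₀,
      gN D.S₁.J D.S₂.J (Gl D.θ D.μ) h₀ s₁ s₂ ≤ 1 / (1 - D.θ ^ 2 * K) * Gau.AA D 0 := by
  classical
  refine le_trans ?_ (sum_lt_le hL hpos hK hq
    ((linkSet D.S₁.T.par h₀ ×ˢ linkSet D.S₂.T.par h₀).image (fun p => svec D p.1 p.2)))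
  rw [sum_image, sum_product]
  · exact sum_le_sum fun s₁ hs₁ => sum_le_sum fun s₂ hs₂ => h.term hL hM hs₁ hs₂
  · rintro ⟨s₁, s₂⟩ hs ⟨t₁, t₂⟩ ht hst
    obtain ⟨hs₁, hs₂⟩ := mem_product.1 (mem_coe.1 hs)
    obtain ⟨ht₁, ht₂⟩ := mem_product.1 (mem_coe.1 ht)
    have k1 : s₁ = t₁ := by
      funext e
      by_cases he : D.S₁.T.par e = none
      · exact congrFun hst (Sum.inl ⟨e, he⟩)
      · exact (linkSet_root hs₁ e he).trans (linkSet_root ht₁ e he).symm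
    have k2 : s₂ = t₂ := by
      funext e
      by_cases he : D.S₂.T.par e = none
      · have : -s₂ e = -t₂ e := congrFun hst (Sum.inr ⟨e, he⟩)
        exact neg_injective this
      · exact (linkSet_root hs₂ e he).trans (linkSet_root ht₂ e he).symm
    rw [k1, k2]

/-- the chain without slacks of a chain -/
noncomputable def hardOf (D : SD E) (M : ℕ) : SD E where
  S₁ := ⟨D.S₁.T, D.S₁.J, fun _ => 1, fun _ t => if t = 0 then 1 else 0⟩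
  S₂ := ⟨D.S₂.T, D.S₂.J, fun _ => 1, fun _ t => if t = 0 then 1 else 0⟩
  w := fun _ => 0
  a := D.a
  ell := D.ell
  c := fun _ => 0
  M := M
  Lb := 0
  mv := []
  lk₁ := []
  lk₂ := []
  qa := 0
  qb := 0

theorem hard_hardOf (D : SD E) (M : ℕ) : Hard (hardOf D M) :=
  ⟨fun _ => rfl, fun _ => rfl, fun _ => rfl, fun _ _ => rfl, fun _ _ => rfl, fun _ => rfl⟩

/-- **The hard link mass** of a stage. -/
theorem sum_gN_stage (D : SD E) {r₁ r₂ : Finset E → ℤ} {R : ℤ} (hr₁ : SubM r₁ R) (hr₂ : SubM r₂ R)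
    (hJ₁ : ∀ z, z ∈ D.S₁.J ↔ MemJ r₁ R z) (hJ₂ : ∀ z, z ∈ D.S₂.J ↔ MemJ r₂ R z)
    (g₁ : D.S₁.Gauge D.μ) (g₂ : D.S₂.Gauge D.μ) (hpos : 0 < hardN D.S₁.J D.S₂.J 0 0)
    {Γ : ℝ} (hΓ0 : 0 ≤ Γ)
    (hΓ : ∀ u v : E, (D.S₁.T.par u = none ∨ D.S₂.T.par u = none) →
      (D.S₁.T.par v = none ∨ D.S₂.T.par v = none) →
      (hardN D.S₁.J D.S₂.J (ev u) (ev v) : ℝ) * D.μ u ≤ Γ * hardN D.S₁.J D.S₂.J 0 0 * D.μ v)
    (hq : D.θ ^ 2 * (Γ * (2 * Fintype.card E) ^ 2) < 1) (h₀ : ℕ) :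
    ∑ s₁ ∈ linkSet D.S₁.T.par h₀, ∑ s₂ ∈ linkSet D.S₂.T.par h₀,
      gN D.S₁.J D.S₂.J (Gl D.θ D.μ) h₀ s₁ s₂ ≤
    1 / (1 - D.θ ^ 2 * (Γ * (2 * Fintype.card E) ^ 2)) * hardN D.S₁.J D.S₂.J 0 0 := by
  classical
  obtain ⟨M, hM⟩ : ∃ M : ℕ, ∀ z ∈ D.S₁.J, ∀ s : E → ℤ, (∀ e, |s e| ≤ (h₀ : ℤ)) →
      ∀ e, |z e - s e| ≤ M := by
    refine ⟨h₀ + ∑ z ∈ D.S₁.J, ∑ e, (z e).natAbs, fun z hz s hs e => ?_⟩
    have h1 : (z e).natAbs ≤ ∑ z ∈ D.S₁.J, ∑ e, (z e).natAbs :=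
      (single_le_sum (f := fun e => (z e).natAbs) (fun _ _ => Nat.zero_le _) (mem_univ e)).trans
        (single_le_sum (f := fun z : E → ℤ => ∑ e, (z e).natAbs) (fun _ _ => Nat.zero_le _) hz)
    have h2 := hs e
    have h3 := abs_sub (z e) (s e)
    have h4 : |z e| = ((z e).natAbs : ℤ) := (Int.natCast_natAbs _).symm
    have h5 : ((z e).natAbs : ℤ) ≤ ((∑ z ∈ D.S₁.J, ∑ e, (z e).natAbs : ℕ) : ℤ) := by exact_mod_cast h1
    rw [Nat.cast_add]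
    linarith
  have hH := hard_hardOf D M
  have hL : LzD (hardOf D M) := hH.lzD hr₁ hr₂ hJ₁ hJ₂ ⟨g₁.1, g₁.2⟩ ⟨g₂.1, g₂.2⟩
  have hA0 : Gau.AA (hardOf D M) 0 = hardN D.S₁.J D.S₂.J 0 0 := by
    have h1 := hH.AA (s₁ := 0) (s₂ := 0) (fun _ _ => rfl) (fun _ _ => rfl)
      (fun z hz e => hM z hz 0 (fun e => by simp) e)
    have h2 : sh (hardOf D M) (svec (hardOf D M) 0 0) = 0 := by
      have h3 : svec (hardOf D M) (0 : E → ℤ) 0 = 0 := by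
        funext i
        rcases i with r | r <;> simp [svec]
      rw [h3]
      unfold sh
      simp
    rw [h2] at h1
    exact h1
  have hpos' : 0 < Gau.AA (hardOf D M) 0 := by rw [hA0]; exact_mod_cast hpos
  have hK := hH.oneLink hL hpos'.le hΓ0 (fun i j => by
    rw [hA0]
    refine hΓ _ _ ?_ ?_
    · rcases i with r | r
      · exact Or.inl r.2
      · exact Or.inr r.2
    · rcases j with r | r
      · exact Or.inl r.2
      · exact Or.inr r.2)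
  have := hH.sum_gN hL hpos' hK hq (h₀ := h₀) hM
  rw [hA0] at this
  exact this

end Crest.Agent.R302.Tail907
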