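import Mathlib
import Crest.Agent.R302.Loop272B

/-!
# R302, block LOOP, part C: the adapter (helper272)

`Chain` = the data of the program (list coded gauge), `Chain.sys` = the loop program of `Loop272A`,
`stage_ok` = the hypotheses of the loop from
* `conv` (mixing of one particle), `perf` (perfect states), `rat` (one-link events), `tri` (triangle inequality
  of the one-link counts), `blk` (comparison inside components), `mon` (stability from one stage to the next).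
-/

set_option autoImplicit false

namespace Crest.Agent.R302.Loop

open Finset Crest.Agent.R309.Tape

variable {S Ω : Type*}

/-- maximum of a list of naturals -/
def lmax (l : List ℕ) : ℕ := l.foldl max 0


theorem lmax_range (n : ℕ) (f : ℕ → ℕ) :
    lmax ((List.range n).map f) = Finset.univ.sup fun u : Fin n => f u := by
  induction n with
  | zero => simp [lmax]
  | succ n ih =>
    unfold lmax at *
    rw [List.range_succ, List.map_append, List.foldl_append]
    simp only [List.map_cons, List.map_nil, List.foldl_cons, List.foldl_nil]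
    rw [ih]
    apply le_antisymm
    · refine max_le (Finset.sup_le fun u _ => ?_) ?_
      · exact Finset.le_sup (f := fun u : Fin (n + 1) => f u) (Finset.mem_univ u.castSucc)
      · exact Finset.le_sup (f := fun u : Fin (n + 1) => f u) (Finset.mem_univ (Fin.last n))
    · refine Finset.sup_le fun u _ => ?_
      rcases Nat.lt_succ_iff_lt_or_eq.mp u.2 with h | h
      · exact le_max_of_le_left
          (Finset.le_sup (f := fun u : Fin n => f u) (Finset.mem_univ (⟨u, h⟩ : Fin n)))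
      · rw [h]; exact le_max_right _ _

/-- the increment, list coded -/
def incL (n D : ℕ) (c : ℕ → ℕ) : ℕ :=
  lmax ((List.range n).map fun u => Nat.clog 2 ((c u + (4 * D - 1)) / (4 * D)))

/-- the new gauge, list coded -/
def newGaugeL (n m K : ℕ) (rep : ℕ → ℕ) (ev : ℕ → ℕ → Ω → Bool) (g : List ℤ) (ys : List Ω) : List ℤ :=
  (List.range n).map fun v => g.getD (rep v) 0 + incL n (K / 2 ^ m) (fun u => cnt (ev (rep u) (rep v)) ys)

theorem newGaugeL_getD (n m K : ℕ) (rep : ℕ → ℕ) (ev : ℕ → ℕ → Ω → Bool) (g : List ℤ) (ys : List Ω)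
    (v : Fin n) : (newGaugeL n m K rep ev g ys).getD v 0 =
      newGauge m K (fun u v : Fin n => ev (rep u) (rep v)) (fun v => g.getD (rep v) 0) ys v := by
  unfold newGaugeL newGauge inc incL
  rw [← lmax_range n (fun u => Nat.clog 2
    ((cnt (ev (rep u) (rep v)) ys + (4 * (K / 2 ^ m) - 1)) / (4 * (K / 2 ^ m))))]
  simp [List.getD_eq_getElem?_getD, v.2]

/-- the data of the program.  Estimators (`runE`, a link costs `2 ^ (-m)`) are used for the update of the gauge,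
movers (`runM`, links are much more expensive, so that imperfect states are rare) for the particles. -/
structure Chain (S Ω : Type*) where
  /-- estimator run: stage, gauge, start, tape -/
  runE : ℕ → List ℤ → S → List Bool → Ω
  /-- mover run: stage, gauge, start, tape -/
  runM : ℕ → List ℤ → S → List Bool → Ω
  /-- the point of a perfect state -/
  out : ℕ → Ω → Option S
  /-- one-link events -/
  ev : ℕ → ℕ → ℕ → Ω → Bool
  /-- component representatives -/
  rep : ℕ → ℕ → ℕ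
  /-- bits per estimator run -/
  ρE : ℕ
  /-- bits per mover run -/
  ρM : ℕ
  /-- in an estimator run a link costs `2 ^ (-m)` -/
  m : ℕ
  /-- accuracy of the estimates -/
  D : ℕ

/-- the loop program of a chain -/
def Chain.sys (C : Chain S Ω) (n : ℕ) : Sys S (List ℤ) where
  run t c g x l := (C.out t (C.runM t g x l)).getD c
  gup t _ g ys l := newGaugeL n C.m (C.D * 2 ^ C.m) (C.rep t) (C.ev t) g (mapRun (C.runE t g) C.ρE ys l)
  ρ := C.ρM
  ρ1 := C.D * 2 ^ C.m * C.ρE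
  K := C.D * 2 ^ C.m

/-- good gauge for the one-link counts `N` and the number `Z` of perfect states -/
def GoodG (n : ℕ) (N : ℕ → ℕ → ℝ) (Z Gam : ℝ) (g : List ℤ) : Prop :=
  ∀ u < n, ∀ v < n, N u v * (2 : ℝ) ^ (g.getD u 0) ≤ Gam * Z * (2 : ℝ) ^ (g.getD v 0)

/-- good gauge on the representatives `rep` -/
def GoodR (n : ℕ) (rep : ℕ → ℕ) (N : ℕ → ℕ → ℝ) (Z Gam : ℝ) (g : List ℤ) : Prop :=
  ∀ u < n, ∀ v < n, N (rep u) (rep v) * (2 : ℝ) ^ (g.getD (rep u) 0) ≤
    Gam * Z * (2 : ℝ) ^ (g.getD (rep v) 0)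

/-- what the stage `t → t + 1` has to satisfy; `eE` = error of one estimator, `eM` = error of one mover -/
structure ChainOK (C : Chain S Ω) (n t : ℕ) (μ ν : Law S) (π : List ℤ → Law Ω)
    (N N' : ℕ → ℕ → ℝ) (Z Z' kap B eE eM : ℝ) : Prop where
  rep_lt : ∀ u < n, C.rep t u < n
  conv : ∀ g : List ℤ, GoodR n (C.rep t) N' Z' (16 * kap * B) g →
    ∀ φ : Ω → ℝ, (∀ y, 0 ≤ φ y ∧ φ y ≤ 1) →
      |μ.E (fun x => avg C.ρE (fun l => φ (C.runE t g x l))) - (π g).E φ| ≤ eE
  rat : ∀ g : List ℤ, GoodR n (C.rep t) N' Z' (16 * kap * B) g →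
    ∀ u < n, ∀ v < n,
      |2 ^ C.m * (π g).E (fun y => ind (C.ev t (C.rep t u) (C.rep t v) y = true)) -
        N' (C.rep t u) (C.rep t v) * (2 : ℝ) ^ (g.getD (C.rep t u) 0) /
          (Z' * (2 : ℝ) ^ (g.getD (C.rep t v) 0))| ≤
        (1 / 4) * (N' (C.rep t u) (C.rep t v) * (2 : ℝ) ^ (g.getD (C.rep t u) 0) /
          (Z' * (2 : ℝ) ^ (g.getD (C.rep t v) 0)))
  move : ∀ g : List ℤ, GoodR n (C.rep t) N' Z' (16 * kap * B) g →
    ∀ φ : S → ℝ, (∀ y, 0 ≤ φ y ∧ φ y ≤ 1) → ∀ d : S, d ∈ μ.supp →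
      |μ.E (fun x => avg C.ρM (fun l => φ ((C.out t (C.runM t g x l)).getD d))) - ν.E φ| ≤ eM
  nonneg : ∀ u v, 0 ≤ N' u v
  tri : ∀ u < n, ∀ v < n, ∀ w < n, N' u v * N' v w ≤ 2 * Z' * N' u w
  blk : ∀ u < n, ∀ v < n, N' u v ≤ kap * N' (C.rep t u) (C.rep t v)
  monN : ∀ u < n, ∀ v < n, N' u v ≤ B * N u v
  monZ : Z ≤ Z'
  posZ : 0 < Z

/-- the mover statement from convergence to a law `π₂` with few imperfect states -/
theorem move_of {μ ν : Law S} {π₂ : Law Ω} {run : S → List Bool → Ω} {out : Ω → Option S} {ρ : ℕ}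
    {e1 e2 : ℝ}
    (conv : ∀ φ : Ω → ℝ, (∀ y, 0 ≤ φ y ∧ φ y ≤ 1) →
      |μ.E (fun x => avg ρ (fun l => φ (run x l))) - π₂.E φ| ≤ e1)
    (perf : ∀ φ : S → ℝ, (∀ y, 0 ≤ φ y ∧ φ y ≤ 1) → ∀ d : S, d ∈ μ.supp →
      |π₂.E (fun y => φ ((out y).getD d)) - ν.E φ| ≤ e2)
    (φ : S → ℝ) (hφ : ∀ y, 0 ≤ φ y ∧ φ y ≤ 1) (d : S) (hd : d ∈ μ.supp) :
    |μ.E (fun x => avg ρ (fun l => φ ((out (run x l)).getD d))) - ν.E φ| ≤ e1 + e2 := by
  have h1 := conv (fun y => φ ((out y).getD d)) (fun y => hφ _)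
  have h2 := perf φ hφ d hd
  have h3 := abs_sub_le (μ.E (fun x => avg ρ (fun l => φ ((out (run x l)).getD d))))
    (π₂.E (fun y => φ ((out y).getD d))) (ν.E φ)
  linarith

/-- **The adapter.** -/
theorem stage_ok {C : Chain S Ω} {n t : ℕ} (hn : 0 < n) {μ ν : Law S} {π : List ℤ → Law Ω}
    {N N' : ℕ → ℕ → ℝ} {Z Z' kap B eE eM : ℝ} (hkap : 1 ≤ kap) (hB : 1 ≤ B) (hD : 0 < C.D)
    (H : ChainOK C n t μ ν π N N' Z Z' kap B eE eM) :
    StageOK (C.sys n) μ ν t (GoodG n N Z (16 * kap)) (GoodG n N' Z' (16 * kap)) (fun _ => True)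
      0 ((C.D * 2 ^ C.m : ℕ) * eE + 16 * n ^ 2 * 2 ^ C.m / C.D) eM := by
  have hZ' : 0 < Z' := H.posZ.trans_le H.monZ
  -- `Pre` from `Good`
  have pre_of_good : ∀ g, GoodG n N Z (16 * kap) g → GoodR n (C.rep t) N' Z' (16 * kap * B) g := by
    intro g hg u hu v hv
    have h1 := hg _ (H.rep_lt u hu) _ (H.rep_lt v hv)
    have h2 := H.monN _ (H.rep_lt u hu) _ (H.rep_lt v hv)
    have p1 : (0 : ℝ) < 2 ^ (g.getD (C.rep t u) 0) := by positivity
    have p2 : (0 : ℝ) < 2 ^ (g.getD (C.rep t v) 0) := by positivity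
    calc N' (C.rep t u) (C.rep t v) * (2 : ℝ) ^ (g.getD (C.rep t u) 0)
        ≤ B * N (C.rep t u) (C.rep t v) * (2 : ℝ) ^ (g.getD (C.rep t u) 0) :=
          mul_le_mul_of_nonneg_right h2 p1.le
      _ = B * (N (C.rep t u) (C.rep t v) * (2 : ℝ) ^ (g.getD (C.rep t u) 0)) := by ring
      _ ≤ B * (16 * kap * Z * (2 : ℝ) ^ (g.getD (C.rep t v) 0)) :=
          mul_le_mul_of_nonneg_left h1 (by linarith)
      _ ≤ B * (16 * kap * Z' * (2 : ℝ) ^ (g.getD (C.rep t v) 0)) := by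
          apply mul_le_mul_of_nonneg_left _ (by linarith)
          apply mul_le_mul_of_nonneg_right _ p2.le
          apply mul_le_mul_of_nonneg_left H.monZ; linarith
      _ = _ := by ring
  have pre_of_good' : ∀ g, GoodG n N' Z' (16 * kap) g →
      GoodR n (C.rep t) N' Z' (16 * kap * B) g := by
    intro g hg u hu v hv
    have h1 := hg _ (H.rep_lt u hu) _ (H.rep_lt v hv)
    have p2 : (0 : ℝ) < 2 ^ (g.getD (C.rep t v) 0) := by positivity
    refine h1.trans ?_
    apply mul_le_mul_of_nonneg_right _ p2.le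
    apply mul_le_mul_of_nonneg_right _ hZ'.le
    have : 16 * kap * 1 ≤ 16 * kap * B := mul_le_mul_of_nonneg_left hB (by linarith)
    linarith
  constructor
  · -- centre
    have : μ.E (fun c => ind ((fun _ : S => True) c)) = 1 := by
      have : (fun c : S => ind ((fun _ : S => True) c)) = fun _ => (1 : ℝ) := by
        funext c; exact ind_of trivial
      rw [this, Law.E_const]
    rw [this]
    simp
  · -- gauge
    intro c hc _ g hg
    have : Nonempty (Fin n) := ⟨⟨0, hn⟩⟩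
    have hpre := pre_of_good g hg
    have h1 := gauge_step (V := Fin n) (fun u v => N' (C.rep t u) (C.rep t v)) Z' hZ'
      (fun u v w => H.tri _ (H.rep_lt u u.2) _ (H.rep_lt v v.2) _ (H.rep_lt w w.2))
      (fun u v => H.nonneg _ _) (fun u => g.getD (C.rep t u) 0) μ (π g) (C.runE t g) C.ρE eE
      (H.conv g hpre) (fun u v => C.ev t (C.rep t u) (C.rep t v)) C.m C.D hD
      (fun u v => H.rat g hpre u u.2 v v.2)
    rw [Fintype.card_fin] at h1
    have h2 : μ.EN (C.D * 2 ^ C.m) (fun ys => avg ((C.D * 2 ^ C.m) * C.ρE) (fun l => ind (∀ u v : Fin n,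
        N' (C.rep t u) (C.rep t v) * (2 : ℝ) ^ (newGauge C.m (C.D * 2 ^ C.m)
          (fun u v : Fin n => C.ev t (C.rep t u) (C.rep t v)) (fun u => g.getD (C.rep t u) 0)
            (mapRun (C.runE t g) C.ρE ys l) u) ≤
          16 * Z' * (2 : ℝ) ^ (newGauge C.m (C.D * 2 ^ C.m)
          (fun u v : Fin n => C.ev t (C.rep t u) (C.rep t v)) (fun u => g.getD (C.rep t u) 0)
            (mapRun (C.runE t g) C.ρE ys l) v)))) ≤
        μ.EN (C.sys n).K (fun ys => avg (C.sys n).ρ1 (fun l =>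
          ind (GoodG n N' Z' (16 * kap) ((C.sys n).gup t c g ys l)))) := by
      refine μ.EN_mono _ fun ys _ _ => avg_mono fun l _ => ind_mono fun hh => ?_
      intro u hu v hv
      have h3 := hh ⟨u, hu⟩ ⟨v, hv⟩
      have e1 := newGaugeL_getD n C.m (C.D * 2 ^ C.m) (C.rep t) (C.ev t) g
        (mapRun (C.runE t g) C.ρE ys l) ⟨u, hu⟩
      have e2 := newGaugeL_getD n C.m (C.D * 2 ^ C.m) (C.rep t) (C.ev t) g
        (mapRun (C.runE t g) C.ρE ys l) ⟨v, hv⟩
      rw [← e1, ← e2] at h3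
      have h4 := H.blk u hu v hv
      have p1 : (0 : ℝ) < 2 ^ (((C.sys n).gup t c g ys l).getD u 0) := by positivity
      calc N' u v * (2 : ℝ) ^ (((C.sys n).gup t c g ys l).getD u 0)
          ≤ kap * N' (C.rep t u) (C.rep t v) * (2 : ℝ) ^ (((C.sys n).gup t c g ys l).getD u 0) :=
            mul_le_mul_of_nonneg_right h4 p1.le
        _ = kap * (N' (C.rep t u) (C.rep t v) * (2 : ℝ) ^ (((C.sys n).gup t c g ys l).getD u 0)) := by ring
        _ ≤ kap * (16 * Z' * (2 : ℝ) ^ (((C.sys n).gup t c g ys l).getD v 0)) :=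
            mul_le_mul_of_nonneg_left h3 (by linarith)
        _ = _ := by ring
    exact le_trans h1 h2
  · -- move
    intro c hc _ g hg φ hφ
    exact H.move g (pre_of_good' g hg) φ hφ c hc

/-- **Summary of the block**: the sampler.  Error: `T (K eE + 16 n² 2^m / D + pop eM) + pop e0`, `K = D 2^m`. -/
theorem chain_sampler {C : Chain S Ω} {n T : ℕ} (hn : 0 < n) {μ : ℕ → Law S} {π : ℕ → List ℤ → Law Ω}
    {N : ℕ → ℕ → ℕ → ℝ} {Z : ℕ → ℝ} {kap B eE eM e0 : ℝ} (hkap : 1 ≤ kap) (hB : 1 ≤ B)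
    (heE : 0 ≤ eE) (heM : 0 ≤ eM) (hD : 0 < C.D)
    (H : ∀ t < T, ChainOK C n t (μ t) (μ (t + 1)) (π t) (N t) (N (t + 1)) (Z t) (Z (t + 1)) kap B eE eM)
    (r : ℕ) (hr : C.D * 2 ^ C.m * C.ρE + popSize (C.sys n) 1 T * C.ρM ≤ r) (x0 d : S) (g0 : List ℤ)
    (hg0 : GoodG n (N 0) (Z 0) (16 * kap) g0)
    (h0 : ∀ φ : S → ℝ, (∀ x, 0 ≤ φ x ∧ φ x ≤ 1) → |φ x0 - (μ 0).E φ| ≤ e0)
    (φ : S → ℝ) (hφ : ∀ x, 0 ≤ φ x ∧ φ x ≤ 1) :
    |avg (T * r) (fun l => φ ((runSteps (stage (C.sys n)) r T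
        (0, g0, List.replicate (popSize (C.sys n) 1 T) x0) l).2.2.headD d)) - (μ T).E φ| ≤
      T * (((C.D * 2 ^ C.m : ℕ) : ℝ) * eE + 16 * n ^ 2 * 2 ^ C.m / C.D + popSize (C.sys n) 1 T * eM) +
        popSize (C.sys n) 1 T * e0 := by
  have he' : 0 ≤ ((C.D * 2 ^ C.m : ℕ) : ℝ) * eE + 16 * n ^ 2 * 2 ^ C.m / C.D := by positivity
  have h := loop_sampler (A := C.sys n) (μ := μ) (Good := fun t => GoodG n (N t) (Z t) (16 * kap))
    (GoodC := fun _ _ => True) le_rfl he' heM (fun t ht => stage_ok hn hkap hB hD (H t ht)) r hr x0 d g0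
    hg0 h0 φ hφ
  simpa using h

theorem popSize_sys (C : Chain S Ω) (n m j : ℕ) :
    popSize (C.sys n) m j = m + j * (1 + C.D * 2 ^ C.m) := popSize_eq _ _ _

end Crest.Agent.R302.Loop
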