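import Mathlib
import Crest.Agent.R309.MCTape
import Crest.Agent.R309.PTSolve
import Crest.Agent.Lib.PT.ArithMore
import Crest.Agent.Lib.PT.ArithInt

-- ▼ part R302/Slack166A
section

/-!
# R302, block O2 (helper166): laws on the integers and approximate laws of tape functions

`Ez μ φ = ∑' t, μ t * φ t`; `conv` = convolution; the two-fold two-sided geometric law
`kapR`; `AL R X μ e`: the law of `X` (reading `R` fresh bits) is within `e` of `μ`
in total variation.
-/

set_option autoImplicit false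

namespace Crest.Agent.R302.Slk

open Finset
open Crest.Agent.R309.Tape

/-! ### laws on ℤ -/

/-- a probability law on the integers -/
structure IsLaw (μ : ℤ → ℝ) : Prop where
  nonneg : ∀ t, 0 ≤ μ t
  summable : Summable μ
  total : ∑' t, μ t = 1

/-- expectation -/
noncomputable def Ez (μ φ : ℤ → ℝ) : ℝ := ∑' t, μ t * φ t

/-- convolution -/
noncomputable def conv (μ ν : ℤ → ℝ) (t : ℤ) : ℝ := ∑' s, μ s * ν (t - s)

theorem IsLaw.summable_mul {μ : ℤ → ℝ} (h : IsLaw μ) {φ : ℤ → ℝ} (C : ℝ) (hφ : ∀ t, |φ t| ≤ C) :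
    Summable fun t => μ t * φ t := by
  refine Summable.of_norm_bounded (g := fun t => μ t * C) (h.summable.mul_right C) fun t => ?_
  rw [Real.norm_eq_abs, abs_mul, abs_of_nonneg (h.nonneg t)]
  exact mul_le_mul_of_nonneg_left (hφ t) (h.nonneg t)

theorem IsLaw.Ez_nonneg {μ φ : ℤ → ℝ} (h : IsLaw μ) (h0 : ∀ t, 0 ≤ φ t) : 0 ≤ Ez μ φ :=
  tsum_nonneg fun t => mul_nonneg (h.nonneg t) (h0 t)

theorem IsLaw.Ez_le_one {μ φ : ℤ → ℝ} (h : IsLaw μ) (h0 : ∀ t, 0 ≤ φ t) (h1 : ∀ t, φ t ≤ 1) :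
    Ez μ φ ≤ 1 := by
  rw [← h.total]
  refine Summable.tsum_le_tsum (fun t => ?_) (h.summable_mul 1 fun t => ?_) h.summable
  · exact mul_le_of_le_one_right (h.nonneg t) (h1 t)
  · rw [abs_of_nonneg (h0 t)]; exact h1 t

theorem IsLaw.summable_prod {μ ν : ℤ → ℝ} (hμ : IsLaw μ) (hν : IsLaw ν) {φ : ℤ × ℤ → ℝ}
    (h0 : ∀ t, 0 ≤ φ t) (h1 : ∀ t, φ t ≤ 1) :
    Summable fun p : ℤ × ℤ => μ p.1 * ν p.2 * φ p := by
  refine Summable.of_nonneg_of_le (fun p => ?_) (fun p => ?_)
    (hμ.summable.mul_of_nonneg hν.summable hμ.nonneg hν.nonneg)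
  · exact mul_nonneg (mul_nonneg (hμ.nonneg _) (hν.nonneg _)) (h0 _)
  · exact mul_le_of_le_one_right (mul_nonneg (hμ.nonneg _) (hν.nonneg _)) (h1 _)

/-- the shear `(s, t) ↦ (s, t - s)` -/
def shear : ℤ × ℤ ≃ ℤ × ℤ where
  toFun p := (p.1, p.2 - p.1)
  invFun p := (p.1, p.1 + p.2)
  left_inv p := by ext <;> simp
  right_inv p := by ext <;> simp

theorem Ez_conv {μ ν φ : ℤ → ℝ} (hμ : IsLaw μ) (hν : IsLaw ν) (h0 : ∀ t, 0 ≤ φ t)
    (h1 : ∀ t, φ t ≤ 1) : Ez (conv μ ν) φ = Ez μ (fun s => Ez ν (fun u => φ (s + u))) := by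
  have hs : Summable fun p : ℤ × ℤ => μ p.1 * ν (p.2 - p.1) * φ p.2 := by
    have := (shear.summable_iff).2 (hμ.summable_prod hν (φ := fun p => φ (p.1 + p.2))
      (fun _ => h0 _) (fun _ => h1 _))
    refine this.congr fun p => ?_
    simp [shear]
  have e1 : Ez (conv μ ν) φ = ∑' t, ∑' s, μ s * ν (t - s) * φ t := by
    unfold Ez conv
    refine tsum_congr fun t => ?_
    rw [tsum_mul_right]
  have e2 : Ez μ (fun s => Ez ν (fun u => φ (s + u))) = ∑' s, ∑' t, μ s * ν (t - s) * φ t := by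
    unfold Ez
    refine tsum_congr fun s => ?_
    rw [← tsum_mul_left, ← (Equiv.subRight s).tsum_eq]
    refine tsum_congr fun t => ?_
    show μ s * (ν (t - s) * φ (s + (t - s))) = _
    rw [show s + (t - s) = t by ring]
    ring
  rw [e1, e2]
  exact Summable.tsum_comm (f := fun s t => μ s * ν (t - s) * φ t) hs

theorem IsLaw.conv {μ ν : ℤ → ℝ} (hμ : IsLaw μ) (hν : IsLaw ν) : IsLaw (conv μ ν) := by
  have hs : Summable fun p : ℤ × ℤ => μ p.1 * ν (p.2 - p.1) := by
    have := (shear.summable_iff).2 (hμ.summable_prod hν (φ := fun _ => 1)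
      (fun _ => zero_le_one) (fun _ => le_rfl))
    refine this.congr fun p => ?_
    simp [shear]
  refine ⟨fun _ => tsum_nonneg fun s => mul_nonneg (hμ.nonneg _) (hν.nonneg _), ?_, ?_⟩
  · have := ((Equiv.prodComm ℤ ℤ).summable_iff.2 hs).prod
    exact this
  · have := Ez_conv (φ := fun _ => 1) hμ hν (fun _ => zero_le_one) (fun _ => le_rfl)
    simp only [Ez, mul_one] at this
    rw [this, hν.total]
    simp [hμ.total]

theorem IsLaw.neg {μ : ℤ → ℝ} (hμ : IsLaw μ) : IsLaw (fun t => μ (-t)) :=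
  ⟨fun t => hμ.nonneg _, (Equiv.neg ℤ).summable_iff.2 hμ.summable,
    ((Equiv.neg ℤ).tsum_eq μ).trans hμ.total⟩

theorem Ez_neg (μ φ : ℤ → ℝ) : Ez (fun t => μ (-t)) φ = Ez μ (fun t => φ (-t)) := by
  unfold Ez
  rw [← (Equiv.neg ℤ).tsum_eq]
  refine tsum_congr fun t => ?_
  simp

/-! ### geometric laws -/

/-- the geometric law of ratio `q` on the nonnegative integers -/
noncomputable def gz (q : ℝ) (t : ℤ) : ℝ := if 0 ≤ t then (1 - q) * q ^ t.toNat else 0

theorem gz_natCast (q : ℝ) (j : ℕ) : gz q (j : ℤ) = (1 - q) * q ^ j := by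
  simp [gz]

theorem gz_of_neg (q : ℝ) {t : ℤ} (h : t < 0) : gz q t = 0 := by
  simp [gz, not_le.2 h]

theorem tsum_nat_of_support {f : ℤ → ℝ} (hf : ∀ t < 0, f t = 0) :
    ∑' t, f t = ∑' j : ℕ, f j := by
  refine (Function.Injective.tsum_eq Nat.cast_injective ?_).symm
  intro t ht
  have : 0 ≤ t := by
    by_contra h
    exact ht (hf t (not_le.1 h))
  exact ⟨t.toNat, Int.toNat_of_nonneg this⟩

theorem summable_nat_of_support {f : ℤ → ℝ} (hf : ∀ t < 0, f t = 0)
    (h : Summable fun j : ℕ => f j) : Summable f := by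
  refine (Function.Injective.summable_iff (f := f) (Nat.cast_injective (R := ℤ)) ?_).1 h
  intro t ht
  refine hf t ?_
  by_contra h0
  exact ht ⟨t.toNat, Int.toNat_of_nonneg (not_lt.1 h0)⟩

theorem isLaw_gz {q : ℝ} (h0 : 0 ≤ q) (h1 : q < 1) : IsLaw (gz q) := by
  refine ⟨fun t => ?_, ?_, ?_⟩
  · unfold gz
    split_ifs
    · exact mul_nonneg (by linarith) (pow_nonneg h0 _)
    · exact le_rfl
  · refine summable_nat_of_support (fun t ht => gz_of_neg q ht) ?_
    simp only [gz_natCast]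
    exact (summable_geometric_of_lt_one h0 h1).mul_left _
  · rw [tsum_nat_of_support (fun t ht => gz_of_neg q ht)]
    simp only [gz_natCast]
    rw [tsum_mul_left, tsum_geometric_of_lt_one h0 h1]
    field_simp [sub_ne_zero.2 h1.ne']

theorem Ez_gz (q : ℝ) (φ : ℤ → ℝ) : Ez (gz q) φ = ∑' j : ℕ, (1 - q) * q ^ j * φ j := by
  unfold Ez
  rw [tsum_nat_of_support (fun t ht => by rw [gz_of_neg q ht, zero_mul])]
  simp only [gz_natCast]

/-- the two-sided geometric law -/
noncomputable def bil (q : ℝ) (t : ℤ) : ℝ := (1 - q) / (1 + q) * q ^ t.natAbs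

theorem conv_gz_neg {q : ℝ} (h0 : 0 ≤ q) (h1 : q < 1) :
    conv (gz q) (fun t => gz q (-t)) = bil q := by
  funext t
  unfold conv bil
  have hinj : Function.Injective (fun j : ℕ => max 0 t + (j : ℤ)) := fun a b h => by
    simpa using h
  rw [← hinj.tsum_eq]
  · have : ∀ j : ℕ, gz q (max 0 t + (j : ℤ)) * gz q (-(t - (max 0 t + (j : ℤ)))) =
        (1 - q) ^ 2 * q ^ t.natAbs * (q ^ 2) ^ j := by
      intro j
      have a1 : 0 ≤ max 0 t + (j : ℤ) := by positivity
      have a2 : 0 ≤ -(t - (max 0 t + (j : ℤ))) := by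
        have := le_max_right 0 t
        have := Int.natCast_nonneg j
        omega
      unfold gz
      rw [if_pos a1, if_pos a2]
      have e : (max 0 t + (j : ℤ)).toNat + (-(t - (max 0 t + (j : ℤ)))).toNat
          = t.natAbs + 2 * j := by omega
      calc _ = (1 - q) ^ 2 * q ^ ((max 0 t + (j : ℤ)).toNat +
            (-(t - (max 0 t + (j : ℤ)))).toNat) := by rw [pow_add]; ring
        _ = _ := by rw [e, pow_add, pow_mul]; ring
    simp only [this]
    rw [tsum_mul_left, tsum_geometric_of_lt_one (by positivity)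
      (by nlinarith)]
    have h2 : (1 - q ^ 2) = (1 - q) * (1 + q) := by ring
    have h3 : (1 - q) ≠ 0 := by linarith [sub_ne_zero.2 h1.ne']
    have h4 : (1 + q) ≠ 0 := by positivity
    rw [h2]
    field_simp
  · intro s hs
    have hs1 : 0 ≤ s := by
      by_contra h
      exact hs (by simp [gz_of_neg q (not_le.1 h)])
    have hs2 : t ≤ s := by
      by_contra h
      exact hs (by
        have : -(t - s) < 0 := by omega
        simp only [gz_of_neg q this, mul_zero])
    refine ⟨(s - max 0 t).toNat, ?_⟩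
    have : 0 ≤ s - max 0 t := by
      have := max_le hs1 hs2
      omega
    simp only []
    rw [Int.toNat_of_nonneg this]
    ring

/-- the fat slack law: two-fold convolution of the two-sided geometric law -/
noncomputable def kapQ (q : ℝ) (t : ℤ) : ℝ :=
  ((1 - q) / (1 + q)) ^ 2 * (q ^ t.natAbs * (t.natAbs + (1 + q ^ 2) / (1 - q ^ 2)))

theorem hasSum_bil_aux {q : ℝ} (h0 : 0 ≤ q) (h1 : q < 1) (T : ℕ) :
    HasSum (fun s : ℤ => q ^ s.natAbs * q ^ ((T : ℤ) - s).natAbs)
      (q ^ T * (T + (1 + q ^ 2) / (1 - q ^ 2))) := by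
  have hq2 : 0 ≤ q ^ 2 := by positivity
  have hq21 : q ^ 2 < 1 := by nlinarith
  have hne : (1 - q ^ 2) ≠ 0 := by linarith [sub_ne_zero.2 hq21.ne']
  have hg := hasSum_geometric_of_lt_one hq2 hq21
  have hneg : HasSum (fun j : ℕ => q ^ (-((j : ℤ) + 1)).natAbs *
      q ^ ((T : ℤ) - (-((j : ℤ) + 1))).natAbs) (q ^ (T + 2) * (1 - q ^ 2)⁻¹) := by
    have := hg.mul_left (q ^ (T + 2))
    refine this.congr_fun ?_ |> id
    intro j
    rw [show (-((j : ℤ) + 1)).natAbs = j + 1 by omega,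
      show ((T : ℤ) - (-((j : ℤ) + 1))).natAbs = T + j + 1 by omega]
    ring
  have hpos : HasSum (fun s : ℕ => q ^ (s : ℤ).natAbs * q ^ ((T : ℤ) - (s : ℤ)).natAbs)
      (q ^ (T + 2) * (1 - q ^ 2)⁻¹ + (T + 1) * q ^ T) := by
    have h2 : ∑ i ∈ range (T + 1), q ^ (i : ℤ).natAbs * q ^ ((T : ℤ) - (i : ℤ)).natAbs
        = (T + 1) * q ^ T := by
      rw [sum_congr rfl (g := fun _ => q ^ T)]
      · simp
      · intro i hi
        have : i ≤ T := Nat.lt_succ_iff.1 (mem_range.1 hi)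
        rw [← pow_add]
        congr 1
        omega
    rw [← h2]
    refine (hasSum_nat_add_iff (T + 1)).1 ?_
    have := hg.mul_left (q ^ (T + 2))
    refine this.congr_fun ?_ |> id
    intro j
    rw [show (((j + (T + 1) : ℕ) : ℤ)).natAbs = j + T + 1 by omega,
      show ((T : ℤ) - ((j + (T + 1) : ℕ) : ℤ)).natAbs = j + 1 by omega]
    ring
  have := HasSum.of_nat_of_neg_add_one (f := fun s : ℤ => q ^ s.natAbs * q ^ ((T : ℤ) - s).natAbs)
    hpos hneg
  convert this using 1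
  field_simp
  ring

theorem conv_bil {q : ℝ} (h0 : 0 ≤ q) (h1 : q < 1) : conv (bil q) (bil q) = kapQ q := by
  funext t
  have hs := hasSum_bil_aux h0 h1 t.natAbs
  have key : HasSum (fun s : ℤ => bil q s * bil q (t - s)) (kapQ q t) := by
    rcases le_total 0 t with ht | ht
    · have e : ((t.natAbs : ℕ) : ℤ) = t := Int.natAbs_of_nonneg ht
      have := hs.mul_left (((1 - q) / (1 + q)) ^ 2)
      refine this.congr_fun ?_ |> id
      intro s
      unfold bil
      rw [e]
      ring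
    · have e : ((t.natAbs : ℕ) : ℤ) = -t := by omega
      have := ((Equiv.neg ℤ).hasSum_iff.2 hs).mul_left (((1 - q) / (1 + q)) ^ 2)
      refine this.congr_fun ?_ |> id
      intro s
      simp only [Function.comp, Equiv.neg_apply]
      unfold bil
      rw [e, show (-t - -s).natAbs = (t - s).natAbs by omega, Int.natAbs_neg]
      ring
  exact key.tsum_eq

theorem isLaw_bil {q : ℝ} (h0 : 0 ≤ q) (h1 : q < 1) : IsLaw (bil q) := by
  rw [← conv_gz_neg h0 h1]
  exact (isLaw_gz h0 h1).conv (isLaw_gz h0 h1).neg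

theorem isLaw_kapQ {q : ℝ} (h0 : 0 ≤ q) (h1 : q < 1) : IsLaw (kapQ q) := by
  rw [← conv_bil h0 h1]
  exact (isLaw_bil h0 h1).conv (isLaw_bil h0 h1)

/-! ### approximate laws of tape functions -/

/-- the law of `X` on `R` fresh bits is within `e` of `μ` (total variation) -/
def AL (R : ℕ) (X : List Bool → ℤ) (μ : ℤ → ℝ) (e : ℝ) : Prop :=
  ∀ φ : ℤ → ℝ, (∀ t, 0 ≤ φ t) → (∀ t, φ t ≤ 1) → |avg R (fun l => φ (X l)) - Ez μ φ| ≤ e

theorem AL.mono {R : ℕ} {X : List Bool → ℤ} {μ : ℤ → ℝ} {e e' : ℝ} (h : AL R X μ e)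
    (he : e ≤ e') : AL R X μ e' := fun φ h0 h1 => (h φ h0 h1).trans he

theorem AL.congr {R : ℕ} {X Y : List Bool → ℤ} {μ : ℤ → ℝ} {e : ℝ} (h : AL R X μ e)
    (hXY : ∀ l : List Bool, l.length = R → X l = Y l) : AL R Y μ e := fun φ h0 h1 => by
  rw [← avg_congr (g := fun l => φ (X l)) fun l hl => by rw [hXY l hl]]
  exact h φ h0 h1

/-- reading a prefix only -/
theorem AL.take {R S : ℕ} {X : List Bool → ℤ} {μ : ℤ → ℝ} {e : ℝ} (h : AL R X μ e)
    (hRS : R ≤ S) : AL S (fun l => X (l.take R)) μ e := fun φ h0 h1 => by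
  rw [avg_take hRS (fun l => φ (X l))]
  exact h φ h0 h1

theorem AL.neg {R : ℕ} {X : List Bool → ℤ} {μ : ℤ → ℝ} {e : ℝ} (h : AL R X μ e) :
    AL R (fun l => - X l) (fun t => μ (-t)) e := fun φ h0 h1 => by
  rw [Ez_neg]
  exact h (fun t => φ (-t)) (fun _ => h0 _) (fun _ => h1 _)

theorem AL.add {R S : ℕ} {X Y : List Bool → ℤ} {μ ν : ℤ → ℝ} {e e' : ℝ} (hX : AL R X μ e)
    (hY : AL S Y ν e') (hμ : IsLaw μ) (hν : IsLaw ν) :
    AL (R + S) (fun l => X (l.take R) + Y (l.drop R)) (conv μ ν) (e + e') := fun φ h0 h1 => by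
  rw [Ez_conv hμ hν h0 h1, avg_take_drop R S (fun l l' => φ (X l + Y l'))]
  have a1 : |avg R (fun l => avg S (fun l' => φ (X l + Y l')))
      - avg R (fun l => Ez ν (fun u => φ (X l + u)))| ≤ e' := by
    rw [← avg_sub]
    refine (abs_avg_le _ _).trans (avg_le_const fun l _ => ?_)
    exact hY (fun u => φ (X l + u)) (fun _ => h0 _) (fun _ => h1 _)
  have a2 := hX (fun s => Ez ν (fun u => φ (s + u))) (fun _ => hν.Ez_nonneg fun _ => h0 _)
    (fun _ => hν.Ez_le_one (fun _ => h0 _) (fun _ => h1 _))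
  calc |avg R (fun l => avg S (fun l' => φ (X l + Y l')))
        - Ez μ (fun s => Ez ν (fun u => φ (s + u)))|
      = |(avg R (fun l => avg S (fun l' => φ (X l + Y l')))
      - avg R (fun l => Ez ν (fun u => φ (X l + u)))) +
      (avg R (fun l => Ez ν (fun u => φ (X l + u)))
      - Ez μ (fun s => Ez ν (fun u => φ (s + u))))| := by ring_nf
    _ ≤ e' + e := (abs_add_le _ _).trans (add_le_add a1 a2)
    _ = e + e' := add_comm _ _


end Crest.Agent.R302.Slk
end

-- ▼ part R302/Slack166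

/-!
# R302, block O2 (helper166): exact-up-to-`2^-N` sampling of the fat slack law

* `geo M k D l` : a number below `2^D` whose law is geometric of ratio `q = 1 - 2^-k` up to
  rounding (the binary digits of a geometric variable are independent, digit `i` equals one with
  probability `q^(2^i) / (1 + q^(2^i))`; the powers are computed by fixed-point squaring);
* `slk k N l` : the fat slack, law `kapR k` up to `2^-N`;
* `slks` : vectors of independent slacks.
-/

set_option autoImplicit false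

namespace Crest.Agent.R302.Slk

open Finset
open Crest.Agent.R309.Tape Crest.Agent.R309.MC
open Crest.Agent.Lib.PT Crest.Agent.Lib.PT.Arith

/-! ### fixed-point powers -/

/-- `2^M q^(2^i)` rounded down -/
def cfix (M k : ℕ) : ℕ → ℕ
  | 0 => 2 ^ M - 2 ^ (M - k)
  | i + 1 => cfix M k i ^ 2 / 2 ^ M

/-- threshold of the `i`-th digit -/
def thr (M k i : ℕ) : ℕ := 2 ^ M * cfix M k i / (2 ^ M + cfix M k i)

/-- the ratio `1 - 2^-k` -/
noncomputable def qk (k : ℕ) : ℝ := 1 - 1 / 2 ^ k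

theorem qk_nonneg (k : ℕ) : 0 ≤ qk k := by
  unfold qk
  have : (1 : ℝ) / 2 ^ k ≤ 1 := by
    rw [div_le_one (by positivity)]
    exact one_le_pow₀ (by norm_num)
  linarith

theorem qk_lt_one (k : ℕ) : qk k < 1 := by
  unfold qk
  have : (0 : ℝ) < 1 / 2 ^ k := by positivity
  linarith

theorem qk_zero : qk 0 = 0 := by simp [qk]

theorem cfix_zero_cast {M k : ℕ} (h : k ≤ M) : ((cfix M k 0 : ℕ) : ℝ) = 2 ^ M * qk k := by
  have h1 : 2 ^ (M - k) ≤ 2 ^ M := Nat.pow_le_pow_right (by norm_num) (Nat.sub_le _ _)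
  unfold cfix qk
  rw [Nat.cast_sub h1]
  push_cast
  have : (2 : ℝ) ^ M = 2 ^ (M - k) * 2 ^ k := by rw [← pow_add, Nat.sub_add_cancel h]
  rw [this]
  field_simp

theorem cfix_bound {M k : ℕ} (h : k ≤ M) (i : ℕ) :
    (cfix M k i : ℝ) ≤ 2 ^ M * qk k ^ 2 ^ i ∧
      2 ^ M * qk k ^ 2 ^ i - cfix M k i ≤ 2 ^ i - 1 := by
  induction i with
  | zero =>
    rw [cfix_zero_cast h]
    constructor <;> simp
  | succ i ih =>
    obtain ⟨h1, h2⟩ := ih
    set c : ℝ := (cfix M k i : ℝ) with hc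
    set Q : ℝ := qk k ^ 2 ^ i with hQ
    have hQ0 : 0 ≤ Q := pow_nonneg (qk_nonneg k) _
    have hQ1 : Q ≤ 1 := pow_le_one₀ (qk_nonneg k) (qk_lt_one k).le
    have hc0 : 0 ≤ c := Nat.cast_nonneg _
    have hM : (0 : ℝ) < 2 ^ M := by positivity
    have hQ2 : qk k ^ 2 ^ (i + 1) = Q ^ 2 := by rw [hQ, ← pow_mul, pow_succ]
    have e : (cfix M k (i + 1) : ℕ) = cfix M k i ^ 2 / 2 ^ M := rfl
    have lo : ((cfix M k i ^ 2 / 2 ^ M : ℕ) : ℝ) ≤ c ^ 2 / 2 ^ M := by
      have := Nat.cast_div_le (α := ℝ) (m := cfix M k i ^ 2) (n := 2 ^ M)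
      push_cast at this
      exact this
    have hi : c ^ 2 / 2 ^ M < ((cfix M k i ^ 2 / 2 ^ M : ℕ) : ℝ) + 1 := by
      have := Nat.lt_div_mul_add (a := cfix M k i ^ 2) (b := 2 ^ M) (by positivity)
      have h3 : ((cfix M k i ^ 2 : ℕ) : ℝ) < ((cfix M k i ^ 2 / 2 ^ M * 2 ^ M + 2 ^ M : ℕ) : ℝ) := by
        exact_mod_cast this
      push_cast at h3
      rw [div_lt_iff₀ hM]
      linarith
    rw [e, hQ2]
    have hcQ : c ^ 2 ≤ (2 ^ M * Q) ^ 2 := by
      apply pow_le_pow_left₀ hc0 h1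
    constructor
    · refine lo.trans ?_
      rw [div_le_iff₀ hM]
      calc c ^ 2 ≤ (2 ^ M * Q) ^ 2 := hcQ
        _ = 2 ^ M * Q ^ 2 * 2 ^ M := by ring
    · have key : 2 ^ M * Q ^ 2 - c ^ 2 / 2 ^ M ≤ 2 * (2 ^ M * Q - c) := by
        have : 2 ^ M * Q ^ 2 - c ^ 2 / 2 ^ M = (2 ^ M * Q - c) * (2 ^ M * Q + c) / 2 ^ M := by
          field_simp
          ring
        rw [this, div_le_iff₀ hM]
        have h5 : 2 ^ M * Q + c ≤ 2 * 2 ^ M := by nlinarith
        have h6 : 0 ≤ 2 ^ M * Q - c := by linarith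
        nlinarith
      have h7 : (2 : ℝ) ^ (i + 1) = 2 * 2 ^ i := by ring
      rw [h7]
      linarith

theorem cfix_le (M k i : ℕ) : cfix M k i ≤ 2 ^ M := by
  induction i with
  | zero => exact Nat.sub_le _ _
  | succ i ih =>
    show cfix M k i ^ 2 / 2 ^ M ≤ 2 ^ M
    rw [Nat.div_le_iff_le_mul_add_pred (by positivity)]
    have : cfix M k i ^ 2 ≤ (2 ^ M) ^ 2 := Nat.pow_le_pow_left ih 2
    nlinarith [Nat.zero_le (2 ^ M - 1)]

theorem thr_le (M k i : ℕ) : thr M k i ≤ 2 ^ M := by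
  unfold thr
  have h0 : 0 < 2 ^ M + cfix M k i := by positivity
  rw [Nat.div_le_iff_le_mul_add_pred h0]
  nlinarith [Nat.zero_le (cfix M k i), Nat.zero_le (2 ^ M * 2 ^ M)]

/-- the digit probability -/
noncomputable def pdig (k i : ℕ) : ℝ := qk k ^ 2 ^ i / (1 + qk k ^ 2 ^ i)

theorem thr_bound {M k : ℕ} (h : k ≤ M) (i : ℕ) :
    |(thr M k i : ℝ) / 2 ^ M - pdig k i| ≤ 2 ^ i / 2 ^ M := by
  obtain ⟨h1, h2⟩ := cfix_bound h i
  unfold thr pdig
  set c : ℝ := (cfix M k i : ℝ) with hc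
  set Q : ℝ := qk k ^ 2 ^ i with hQ
  have hQ0 : 0 ≤ Q := pow_nonneg (qk_nonneg k) _
  have hc0 : 0 ≤ c := Nat.cast_nonneg _
  have hM : (0 : ℝ) < 2 ^ M := by positivity
  have h0 : 0 < 2 ^ M + cfix M k i := by positivity
  have lo : ((2 ^ M * cfix M k i / (2 ^ M + cfix M k i) : ℕ) : ℝ) ≤ 2 ^ M * c / (2 ^ M + c) := by
    have := Nat.cast_div_le (α := ℝ) (m := 2 ^ M * cfix M k i) (n := 2 ^ M + cfix M k i)
    push_cast at this
    exact this
  have hi : 2 ^ M * c / (2 ^ M + c) <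
      ((2 ^ M * cfix M k i / (2 ^ M + cfix M k i) : ℕ) : ℝ) + 1 := by
    have := Nat.lt_div_mul_add (a := 2 ^ M * cfix M k i) (b := 2 ^ M + cfix M k i) h0
    have h3 : ((2 ^ M * cfix M k i : ℕ) : ℝ) <
      ((2 ^ M * cfix M k i / (2 ^ M + cfix M k i) * (2 ^ M + cfix M k i)
        + (2 ^ M + cfix M k i) : ℕ) : ℝ) := by
      exact_mod_cast this
    have hp : (0 : ℝ) < 2 ^ M + c := by positivity
    rw [div_lt_iff₀ hp]
    have h4 : (((2 ^ M * cfix M k i / (2 ^ M + cfix M k i) * (2 ^ M + cfix M k i)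
        + (2 ^ M + cfix M k i) : ℕ) : ℝ)) =
        ((2 ^ M * cfix M k i / (2 ^ M + cfix M k i) : ℕ) : ℝ) * (2 ^ M + c) + (2 ^ M + c) := by
      rw [hc]
      push_cast
      ring
    rw [h4] at h3
    have h5 : ((2 ^ M * cfix M k i : ℕ) : ℝ) = 2 ^ M * c := by push_cast; rfl
    rw [h5] at h3
    linarith
  set a : ℝ := ((2 ^ M * cfix M k i / (2 ^ M + cfix M k i) : ℕ) : ℝ) with ha
  have d1 : Q / (1 + Q) - c / (2 ^ M + c) ≤ (2 ^ M * Q - c) / 2 ^ M := by
    rw [div_sub_div _ _ (by positivity) (by positivity), div_le_div_iff₀ (by positivity) hM]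
    have e1 : (Q * (2 ^ M + c) - (1 + Q) * c) = (2 ^ M * Q - c) := by ring
    rw [e1]
    have h6 : 0 ≤ 2 ^ M * Q - c := by linarith
    have h7 : (2 : ℝ) ^ M ≤ (1 + Q) * (2 ^ M + c) := by nlinarith [mul_nonneg hQ0 hM.le, mul_nonneg hQ0 hc0]
    exact mul_le_mul_of_nonneg_left h7 h6
  have d2 : 0 ≤ Q / (1 + Q) - c / (2 ^ M + c) := by
    rw [div_sub_div _ _ (by positivity) (by positivity)]
    apply div_nonneg _ (by positivity)
    nlinarith
  have e2 : 2 ^ M * c / (2 ^ M + c) = 2 ^ M * (c / (2 ^ M + c)) := by ring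
  rw [e2] at lo hi
  have lo' : a / 2 ^ M ≤ c / (2 ^ M + c) := by
    rw [div_le_iff₀ hM]
    linarith
  have hi' : c / (2 ^ M + c) ≤ a / 2 ^ M + 1 / 2 ^ M := by
    rw [← add_div, le_div_iff₀ hM]
    linarith
  have h8 : (2 ^ M * Q - c) / 2 ^ M ≤ (2 ^ i - 1) / 2 ^ M := by gcongr
  have h9 : ((2 : ℝ) ^ i - 1) / 2 ^ M = 2 ^ i / 2 ^ M - 1 / 2 ^ M := by ring
  have h10 : (0 : ℝ) ≤ 2 ^ i / 2 ^ M := by positivity
  rw [abs_le]
  constructor <;> linarith

/-! ### the geometric sampler -/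

/-- a geometric number, digit by digit (`D` digits, `M` bits for each) -/
def geo (M k D : ℕ) (l : List Bool) : ℕ :=
  ((List.range D).map fun i =>
    if msb ((l.drop (i * M)).take M) < thr M k i then 2 ^ i else 0).sum

theorem geo_zero (M k : ℕ) (l : List Bool) : geo M k 0 l = 0 := rfl

theorem geo_succ (M k D : ℕ) (l : List Bool) (hl : l.length = D * M + M) :
    geo M k (D + 1) l = geo M k D (l.take (D * M)) +
      if msb (l.drop (D * M)) < thr M k D then 2 ^ D else 0 := by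
  unfold geo
  rw [List.range_succ, List.map_append, List.sum_append]
  congr 1
  · congr 1
    refine List.map_congr_left fun i hi => ?_
    have hi' : i < D := List.mem_range.1 hi
    have : (l.drop (i * M)).take M = ((l.take (D * M)).drop (i * M)).take M := by
      rw [List.drop_take, List.take_take, min_eq_left]
      have : i * M + M ≤ D * M := by
        rw [← Nat.succ_mul]
        exact Nat.mul_le_mul_right _ hi'
      omega
    rw [this]
  · rw [List.map_singleton, List.sum_singleton, List.take_of_length_le]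
    rw [List.length_drop]
    omega


/-- expectation under the geometric law conditioned to be below `2^D` -/
noncomputable def EG (q : ℝ) (D : ℕ) (φ : ℕ → ℝ) : ℝ :=
  (∑ j ∈ range (2 ^ D), q ^ j * φ j) / ∑ j ∈ range (2 ^ D), q ^ j

theorem EG_sum_pos {q : ℝ} (h0 : 0 ≤ q) (D : ℕ) : 0 < ∑ j ∈ range (2 ^ D), q ^ j := by
  refine lt_of_lt_of_le zero_lt_one ?_
  have h : 0 ∈ range (2 ^ D) := mem_range.2 (by positivity)
  calc (1 : ℝ) = q ^ 0 := (pow_zero q).symm
    _ ≤ _ := Finset.single_le_sum (f := fun j => q ^ j) (fun j _ => pow_nonneg h0 j) h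

theorem EG_mem {q : ℝ} (h0 : 0 ≤ q) (D : ℕ) {φ : ℕ → ℝ} (f0 : ∀ j, 0 ≤ φ j)
    (f1 : ∀ j, φ j ≤ 1) : 0 ≤ EG q D φ ∧ EG q D φ ≤ 1 := by
  have hp := EG_sum_pos h0 D
  unfold EG
  constructor
  · exact div_nonneg (sum_nonneg fun j _ => mul_nonneg (pow_nonneg h0 j) (f0 j)) hp.le
  · rw [div_le_one hp]
    exact sum_le_sum fun j _ => mul_le_of_le_one_right (pow_nonneg h0 j) (f1 j)

theorem EG_succ {q : ℝ} (h0 : 0 ≤ q) (D : ℕ) (φ : ℕ → ℝ) :
    EG q (D + 1) φ = EG q D φ + q ^ 2 ^ D / (1 + q ^ 2 ^ D) *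
      (EG q D (fun j => φ (j + 2 ^ D)) - EG q D φ) := by
  have hp := EG_sum_pos h0 D
  have hq : 0 ≤ q ^ 2 ^ D := pow_nonneg h0 _
  unfold EG
  have e : 2 ^ (D + 1) = 2 ^ D + 2 ^ D := by rw [pow_succ]; ring
  rw [e, sum_range_add, sum_range_add]
  have e1 : ∑ x ∈ range (2 ^ D), q ^ (2 ^ D + x) * φ (2 ^ D + x) =
      q ^ 2 ^ D * ∑ x ∈ range (2 ^ D), q ^ x * φ (x + 2 ^ D) := by
    rw [mul_sum]
    refine sum_congr rfl fun x _ => ?_
    rw [pow_add, add_comm (2 ^ D) x]
    ring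
  have e2 : ∑ x ∈ range (2 ^ D), q ^ (2 ^ D + x) = q ^ 2 ^ D * ∑ x ∈ range (2 ^ D), q ^ x := by
    rw [mul_sum]
    exact sum_congr rfl fun x _ => pow_add _ _ _
  rw [e1, e2]
  set S := ∑ j ∈ range (2 ^ D), q ^ j
  have h1 : (1 + q ^ 2 ^ D) ≠ 0 := by positivity
  have h2 : S ≠ 0 := hp.ne'
  have h3 : S + q ^ 2 ^ D * S ≠ 0 := by
    have : S + q ^ 2 ^ D * S = S * (1 + q ^ 2 ^ D) := by ring
    rw [this]
    exact mul_ne_zero h2 h1
  field_simp
  ring

theorem geo_law {M k : ℕ} (h : k ≤ M) (D : ℕ) (φ : ℕ → ℝ) (f0 : ∀ j, 0 ≤ φ j)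
    (f1 : ∀ j, φ j ≤ 1) :
    |avg (D * M) (fun l => φ (geo M k D l)) - EG (qk k) D φ| ≤ (2 ^ D - 1) / 2 ^ M := by
  induction D generalizing φ with
  | zero =>
    simp [geo_zero, EG]
  | succ D ih =>
    have hM : (0 : ℝ) < 2 ^ M := by positivity
    have e1 : avg ((D + 1) * M) (fun l => φ (geo M k (D + 1) l)) =
        avg (D * M) (fun l => φ (geo M k D l)) + (thr M k D : ℝ) / 2 ^ M *
          (avg (D * M) (fun l => φ (geo M k D l + 2 ^ D))
            - avg (D * M) (fun l => φ (geo M k D l))) := by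
      rw [show (D + 1) * M = D * M + M by ring]
      rw [avg_congr (h := fun l => (fun l l' => φ (geo M k D l +
        if msb l' < thr M k D then 2 ^ D else 0)) (l.take (D * M)) (l.drop (D * M)))
        fun l hl => by rw [geo_succ M k D l hl]]
      rw [avg_take_drop (D * M) M (fun l l' => φ (geo M k D l +
        if msb l' < thr M k D then 2 ^ D else 0))]
      have : ∀ l : List Bool, avg M (fun l' => φ (geo M k D l +
          if msb l' < thr M k D then 2 ^ D else 0)) =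
          φ (geo M k D l) + (thr M k D : ℝ) / 2 ^ M *
            (φ (geo M k D l + 2 ^ D) - φ (geo M k D l)) := by
        intro l
        rw [← avg_ite_msb_lt M (thr M k D) (thr_le M k D)]
        refine avg_congr fun l' _ => ?_
        split_ifs <;> simp
      rw [avg_congr fun l _ => this l, avg_add, avg_mul_left, avg_sub]
    have i1 := ih φ f0 f1
    have i2 := ih (fun j => φ (j + 2 ^ D)) (fun _ => f0 _) (fun _ => f1 _)
    have i3 := thr_bound h D
    rw [e1, EG_succ (qk_nonneg k)]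
    set a := avg (D * M) (fun l => φ (geo M k D l))
    set a' := avg (D * M) (fun l => φ (geo M k D l + 2 ^ D))
    have hb := EG_mem (qk_nonneg k) D f0 f1
    have hb' := EG_mem (qk_nonneg k) D (φ := fun j => φ (j + 2 ^ D)) (fun _ => f0 _) (fun _ => f1 _)
    set b := EG (qk k) D φ
    set b' := EG (qk k) D (fun j => φ (j + 2 ^ D))
    set t : ℝ := (thr M k D : ℝ) / 2 ^ M
    have ht0 : 0 ≤ t := by positivity
    have ht1 : t ≤ 1 := by
      rw [div_le_one hM]
      exact_mod_cast thr_le M k D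
    have e2 : qk k ^ 2 ^ D / (1 + qk k ^ 2 ^ D) = pdig k D := rfl
    rw [e2]
    have e3 : a + t * (a' - a) - (b + pdig k D * (b' - b)) =
        (1 - t) * (a - b) + t * (a' - b') + (t - pdig k D) * (b' - b) := by ring
    rw [e3]
    have j1 : |(1 - t) * (a - b)| ≤ (1 - t) * ((2 ^ D - 1) / 2 ^ M) := by
      rw [abs_mul, abs_of_nonneg (by linarith : (0 : ℝ) ≤ 1 - t)]
      exact mul_le_mul_of_nonneg_left i1 (by linarith)
    have j2 : |t * (a' - b')| ≤ t * ((2 ^ D - 1) / 2 ^ M) := by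
      rw [abs_mul, abs_of_nonneg ht0]
      exact mul_le_mul_of_nonneg_left i2 ht0
    have j3 : |(t - pdig k D) * (b' - b)| ≤ 2 ^ D / 2 ^ M := by
      rw [abs_mul]
      have : |b' - b| ≤ 1 := by rw [abs_le]; constructor <;> linarith
      calc _ ≤ 2 ^ D / 2 ^ M * 1 := mul_le_mul i3 this (abs_nonneg _) (by positivity)
        _ = _ := mul_one _
    calc _ ≤ |(1 - t) * (a - b)| + |t * (a' - b')| + |(t - pdig k D) * (b' - b)| :=
          abs_add_three _ _ _
      _ ≤ (1 - t) * ((2 ^ D - 1) / 2 ^ M) + t * ((2 ^ D - 1) / 2 ^ M) + 2 ^ D / 2 ^ M := by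
          linarith
      _ = _ := by
          rw [pow_succ]
          ring

/-- truncation error of the geometric law -/
theorem EG_trunc {q : ℝ} (h0 : 0 ≤ q) (h1 : q < 1) (D : ℕ) {φ : ℤ → ℝ} (f0 : ∀ j, 0 ≤ φ j)
    (f1 : ∀ j, φ j ≤ 1) : |EG q D (fun j => φ j) - Ez (gz q) φ| ≤ q ^ 2 ^ D := by
  have hs : Summable fun j : ℕ => (1 - q) * q ^ j * φ j := by
    refine Summable.of_nonneg_of_le (fun j => ?_) (fun j => ?_)
      ((summable_geometric_of_lt_one h0 h1).mul_left (1 - q))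
    · exact mul_nonneg (mul_nonneg (by linarith) (pow_nonneg h0 j)) (f0 _)
    · exact mul_le_of_le_one_right (mul_nonneg (by linarith) (pow_nonneg h0 j)) (f1 _)
  have hq : 0 ≤ q ^ 2 ^ D := pow_nonneg h0 _
  have hqne : (1 - q) ≠ 0 := by linarith [sub_ne_zero.2 h1.ne']
  have hpos : 0 < 1 - q := by linarith
  rw [Ez_gz, ← hs.sum_add_tsum_nat_add (2 ^ D)]
  set A := ∑ i ∈ range (2 ^ D), (1 - q) * q ^ i * φ i with hA
  have hgeo : (1 - q) * ∑ j ∈ range (2 ^ D), q ^ j = 1 - q ^ 2 ^ D := by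
    have := geom_sum_mul_neg q (2 ^ D)
    linarith [mul_comm (∑ j ∈ range (2 ^ D), q ^ j) (1 - q)]
  have hEG := EG_mem h0 D (φ := fun j => φ j) (fun _ => f0 _) (fun _ => f1 _)
  have hsum := EG_sum_pos h0 D
  have e1 : A = EG q D (fun j => φ j) * (1 - q ^ 2 ^ D) := by
    rw [← hgeo, hA]
    unfold EG
    rw [div_mul_eq_mul_div, eq_div_iff hsum.ne']
    have : ∑ i ∈ range (2 ^ D), (1 - q) * q ^ i * φ i =
        (1 - q) * ∑ i ∈ range (2 ^ D), q ^ i * φ i := by
      rw [mul_sum]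
      exact sum_congr rfl fun i _ => by ring
    rw [this]
    ring
  have t0 : 0 ≤ ∑' i, (1 - q) * q ^ (i + 2 ^ D) * φ ((i + 2 ^ D : ℕ) : ℤ) :=
    tsum_nonneg fun i => mul_nonneg (mul_nonneg (by linarith) (pow_nonneg h0 _)) (f0 _)
  have t1 : ∑' i, (1 - q) * q ^ (i + 2 ^ D) * φ ((i + 2 ^ D : ℕ) : ℤ) ≤ q ^ 2 ^ D := by
    have hs2 : Summable fun i : ℕ => (1 - q) * q ^ 2 ^ D * q ^ i :=
      (summable_geometric_of_lt_one h0 h1).mul_left _
    calc _ ≤ ∑' i : ℕ, (1 - q) * q ^ 2 ^ D * q ^ i := by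
          refine Summable.tsum_le_tsum (fun i => ?_)
            ((summable_nat_add_iff (f := fun j : ℕ => (1 - q) * q ^ j * φ j) (2 ^ D)).2 hs) hs2
          calc (1 - q) * q ^ (i + 2 ^ D) * φ ((i + 2 ^ D : ℕ) : ℤ)
              ≤ (1 - q) * q ^ (i + 2 ^ D) :=
                mul_le_of_le_one_right (mul_nonneg (by linarith) (pow_nonneg h0 _)) (f1 _)
            _ = (1 - q) * q ^ 2 ^ D * q ^ i := by rw [pow_add]; ring
      _ = (1 - q) * q ^ 2 ^ D * (1 - q)⁻¹ := by rw [tsum_mul_left, tsum_geometric_of_lt_one h0 h1]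
      _ = q ^ 2 ^ D := by field_simp
  set B := ∑' i, (1 - q) * q ^ (i + 2 ^ D) * φ ((i + 2 ^ D : ℕ) : ℤ)
  rw [e1]
  have e2 : EG q D (fun j => φ j) - (EG q D (fun j => φ j) * (1 - q ^ 2 ^ D) + B) =
      EG q D (fun j => φ j) * q ^ 2 ^ D - B := by ring
  rw [e2, abs_le]
  constructor
  · have := mul_nonneg hEG.1 hq
    linarith
  · have := mul_le_of_le_one_left hq hEG.2
    linarith

theorem qk_pow_le (k N : ℕ) : qk k ^ 2 ^ (k + N) ≤ 1 / 2 ^ (N + 1) := by
  have h1 : qk k ≤ Real.exp (-(1 / 2 ^ k)) := by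
    have := Real.add_one_le_exp (-(1 / 2 ^ k : ℝ))
    unfold qk
    linarith
  have h2 : qk k ^ 2 ^ (k + N) ≤ Real.exp (-(2 ^ N)) := by
    calc qk k ^ 2 ^ (k + N) ≤ Real.exp (-(1 / 2 ^ k)) ^ 2 ^ (k + N) :=
          pow_le_pow_left₀ (qk_nonneg k) h1 _
      _ = Real.exp (-(2 ^ N)) := by
          rw [← Real.exp_nat_mul]
          congr 1
          push_cast
          rw [pow_add]
          field_simp
  refine h2.trans ?_
  have h3 : (2 : ℝ) ^ (N + 1) ≤ Real.exp (2 ^ N) := by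
    have h4 : ((N + 1 : ℕ) : ℝ) ≤ 2 ^ N := by
      exact_mod_cast Nat.lt_two_pow_self
    calc (2 : ℝ) ^ (N + 1) ≤ Real.exp 1 ^ (N + 1) := by
          have : (2 : ℝ) ≤ Real.exp 1 := by
            have := Real.add_one_le_exp (1 : ℝ)
            linarith
          exact pow_le_pow_left₀ (by norm_num) this _
      _ = Real.exp ((N + 1 : ℕ) : ℝ) := by rw [← Real.exp_nat_mul, mul_one]
      _ ≤ _ := Real.exp_le_exp.2 h4
  rw [Real.exp_neg, ← one_div]
  exact one_div_le_one_div_of_le (by positivity) h3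

/-- number of digits -/
def dgt (k N : ℕ) : ℕ := k + (N + 2)

/-- precision of a digit -/
def prc (k N : ℕ) : ℕ := k + (N + 2) + (N + 3)

/-- bits used by one geometric number -/
def geoLen (k N : ℕ) : ℕ := dgt k N * prc k N

theorem AL_geo (k N : ℕ) :
    AL (geoLen k N) (fun l => (geo (prc k N) k (dgt k N) l : ℤ)) (gz (qk k)) (1 / 2 ^ (N + 2)) := by
  intro φ f0 f1
  have hk : k ≤ prc k N := by unfold prc; omega
  have h1 := geo_law hk (dgt k N) (fun j => φ j) (fun _ => f0 _) (fun _ => f1 _)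
  have h2 := EG_trunc (qk_nonneg k) (qk_lt_one k) (dgt k N) f0 f1
  have h3 : qk k ^ 2 ^ dgt k N ≤ 1 / 2 ^ (N + 2 + 1) := qk_pow_le k (N + 2)
  have h4 : ((2 : ℝ) ^ dgt k N - 1) / 2 ^ prc k N ≤ 1 / 2 ^ (N + 3) := by
    have : (2 : ℝ) ^ prc k N = 2 ^ dgt k N * 2 ^ (N + 3) := by
      rw [← pow_add]; rfl
    rw [this, div_le_div_iff₀ (by positivity) (by positivity)]
    have : (0 : ℝ) < 2 ^ (N + 3) := by positivity
    nlinarith
  calc |avg (geoLen k N) (fun l => φ (geo (prc k N) k (dgt k N) l : ℤ)) - Ez (gz (qk k)) φ|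
      = |(avg (dgt k N * prc k N) (fun l => φ (geo (prc k N) k (dgt k N) l : ℤ))
          - EG (qk k) (dgt k N) (fun j => φ j)) +
        (EG (qk k) (dgt k N) (fun j => φ j) - Ez (gz (qk k)) φ)| := by
          rw [geoLen]; ring_nf
    _ ≤ 1 / 2 ^ (N + 3) + 1 / 2 ^ (N + 2 + 1) :=
        (abs_add_le _ _).trans (add_le_add (h1.trans h4) (h2.trans h3))
    _ = 1 / 2 ^ (N + 2) := by
        rw [show N + 2 + 1 = N + 3 by ring, show (2 : ℝ) ^ (N + 3) = 2 ^ (N + 2) * 2 by ring]
        field_simp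
        norm_num

/-! ### the slack -/

/-- the fat slack law of exponent `k` (ratio `q = 1 - 2^-k`) -/
noncomputable def kapR (k : ℕ) (t : ℤ) : ℝ := kapQ (qk k) t

theorem kapR_eq (k : ℕ) (t : ℤ) : kapR k t =
    ((1 - qk k) / (1 + qk k)) ^ 2 *
      (qk k ^ t.natAbs * (t.natAbs + (1 + qk k ^ 2) / (1 - qk k ^ 2))) := rfl

theorem isLaw_kapR (k : ℕ) : IsLaw (kapR k) := isLaw_kapQ (qk_nonneg k) (qk_lt_one k)

theorem kapR_zero (t : ℤ) : kapR 0 t = if t = 0 then 1 else 0 := by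
  rw [kapR_eq, qk_zero]
  split_ifs with h
  · subst h; simp
  · have : t.natAbs ≠ 0 := by simpa using h
    simp [zero_pow this]

/-- one two-sided geometric number -/
def bilD (k N : ℕ) (l : List Bool) : ℤ :=
  (geo (prc k N) k (dgt k N) (l.take (geoLen k N)) : ℤ) +
    (-(geo (prc k N) k (dgt k N) (l.drop (geoLen k N)) : ℤ))

/-- bits used by one slack -/
def slkLen (k N : ℕ) : ℕ :=
  (geoLen k (N + 1) + geoLen k (N + 1)) + (geoLen k (N + 1) + geoLen k (N + 1))

/-- **the fat slack** -/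
def slk (k N : ℕ) (l : List Bool) : ℤ :=
  bilD k (N + 1) ((l.take (slkLen k N)).take (geoLen k (N + 1) + geoLen k (N + 1))) +
    bilD k (N + 1) ((l.take (slkLen k N)).drop (geoLen k (N + 1) + geoLen k (N + 1)))

theorem AL_bilD (k N : ℕ) :
    AL (geoLen k N + geoLen k N) (bilD k N) (bil (qk k)) (1 / 2 ^ (N + 1)) := by
  have hg := isLaw_gz (qk_nonneg k) (qk_lt_one k)
  have := (AL_geo k N).add (AL_geo k N).neg hg hg.neg
  rw [conv_gz_neg (qk_nonneg k) (qk_lt_one k)] at this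
  refine this.mono (le_of_eq ?_)
  rw [show (2 : ℝ) ^ (N + 2) = 2 ^ (N + 1) * 2 by ring]
  field_simp
  norm_num

theorem AL_slk {k N B : ℕ} (hB : slkLen k N ≤ B) : AL B (slk k N) (kapR k) (1 / 2 ^ (N + 1)) := by
  have hb := isLaw_bil (qk_nonneg k) (qk_lt_one k)
  have := (AL_bilD k (N + 1)).add (AL_bilD k (N + 1)) hb hb
  rw [conv_bil (qk_nonneg k) (qk_lt_one k)] at this
  refine (AL.take (this.mono (le_of_eq ?_)) hB).congr fun l _ => rfl
  rw [show (2 : ℝ) ^ (N + 1 + 1) = 2 ^ (N + 1) * 2 by ring]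
  field_simp
  norm_num



theorem cfix_zero' (M i : ℕ) : cfix M 0 i = 0 := by
  induction i with
  | zero => simp [cfix]
  | succ i ih => simp [cfix, ih]

theorem geo_zero_exp (M D : ℕ) (l : List Bool) : geo M 0 D l = 0 := by
  unfold geo thr
  simp [cfix_zero']

/-- exponent zero: no slack -/
theorem slk_zero (N : ℕ) (l : List Bool) : slk 0 N l = 0 := by
  simp [slk, bilD, geo_zero_exp]

/-! ### vectors of slacks -/

/-- independent slacks of exponents `ks`, `B` bits for each -/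
def slks (N B : ℕ) (ks : List ℕ) (l : List Bool) : List ℤ :=
  (List.range ks.length).map fun i =>
    slk (min (ks.getD i 0) B) N ((l.drop (i * B)).take B)

@[simp] theorem length_slks (N B : ℕ) (ks : List ℕ) (l : List Bool) :
    (slks N B ks l).length = ks.length := by simp [slks]

theorem slks_nil (N B : ℕ) (l : List Bool) : slks N B [] l = [] := rfl

theorem slks_cons (N B k : ℕ) (ks : List ℕ) (l : List Bool) :
    slks N B (k :: ks) l = slk (min k B) N (l.take B) :: slks N B ks (l.drop B) := by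
  unfold slks
  rw [List.length_cons, List.range_succ_eq_map, List.map_cons, List.map_map]
  congr 1
  · simp
  · refine List.map_congr_left fun i _ => ?_
    simp only [Function.comp, List.getD_cons_succ, List.drop_drop]
    rw [show B + i * B = (i + 1) * B by ring]

theorem getD_slks (N B : ℕ) (ks : List ℕ) (l : List Bool) {i : ℕ} (hi : i < ks.length) :
    (slks N B ks l).getD i 0 = slk (min (ks.getD i 0) B) N ((l.drop (i * B)).take B) := by
  unfold slks
  rw [List.getD_eq_getElem _ _ (by simpa using hi)]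
  simp


/-- iterated expectation -/
noncomputable def EL : List ℕ → (List ℤ → ℝ) → ℝ
  | [], g => g []
  | k :: ks, g => Ez (kapR k) (fun t => EL ks (fun v => g (t :: v)))

theorem EL_mem (ks : List ℕ) {g : List ℤ → ℝ} (h0 : ∀ v, 0 ≤ g v) (h1 : ∀ v, g v ≤ 1) :
    0 ≤ EL ks g ∧ EL ks g ≤ 1 := by
  induction ks generalizing g with
  | nil => exact ⟨h0 _, h1 _⟩
  | cons k ks ih =>
    exact ⟨(isLaw_kapR k).Ez_nonneg fun t => (ih (fun _ => h0 _) (fun _ => h1 _)).1,
      (isLaw_kapR k).Ez_le_one (fun t => (ih (fun _ => h0 _) (fun _ => h1 _)).1)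
        (fun t => (ih (fun _ => h0 _) (fun _ => h1 _)).2)⟩

theorem slks_law_EL (N B : ℕ) (ks : List ℕ) (hB : ∀ k ∈ ks, slkLen k N ≤ B) {g : List ℤ → ℝ}
    (h0 : ∀ v, 0 ≤ g v) (h1 : ∀ v, g v ≤ 1) :
    |avg (ks.length * B) (fun l => g (slks N B ks l)) - EL ks g| ≤
      ks.length * (1 / 2 ^ (N + 1)) := by
  induction ks generalizing g with
  | nil => simp [EL, slks_nil]
  | cons k ks ih =>
    have hk : slkLen k N ≤ B := hB k List.mem_cons_self
    have hkB : min k B = k := by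
      refine min_eq_left (le_trans ?_ hk)
      unfold slkLen geoLen dgt prc
      nlinarith [Nat.zero_le k, Nat.zero_le N]
    have e1 : avg ((k :: ks).length * B) (fun l => g (slks N B (k :: ks) l)) =
        avg B (fun l => avg (ks.length * B) (fun l' => g (slk k N l :: slks N B ks l'))) := by
      rw [List.length_cons, show (ks.length + 1) * B = B + ks.length * B by ring,
        ← avg_take_drop B (ks.length * B) (fun l l' => g (slk k N l :: slks N B ks l'))]
      refine avg_congr fun l _ => ?_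
      rw [slks_cons, hkB]
    rw [e1]
    have a1 : |avg B (fun l => avg (ks.length * B) (fun l' => g (slk k N l :: slks N B ks l')))
        - avg B (fun l => EL ks (fun v => g (slk k N l :: v)))| ≤
        ks.length * (1 / 2 ^ (N + 1)) := by
      rw [← avg_sub]
      refine (abs_avg_le _ _).trans (avg_le_const fun l _ => ?_)
      exact ih (fun k hk => hB k (List.mem_cons_of_mem _ hk)) (g := fun v => g (slk k N l :: v))
        (fun _ => h0 _) (fun _ => h1 _)
    have a2 := AL_slk hk (fun t => EL ks (fun v => g (t :: v)))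
      (fun t => (EL_mem ks (fun _ => h0 _) (fun _ => h1 _)).1)
      (fun t => (EL_mem ks (fun _ => h0 _) (fun _ => h1 _)).2)
    have e2 : EL (k :: ks) g = Ez (kapR k) (fun t => EL ks (fun v => g (t :: v))) := rfl
    rw [e2]
    calc _ = |(avg B (fun l => avg (ks.length * B) (fun l' => g (slk k N l :: slks N B ks l')))
        - avg B (fun l => EL ks (fun v => g (slk k N l :: v)))) +
        (avg B (fun l => EL ks (fun v => g (slk k N l :: v)))
          - Ez (kapR k) (fun t => EL ks (fun v => g (t :: v))))| := by ring_nf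
      _ ≤ ks.length * (1 / 2 ^ (N + 1)) + 1 / 2 ^ (N + 1) :=
        (abs_add_le _ _).trans (add_le_add a1 a2)
      _ = _ := by rw [List.length_cons]; push_cast; ring

theorem EL_zero (ks : List ℕ) : EL ks (fun _ => 0) = 0 := by
  induction ks with
  | nil => rfl
  | cons k ks ih => simp [EL, ih, Ez]

theorem EL_congr (ks : List ℕ) {g h : List ℤ → ℝ} (H : ∀ v : List ℤ, v.length = ks.length → g v = h v) :
    EL ks g = EL ks h := by
  induction ks generalizing g h with
  | nil => exact H [] rfl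
  | cons k ks ih =>
    unfold EL
    congr 1
    funext t
    exact ih fun v hv => H (t :: v) (by simp [hv])

theorem EL_sum {ι : Type*} (ks : List ℕ) (S : Finset ι) (c : ι → ℝ) {f : ι → List ℤ → ℝ}
    (h0 : ∀ s v, 0 ≤ f s v) (h1 : ∀ s v, f s v ≤ 1) :
    EL ks (fun v => ∑ s ∈ S, c s * f s v) = ∑ s ∈ S, c s * EL ks (f s) := by
  induction ks generalizing f with
  | nil => rfl
  | cons k ks ih =>
    have e : EL (k :: ks) (fun v => ∑ s ∈ S, c s * f s v) =
        Ez (kapR k) (fun t => ∑ s ∈ S, c s * EL ks (fun v => f s (t :: v))) := by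
      show Ez (kapR k) (fun t => EL ks (fun v => ∑ s ∈ S, c s * f s (t :: v))) = _
      congr 1
      funext t
      exact ih (fun _ _ => h0 _ _) (fun _ _ => h1 _ _)
    rw [e]
    unfold Ez
    have hsum : ∀ s ∈ S, Summable fun t => kapR k t * (c s * EL ks (fun v => f s (t :: v))) := by
      intro s _
      refine (isLaw_kapR k).summable_mul (|c s|) fun t => ?_
      have := EL_mem ks (g := fun v => f s (t :: v)) (fun _ => h0 _ _) (fun _ => h1 _ _)
      rw [abs_mul, abs_of_nonneg this.1]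
      exact mul_le_of_le_one_right (abs_nonneg _) this.2
    simp only [mul_sum]
    rw [Summable.tsum_finsetSum hsum]
    refine sum_congr rfl fun s _ => ?_
    show ∑' t, kapR k t * (c s * EL ks (fun v => f s (t :: v))) =
      c s * ∑' t, kapR k t * EL ks (fun v => f s (t :: v))
    rw [← tsum_mul_left]
    exact tsum_congr fun t => by ring

theorem EL_single (ks : List ℕ) (w : List ℤ) (hw : w.length = ks.length) :
    EL ks (fun v => if v = w then 1 else 0) = (List.zipWith kapR ks w).prod := by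
  induction ks generalizing w with
  | nil =>
    have : w = [] := List.length_eq_zero_iff.1 hw
    subst this
    simp [EL]
  | cons k ks ih =>
    obtain ⟨t, w', rfl⟩ : ∃ t w', w = t :: w' := by
      cases w with
      | nil => simp at hw
      | cons t w' => exact ⟨t, w', rfl⟩
    have hw' : w'.length = ks.length := by simpa using hw
    show Ez (kapR k) (fun s => EL ks (fun v => if s :: v = t :: w' then 1 else 0)) = _
    unfold Ez
    rw [tsum_eq_single t]
    · have : (fun v : List ℤ => if t :: v = t :: w' then (1 : ℝ) else 0) =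
          fun v => if v = w' then 1 else 0 := by
        funext v
        simp
      show kapR k t * EL ks (fun v : List ℤ => if t :: v = t :: w' then (1 : ℝ) else 0) = _
      rw [this, ih w' hw', List.zipWith_cons_cons, List.prod_cons]
    · intro s hs
      have : (fun v : List ℤ => if s :: v = t :: w' then (1 : ℝ) else 0) = fun _ => 0 := by
        funext v
        rw [if_neg]
        simp [hs]
      show kapR k s * EL ks (fun v : List ℤ => if s :: v = t :: w' then (1 : ℝ) else 0) = _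
      rw [this, EL_zero, mul_zero]

theorem prod_zipWith_ofFn {n : ℕ} (ks : Fin n → ℕ) (w : Fin n → ℤ) :
    (List.zipWith kapR (List.ofFn ks) (List.ofFn w)).prod = ∏ a, kapR (ks a) (w a) := by
  induction n with
  | zero => simp
  | succ n ih =>
    rw [List.ofFn_succ, List.ofFn_succ, List.zipWith_cons_cons, List.prod_cons,
      Fin.prod_univ_succ, ih]

theorem EL_ofFn {n : ℕ} (ks : Fin n → ℕ) (S : Finset (Fin n → ℤ)) {g : List ℤ → ℝ}
    (hS : ∀ v : Fin n → ℤ, v ∉ S → g (List.ofFn v) = 0) :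
    EL (List.ofFn ks) g = ∑ v ∈ S, (∏ a, kapR (ks a) (v a)) * g (List.ofFn v) := by
  classical
  have e1 : EL (List.ofFn ks) g = EL (List.ofFn ks) (fun v =>
      ∑ s ∈ S, g (List.ofFn s) * if v = List.ofFn s then 1 else 0) := by
    refine EL_congr _ fun v hv => ?_
    rw [List.length_ofFn] at hv
    obtain ⟨u, rfl⟩ : ∃ u : Fin n → ℤ, v = List.ofFn u :=
      ⟨fun i => v[(i : ℕ)]'(by rw [hv]; exact i.2), by
        apply List.ext_getElem
        · simp [hv]
        · intro i h1 h2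
          simp⟩
    by_cases hu : u ∈ S
    · rw [sum_eq_single_of_mem u hu]
      · simp
      · intro s _ hs
        rw [if_neg, mul_zero]
        intro h
        exact hs (List.ofFn_injective h).symm
    · rw [hS u hu, sum_eq_zero]
      intro s hs
      rw [if_neg, mul_zero]
      intro h
      exact hu (List.ofFn_injective h ▸ hs)
  rw [e1, EL_sum (f := fun (s : Fin n → ℤ) v => if v = List.ofFn s then 1 else 0) _ S
    (fun s => g (List.ofFn s)) (fun _ _ => by positivity)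
    (fun _ _ => by split_ifs <;> norm_num)]
  refine sum_congr rfl fun s _ => ?_
  rw [EL_single _ _ (by simp), prod_zipWith_ofFn, mul_comm]

/-- **value law of a vector of slacks** -/
theorem slks_law {n N B : ℕ} (ks : Fin n → ℕ) (hB : ∀ a, slkLen (ks a) N ≤ B)
    (S : Finset (Fin n → ℤ)) {g : List ℤ → ℝ} (h0 : ∀ v, 0 ≤ g v) (h1 : ∀ v, g v ≤ 1)
    (hS : ∀ v : Fin n → ℤ, v ∉ S → g (List.ofFn v) = 0) :
    |avg (n * B) (fun l => g (slks N B (List.ofFn ks) l)) -
      ∑ v ∈ S, (∏ a, kapR (ks a) (v a)) * g (List.ofFn v)| ≤ n * (1 / 2 ^ (N + 1)) := by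
  have := slks_law_EL N B (List.ofFn ks) (fun k hk => by
    obtain ⟨a, rfl⟩ := (List.mem_ofFn' _ _).1 hk
    exact hB a) h0 h1
  rw [EL_ofFn ks S hS, List.length_ofFn] at this
  exact this

/-- the value law for functions with values in `[-1, 1]` -/
theorem slks_law_abs {n N B : ℕ} (ks : Fin n → ℕ) (hB : ∀ a, slkLen (ks a) N ≤ B)
    (S : Finset (Fin n → ℤ)) {g : List ℤ → ℝ} (h1 : ∀ v, |g v| ≤ 1)
    (hS : ∀ v : Fin n → ℤ, v ∉ S → g (List.ofFn v) = 0) :
    |avg (n * B) (fun l => g (slks N B (List.ofFn ks) l)) -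
      ∑ v ∈ S, (∏ a, kapR (ks a) (v a)) * g (List.ofFn v)| ≤ n * (1 / 2 ^ N) := by
  have hp := slks_law ks hB S (g := fun v => max (g v) 0) (fun v => le_max_right _ _)
    (fun v => max_le ((le_abs_self _).trans (h1 v)) zero_le_one)
    (fun v hv => by simp [hS v hv])
  have hn := slks_law ks hB S (g := fun v => max (-g v) 0) (fun v => le_max_right _ _)
    (fun v => max_le ((neg_le_abs _).trans (h1 v)) zero_le_one)
    (fun v hv => by simp [hS v hv])
  have e : ∀ x : ℝ, x = max x 0 - max (-x) 0 := by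
    intro x
    rcases le_total 0 x with h | h
    · rw [max_eq_left h, max_eq_right (by linarith)]; ring
    · rw [max_eq_right h, max_eq_left (by linarith)]; ring
  have e1 : avg (n * B) (fun l => g (slks N B (List.ofFn ks) l)) =
      avg (n * B) (fun l => max (g (slks N B (List.ofFn ks) l)) 0) -
      avg (n * B) (fun l => max (-g (slks N B (List.ofFn ks) l)) 0) := by
    rw [← avg_sub]
    exact avg_congr fun l _ => e _
  have e2 : ∑ v ∈ S, (∏ a, kapR (ks a) (v a)) * g (List.ofFn v) =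
      ∑ v ∈ S, (∏ a, kapR (ks a) (v a)) * max (g (List.ofFn v)) 0 -
      ∑ v ∈ S, (∏ a, kapR (ks a) (v a)) * max (-g (List.ofFn v)) 0 := by
    rw [← sum_sub_distrib]
    refine sum_congr rfl fun v _ => ?_
    rw [← mul_sub, ← e]
  rw [e1, e2]
  have e3 : ∀ a b c d : ℝ, a - b - (c - d) = (a - c) - (b - d) := fun a b c d => by ring
  rw [e3]
  refine (abs_sub _ _).trans ((add_le_add hp hn).trans (le_of_eq ?_))
  rw [show (2 : ℝ) ^ (N + 1) = 2 ^ N * 2 by ring]
  field_simp
  ring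

/-- the ℓ¹ form for vectors -/
theorem slks_law_l1 {n N B : ℕ} (ks : Fin n → ℕ) (hB : ∀ a, slkLen (ks a) N ≤ B)
    (S : Finset (Fin n → ℤ)) :
    ∑ v ∈ S, |pr (n * B) (fun l => slks N B (List.ofFn ks) l = List.ofFn v) -
      ∏ a, kapR (ks a) (v a)| ≤ n * (1 / 2 ^ N) := by
  classical
  set d : (Fin n → ℤ) → ℝ := fun v => pr (n * B) (fun l => slks N B (List.ofFn ks) l = List.ofFn v) -
      ∏ a, kapR (ks a) (v a) with hd
  set σ : (Fin n → ℤ) → ℝ := fun v => if 0 ≤ d v then 1 else -1 with hσ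
  have hσd : ∀ v, |d v| = σ v * d v := by
    intro v
    simp only [hσ]
    split_ifs with h
    · rw [abs_of_nonneg h, one_mul]
    · rw [abs_of_neg (not_le.1 h)]; ring
  have hσ1 : ∀ v, |σ v| = 1 := by
    intro v
    simp only [hσ]
    split_ifs <;> simp
  set g : List ℤ → ℝ := fun w => ∑ v ∈ S, if w = List.ofFn v then σ v else 0 with hg
  have hgv : ∀ v, g (List.ofFn v) = if v ∈ S then σ v else 0 := by
    intro v
    simp only [hg]
    split_ifs with hv
    · rw [sum_eq_single_of_mem v hv]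
      · simp
      · intro s _ hs
        rw [if_neg]
        exact fun h => hs (List.ofFn_injective h).symm
    · refine sum_eq_zero fun s hs => ?_
      rw [if_neg]
      exact fun h => hv (List.ofFn_injective h ▸ hs)
  have hg1 : ∀ w, |g w| ≤ 1 := by
    intro w
    by_cases hw : ∃ v : Fin n → ℤ, w = List.ofFn v
    · obtain ⟨v, rfl⟩ := hw
      rw [hgv]
      split_ifs
      · exact (hσ1 v).le
      · simp
    · have : g w = 0 := sum_eq_zero fun s _ => if_neg fun h => hw ⟨s, h⟩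
      rw [this]; simp
  have key := slks_law_abs ks hB S hg1 (fun v hv => by rw [hgv, if_neg hv])
  have e1 : avg (n * B) (fun l => g (slks N B (List.ofFn ks) l)) =
      ∑ v ∈ S, σ v * pr (n * B) (fun l => slks N B (List.ofFn ks) l = List.ofFn v) := by
    unfold pr
    simp only [hg]
    rw [avg_sum]
    refine sum_congr rfl fun v _ => ?_
    rw [← avg_mul_left]
    refine avg_congr fun l _ => ?_
    by_cases h : slks N B (List.ofFn ks) l = List.ofFn v
    · rw [if_pos h, ind_of h, mul_one]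
    · rw [if_neg h, ind_of_not h, mul_zero]
  have e2 : ∑ v ∈ S, (∏ a, kapR (ks a) (v a)) * g (List.ofFn v) =
      ∑ v ∈ S, σ v * ∏ a, kapR (ks a) (v a) :=
    sum_congr rfl fun v hv => by rw [hgv, if_pos hv, mul_comm]
  rw [e1, e2, ← sum_sub_distrib] at key
  have e3 : ∑ v ∈ S, |d v| = ∑ v ∈ S,
      (σ v * pr (n * B) (fun l => slks N B (List.ofFn ks) l = List.ofFn v) -
        σ v * ∏ a, kapR (ks a) (v a)) :=
    sum_congr rfl fun v _ => by rw [hσd, hd, mul_sub]
  rw [e3]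
  exact (le_abs_self _).trans key

end Crest.Agent.R302.Slk
private theorem rz_f4d7fc1a17 : type_of% @_root_.Crest.Agent.R302.Slk.EL.eq_def := @_root_.Crest.Agent.R302.Slk.EL.eq_def -- L576
private theorem rz_1c9e4dda9a : type_of% @_root_.Crest.Agent.R302.Slk.EL.eq_1 := @_root_.Crest.Agent.R302.Slk.EL.eq_1 -- L576
private theorem rz_8e7c321464 : type_of% @_root_.Crest.Agent.R302.Slk.cfix.eq_def := @_root_.Crest.Agent.R302.Slk.cfix.eq_def -- L27
private theorem rz_d0e7f81b8d : type_of% @_root_.Crest.Agent.R302.Slk.cfix.eq_1 := @_root_.Crest.Agent.R302.Slk.cfix.eq_1 -- L27
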