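import Mathlib

-- ▼ part R302/Sfm646A
section

/-! Cutting simplices (pure linear algebra): a simplex with integer vertices `V i / s`, cut through
its centroid by an integer functional; exact integer update with a common scale. -/

set_option autoImplicit false

namespace Crest.Agent.R302.Sfm646

open Finset

variable {n : ℕ}

/-- `p` lies in the simplex with vertices `V i / s`. -/
def InSimplex (s : ℝ) (V : Fin (n+1) → Fin n → ℝ) (p : Fin n → ℝ) : Prop :=
  ∃ t : Fin (n+1) → ℝ, (∀ i, 0 ≤ t i) ∧ ∑ i, t i = 1 ∧ ∀ j, s * p j = ∑ i, t i * V i j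

/-- homogeneous coordinates -/
def hmat (s : ℝ) (V : Fin (n+1) → Fin n → ℝ) : Matrix (Fin (n+1)) (Fin (n+1)) ℝ :=
  Matrix.of fun i => (Fin.cons s (V i) : Fin (n+1) → ℝ)

/-- a row-substochastic nonnegative matrix has `|det| ≤ 1` -/
theorem abs_det_le_one {ι : Type*} [Fintype ι] [DecidableEq ι] (T : Matrix ι ι ℝ)
    (h0 : ∀ i j, 0 ≤ T i j) (h1 : ∀ i, ∑ j, T i j = 1) : |T.det| ≤ 1 := by
  rw [← Matrix.det_transpose, Matrix.det_apply]
  calc |∑ σ : Equiv.Perm ι, Equiv.Perm.sign σ • ∏ i, T.transpose (σ i) i|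
      ≤ ∑ σ : Equiv.Perm ι, |Equiv.Perm.sign σ • ∏ i, T.transpose (σ i) i| :=
        Finset.abs_sum_le_sum_abs _ _
    _ = ∑ σ : Equiv.Perm ι, ∏ i, T i (σ i) := by
        refine Finset.sum_congr rfl fun σ _ => ?_
        have hp : 0 ≤ ∏ i, T i (σ i) := Finset.prod_nonneg fun i _ => h0 _ _
        rcases Int.units_eq_one_or (Equiv.Perm.sign σ) with h | h
        · simp [h, Matrix.transpose_apply, abs_of_nonneg hp]
        · simp [h, Matrix.transpose_apply, abs_of_nonneg hp]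
    _ ≤ ∑ g : ι → ι, ∏ i, T i (g i) := by
        have hinj : Function.Injective (fun σ : Equiv.Perm ι => (σ : ι → ι)) :=
          fun a b h => Equiv.coe_fn_injective h
        rw [← Finset.sum_image (f := fun g : ι → ι => ∏ i, T i (g i))
          (s := (Finset.univ : Finset (Equiv.Perm ι))) (g := fun σ => (σ : ι → ι))
          (fun a _ b _ h => hinj h)]
        exact Finset.sum_le_sum_of_subset_of_nonneg (Finset.subset_univ _)
          fun g _ _ => Finset.prod_nonneg fun i _ => h0 _ _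
    _ = ∏ i, ∑ j, T i j := by
        have := Finset.prod_univ_sum (fun _ : ι => (univ : Finset ι)) (fun i j => T i j)
        rw [this]
        simp [Fintype.piFinset_univ]
    _ = 1 := by simp [h1]

theorem det_le_of_inSimplex (s : ℝ) (hs : 0 < s) (V : Fin (n+1) → Fin n → ℝ)
    (q : Fin (n+1) → Fin n → ℝ) (hq : ∀ i, InSimplex s V (q i)) :
    |(hmat 1 q).det| ≤ |(hmat s V).det| / s ^ (n+1) := by
  choose t ht0 ht1 htV using hq
  have hmul : s • hmat 1 q = (Matrix.of t) * hmat s V := by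
    ext i j
    refine Fin.cases ?_ (fun j => ?_) j
    · simp [hmat, Matrix.mul_apply, ← Finset.sum_mul, ht1]
    · simp [hmat, Matrix.mul_apply, htV]
  have hdet := congrArg Matrix.det hmul
  rw [Matrix.det_smul, Matrix.det_mul, Fintype.card_fin] at hdet
  have h2 : |(Matrix.of t : Matrix (Fin (n+1)) (Fin (n+1)) ℝ).det| ≤ 1 :=
    abs_det_le_one _ (fun i j => ht0 i j) (fun i => ht1 i)
  rw [le_div_iff₀ (by positivity)]
  calc |(hmat 1 q).det| * s ^ (n+1) = |s ^ (n+1) * (hmat 1 q).det| := by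
        rw [abs_mul, abs_of_pos (by positivity : (0:ℝ) < s ^ (n+1)), mul_comm]
    _ = |(Matrix.of t : Matrix (Fin (n+1)) (Fin (n+1)) ℝ).det| * |(hmat s V).det| := by
        rw [hdet, abs_mul]
    _ ≤ 1 * |(hmat s V).det| := by gcongr
    _ = _ := one_mul _

/-- the updated vertices -/
def upd (D : ℝ) (K : Fin (n+1) → ℝ) (m : Fin (n+1)) (V : Fin (n+1) → Fin n → ℝ) :
    Fin (n+1) → Fin n → ℝ :=
  fun i j => if i = m then D * V m j else K i * V i j + (D - K i) * V m j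

theorem inSimplex_upd (s D : ℝ) (hD : 0 < D) (K : Fin (n+1) → ℝ) (hK : ∀ i, 0 < K i)
    (m : Fin (n+1)) (V : Fin (n+1) → Fin n → ℝ) (p : Fin n → ℝ)
    (t : Fin (n+1) → ℝ) (ht0 : ∀ i, 0 ≤ t i) (ht1 : ∑ i, t i = 1)
    (htV : ∀ j, s * p j = ∑ i, t i * V i j)
    (hcut : ∑ i ∈ univ.erase m, t i * (D / K i) ≤ 1) :
    InSimplex (D * s) (upd D K m V) p := by
  refine ⟨fun i => if i = m then 1 - ∑ i ∈ univ.erase m, t i * (D / K i) else t i * (D / K i),
    ?_, ?_, ?_⟩
  · intro i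
    by_cases hi : i = m
    · simp only [hi, if_true]; linarith
    · simp only [hi, if_false]
      exact mul_nonneg (ht0 i) (div_nonneg hD.le (hK i).le)
  · rw [← Finset.add_sum_erase univ _ (Finset.mem_univ m)]
    simp only [if_true]
    rw [Finset.sum_congr rfl (fun i hi => if_neg (Finset.ne_of_mem_erase hi))]
    ring
  · intro j
    rw [← Finset.add_sum_erase univ _ (Finset.mem_univ m)]
    simp only [if_true, upd]
    have h1 : ∑ x ∈ univ.erase m,
        (if x = m then 1 - ∑ i ∈ univ.erase m, t i * (D / K i) else t x * (D / K x)) *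
          (if x = m then D * V m j else K x * V x j + (D - K x) * V m j)
        = ∑ x ∈ univ.erase m, (D * (t x * V x j) + (t x * (D / K x)) * (D * V m j)
            - (D * V m j) * t x) := by
      refine Finset.sum_congr rfl fun x hx => ?_
      have hx' := Finset.ne_of_mem_erase hx
      simp only [hx', if_false]
      have := (hK x).ne'
      field_simp
      ring
    rw [h1, Finset.sum_sub_distrib, Finset.sum_add_distrib, ← Finset.mul_sum, ← Finset.mul_sum,
      ← Finset.sum_mul]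
    have h2 : ∑ i ∈ univ.erase m, t i = 1 - t m := by
      rw [← ht1, ← Finset.add_sum_erase univ _ (Finset.mem_univ m)]; ring
    have h3 : s * p j = t m * V m j + ∑ i ∈ univ.erase m, t i * V i j := by
      rw [htV j, ← Finset.add_sum_erase univ _ (Finset.mem_univ m)]
    rw [h2]
    have : D * s * p j = D * (s * p j) := by ring
    rw [this, h3]
    ring

theorem det_upd (s D : ℝ) (hD : 0 < D) (K : Fin (n+1) → ℝ) (m : Fin (n+1))
    (V : Fin (n+1) → Fin n → ℝ) :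
    (hmat (D * s) (upd D K m V)).det = D * (∏ i ∈ univ.erase m, K i) * (hmat s V).det := by
  set K' : Fin (n+1) → ℝ := fun i => if i = m then D else K i with hK'
  have h1 : (Matrix.of fun i j => K' i * hmat s V i j).det = (∏ i, K' i) * (hmat s V).det :=
    Matrix.det_mul_column _ _
  have h2 : (∏ i, K' i) = D * ∏ i ∈ univ.erase m, K i := by
    rw [← Finset.mul_prod_erase univ _ (Finset.mem_univ m)]
    simp only [hK', if_true]
    congr 1
    exact Finset.prod_congr rfl fun i hi => if_neg (Finset.ne_of_mem_erase hi)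
  rw [← h2, ← h1]
  refine Matrix.det_eq_of_forall_row_eq_smul_add_const
    (fun i => if i = m then 0 else (D - K i) / D) m (by simp) ?_
  intro i j
  by_cases hi : i = m
  · subst hi
    refine Fin.cases ?_ (fun j => ?_) j
    · simp [hmat, hK']
    · simp [hmat, upd, hK']
  · refine Fin.cases ?_ (fun j => ?_) j
    · simp [hmat, hK', hi]
      field_simp
      ring
    · simp [hmat, upd, hK', hi]
      field_simp

/-! ### quantitative step -/

/-- ceiling division -/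
def cdiv (a b : ℤ) : ℤ := -((-a) / b)

theorem cdiv_mul_ge (a b : ℤ) (hb : 0 < b) : a ≤ cdiv a b * b := by
  unfold cdiv
  have := Int.ediv_mul_le (-a) hb.ne'
  nlinarith

theorem cdiv_mul_lt (a b : ℤ) (hb : 0 < b) : cdiv a b * b < a + b := by
  unfold cdiv
  have := Int.lt_ediv_add_one_mul_self (-a) hb
  nlinarith

/-- the multipliers -/
def Kc (n : ℕ) (ℓ : Fin (n+1) → ℤ) (m : Fin (n+1)) (i : Fin (n+1)) : ℤ :=
  cdiv (64 * (n:ℤ)^3 * (8 * (n:ℤ)^2 * (-ℓ m))) (8 * (n:ℤ)^2 * (-ℓ m) + ℓ i)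

section numeric

variable (hn : 1 ≤ n) (ℓ : Fin (n+1) → ℤ) (m : Fin (n+1)) (hsum : ∑ i, ℓ i = 0)
  (hmin : ∀ i, ℓ m ≤ ℓ i) (hneg : ℓ m < 0)

include hn hsum hmin hneg

omit hsum in
theorem den_pos (i : Fin (n+1)) : 0 < 8 * (n:ℤ)^2 * (-ℓ m) + ℓ i := by
  have h1 : (1:ℤ) ≤ n := by exact_mod_cast hn
  have h2 : (1:ℤ) ≤ (n:ℤ)^2 := by nlinarith
  have h3 := hmin i
  nlinarith

omit hsum in
theorem Kc_pos (i : Fin (n+1)) : 0 < Kc n ℓ m i := by
  have hd := den_pos hn ℓ m hmin hneg i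
  have h1 : (1:ℤ) ≤ n := by exact_mod_cast hn
  have h2 : (0:ℤ) < 64 * (n:ℤ)^3 * (8 * (n:ℤ)^2 * (-ℓ m)) := by
    have : 0 < -ℓ m := by omega
    positivity
  have h3 := cdiv_mul_ge (64 * (n:ℤ)^3 * (8 * (n:ℤ)^2 * (-ℓ m))) _ hd
  unfold Kc
  by_contra hcon
  have hcon := not_lt.mp hcon
  have := mul_nonpos_of_nonpos_of_nonneg hcon hd.le
  omega

omit hsum in
theorem D_div_K_le (i : Fin (n+1)) :
    (64 * (n:ℝ)^3) / (Kc n ℓ m i : ℝ) ≤ 1 + (ℓ i : ℝ) / (8 * (n:ℝ)^2 * (-(ℓ m : ℝ))) := by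
  have hd := den_pos hn ℓ m hmin hneg i
  have hK := Kc_pos hn ℓ m hmin hneg i
  have hKR : (0:ℝ) < (Kc n ℓ m i : ℝ) := by exact_mod_cast hK
  have h1 : (1:ℝ) ≤ n := by exact_mod_cast hn
  have h2 : (0:ℝ) < -(ℓ m : ℝ) := by
    have : (ℓ m : ℝ) < 0 := by exact_mod_cast hneg
    linarith
  have hA : (0:ℝ) < 8 * (n:ℝ)^2 * (-(ℓ m : ℝ)) := by positivity
  have h3 := cdiv_mul_ge (64 * (n:ℤ)^3 * (8 * (n:ℤ)^2 * (-ℓ m))) _ hd
  have h4 : 64 * (n:ℝ)^3 * (8 * (n:ℝ)^2 * (-(ℓ m:ℝ))) ≤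
      (Kc n ℓ m i : ℝ) * (8 * (n:ℝ)^2 * (-(ℓ m:ℝ)) + (ℓ i : ℝ)) := by
    have := (Int.cast_le (R := ℝ)).mpr h3
    push_cast at this
    simpa [Kc] using this
  rw [div_le_iff₀ hKR, ← sub_nonneg]
  have h5 : (1 + (ℓ i : ℝ) / (8 * (n:ℝ)^2 * (-(ℓ m : ℝ)))) * (Kc n ℓ m i : ℝ)
      = (Kc n ℓ m i : ℝ) * (8 * (n:ℝ)^2 * (-(ℓ m:ℝ)) + (ℓ i : ℝ)) / (8 * (n:ℝ)^2 * (-(ℓ m : ℝ))) := by
    generalize 8 * (n:ℝ)^2 * (-(ℓ m:ℝ)) = A at hA
    have hA' := hA.ne'
    field_simp
  rw [h5, sub_nonneg, le_div_iff₀ hA]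
  linarith

omit hsum in
theorem K_div_D_le (i : Fin (n+1)) :
    (Kc n ℓ m i : ℝ) / (64 * (n:ℝ)^3) ≤
      1 - (ℓ i : ℝ) / (8 * (n:ℝ)^2 * (-(ℓ m : ℝ))) +
        2 * ((ℓ i : ℝ) / (8 * (n:ℝ)^2 * (-(ℓ m : ℝ))))^2 + 1 / (64 * (n:ℝ)^3) := by
  have hd := den_pos hn ℓ m hmin hneg i
  have hdR : (0:ℝ) < 8 * (n:ℝ)^2 * (-(ℓ m:ℝ)) + (ℓ i : ℝ) := by exact_mod_cast hd
  have h1 : (1:ℝ) ≤ n := by exact_mod_cast hn
  have h2 : (0:ℝ) < -(ℓ m : ℝ) := by
    have : (ℓ m : ℝ) < 0 := by exact_mod_cast hneg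
    linarith
  have hA : (0:ℝ) < 8 * (n:ℝ)^2 * (-(ℓ m : ℝ)) := by positivity
  have h3 := cdiv_mul_lt (64 * (n:ℤ)^3 * (8 * (n:ℤ)^2 * (-ℓ m))) _ hd
  have h4 : (Kc n ℓ m i : ℝ) * (8 * (n:ℝ)^2 * (-(ℓ m:ℝ)) + (ℓ i : ℝ)) ≤
      64 * (n:ℝ)^3 * (8 * (n:ℝ)^2 * (-(ℓ m:ℝ))) + (8 * (n:ℝ)^2 * (-(ℓ m:ℝ)) + (ℓ i : ℝ)) := by
    have := ((Int.cast_lt (R := ℝ)).mpr h3).le
    push_cast at this
    simpa [Kc] using this
  set A : ℝ := 8 * (n:ℝ)^2 * (-(ℓ m:ℝ)) with hAdef
  set y : ℝ := (ℓ i : ℝ) / A with hy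
  have hl : (ℓ i : ℝ) = y * A := by rw [hy]; field_simp
  have hminR : (ℓ m : ℝ) ≤ ℓ i := by exact_mod_cast hmin i
  have hy1 : -(1/8) ≤ y := by
    rw [hy, le_div_iff₀ hA, hAdef]
    have hn2 : (0:ℝ) ≤ (n:ℝ)^2 - 1 := by nlinarith
    nlinarith [mul_nonneg h2.le hn2]
  have hDpos : (0:ℝ) < 64 * (n:ℝ)^3 := by positivity
  have h5 : (Kc n ℓ m i : ℝ) * (1 + y) ≤ 64 * (n:ℝ)^3 + (1 + y) := by
    rw [hl] at h4
    have : A * ((Kc n ℓ m i : ℝ) * (1 + y)) ≤ A * (64 * (n:ℝ)^3 + (1 + y)) := by nlinarith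
    exact le_of_mul_le_mul_left this hA
  have hy2 : 0 < 1 + y := by linarith
  have h6 : (Kc n ℓ m i : ℝ) ≤ 64 * (n:ℝ)^3 / (1 + y) + 1 := by
    rw [← sub_le_iff_le_add, le_div_iff₀ hy2]; nlinarith
  have h7 : 1 / (1 + y) ≤ 1 - y + 2 * y^2 := by
    rw [div_le_iff₀ hy2]
    nlinarith [sq_nonneg y, mul_nonneg (sq_nonneg y) (by linarith : (0:ℝ) ≤ 1 + 2*y)]
  rw [div_le_iff₀ hDpos]
  calc (Kc n ℓ m i : ℝ) ≤ 64 * (n:ℝ)^3 / (1 + y) + 1 := h6
    _ = (1 / (1 + y)) * (64 * (n:ℝ)^3) + 1 := by ring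
    _ ≤ (1 - y + 2 * y^2) * (64 * (n:ℝ)^3) + 1 := by gcongr
    _ = _ := by field_simp

theorem prod_K_le : ∏ i ∈ univ.erase m, ((Kc n ℓ m i : ℝ) / (64 * (n:ℝ)^3)) ≤
    Real.exp (-(1 / (64 * (n:ℝ)^2))) := by
  have h1 : (1:ℝ) ≤ n := by exact_mod_cast hn
  set L : ℝ := -(ℓ m : ℝ) with hL
  have h2 : (0:ℝ) < L := by
    have : (ℓ m : ℝ) < 0 := by exact_mod_cast hneg
    rw [hL]; linarith
  have hA : (0:ℝ) < 8 * (n:ℝ)^2 * L := by positivity
  have hDpos : (0:ℝ) < 64 * (n:ℝ)^3 := by positivity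
  have hsumR : ∑ i ∈ univ.erase m, (ℓ i : ℝ) = L := by
    have h : ∑ i, (ℓ i : ℝ) = 0 := by exact_mod_cast hsum
    rw [← Finset.add_sum_erase univ _ (Finset.mem_univ m)] at h
    rw [hL]; linarith
  have hcard : ((univ.erase m : Finset (Fin (n+1))).card : ℝ) = n := by
    rw [Finset.card_erase_of_mem (Finset.mem_univ m)]; simp
  have hlow : ∀ i, -L ≤ (ℓ i : ℝ) := by
    intro i
    have : (ℓ m : ℝ) ≤ ℓ i := by exact_mod_cast hmin i
    rw [hL]; linarith
  have hup : ∀ i ∈ univ.erase m, (ℓ i : ℝ) ≤ n * L := by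
    intro i hi
    have h := hsumR
    rw [← Finset.add_sum_erase _ _ hi] at h
    have h' : -(((univ.erase m : Finset (Fin (n+1))).erase i).card : ℝ) * L ≤
        ∑ x ∈ (univ.erase m : Finset (Fin (n+1))).erase i, (ℓ x : ℝ) := by
      have := Finset.card_nsmul_le_sum ((univ.erase m : Finset (Fin (n+1))).erase i)
        (fun x => (ℓ x : ℝ)) (-L) (fun x _ => hlow x)
      rw [nsmul_eq_mul] at this
      linarith
    have hc : (((univ.erase m : Finset (Fin (n+1))).erase i).card : ℝ) = n - 1 := by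
      rw [Finset.card_erase_of_mem hi, Finset.card_erase_of_mem (Finset.mem_univ m)]
      simp [Nat.cast_sub hn]
    rw [hc] at h'
    nlinarith
  have hsq : ∑ i ∈ univ.erase m, (ℓ i : ℝ)^2 ≤ 2 * (n:ℝ)^2 * L^2 := by
    have h3 : ∀ i ∈ univ.erase m, (ℓ i : ℝ)^2 ≤ (n - 1) * L * ℓ i + n * L^2 := by
      intro i hi
      have ha := hlow i
      have hb := hup i hi
      nlinarith
    calc ∑ i ∈ univ.erase m, (ℓ i : ℝ)^2
        ≤ ∑ i ∈ univ.erase m, ((n - 1) * L * ℓ i + n * L^2) := Finset.sum_le_sum h3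
      _ = (n - 1) * L * L + n * (n * L^2) := by
          rw [Finset.sum_add_distrib, ← Finset.mul_sum, hsumR, Finset.sum_const, nsmul_eq_mul,
            hcard]
      _ ≤ 2 * (n:ℝ)^2 * L^2 := by nlinarith [sq_nonneg L, mul_pos h2 h2]
  calc ∏ i ∈ univ.erase m, ((Kc n ℓ m i : ℝ) / (64 * (n:ℝ)^3))
      ≤ ∏ i ∈ univ.erase m, Real.exp (-((ℓ i : ℝ) / (8 * (n:ℝ)^2 * L)) +
        2 * ((ℓ i : ℝ) / (8 * (n:ℝ)^2 * L))^2 + 1 / (64 * (n:ℝ)^3)) := by
        refine Finset.prod_le_prod (fun i _ => ?_) (fun i _ => ?_)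
        · have := Kc_pos hn ℓ m hmin hneg i
          have : (0:ℝ) < (Kc n ℓ m i : ℝ) := by exact_mod_cast this
          positivity
        · refine (K_div_D_le hn ℓ m hmin hneg i).trans ?_
          have := Real.add_one_le_exp (-((ℓ i : ℝ) / (8 * (n:ℝ)^2 * L)) +
            2 * ((ℓ i : ℝ) / (8 * (n:ℝ)^2 * L))^2 + 1 / (64 * (n:ℝ)^3))
          refine le_trans (le_of_eq ?_) this
          rw [hL]; ring
    _ = Real.exp (∑ i ∈ univ.erase m, (-((ℓ i : ℝ) / (8 * (n:ℝ)^2 * L)) +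
        2 * ((ℓ i : ℝ) / (8 * (n:ℝ)^2 * L))^2 + 1 / (64 * (n:ℝ)^3))) := (Real.exp_sum _ _).symm
    _ ≤ _ := by
        apply Real.exp_le_exp.mpr
        rw [Finset.sum_add_distrib, Finset.sum_add_distrib, Finset.sum_neg_distrib,
          ← Finset.sum_div, hsumR, Finset.sum_const, nsmul_eq_mul, hcard, ← Finset.mul_sum]
        have h4 : ∑ i ∈ univ.erase m, ((ℓ i : ℝ) / (8 * (n:ℝ)^2 * L))^2
            ≤ 2 * (n:ℝ)^2 * L^2 / (8 * (n:ℝ)^2 * L)^2 := by
          simp_rw [div_pow]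
          rw [← Finset.sum_div]
          gcongr
        have h5 : 2 * (n:ℝ)^2 * L^2 / (8 * (n:ℝ)^2 * L)^2 = 1 / (32 * (n:ℝ)^2) := by
          field_simp; norm_num
        have h6 : L / (8 * (n:ℝ)^2 * L) = 1 / (8 * (n:ℝ)^2) := by field_simp
        have h7 : (n:ℝ) * (1 / (64 * (n:ℝ)^3)) = 1 / (64 * (n:ℝ)^2) := by field_simp
        rw [h6, h7]
        rw [h5] at h4
        have h8 : 1 / (8 * (n:ℝ)^2) = 8 * (1 / (64 * (n:ℝ)^2)) := by field_simp; norm_num
        have h9 : 1 / (32 * (n:ℝ)^2) = 2 * (1 / (64 * (n:ℝ)^2)) := by field_simp; norm_num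
        have h10 : 0 < 1 / (64 * (n:ℝ)^2) := by positivity
        rw [h8]
        rw [h9] at h4
        linarith

omit hsum in
theorem cut_sum_le (t : Fin (n+1) → ℝ) (ht0 : ∀ i, 0 ≤ t i) (ht1 : ∑ i, t i = 1)
    (hcut : ∑ i, t i * (ℓ i : ℝ) ≤ 0) :
    ∑ i ∈ univ.erase m, t i * ((64 * (n:ℝ)^3) / (Kc n ℓ m i : ℝ)) ≤ 1 := by
  have h1 : (1:ℝ) ≤ n := by exact_mod_cast hn
  set L : ℝ := -(ℓ m : ℝ) with hL
  have h2 : (0:ℝ) < L := by
    have : (ℓ m : ℝ) < 0 := by exact_mod_cast hneg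
    rw [hL]; linarith
  have hA : (0:ℝ) < 8 * (n:ℝ)^2 * L := by positivity
  have h3 : ∑ i ∈ univ.erase m, t i = 1 - t m := by
    rw [← ht1, ← Finset.add_sum_erase univ _ (Finset.mem_univ m)]; ring
  have h4 : ∑ i ∈ univ.erase m, t i * (ℓ i : ℝ) ≤ t m * L := by
    rw [← Finset.add_sum_erase univ _ (Finset.mem_univ m)] at hcut
    rw [hL]; linarith
  calc ∑ i ∈ univ.erase m, t i * ((64 * (n:ℝ)^3) / (Kc n ℓ m i : ℝ))
      ≤ ∑ i ∈ univ.erase m, t i * (1 + (ℓ i : ℝ) / (8 * (n:ℝ)^2 * L)) := by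
        refine Finset.sum_le_sum fun i _ => mul_le_mul_of_nonneg_left ?_ (ht0 i)
        exact D_div_K_le hn ℓ m hmin hneg i
    _ = ∑ i ∈ univ.erase m, t i + (∑ i ∈ univ.erase m, t i * (ℓ i : ℝ)) / (8 * (n:ℝ)^2 * L) := by
        rw [Finset.sum_div, ← Finset.sum_add_distrib]
        exact Finset.sum_congr rfl fun i _ => by ring
    _ ≤ (1 - t m) + (t m * L) / (8 * (n:ℝ)^2 * L) := by
        rw [h3]; gcongr
    _ ≤ 1 := by
        have h5 : (t m * L) / (8 * (n:ℝ)^2 * L) = t m / (8 * (n:ℝ)^2) := by field_simp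
        rw [h5]
        have h6 : t m / (8 * (n:ℝ)^2) ≤ t m := by
          apply div_le_self (ht0 m)
          nlinarith
        linarith

end numeric

end Crest.Agent.R302.Sfm646
end

-- ▼ part R302/Sfm646B
section

/-! Submodular function minimisation by cutting simplices: exactness of the algorithm. -/

set_option autoImplicit false

namespace Crest.Agent.R302.Sfm646

open Finset

variable {n : ℕ}

/-! ### greedy vectors without sorting -/

/-- initial segment of the order "decreasing `c`, ties by index" ending in `j` -/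
def lev (c : Fin n → ℤ) (j : Fin n) : Finset (Fin n) :=
  univ.filter fun i => c j < c i ∨ (c i = c j ∧ i ≤ j)

/-- greedy vector -/
def gy (f : Finset (Fin n) → ℤ) (c : Fin n → ℤ) (j : Fin n) : ℤ :=
  f (lev c j) - f ((lev c j).erase j)

/-- `i` strictly before `j` or equal -/
def bef (c : Fin n → ℤ) (i j : Fin n) : Prop := c j < c i ∨ (c i = c j ∧ i ≤ j)

theorem mem_lev (c : Fin n → ℤ) (i j : Fin n) : i ∈ lev c j ↔ bef c i j := by
  simp [lev, bef]

theorem bef_refl (c : Fin n → ℤ) (i : Fin n) : bef c i i := Or.inr ⟨rfl, le_rfl⟩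

theorem bef_trans (c : Fin n → ℤ) (i j k : Fin n) (h1 : bef c i j) (h2 : bef c j k) :
    bef c i k := by
  unfold bef at *
  rcases h1 with h1 | ⟨h1, h1'⟩ <;> rcases h2 with h2 | ⟨h2, h2'⟩
  · left; omega
  · left; omega
  · left; omega
  · right; exact ⟨by omega, le_trans h1' h2'⟩

theorem bef_total (c : Fin n → ℤ) (i j : Fin n) : bef c i j ∨ bef c j i := by
  unfold bef
  rcases lt_trichotomy (c i) (c j) with h | h | h
  · right; left; exact h
  · rcases le_total i j with h' | h'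
    · left; right; exact ⟨h, h'⟩
    · right; right; exact ⟨h.symm, h'⟩
  · left; left; exact h

theorem bef_antisymm (c : Fin n → ℤ) (i j : Fin n) (h1 : bef c i j) (h2 : bef c j i) : i = j := by
  unfold bef at *
  rcases h1 with h1 | ⟨h1, h1'⟩ <;> rcases h2 with h2 | ⟨h2, h2'⟩
  · omega
  · omega
  · omega
  · exact le_antisymm h1' h2'

theorem bef_le (c : Fin n → ℤ) (i j : Fin n) (h : bef c i j) : c j ≤ c i := by
  unfold bef at h; omega

/-- the last element of a nonempty set -/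
theorem exists_last (c : Fin n → ℤ) (A : Finset (Fin n)) (hA : A.Nonempty) :
    ∃ j ∈ A, ∀ i ∈ A, bef c i j := by
  induction hA using Finset.Nonempty.cons_induction with
  | singleton a => exact ⟨a, by simp, by simp [bef_refl]⟩
  | cons a s ha hs ih =>
    obtain ⟨j, hj, hj'⟩ := ih
    rcases bef_total c a j with h | h
    · refine ⟨j, by simp [hj], ?_⟩
      intro i hi
      rcases Finset.mem_cons.mp hi with rfl | hi
      · exact h
      · exact hj' i hi
    · refine ⟨a, by simp, ?_⟩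
      intro i hi
      rcases Finset.mem_cons.mp hi with rfl | hi
      · exact bef_refl c _
      · exact bef_trans c _ _ _ (hj' i hi) h

section submod

variable (f : Finset (Fin n) → ℤ) (hf : ∀ A B, f (A ∪ B) + f (A ∩ B) ≤ f A + f B)
  (h0 : f ∅ = 0) (c : Fin n → ℤ)

include hf h0 in
/-- greedy vectors lie in the base polytope -/
theorem gy_sum_le (A : Finset (Fin n)) : ∑ j ∈ A, gy f c j ≤ f A := by
  induction hk : A.card generalizing A with
  | zero => rw [Finset.card_eq_zero] at hk; simp [hk, h0]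
  | succ k ih =>
    have hne : A.Nonempty := by rw [← Finset.card_pos]; omega
    obtain ⟨j, hj, hj'⟩ := exists_last c A hne
    have h1 := ih (A.erase j) (by rw [Finset.card_erase_of_mem hj]; omega)
    have h2 := hf A ((lev c j).erase j)
    have h3 : A ∪ (lev c j).erase j = lev c j := by
      ext i
      simp only [mem_union, mem_erase, mem_lev]
      constructor
      · rintro (h | h)
        · exact hj' i h
        · exact h.2
      · intro h
        by_cases hij : i = j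
        · left; rw [hij]; exact hj
        · right; exact ⟨hij, h⟩
    have h4 : A ∩ (lev c j).erase j = A.erase j := by
      ext i
      simp only [mem_inter, mem_erase, mem_lev]
      constructor
      · rintro ⟨h, h', h''⟩; exact ⟨h', h⟩
      · rintro ⟨h, h'⟩; exact ⟨h', h, hj' i h'⟩
    rw [h3, h4] at h2
    rw [← Finset.add_sum_erase A _ hj]
    unfold gy at *
    linarith

/-- down-closed sets -/
def Dn (c : Fin n → ℤ) (A : Finset (Fin n)) : Prop := ∀ j ∈ A, ∀ i, bef c i j → i ∈ A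

theorem Dn.eq_lev {c : Fin n → ℤ} {A : Finset (Fin n)} (hA : Dn c A) {j : Fin n} (hj : j ∈ A)
    (hj' : ∀ i ∈ A, bef c i j) : A = lev c j := by
  ext i
  rw [mem_lev]
  exact ⟨fun h => hj' i h, fun h => hA j hj i h⟩

theorem Dn.erase {c : Fin n → ℤ} {A : Finset (Fin n)} (hA : Dn c A) {j : Fin n}
    (hj' : ∀ i ∈ A, bef c i j) : Dn c (A.erase j) := by
  intro k hk i hi
  rw [Finset.mem_erase] at hk ⊢
  refine ⟨?_, hA k hk.2 i hi⟩
  rintro rfl
  exact hk.1 (bef_antisymm c _ _ (hj' k hk.2) hi)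

include h0 in
theorem gy_sum_eq (A : Finset (Fin n)) (hA : Dn c A) : ∑ j ∈ A, gy f c j = f A := by
  induction hk : A.card generalizing A with
  | zero => rw [Finset.card_eq_zero] at hk; simp [hk, h0]
  | succ k ih =>
    have hne : A.Nonempty := by rw [← Finset.card_pos]; omega
    obtain ⟨j, hj, hj'⟩ := exists_last c A hne
    have h1 := ih (A.erase j) (hA.erase hj') (by rw [Finset.card_erase_of_mem hj]; omega)
    have h2 := hA.eq_lev hj hj'
    rw [← Finset.add_sum_erase A _ hj, h1]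
    unfold gy
    rw [← h2]
    ring

include h0 in
/-- Abel summation: `β ≤` every recorded value implies `β (T - θ) ≤ Σ y (c-θ)`. -/
theorem abel_ge (β T : ℤ) (hβ0 : β ≤ 0) (hβ : ∀ j, β ≤ f (lev c j)) (hT : ∀ j, c j ≤ T)
    (A : Finset (Fin n)) (hA : Dn c A) (θ : ℤ) (hθ : ∀ i ∈ A, θ ≤ c i) (hθT : θ ≤ T) :
    β * (T - θ) ≤ ∑ i ∈ A, gy f c i * (c i - θ) := by
  induction hk : A.card generalizing A θ with
  | zero =>
    rw [Finset.card_eq_zero] at hk
    simp only [hk, sum_empty]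
    nlinarith
  | succ k ih =>
    have hne : A.Nonempty := by rw [← Finset.card_pos]; omega
    obtain ⟨j, hj, hj'⟩ := exists_last c A hne
    have h1 := ih (A.erase j) (hA.erase hj') (c j)
      (fun i hi => bef_le c i j (hj' i (Finset.mem_of_mem_erase hi))) (hT j)
      (by rw [Finset.card_erase_of_mem hj]; omega)
    have h2 := hA.eq_lev hj hj'
    have h3 := gy_sum_eq f h0 c A hA
    have h4 : ∑ i ∈ A, gy f c i * (c i - θ) =
        ∑ i ∈ A.erase j, gy f c i * (c i - c j) + (c j - θ) * f A := by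
      rw [← h3, Finset.mul_sum]
      have : ∑ i ∈ A.erase j, gy f c i * (c i - c j) = ∑ i ∈ A, gy f c i * (c i - c j) := by
        rw [← Finset.add_sum_erase A _ hj]; ring
      rw [this, ← Finset.sum_add_distrib]
      exact Finset.sum_congr rfl fun i _ => by ring
    rw [h4]
    have h5 : β ≤ f A := by rw [h2]; exact hβ j
    have h6 : 0 ≤ c j - θ := by have := hθ j hj; omega
    nlinarith

include h0 in
theorem abel_univ (β T : ℤ) (hβ0 : β ≤ 0) (hβ : ∀ j, β ≤ f (lev c j)) (hT : ∀ j, c j ≤ T)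
    (hc : ∀ j, 0 ≤ c j) (hT0 : 0 ≤ T) :
    β * T ≤ ∑ i, gy f c i * c i := by
  have := abel_ge f h0 c β T hβ0 hβ hT univ (fun j _ i _ => Finset.mem_univ i) 0
    (fun i _ => hc i) hT0
  simpa using this

end submod

/-! ### the algorithm -/

def cen (V : Fin (n+1) → Fin n → ℤ) (j : Fin n) : ℤ := ∑ i, V i j

def ell (g : Fin n → ℤ) (V : Fin (n+1) → Fin n → ℤ) (i : Fin (n+1)) : ℤ :=
  ∑ j, g j * (((n:ℤ) + 1) * V i j - cen V j)

def argm (ℓ : Fin (n+1) → ℤ) : Fin (n+1) :=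
  (List.finRange (n+1)).foldl (fun b i => if ℓ i < ℓ b then i else b) 0

theorem foldl_argm {α : Type*} (ℓ : α → ℤ) (L : List α) (b : α) :
    ℓ (L.foldl (fun b i => if ℓ i < ℓ b then i else b) b) ≤ ℓ b ∧
    ∀ i ∈ L, ℓ (L.foldl (fun b i => if ℓ i < ℓ b then i else b) b) ≤ ℓ i := by
  induction L generalizing b with
  | nil => simp
  | cons a L ih =>
    simp only [List.foldl_cons]
    obtain ⟨h1, h2⟩ := ih (if ℓ a < ℓ b then a else b)
    have h3 : ℓ (if ℓ a < ℓ b then a else b) ≤ ℓ b ∧ ℓ (if ℓ a < ℓ b then a else b) ≤ ℓ a := by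
      split_ifs with h
      · exact ⟨h.le, le_rfl⟩
      · exact ⟨le_rfl, not_lt.mp h⟩
    refine ⟨h1.trans h3.1, ?_⟩
    intro i hi
    rcases List.mem_cons.mp hi with rfl | hi
    · exact h1.trans h3.2
    · exact h2 i hi

theorem argm_le (ℓ : Fin (n+1) → ℤ) (i : Fin (n+1)) : ℓ (argm ℓ) ≤ ℓ i :=
  (foldl_argm ℓ (List.finRange (n+1)) 0).2 i (List.mem_finRange i)

/-- integer vertex update -/
def stepV (V : Fin (n+1) → Fin n → ℤ) (g : Fin n → ℤ) : Fin (n+1) → Fin n → ℤ :=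
  let ℓ := ell g V
  let m := argm ℓ
  fun i j => if i = m then 64 * (n:ℤ)^3 * V m j
    else Kc n ℓ m i * V i j + (64 * (n:ℤ)^3 - Kc n ℓ m i) * V m j

/-- cast of an integer vertex family -/
def rV (V : Fin (n+1) → Fin n → ℤ) : Fin (n+1) → Fin n → ℝ := fun i j => (V i j : ℝ)

/-- the cut condition at the centroid -/
def Cut (s : ℝ) (V : Fin (n+1) → Fin n → ℤ) (g : Fin n → ℤ) (p : Fin n → ℝ) : Prop :=
  ((n:ℝ) + 1) * s * ∑ j, (g j : ℝ) * p j < ∑ j, (g j : ℝ) * (cen V j : ℝ)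

theorem sum_ell (g : Fin n → ℤ) (V : Fin (n+1) → Fin n → ℤ) : ∑ i, ell g V i = 0 := by
  unfold ell
  rw [Finset.sum_comm]
  refine Finset.sum_eq_zero fun j _ => ?_
  rw [← Finset.mul_sum, Finset.sum_sub_distrib, ← Finset.mul_sum]
  simp [cen]

theorem sum_t_ell (s : ℝ) (V : Fin (n+1) → Fin n → ℤ) (g : Fin n → ℤ) (p : Fin n → ℝ)
    (t : Fin (n+1) → ℝ) (ht1 : ∑ i, t i = 1) (htV : ∀ j, s * p j = ∑ i, t i * rV V i j) :
    ∑ i, t i * (ell g V i : ℝ) =
      ((n:ℝ) + 1) * s * ∑ j, (g j : ℝ) * p j - ∑ j, (g j : ℝ) * (cen V j : ℝ) := by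
  have h1 : ∀ i, t i * (ell g V i : ℝ) =
      ∑ j, ((g j : ℝ) * (((n:ℝ) + 1) * (t i * rV V i j)) - t i * ((g j : ℝ) * (cen V j : ℝ))) := by
    intro i
    unfold ell rV
    push_cast
    rw [Finset.mul_sum]
    exact Finset.sum_congr rfl fun j _ => by ring
  simp_rw [h1]
  rw [Finset.sum_comm]
  have h2 : ∀ j, ∑ i, ((g j : ℝ) * (((n:ℝ) + 1) * (t i * rV V i j)) - t i * ((g j : ℝ) * (cen V j : ℝ)))
      = ((n:ℝ) + 1) * s * ((g j : ℝ) * p j) - (g j : ℝ) * (cen V j : ℝ) := by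
    intro j
    rw [Finset.sum_sub_distrib, ← Finset.sum_mul, ht1, ← Finset.mul_sum, ← Finset.mul_sum,
      ← htV j]
    ring
  simp_rw [h2]
  rw [Finset.sum_sub_distrib, ← Finset.mul_sum]

theorem step_spec (hn : 1 ≤ n) (s : ℝ) (V : Fin (n+1) → Fin n → ℤ) (g : Fin n → ℤ)
    (p : Fin n → ℝ) (hp : InSimplex s (rV V) p) (hcut : Cut s V g p) :
    InSimplex (64 * (n:ℝ)^3 * s) (rV (stepV V g)) p ∧
    |(hmat (64 * (n:ℝ)^3 * s) (rV (stepV V g))).det| / (64 * (n:ℝ)^3 * s) ^ (n+1) ≤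
      Real.exp (-(1 / (64 * (n:ℝ)^2))) * (|(hmat s (rV V)).det| / s ^ (n+1)) ∨ s ≤ 0 := by
  by_cases hs : s ≤ 0
  · right; exact hs
  left
  have hs := not_le.mp hs
  obtain ⟨t, ht0, ht1, htV⟩ := hp
  have h1 : (1:ℝ) ≤ n := by exact_mod_cast hn
  have hD : (0:ℝ) < 64 * (n:ℝ)^3 := by positivity
  set ℓ := ell g V with hℓ
  set m := argm ℓ with hm
  have hsum : ∑ i, ℓ i = 0 := sum_ell g V
  have hmin : ∀ i, ℓ m ≤ ℓ i := argm_le ℓ
  have hte : ∑ i, t i * (ℓ i : ℝ) < 0 := by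
    rw [hℓ, sum_t_ell s V g p t ht1 htV]
    unfold Cut at hcut
    linarith
  have hneg : ℓ m < 0 := by
    by_contra hcon
    have hcon := not_lt.mp hcon
    have : 0 ≤ ∑ i, t i * (ℓ i : ℝ) := by
      refine Finset.sum_nonneg fun i _ => mul_nonneg (ht0 i) ?_
      exact_mod_cast hcon.trans (hmin i)
    linarith
  have hK : ∀ i, (0:ℝ) < (Kc n ℓ m i : ℝ) := fun i => by
    exact_mod_cast Kc_pos hn ℓ m hmin hneg i
  have hupd : rV (stepV V g) = upd (64 * (n:ℝ)^3) (fun i => (Kc n ℓ m i : ℝ)) m (rV V) := by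
    funext i j
    unfold rV stepV upd
    simp only [← hℓ, ← hm]
    split_ifs with h
    · push_cast; ring
    · push_cast; ring
  constructor
  · rw [hupd]
    exact inSimplex_upd s _ hD _ hK m _ p t ht0 ht1 htV
      (cut_sum_le hn ℓ m hmin hneg t ht0 ht1 hte.le)
  · rw [hupd, det_upd s _ hD]
    have h2 : (∏ i ∈ univ.erase m, (Kc n ℓ m i : ℝ)) =
        (∏ i ∈ univ.erase m, ((Kc n ℓ m i : ℝ) / (64 * (n:ℝ)^3))) * (64 * (n:ℝ)^3)^n := by
      rw [Finset.prod_div_distrib, Finset.prod_const, Finset.card_erase_of_mem (Finset.mem_univ m)]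
      simp
    have h3 := prod_K_le hn ℓ m hsum hmin hneg
    have h4 : 0 ≤ ∏ i ∈ univ.erase m, ((Kc n ℓ m i : ℝ) / (64 * (n:ℝ)^3)) :=
      Finset.prod_nonneg fun i _ => div_nonneg (hK i).le hD.le
    rw [h2, abs_mul, abs_of_nonneg (by positivity)]
    calc 64 * (n:ℝ)^3 * ((∏ i ∈ univ.erase m, ((Kc n ℓ m i : ℝ) / (64 * (n:ℝ)^3))) *
          (64 * (n:ℝ)^3)^n) * |(hmat s (rV V)).det| / (64 * (n:ℝ)^3 * s) ^ (n+1)
        = (∏ i ∈ univ.erase m, ((Kc n ℓ m i : ℝ) / (64 * (n:ℝ)^3))) *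
          (|(hmat s (rV V)).det| / s ^ (n+1)) := by
          generalize (∏ i ∈ univ.erase m, ((Kc n ℓ m i : ℝ) / (64 * (n:ℝ)^3))) = P
          generalize 64 * (n:ℝ)^3 = D at hD
          have hD' := hD.ne'
          have hs' := hs.ne'
          rw [mul_pow, pow_succ D]
          field_simp
      _ ≤ _ := by
          gcongr

/-- the start simplex `{p ≥ 0, Σ p ≤ n}` -/
def V0 (n : ℕ) : Fin (n+1) → Fin n → ℤ := fun i j => if i = j.succ then (n:ℤ) else 0

theorem V0_mem (hn : 1 ≤ n) (p : Fin n → ℝ) (h0 : ∀ j, 0 ≤ p j) (h1 : ∀ j, p j ≤ 1) :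
    InSimplex 1 (rV (V0 n)) p := by
  have hn' : (1:ℝ) ≤ n := by exact_mod_cast hn
  refine ⟨Fin.cons (1 - ∑ j, p j / n) (fun j => p j / n), ?_, ?_, ?_⟩
  · intro i
    refine Fin.cases ?_ (fun j => ?_) i
    · simp only [Fin.cons_zero]
      rw [← Finset.sum_div, sub_nonneg, div_le_one (by positivity)]
      calc ∑ j, p j ≤ ∑ _j : Fin n, (1:ℝ) := Finset.sum_le_sum fun j _ => h1 j
        _ = n := by simp
    · simp only [Fin.cons_succ]
      exact div_nonneg (h0 j) (by positivity)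
  · rw [Fin.sum_univ_succ]; simp
  · intro j
    rw [Fin.sum_univ_succ]
    have h0' : ((0 : Fin (n+1)) = j.succ) = False := by simp [(Fin.succ_ne_zero j).symm]
    have hz : rV (V0 n) 0 j = 0 := by simp [rV, V0, h0']
    rw [hz, mul_zero, zero_add, Finset.sum_eq_single j]
    · simp only [Fin.cons_succ, rV, V0]
      simp only [if_true]
      push_cast
      field_simp
    · intro b _ hb
      have : (b.succ = j.succ) = False := by simp [hb]
      simp [rV, V0, hb]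
    · simp

theorem V0_det (n : ℕ) : |(hmat 1 (rV (V0 n))).det| / 1 ^ (n+1) = (n:ℝ)^n := by
  have h1 : (hmat 1 (rV (V0 n))).det = (n:ℝ)^n := by
    rw [Matrix.det_of_isLowerTriangular]
    · rw [Fin.prod_univ_succ]
      simp [hmat, rV, V0]
    · intro i j hij
      have h' : i < j := hij
      revert h'
      refine Fin.cases ?_ (fun j => ?_) j
      · intro h; exact absurd h (Fin.not_lt_zero _)
      · intro h
        simp [hmat, rV, V0, h.ne]
  rw [h1]
  simp

/-- the test simplex with corner `b` and edge length `η` -/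
theorem corner_det (b : Fin n → ℝ) (η : ℝ) :
    (hmat 1 (Fin.cons b (fun i j => b j + if i = j then η else 0) :
      Fin (n+1) → Fin n → ℝ)).det = η ^ n := by
  set B : Matrix (Fin (n+1)) (Fin (n+1)) ℝ :=
    Matrix.of (Fin.cons (Fin.cons 1 b : Fin (n+1) → ℝ)
      (fun i => (Fin.cons 0 (fun j => if i = j then η else 0) : Fin (n+1) → ℝ)))
    with hB
  have h1 : (hmat 1 (Fin.cons b (fun i j => b j + if i = j then η else 0) :
      Fin (n+1) → Fin n → ℝ)).det = B.det := by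
    refine Matrix.det_eq_of_forall_row_eq_smul_add_const (fun i => if i = 0 then 0 else 1) 0
      (by simp) ?_
    intro i j
    refine Fin.cases ?_ (fun i => ?_) i
    · refine Fin.cases ?_ (fun j => ?_) j
      · simp [hmat, hB]
      · simp [hmat, hB]
    · refine Fin.cases ?_ (fun j => ?_) j
      · simp [hmat, hB]
      · simp [hmat, hB]; ring
  rw [h1, Matrix.det_of_isUpperTriangular]
  · rw [Fin.prod_univ_succ]
    simp [hB]
  · intro i j hij
    have h' : j < i := hij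
    revert h'
    refine Fin.cases ?_ (fun i => ?_) i
    · intro h; exact absurd h (Fin.not_lt_zero _)
    · refine Fin.cases ?_ (fun j => ?_) j
      · intro _; simp [hB]
      · intro h
        have : i ≠ j := by rintro rfl; exact lt_irrefl _ h
        simp [hB, this]

end Crest.Agent.R302.Sfm646
end

-- ▼ part R302/Sfm646C

/-! Submodular function minimisation by cutting simplices: the algorithm and its exactness. -/

set_option autoImplicit false

namespace Crest.Agent.R302.Sfm646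

open Finset

/-- state of the algorithm: vertices (over the common scale `s`) and the best set found -/
structure St (n : ℕ) where
  V : Fin (n+1) → Fin n → ℤ
  s : ℤ
  best : Finset (Fin n)

variable {n : ℕ}

/-- a coordinate of the centroid outside `[0,1]` -/
def bad (s : ℤ) (V : Fin (n+1) → Fin n → ℤ) : Option (Fin n) :=
  (List.finRange n).find? fun j => decide (cen V j < 0 ∨ ((n:ℤ) + 1) * s < cen V j)

/-- the cut functional -/
def cutg (f : Finset (Fin n) → ℤ) (σ : St n) : Fin n → ℤ :=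
  match bad σ.s σ.V with
  | some j0 => fun j => if j = j0 then (if cen σ.V j0 < 0 then -1 else 1) else 0
  | none => gy f (cen σ.V)

/-- the best set after looking at the level sets of the centroid -/
def newBest (f : Finset (Fin n) → ℤ) (σ : St n) : Finset (Fin n) :=
  match bad σ.s σ.V with
  | some _ => σ.best
  | none => (List.finRange n).foldl
      (fun b j => if f (lev (cen σ.V) j) < f b then lev (cen σ.V) j else b) σ.best

def stp (f : Finset (Fin n) → ℤ) (σ : St n) : St n :=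
  ⟨stepV σ.V (cutg f σ), 64 * (n:ℤ)^3 * σ.s, newBest f σ⟩

def st0 (n : ℕ) : St n := ⟨V0 n, 1, ∅⟩

def sfmIter (n M : ℕ) : ℕ := 64 * n^3 * (Nat.clog 2 (n * (3 * M + 1)) + 1)

/-- the computed minimiser -/
def sfmArg (n M : ℕ) (f : Finset (Fin n) → ℤ) : Finset (Fin n) :=
  ((stp f)^[sfmIter n M] (st0 n)).best

/-- the computed minimum -/
def sfmMin (n M : ℕ) (f : Finset (Fin n) → ℤ) : ℤ := f (sfmArg n M f)

theorem foldl_best (f : Finset (Fin n) → ℤ) (g : Fin n → Finset (Fin n)) (L : List (Fin n))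
    (b : Finset (Fin n)) :
    f (L.foldl (fun b j => if f (g j) < f b then g j else b) b) ≤ f b ∧
    ∀ j ∈ L, f (L.foldl (fun b j => if f (g j) < f b then g j else b) b) ≤ f (g j) := by
  induction L generalizing b with
  | nil => simp
  | cons a L ih =>
    simp only [List.foldl_cons]
    obtain ⟨h1, h2⟩ := ih (if f (g a) < f b then g a else b)
    have h3 : f (if f (g a) < f b then g a else b) ≤ f b ∧
        f (if f (g a) < f b then g a else b) ≤ f (g a) := by
      split_ifs with h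
      · exact ⟨h.le, le_rfl⟩
      · exact ⟨le_rfl, not_lt.mp h⟩
    refine ⟨h1.trans h3.1, ?_⟩
    intro i hi
    rcases List.mem_cons.mp hi with rfl | hi
    · exact h1.trans h3.2
    · exact h2 i hi

theorem newBest_le (f : Finset (Fin n) → ℤ) (σ : St n) : f (newBest f σ) ≤ f σ.best := by
  unfold newBest
  split
  · exact le_rfl
  · exact (foldl_best f _ _ _).1

theorem newBest_le_lev (f : Finset (Fin n) → ℤ) (σ : St n) (h : bad σ.s σ.V = none)
    (j : Fin n) : f (newBest f σ) ≤ f (lev (cen σ.V) j) := by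
  unfold newBest
  rw [h]
  exact (foldl_best f (fun j => lev (cen σ.V) j) _ _).2 j (List.mem_finRange j)

theorem iter_s (f : Finset (Fin n) → ℤ) (k : ℕ) :
    ((stp f)^[k] (st0 n)).s = (64 * (n:ℤ)^3)^k := by
  induction k with
  | zero => simp [st0]
  | succ k ih =>
    rw [Function.iterate_succ_apply', stp]
    simp only [ih]
    ring

section exact

variable (hn : 1 ≤ n) (f : Finset (Fin n) → ℤ)
  (hf : ∀ A B, f (A ∪ B) + f (A ∩ B) ≤ f A + f B) (h0 : f ∅ = 0) (M : ℕ) (hM : ∀ A, |f A| ≤ M)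
  (As : Finset (Fin n))

/-- the test points -/
noncomputable def tp (M : ℕ) (As : Finset (Fin n)) : Fin (n+1) → Fin n → ℝ :=
  Fin.cons (fun j => (1 - 1/(3*(M:ℝ)+1)) * (if j ∈ As then 1 else 0))
    (fun i j => (1 - 1/(3*(M:ℝ)+1)) * (if j ∈ As then 1 else 0) +
      if i = j then 1/(3*(M:ℝ)+1) else 0)

theorem tp_bounds (M : ℕ) (As : Finset (Fin n)) (i : Fin (n+1)) (j : Fin n) :
    0 ≤ tp M As i j ∧ tp M As i j ≤ 1 := by
  have hM0 : (0:ℝ) ≤ M := Nat.cast_nonneg M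
  have h1 : 0 ≤ 1/(3*(M:ℝ)+1) := by positivity
  have h2 : 1/(3*(M:ℝ)+1) ≤ 1 := by
    rw [div_le_one (by positivity)]; linarith
  generalize hη : 1/(3*(M:ℝ)+1) = η at h1 h2
  refine Fin.cases ?_ (fun i => ?_) i
  · simp only [tp, Fin.cons_zero, hη]
    split_ifs <;> constructor <;> linarith
  · simp only [tp, Fin.cons_succ, hη]
    split_ifs <;> constructor <;> linarith

include hf h0 hM in
theorem gy_tp_lt (c : Fin n → ℤ) (β : ℤ) (hβ : f As < β) (i : Fin (n+1)) :
    ∑ j, (gy f c j : ℝ) * tp M As i j < β := by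
  have hM0 : (0:ℝ) ≤ M := Nat.cast_nonneg M
  have hpos : (0:ℝ) < 3*(M:ℝ)+1 := by positivity
  have h1 : 0 < 1/(3*(M:ℝ)+1) := by positivity
  have h2 : 1/(3*(M:ℝ)+1) ≤ 1 := by
    rw [div_le_one (by positivity)]; linarith
  have h3 : 1/(3*(M:ℝ)+1) * (3*(M:ℝ)+1) = 1 := by field_simp
  have hy : ∑ j, (gy f c j : ℝ) * (if j ∈ As then (1:ℝ) else 0) ≤ f As := by
    have h := gy_sum_le f hf h0 c As
    have h' : (∑ j ∈ As, (gy f c j : ℝ)) ≤ f As := by exact_mod_cast h
    have h'' : ∑ j, (gy f c j : ℝ) * (if j ∈ As then (1:ℝ) else 0) = ∑ j ∈ As, (gy f c j : ℝ) := by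
      simp [Finset.sum_ite_mem]
    rw [h'']; exact h'
  have hyj : ∀ j, (gy f c j : ℝ) ≤ 2 * M := by
    intro j
    have ha := abs_le.mp (hM (lev c j))
    have hb := abs_le.mp (hM ((lev c j).erase j))
    have : gy f c j ≤ 2 * M := by unfold gy; linarith
    exact_mod_cast this
  have hfA : -(M:ℝ) ≤ f As := by
    have := (abs_le.mp (hM As)).1
    exact_mod_cast this
  have hβ' : (f As : ℝ) + 1 ≤ β := by exact_mod_cast hβ
  generalize hη : 1/(3*(M:ℝ)+1) = η at h1 h2 h3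
  refine Fin.cases ?_ (fun i => ?_) i
  · simp only [tp, Fin.cons_zero, hη]
    have h4 : ∑ j, (gy f c j : ℝ) * ((1 - η) * (if j ∈ As then (1:ℝ) else 0)) =
        (1 - η) * ∑ j, (gy f c j : ℝ) * (if j ∈ As then (1:ℝ) else 0) := by
      rw [Finset.mul_sum]; exact Finset.sum_congr rfl fun j _ => by ring
    rw [h4]
    nlinarith
  · simp only [tp, Fin.cons_succ, hη]
    have h4 : ∑ j, (gy f c j : ℝ) * ((1 - η) * (if j ∈ As then (1:ℝ) else 0) +
          (if i = j then η else 0)) =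
        (1 - η) * ∑ j, (gy f c j : ℝ) * (if j ∈ As then (1:ℝ) else 0) + η * gy f c i := by
      rw [Finset.mul_sum]
      have : η * (gy f c i : ℝ) = ∑ j, (gy f c j : ℝ) * (if i = j then η else 0) := by
        simp [mul_comm]
      rw [this, ← Finset.sum_add_distrib]
      exact Finset.sum_congr rfl fun j _ => by ring
    rw [h4]
    have := hyj i
    nlinarith

include hn hf h0 hM in
theorem cut_holds (σ : St n) (hs : 0 < σ.s) (h0b : f σ.best ≤ 0) (hlt : f As < f (newBest f σ))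
    (i : Fin (n+1)) :
    Cut (σ.s : ℝ) σ.V (cutg f σ) (tp M As i) := by
  have hsR : (0:ℝ) < (σ.s : ℝ) := by exact_mod_cast hs
  have hnR : (0:ℝ) < (n:ℝ) + 1 := by positivity
  unfold Cut cutg
  cases hb : bad σ.s σ.V with
  | some j0 =>
    have hj0 := List.find?_some hb
    simp only [decide_eq_true_eq] at hj0
    simp only
    by_cases hneg : cen σ.V j0 < 0
    · simp only [hneg, if_true]
      have h1 : ∑ j, (((if j = j0 then (-1:ℤ) else 0 : ℤ)) : ℝ) * tp M As i j = - tp M As i j0 := by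
        simp
      have h2 : ∑ j, (((if j = j0 then (-1:ℤ) else 0 : ℤ)) : ℝ) * (cen σ.V j : ℝ) = -(cen σ.V j0 : ℝ) := by
        simp
      rw [h1, h2]
      have h3 : (cen σ.V j0 : ℝ) < 0 := by exact_mod_cast hneg
      have h4 := (tp_bounds M As i j0).1
      have h5 : 0 ≤ ((n:ℝ) + 1) * σ.s * tp M As i j0 := by positivity
      linarith
    · simp only [hneg, if_false]
      have hj1 : ((n:ℤ) + 1) * σ.s < cen σ.V j0 := by
        rcases hj0 with h | h
        · exact absurd h hneg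
        · exact h
      have h1 : ∑ j, (((if j = j0 then (1:ℤ) else 0 : ℤ)) : ℝ) * tp M As i j = tp M As i j0 := by
        simp
      have h2 : ∑ j, (((if j = j0 then (1:ℤ) else 0 : ℤ)) : ℝ) * (cen σ.V j : ℝ) = (cen σ.V j0 : ℝ) := by
        simp
      rw [h1, h2]
      have h3 : ((n:ℝ) + 1) * σ.s < (cen σ.V j0 : ℝ) := by exact_mod_cast hj1
      have h4 := (tp_bounds M As i j0).2
      have h5 : ((n:ℝ) + 1) * σ.s * tp M As i j0 ≤ ((n:ℝ) + 1) * σ.s * 1 := by gcongr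
      linarith
  | none =>
    simp only
    have hall : ∀ j, 0 ≤ cen σ.V j ∧ cen σ.V j ≤ ((n:ℤ) + 1) * σ.s := by
      intro j
      have := List.find?_eq_none.mp hb j (List.mem_finRange j)
      simp only [decide_eq_true_eq, not_or, not_lt] at this
      exact this
    have h1 := abel_univ f h0 (cen σ.V) (f (newBest f σ)) (((n:ℤ) + 1) * σ.s)
      ((newBest_le f σ).trans h0b) (newBest_le_lev f σ hb) (fun j => (hall j).2)
      (fun j => (hall j).1) (by positivity)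
    have h2 := gy_tp_lt f hf h0 M hM As (cen σ.V) (f (newBest f σ)) hlt i
    have h1' : (f (newBest f σ) : ℝ) * (((n:ℝ) + 1) * σ.s) ≤
        ∑ j, (gy f (cen σ.V) j : ℝ) * (cen σ.V j : ℝ) := by exact_mod_cast h1
    have h3 : ((n:ℝ) + 1) * σ.s * ∑ j, (gy f (cen σ.V) j : ℝ) * tp M As i j <
        ((n:ℝ) + 1) * σ.s * (f (newBest f σ)) := by
      have : (0:ℝ) < ((n:ℝ) + 1) * σ.s := by positivity
      exact mul_lt_mul_of_pos_left h2 this
    linarith

theorem best_anti (f : Finset (Fin n) → ℤ) (σ : St n) (k : ℕ) :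
    ∀ l, k ≤ l → f ((stp f)^[l] σ).best ≤ f ((stp f)^[k] σ).best := by
  intro l hl
  induction l, hl using Nat.le_induction with
  | base => exact le_rfl
  | succ l _ ih =>
    rw [Function.iterate_succ_apply']
    exact (newBest_le f _).trans ih

include hn hf h0 hM in
theorem sfm_inv (N : ℕ) (hlt : f As < f ((stp f)^[N] (st0 n)).best) :
    ∀ k ≤ N, (∀ i, InSimplex (((stp f)^[k] (st0 n)).s : ℝ) (rV ((stp f)^[k] (st0 n)).V) (tp M As i)) ∧
      |(hmat (((stp f)^[k] (st0 n)).s : ℝ) (rV ((stp f)^[k] (st0 n)).V)).det| /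
        (((stp f)^[k] (st0 n)).s : ℝ) ^ (n+1) ≤ Real.exp (-(1 / (64 * (n:ℝ)^2))) ^ k * (n:ℝ)^n := by
  intro k hk
  induction k with
  | zero =>
    constructor
    · intro i
      simpa [st0] using V0_mem hn (tp M As i) (fun j => (tp_bounds M As i j).1)
        (fun j => (tp_bounds M As i j).2)
    · have := V0_det n
      simp only [one_pow, div_one] at this
      simp [st0, this]
  | succ k ih =>
    obtain ⟨ih1, ih2⟩ := ih (by omega)
    set σ := (stp f)^[k] (st0 n) with hσ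
    have hsσ : 0 < σ.s := by
      rw [hσ, iter_s]
      have : (1:ℤ) ≤ n := by exact_mod_cast hn
      positivity
    have hsR : (0:ℝ) < (σ.s : ℝ) := by exact_mod_cast hsσ
    have hb0 : f σ.best ≤ 0 := by
      have := best_anti f (st0 n) 0 k (Nat.zero_le _)
      simpa [st0, h0, hσ] using this
    have hlt' : f As < f (newBest f σ) := by
      have h1 := best_anti f (st0 n) (k+1) N hk
      rw [Function.iterate_succ_apply'] at h1
      exact lt_of_lt_of_le hlt h1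
    have hstep : ∀ i, _ := fun i => step_spec hn (σ.s : ℝ) σ.V (cutg f σ) (tp M As i) (ih1 i)
      (cut_holds hn f hf h0 M hM As σ hsσ hb0 hlt' i)
    have hnot : ¬ ((σ.s : ℝ) ≤ 0) := not_le.mpr hsR
    rw [Function.iterate_succ_apply']
    have hs' : ((stp f σ).s : ℝ) = 64 * (n:ℝ)^3 * σ.s := by simp [stp]
    rw [← hσ, hs']
    constructor
    · intro i
      rcases hstep i with h | h
      · exact h.1
      · exact absurd h hnot
    · rcases hstep 0 with h | h
      · refine h.2.trans ?_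
        rw [pow_succ' (Real.exp (-(1 / (64 * (n:ℝ)^2)))) k, mul_assoc]
        gcongr
      · exact absurd h hnot

include hf h0 hM in
theorem sfmArg_spec : f (sfmArg n M f) ≤ f As := by
  rcases Nat.eq_zero_or_pos n with hn0 | hn
  · subst hn0
    rw [Subsingleton.elim (sfmArg 0 M f) As]
  by_contra hcon
  have hcon := not_le.mp hcon
  obtain ⟨h1, h2⟩ := sfm_inv hn f hf h0 M hM As (sfmIter n M) hcon (sfmIter n M) le_rfl
  set σ := (stp f)^[sfmIter n M] (st0 n) with hσ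
  have hsσ : 0 < σ.s := by
    rw [hσ, iter_s]
    have : (1:ℤ) ≤ n := by exact_mod_cast hn
    positivity
  have hsR : (0:ℝ) < (σ.s : ℝ) := by exact_mod_cast hsσ
  have h3 := det_le_of_inSimplex (σ.s : ℝ) hsR _ _ h1
  have h4 : (hmat 1 (tp M As)).det = (1/(3*(M:ℝ)+1))^n := by
    have := corner_det (fun j => (1 - 1/(3*(M:ℝ)+1)) * (if j ∈ As then (1:ℝ) else 0))
      (1/(3*(M:ℝ)+1))
    exact this
  have hM0 : (0:ℝ) ≤ M := Nat.cast_nonneg M
  have hnR : (1:ℝ) ≤ n := by exact_mod_cast hn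
  rw [h4, abs_of_nonneg (by positivity)] at h3
  have h5 := h3.trans h2
  set c := Nat.clog 2 (n * (3 * M + 1)) with hc
  have h6 : Real.exp (-(1 / (64 * (n:ℝ)^2))) ^ (sfmIter n M) = (Real.exp (-((c:ℝ)+1)))^n := by
    rw [← Real.exp_nat_mul, ← Real.exp_nat_mul]
    congr 1
    unfold sfmIter
    rw [← hc]
    push_cast
    field_simp
  rw [h6] at h5
  have h7 : (n:ℝ) * (3*(M:ℝ)+1) ≤ 2^c := by
    have := Nat.le_pow_clog (by norm_num : 1 < 2) (n * (3 * M + 1))
    rw [← hc] at this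
    exact_mod_cast this
  have h8 : (2:ℝ)^c < Real.exp ((c:ℝ)+1) := by
    have h9 : (2:ℝ)^c ≤ Real.exp (c:ℝ) := by
      rw [← Real.exp_one_rpow, Real.rpow_natCast]
      have : (2:ℝ) ≤ Real.exp 1 := by
        have := Real.add_one_le_exp (1:ℝ); linarith
      gcongr
    refine h9.trans_lt (Real.exp_lt_exp.mpr (by linarith))
  have h10 : 1 ≤ ((n:ℝ) * (3*(M:ℝ)+1) * Real.exp (-((c:ℝ)+1)))^n := by
    have h11 : ((n:ℝ) * (3*(M:ℝ)+1) * Real.exp (-((c:ℝ)+1)))^n =
        (3*(M:ℝ)+1)^n * (Real.exp (-((c:ℝ)+1))^n * (n:ℝ)^n) := by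
      rw [mul_pow, mul_pow]; ring
    rw [h11]
    have h12 : (1:ℝ) = (3*(M:ℝ)+1)^n * (1/(3*(M:ℝ)+1))^n := by
      rw [← mul_pow, mul_one_div_cancel (by positivity), one_pow]
    calc (1:ℝ) = (3*(M:ℝ)+1)^n * (1/(3*(M:ℝ)+1))^n := h12
      _ ≤ _ := by gcongr
  have h13 : (n:ℝ) * (3*(M:ℝ)+1) * Real.exp (-((c:ℝ)+1)) < 1 := by
    rw [Real.exp_neg, mul_inv_lt_iff₀ (Real.exp_pos _)]
    linarith
  have h14 : ((n:ℝ) * (3*(M:ℝ)+1) * Real.exp (-((c:ℝ)+1)))^n < 1 :=
    pow_lt_one₀ (by positivity) h13 (by omega)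
  linarith

end exact

end Crest.Agent.R302.Sfm646
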