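import Mathlib
import Crest.Prelude.Def_Polymatroid
import Crest.Agent.R302.Facet907
import Crest.Agent.R302.Sfm646C
import Crest.Agent.Lib.PT.ArithMore

-- ▼ part R302/EDM1
section

/-!
# R302 / EDM, part 1: the discrete sandwich theorem and integral polymatroid intersection

* `sandwich`: between a supermodular and a submodular integer set function there is an integer modular one.
* `exists_common_ge`: common integer bases above a lower bound `l`.
* `numCommonIntBases_eq_zero_iff`: the emptiness criterion of the row.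
-/

set_option autoImplicit false

namespace Crest.Agent.R302.EDM

open Finset

variable {α : Type*} [DecidableEq α]

/-- submodular on the subsets of `V` -/
def SubOn (V : Finset α) (f : Finset α → ℤ) : Prop :=
  ∀ A B : Finset α, A ⊆ V → B ⊆ V → f (A ∪ B) + f (A ∩ B) ≤ f A + f B

/-- supermodular on the subsets of `V` -/
def SupOn (V : Finset α) (g : Finset α → ℤ) : Prop :=
  ∀ A B : Finset α, A ⊆ V → B ⊆ V → g A + g B ≤ g (A ∪ B) + g (A ∩ B)

theorem SubOn.project {V : Finset α} {f : Finset α → ℤ} {v : α} (hv : v ∉ V)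
    (hf : SubOn (insert v V) f) (t : ℤ) :
    SubOn V (fun A => min (f A) (f (insert v A) - t)) := by
  intro A B hA hB
  have hA' : A ⊆ insert v V := hA.trans (subset_insert v V)
  have hB' : B ⊆ insert v V := hB.trans (subset_insert v V)
  have hvA : v ∉ A := fun h => hv (hA h)
  have hvB : v ∉ B := fun h => hv (hB h)
  have hA2 : insert v A ⊆ insert v V := insert_subset_insert v hA
  have hB2 : insert v B ⊆ insert v V := insert_subset_insert v hB
  have h1 := hf A B hA' hB'
  have h2 := hf (insert v A) (insert v B) hA2 hB2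
  have h3 := hf A (insert v B) hA' hB2
  have h4 := hf (insert v A) B hA2 hB'
  rw [show insert v A ∪ insert v B = insert v (A ∪ B) by ext x; simp only [mem_union, mem_insert]; tauto,
    show insert v A ∩ insert v B = insert v (A ∩ B) by
      ext x; simp only [mem_inter, mem_insert]; tauto] at h2
  rw [show A ∪ insert v B = insert v (A ∪ B) by ext x; simp only [mem_union, mem_insert]; tauto,
    show A ∩ insert v B = A ∩ B by
      ext x
      simp only [mem_inter, mem_insert]
      constructor
      · rintro ⟨h, rfl | h'⟩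
        · exact absurd h hvA
        · exact ⟨h, h'⟩
      · rintro ⟨h, h'⟩; exact ⟨h, Or.inr h'⟩] at h3
  rw [show insert v A ∪ B = insert v (A ∪ B) by
      ext x; simp only [mem_union, mem_insert]; tauto,
    show insert v A ∩ B = A ∩ B by
      ext x
      simp only [mem_inter, mem_insert]
      constructor
      · rintro ⟨rfl | h, h'⟩
        · exact absurd h' hvB
        · exact ⟨h, h'⟩
      · rintro ⟨h, h'⟩; exact ⟨Or.inr h, h'⟩] at h4
  have a1 := min_le_left (f (A ∪ B)) (f (insert v (A ∪ B)) - t)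
  have a2 := min_le_right (f (A ∪ B)) (f (insert v (A ∪ B)) - t)
  have a3 := min_le_left (f (A ∩ B)) (f (insert v (A ∩ B)) - t)
  have a4 := min_le_right (f (A ∩ B)) (f (insert v (A ∩ B)) - t)
  show min (f (A ∪ B)) (f (insert v (A ∪ B)) - t) + min (f (A ∩ B)) (f (insert v (A ∩ B)) - t) ≤
    min (f A) (f (insert v A) - t) + min (f B) (f (insert v B) - t)
  rcases min_choice (f A) (f (insert v A) - t) with e1 | e1 <;>
    rcases min_choice (f B) (f (insert v B) - t) with e2 | e2 <;> rw [e1, e2] <;> linarith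

theorem SubOn.neg {V : Finset α} {f : Finset α → ℤ} (hf : SubOn V f) :
    SupOn V (fun A => -f A) := fun A B hA hB => by
  have := hf A B hA hB
  show -f A + -f B ≤ -f (A ∪ B) + -f (A ∩ B)
  linarith

theorem SupOn.neg {V : Finset α} {f : Finset α → ℤ} (hf : SupOn V f) :
    SubOn V (fun A => -f A) := fun A B hA hB => by
  have := hf A B hA hB
  show -f (A ∪ B) + -f (A ∩ B) ≤ -f A + -f B
  linarith

theorem SupOn.project {V : Finset α} {g : Finset α → ℤ} {v : α} (hv : v ∉ V)
    (hg : SupOn (insert v V) g) (t : ℤ) :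
    SupOn V (fun A => max (g A) (g (insert v A) - t)) := by
  have h := (SubOn.project hv hg.neg (-t)).neg
  intro A B hA hB
  have := h A B hA hB
  have e : ∀ x y : ℤ, -min (-x) (-y - -t) = max x (y - t) := fun x y => by
    rw [show -y - -t = -(y - t) by ring, ← max_neg_neg, neg_neg, neg_neg]
  simpa only [e] using this

/-- **the discrete sandwich theorem** -/
theorem sandwich (V : Finset α) : ∀ (f g : Finset α → ℤ), SubOn V f → SupOn V g → f ∅ = 0 →
    g ∅ = 0 → (∀ A ⊆ V, g A ≤ f A) →
    ∃ m : α → ℤ, ∀ A ⊆ V, g A ≤ ∑ a ∈ A, m a ∧ ∑ a ∈ A, m a ≤ f A := by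
  induction V using Finset.induction_on with
  | empty =>
    intro f g hf hg f0 g0 h
    refine ⟨fun _ => 0, fun A hA => ?_⟩
    rw [subset_empty.1 hA]
    simp [f0, g0]
  | insert v V hv ih =>
    intro f g hf hg f0 g0 h
    -- choose `t`
    have hne : (V.powerset).Nonempty := ⟨∅, empty_mem_powerset V⟩
    obtain ⟨A₀, hA₀, ht⟩ := Finset.exists_mem_eq_inf' hne fun A => f (insert v A) - g A
    set t : ℤ := V.powerset.inf' hne fun A => f (insert v A) - g A with htdef
    have t1 : ∀ A ⊆ V, t ≤ f (insert v A) - g A := fun A hA =>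
      Finset.inf'_le (f := fun A => f (insert v A) - g A) (mem_powerset.2 hA)
    have t2 : ∀ A ⊆ V, g (insert v A) - f A ≤ t := by
      intro A hA
      rw [ht]
      have hA₀' := mem_powerset.1 hA₀
      have hvA : v ∉ A := fun h => hv (hA h)
      have hvA0 : v ∉ A₀ := fun h => hv (hA₀' h)
      have a1 := hg (insert v A) A₀ (insert_subset_insert v hA) (hA₀'.trans (subset_insert v V))
      have a2 := hf A (insert v A₀) (hA.trans (subset_insert v V)) (insert_subset_insert v hA₀')
      have e1 : insert v A ∪ A₀ = A ∪ insert v A₀ := by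
        ext x; simp only [mem_union, mem_insert]; tauto
      have e2 : insert v A ∩ A₀ = A ∩ insert v A₀ := by
        ext x
        simp only [mem_inter, mem_insert]
        constructor
        · rintro ⟨rfl | hx, hx'⟩
          · exact absurd hx' hvA0
          · exact ⟨hx, Or.inr hx'⟩
        · rintro ⟨hx, rfl | hx'⟩
          · exact absurd hx hvA
          · exact ⟨Or.inr hx, hx'⟩
      rw [e1, e2] at a1
      have b1 := h (A ∪ insert v A₀)
        (union_subset (hA.trans (subset_insert v V)) (insert_subset_insert v hA₀'))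
      have b2 := h (A ∩ insert v A₀)
        (inter_subset_left.trans (hA.trans (subset_insert v V)))
      show g (insert v A) - f A ≤ f (insert v A₀) - g A₀
      linarith
    obtain ⟨m, hm⟩ := ih (fun A => min (f A) (f (insert v A) - t))
      (fun A => max (g A) (g (insert v A) - t)) (hf.project hv t) (hg.project hv t)
      (by
        have := t1 ∅ (empty_subset V)
        have h2 : t ≤ f {v} := by simpa [g0] using this
        show min (f ∅) (f (insert v ∅) - t) = 0
        rw [f0, min_eq_left]
        simpa using h2)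
      (by
        have := t2 ∅ (empty_subset V)
        have h2 : g {v} ≤ t := by simpa [f0] using this
        show max (g ∅) (g (insert v ∅) - t) = 0
        rw [g0, max_eq_left]
        simpa using h2)
      (by
        intro A hA
        have c1 := h A (hA.trans (subset_insert v V))
        have c2 := h (insert v A) (insert_subset_insert v hA)
        have c3 := t1 A hA
        have c4 := t2 A hA
        refine max_le (le_min c1 (by linarith)) (le_min (by linarith) (by linarith)))
    refine ⟨Function.update m v t, fun A hA => ?_⟩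
    by_cases hvA : v ∈ A
    · have hA' : A.erase v ⊆ V := by
        intro x hx
        rcases mem_insert.1 (hA (mem_of_mem_erase hx)) with e | e
        · exact absurd e (ne_of_mem_erase hx)
        · exact e
      have hsum : ∑ a ∈ A, Function.update m v t a = t + ∑ a ∈ A.erase v, m a := by
        rw [← Finset.add_sum_erase A _ hvA, Function.update_self]
        congr 1
        exact Finset.sum_congr rfl fun x hx => Function.update_of_ne (ne_of_mem_erase hx) _ _
      obtain ⟨h1, h2⟩ := hm (A.erase v) hA'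
      have h3 := le_max_right (g (A.erase v)) (g (insert v (A.erase v)) - t)
      have h4 := min_le_right (f (A.erase v)) (f (insert v (A.erase v)) - t)
      rw [insert_erase hvA] at h3 h4 h1 h2
      rw [hsum]
      constructor
      · have := h3.trans h1; linarith
      · have := h2.trans h4; linarith
    · have hA' : A ⊆ V := by
        intro x hx
        rcases mem_insert.1 (hA hx) with e | e
        · subst e; exact absurd hx hvA
        · exact e
      have hsum : ∑ a ∈ A, Function.update m v t a = ∑ a ∈ A, m a :=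
        Finset.sum_congr rfl fun x hx =>
          Function.update_of_ne (by rintro rfl; exact hvA hx) _ _
      obtain ⟨h1, h2⟩ := hm A hA'
      rw [hsum]
      exact ⟨(le_max_left _ _).trans h1, h2.trans (min_le_left _ _)⟩

/-! ### closures -/

variable [Fintype α]







/-! ### the row's statement -/

open Crest.Polymatroid

variable {n : ℕ}


/-- integer bases as integer vectors -/
def IsBaseVec (R : ℕ) (r₁ r₂ : Finset (Fin n) → ℕ) (x : Fin n → ℕ) : Prop :=
  ∑ j, x j = R ∧ ∀ A : Finset (Fin n), ∑ j ∈ A, x j ≤ r₁ A ∧ ∑ j ∈ A, x j ≤ r₂ A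




end Crest.Agent.R302.EDM
end

-- ▼ part R302/EDM2
section

/-!
# R302 / EDM, part 2: membership, exchange capacities, emptiness, feasibility above a lower bound
by exact submodular minimisation
-/

set_option autoImplicit false

namespace Crest.Agent.R302.EDM

open Finset Crest.Agent.R302.Facet Crest.Agent.R302.Sfm646

variable {n : ℕ}

/-- `∑ |x j|` -/
def nrm (x : Fin n → ℤ) : ℕ := ∑ j, (x j).natAbs

theorem abs_sum_le_nrm (x : Fin n → ℤ) (A : Finset (Fin n)) : |∑ j ∈ A, x j| ≤ nrm x := by
  calc |∑ j ∈ A, x j| ≤ ∑ j ∈ A, |x j| := Finset.abs_sum_le_sum_abs _ _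
    _ ≤ ∑ j, |x j| := Finset.sum_le_sum_of_subset_of_nonneg (subset_univ _)
        fun _ _ _ => abs_nonneg _
    _ = nrm x := by unfold nrm; push_cast; simp

/-- minimum of `r A - x(A)`; `K` bounds `|r|` -/
def minSlk (n K : ℕ) (r : Finset (Fin n) → ℤ) (x : Fin n → ℤ) : ℤ :=
  sfmMin n (K + nrm x) (fun A => r A - ∑ j ∈ A, x j)

theorem slk_submod {r : Finset (Fin n) → ℤ}
    (hr : ∀ A B, r (A ∪ B) + r (A ∩ B) ≤ r A + r B) (x : Fin n → ℤ) :
    ∀ A B : Finset (Fin n), (fun A => r A - ∑ j ∈ A, x j) (A ∪ B) +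
      (fun A => r A - ∑ j ∈ A, x j) (A ∩ B) ≤ (fun A => r A - ∑ j ∈ A, x j) A +
        (fun A => r A - ∑ j ∈ A, x j) B := by
  intro A B
  have h1 := hr A B
  have h2 := Finset.sum_union_inter (s₁ := A) (s₂ := B) (f := x)
  show r (A ∪ B) - ∑ j ∈ A ∪ B, x j + (r (A ∩ B) - ∑ j ∈ A ∩ B, x j) ≤
    r A - ∑ j ∈ A, x j + (r B - ∑ j ∈ B, x j)
  linarith

theorem slk_abs {r : Finset (Fin n) → ℤ} {K : ℕ} (hK : ∀ A, |r A| ≤ K) (x : Fin n → ℤ)
    (A : Finset (Fin n)) : |r A - ∑ j ∈ A, x j| ≤ ((K + nrm x : ℕ) : ℤ) := by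
  have h1 := hK A
  have h2 := abs_sum_le_nrm x A
  push_cast
  calc |r A - ∑ j ∈ A, x j| ≤ |r A| + |∑ j ∈ A, x j| := abs_sub _ _
    _ ≤ K + nrm x := add_le_add h1 h2

theorem minSlk_le {r : Finset (Fin n) → ℤ} {K : ℕ} {R : ℤ} (hr : SubM r R)
    (hK : ∀ A, |r A| ≤ K) (x : Fin n → ℤ) (A : Finset (Fin n)) :
    minSlk n K r x ≤ r A - ∑ j ∈ A, x j :=
  sfmArg_spec (n := n) (fun A => r A - ∑ j ∈ A, x j) (slk_submod hr.sub x) (by simp [hr.empty])
    (K + nrm x) (slk_abs hK x) A

theorem exists_minSlk (r : Finset (Fin n) → ℤ) (K : ℕ) (x : Fin n → ℤ) :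
    ∃ A : Finset (Fin n), minSlk n K r x = r A - ∑ j ∈ A, x j := ⟨_, rfl⟩

/-- membership of an integer vector in the base polytope -/
def memQ (n K : ℕ) (r : Finset (Fin n) → ℤ) (R : ℤ) (x : Fin n → ℤ) : Bool :=
  decide (∑ j, x j = R) && decide (0 ≤ minSlk n K r x)

theorem memQ_iff {r : Finset (Fin n) → ℤ} {K : ℕ} {R : ℤ} (hr : SubM r R)
    (hK : ∀ A, |r A| ≤ K) (x : Fin n → ℤ) : memQ n K r R x = true ↔ MemJ r R x := by
  unfold memQ MemJ
  rw [Bool.and_eq_true, decide_eq_true_eq, decide_eq_true_eq]
  constructor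
  · rintro ⟨h1, h2⟩
    refine ⟨fun A => ?_, h1⟩
    have := minSlk_le hr hK x A
    linarith
  · rintro ⟨h1, h2⟩
    refine ⟨h2, ?_⟩
    obtain ⟨A, hA⟩ := exists_minSlk r K x
    rw [hA]
    linarith [h1 A]

/-! ### constrained minimisation -/

/-- minimiser of `f` over the sets `A` with `I ⊆ A`, `A` disjoint from `O` -/
def minIn (n M : ℕ) (I O : Finset (Fin n)) (f : Finset (Fin n) → ℤ) : Finset (Fin n) :=
  (sfmArg n (2 * M) (fun A => f ((A \ O) ∪ I) - f I)) \ O ∪ I

theorem minIn_mem (M : ℕ) {I O : Finset (Fin n)} (hIO : Disjoint I O)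
    (f : Finset (Fin n) → ℤ) :
    I ⊆ minIn n M I O f ∧ Disjoint (minIn n M I O f) O := by
  unfold minIn
  refine ⟨subset_union_right, ?_⟩
  rw [disjoint_union_left]
  exact ⟨sdiff_disjoint, hIO⟩

theorem minIn_spec {M : ℕ} {I O : Finset (Fin n)}
    {f : Finset (Fin n) → ℤ} (hf : ∀ A B, f (A ∪ B) + f (A ∩ B) ≤ f A + f B)
    (hM : ∀ A, |f A| ≤ M) {A : Finset (Fin n)} (hI : I ⊆ A) (hO : Disjoint A O) :
    f (minIn n M I O f) ≤ f A := by
  have h := sfmArg_spec (n := n) (fun A => f ((A \ O) ∪ I) - f I)
    (fun A B => by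
      have := hf (A \ O ∪ I) (B \ O ∪ I)
      have e1 : (A \ O ∪ I) ∪ (B \ O ∪ I) = (A ∪ B) \ O ∪ I := by
        ext x; simp only [mem_union, mem_sdiff]; tauto
      have e2 : (A \ O ∪ I) ∩ (B \ O ∪ I) = (A ∩ B) \ O ∪ I := by
        ext x; simp only [mem_union, mem_sdiff, mem_inter]; tauto
      rw [e1, e2] at this
      show f ((A ∪ B) \ O ∪ I) - f I + (f ((A ∩ B) \ O ∪ I) - f I) ≤
        f (A \ O ∪ I) - f I + (f (B \ O ∪ I) - f I)
      linarith)
    (by simp) (2 * M) (fun A => by
      have h1 := abs_le.1 (hM (A \ O ∪ I))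
      have h2 := abs_le.1 (hM I)
      push_cast
      rw [abs_le]
      constructor <;> linarith [h1.1, h1.2, h2.1, h2.2]) A
  have e : A \ O ∪ I = A := by
    rw [sdiff_eq_self_of_disjoint hO, union_eq_left.2 hI]
  rw [e] at h
  unfold minIn
  linarith

/-- exchange capacity by constrained minimisation -/
def capQ (n K : ℕ) (r : Finset (Fin n) → ℤ) (x : Fin n → ℤ) (a b : Fin n) : ℤ :=
  slk r x (minIn n (K + nrm x) {a} {b} (slk r x))

theorem capQ_eq {r : Finset (Fin n) → ℤ} {K : ℕ} {R : ℤ} (hr : SubM r R) (hK : ∀ A, |r A| ≤ K)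
    (x : Fin n → ℤ) {a b : Fin n} (hab : a ≠ b) : capQ n K r x a b = cap r x a b := by
  have hd : Disjoint ({a} : Finset (Fin n)) {b} := by
    rw [disjoint_singleton]; exact hab
  refine le_antisymm ?_ ?_
  · obtain ⟨A, hA1, hA2, hA⟩ := exists_cap (r := r) (x := x) hab
    rw [← hA]
    exact minIn_spec (slk_submod hr.sub x) (slk_abs hK x) (singleton_subset_iff.2 hA1)
      (disjoint_singleton_right.2 hA2)
  · obtain ⟨h1, h2⟩ := minIn_mem (n := n) (K + nrm x) hd (slk r x)
    exact cap_le (singleton_subset_iff.1 h1) (disjoint_singleton_right.1 h2)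

/-! ### emptiness -/


theorem compl_submod {r : Finset (Fin n) → ℤ} (hr : ∀ A B, r (A ∪ B) + r (A ∩ B) ≤ r A + r B)
    (A B : Finset (Fin n)) : r (A ∪ B)ᶜ + r (A ∩ B)ᶜ ≤ r Aᶜ + r Bᶜ := by
  have := hr Aᶜ Bᶜ
  rw [← compl_inter, ← compl_union] at this
  linarith



/-! ### feasibility above a lower bound: doubled ground set -/

/-- first half of a subset of `Fin (n + n)` -/
def fstH (A : Finset (Fin (n + n))) : Finset (Fin n) := univ.filter fun i => Fin.castAdd n i ∈ A

/-- second half of a subset of `Fin (n + n)` -/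
def sndH (A : Finset (Fin (n + n))) : Finset (Fin n) := univ.filter fun i => Fin.natAdd n i ∈ A

theorem fstH_union (A B : Finset (Fin (n + n))) : fstH (A ∪ B) = fstH A ∪ fstH B := by
  ext i; simp [fstH]
theorem fstH_inter (A B : Finset (Fin (n + n))) : fstH (A ∩ B) = fstH A ∩ fstH B := by
  ext i; simp [fstH]
theorem sndH_union (A B : Finset (Fin (n + n))) : sndH (A ∪ B) = sndH A ∪ sndH B := by
  ext i; simp [sndH]
theorem sndH_inter (A B : Finset (Fin (n + n))) : sndH (A ∩ B) = sndH A ∩ sndH B := by
  ext i; simp [sndH]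





/-- the subset of `Fin (n + n)` with given halves -/
def mkH (X Y : Finset (Fin n)) : Finset (Fin (n + n)) :=
  X.image (Fin.castAdd n) ∪ Y.image (Fin.natAdd n)

theorem fstH_mkH (X Y : Finset (Fin n)) : fstH (mkH X Y) = X := by
  ext i
  simp only [fstH, mkH, mem_filter, mem_univ, true_and, mem_union, mem_image]
  constructor
  · rintro (⟨j, hj, e⟩ | ⟨j, hj, e⟩)
    · rwa [← Fin.castAdd_injective n n e]
    · have := congrArg Fin.val e
      simp only [Fin.val_natAdd, Fin.val_castAdd] at this
      omega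
  · intro h; exact Or.inl ⟨i, h, rfl⟩
theorem sndH_mkH (X Y : Finset (Fin n)) : sndH (mkH X Y) = Y := by
  ext i
  simp only [sndH, mkH, mem_filter, mem_univ, true_and, mem_union, mem_image]
  constructor
  · rintro (⟨j, hj, e⟩ | ⟨j, hj, e⟩)
    · have := congrArg Fin.val e
      simp only [Fin.val_natAdd, Fin.val_castAdd] at this
      omega
    · have := congrArg Fin.val e
      simp only [Fin.val_natAdd] at this
      have h2 : j = i := Fin.ext (by omega)
      rwa [← h2]
  · intro h; exact Or.inr ⟨i, h, rfl⟩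


end Crest.Agent.R302.EDM
end

-- ▼ part R302/EDM3

/-!
# R302 / EDM, part 3: finding a common base by coordinatewise bisection
-/

set_option autoImplicit false

namespace Crest.Agent.R302.EDM

open Finset Crest.Agent.R302.Facet Crest.Agent.R302.Sfm646 Crest.Agent.Lib.PT.Arith

/-- the largest `t < 2 ^ K` with `Q t` (for `Q` an initial segment) -/
def bsMax (K : ℕ) (Q : ℕ → Bool) : ℕ := ((bsStep Q)^[K] (2 ^ K, 0)).2

theorem bsMax_eq {F K : ℕ} {Q : ℕ → Bool} (hQ : ∀ m, m < 2 ^ K → (Q m = true ↔ m ≤ F))
    (hF : F < 2 ^ K) : bsMax K Q = F := by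
  unfold bsMax
  rw [bsStep_iter F K Q hQ hF K le_rfl]
  simp

variable {n : ℕ}

/-- one coordinate -/
def findStep (K : ℕ) (P : (Fin n → ℤ) → Bool) (l : Fin n → ℤ) (j : Fin n) : Fin n → ℤ :=
  Function.update l j (bsMax K fun t => P (Function.update l j (t : ℤ)))

/-- coordinatewise maximal lower bound -/
def findVec (K : ℕ) (P : (Fin n → ℤ) → Bool) : Fin n → ℤ :=
  (List.finRange n).foldl (findStep K P) fun _ => 0

/-- **the finder**: `P l` decides whether some vector of `B` is `≥ l`. -/
theorem findVec_spec {K : ℕ} {P : (Fin n → ℤ) → Bool} {B : (Fin n → ℤ) → Prop}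
    (hP : ∀ l, P l = true ↔ ∃ x, (∀ i, l i ≤ x i) ∧ B x)
    (hB : ∀ x, B x → ∀ i, x i < 2 ^ K) (h0 : P (fun _ => 0) = true) : B (findVec K P) := by
  classical
  have anti : ∀ l l' : Fin n → ℤ, (∀ i, l i ≤ l' i) → P l' = true → P l = true := by
    intro l l' h h'
    obtain ⟨x, hx, hb⟩ := (hP l').1 h'
    exact (hP l).2 ⟨x, fun i => (h i).trans (hx i), hb⟩
  -- one step
  have stepS : ∀ (l : Fin n → ℤ) (j : Fin n), P l = true → l j = 0 →
      P (findStep K P l j) = true ∧ (∀ x, B x → (∀ i, findStep K P l j i ≤ x i) →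
        x j = findStep K P l j j) := by
    intro l j hl hj
    have hex : ∃ F : ℕ, F < 2 ^ K ∧ ∀ m : ℕ, m < 2 ^ K →
        (P (Function.update l j (m : ℤ)) = true ↔ m ≤ F) := by
      set S := (Finset.range (2 ^ K)).filter fun m : ℕ =>
        P (Function.update l j (m : ℤ)) = true with hS
      have hS0 : (0 : ℕ) ∈ S := by
        rw [hS, mem_filter, Finset.mem_range]
        refine ⟨by positivity, ?_⟩
        rw [Nat.cast_zero, ← hj, Function.update_eq_self]
        exact hl
      refine ⟨S.max' ⟨0, hS0⟩, ?_, fun m hm => ⟨fun h => ?_, fun h => ?_⟩⟩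
      · have := Finset.mem_filter.1 (S.max'_mem ⟨0, hS0⟩)
        exact Finset.mem_range.1 this.1
      · exact S.le_max' m (by rw [hS, mem_filter, Finset.mem_range]; exact ⟨hm, h⟩)
      · have h2 := Finset.mem_filter.1 (S.max'_mem ⟨0, hS0⟩)
        refine anti _ _ (fun i => ?_) h2.2
        by_cases hi : i = j
        · subst hi
          rw [Function.update_self, Function.update_self]
          exact_mod_cast h
        · rw [Function.update_of_ne hi, Function.update_of_ne hi]
    obtain ⟨F, hF, hF2⟩ := hex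
    have hb : bsMax K (fun t => P (Function.update l j (t : ℤ))) = F := bsMax_eq hF2 hF
    unfold findStep
    rw [hb]
    refine ⟨(hF2 F hF).2 le_rfl, fun x hx hle => ?_⟩
    rw [Function.update_self]
    have h1 := hle j
    rw [Function.update_self] at h1
    by_contra hne
    have h2 : (F : ℤ) + 1 ≤ x j := by omega
    have h3 : F + 1 < 2 ^ K := by
      have := hB x hx j
      have h4 : ((F + 1 : ℕ) : ℤ) < 2 ^ K := by push_cast; linarith
      exact_mod_cast h4
    have h5 : P (Function.update l j ((F + 1 : ℕ) : ℤ)) = true := by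
      refine (hP _).2 ⟨x, fun i => ?_, hx⟩
      by_cases hi : i = j
      · subst hi
        rw [Function.update_self]
        push_cast
        exact h2
      · have := hle i
        rw [Function.update_of_ne hi] at this ⊢
        exact this
    have := (hF2 _ h3).1 h5
    omega
  -- the whole fold
  have fold : ∀ (L : List (Fin n)) (l : Fin n → ℤ) (D : Finset (Fin n)), L.Nodup →
      (∀ j ∈ L, j ∉ D) → P l = true → (∀ j, j ∉ D → l j = 0) →
      (∀ x, B x → (∀ i, l i ≤ x i) → ∀ i ∈ D, x i = l i) →
      P (L.foldl (findStep K P) l) = true ∧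
        ∀ x, B x → (∀ i, L.foldl (findStep K P) l i ≤ x i) →
          ∀ i, i ∈ D ∨ i ∈ L → x i = L.foldl (findStep K P) l i := by
    intro L
    induction L with
    | nil =>
      intro l D _ _ hl _ hD
      refine ⟨hl, fun x hx hle i hi => ?_⟩
      rcases hi with hi | hi
      · exact hD x hx hle i hi
      · simp at hi
    | cons j L ih =>
      intro l D hnd hdis hl hz hD
      obtain ⟨s1, s2⟩ := stepS l j hl (hz j (hdis j (by simp)))
      have hle0 : ∀ i, l i ≤ findStep K P l j i := by
        intro i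
        unfold findStep
        by_cases hi : i = j
        · subst hi
          rw [Function.update_self, hz i (hdis i (by simp))]
          positivity
        · rw [Function.update_of_ne hi]
      have heq : ∀ i, i ≠ j → findStep K P l j i = l i := fun i hi => by
        unfold findStep; rw [Function.update_of_ne hi]
      obtain ⟨r1, r2⟩ := ih (findStep K P l j) (insert j D) (List.nodup_cons.1 hnd).2
        (fun k hk hk' => by
          rcases mem_insert.1 hk' with rfl | hk'
          · exact (List.nodup_cons.1 hnd).1 hk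
          · exact hdis k (List.mem_cons_of_mem _ hk) hk') s1
        (fun k hk => by
          rw [mem_insert, not_or] at hk
          rw [heq k hk.1]; exact hz k hk.2)
        (fun x hx hle i hi => by
          rcases mem_insert.1 hi with rfl | hi'
          · exact s2 x hx hle
          · have hij : i ≠ j := by
              rintro rfl; exact hdis i (by simp) hi'
            rw [heq i hij]
            exact hD x hx (fun k => (hle0 k).trans (hle k)) i hi')
      refine ⟨r1, fun x hx hle i hi => r2 x hx hle i ?_⟩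
      rcases hi with hi | hi
      · exact Or.inl (mem_insert_of_mem hi)
      · rcases List.mem_cons.1 hi with rfl | hi
        · exact Or.inl (mem_insert_self _ _)
        · exact Or.inr hi
  obtain ⟨r1, r2⟩ := fold (List.finRange n) (fun _ => 0) ∅ (List.nodup_finRange n)
    (fun _ _ => notMem_empty _) h0 (fun _ _ => rfl) (fun _ _ _ i hi => absurd hi (notMem_empty i))
  obtain ⟨x, hx, hb⟩ := (hP _).1 r1
  have : findVec K P = x := by
    funext i
    exact (r2 x hb hx i (Or.inr (List.mem_finRange i))).symm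
  rw [this]
  exact hb



/-! ### the row's data -/

open Crest.Polymatroid

/-- the rank function with integer values -/
def zr (r : Finset (Fin n) → ℕ) : Finset (Fin n) → ℤ := fun A => (r A : ℤ)

theorem zr_subM {r : Finset (Fin n) → ℕ} (h : IsPolymatroidRank r) {R : ℕ}
    (hR : r univ = R) : SubM (zr r) R :=
  ⟨fun A B => by
    have := h.2.2 A B
    show (r (A ∪ B) : ℤ) + (r (A ∩ B) : ℤ) ≤ r A + r B
    exact_mod_cast this, by simp [zr, h.1], by simp [zr, hR]⟩

theorem zr_abs {r : Finset (Fin n) → ℕ} (h : IsPolymatroidRank r) {R : ℕ}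
    (hR : r univ = R) (A : Finset (Fin n)) : |zr r A| ≤ R := by
  have := h.2.1 A univ (subset_univ _)
  rw [hR] at this
  unfold zr
  rw [abs_of_nonneg (by positivity)]
  exact_mod_cast this


theorem memJ_iff_isBaseVec {R : ℕ} {r₁ r₂ : Finset (Fin n) → ℕ} (x : Fin n → ℕ) :
    (MemJ (zr r₁) R (fun i => (x i : ℤ)) ∧ MemJ (zr r₂) R (fun i => (x i : ℤ))) ↔
      IsBaseVec R r₁ r₂ x := by
  unfold MemJ IsBaseVec zr
  simp only
  constructor
  · rintro ⟨⟨h1, h2⟩, h3, _⟩
    refine ⟨by exact_mod_cast h2, fun A => ⟨?_, ?_⟩⟩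
    · have := h1 A
      exact_mod_cast this
    · have := h3 A
      exact_mod_cast this
  · rintro ⟨h1, h2⟩
    refine ⟨⟨fun A => ?_, by exact_mod_cast h1⟩, fun A => ?_, by exact_mod_cast h1⟩
    · have := (h2 A).1
      exact_mod_cast this
    · have := (h2 A).2
      exact_mod_cast this




end Crest.Agent.R302.EDM
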