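import Crest.Agent.R302.Sfm646C
import Crest.Agent.R309.PTSolve
import Crest.Agent.R302.ORAM.OPTF
import Crest.Agent.R302.EDMBox

-- ▼ part R302/SfmL646
section

/-! List-level version of the cutting-simplices algorithm (for the program). -/

set_option autoImplicit false

namespace Crest.Agent.R302.Sfm646

open Finset

/-- matrix entry -/
def G2 (V : List (List ℤ)) (i j : ℕ) : ℤ := (V.getD i []).getD j 0

def cenL (n : ℕ) (V : List (List ℤ)) : List ℤ :=
  (List.range n).map fun j => ∑ i ∈ Finset.range (n+1), G2 V i j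

def ellL (n : ℕ) (g : List ℤ) (V : List (List ℤ)) (c : List ℤ) : List ℤ :=
  (List.range (n+1)).map fun i =>
    ∑ j ∈ Finset.range n, g.getD j 0 * (((n:ℤ) + 1) * G2 V i j - c.getD j 0)

def argmL (n : ℕ) (ℓ : List ℤ) : ℕ :=
  (List.range (n+1)).foldl (fun b i => if ℓ.getD i 0 < ℓ.getD b 0 then i else b) 0

def KcL (n : ℕ) (L l : ℤ) : ℤ :=
  cdiv (64 * (n:ℤ)^3 * (8 * (n:ℤ)^2 * L)) (8 * (n:ℤ)^2 * L + l)

def stepVL (n : ℕ) (V : List (List ℤ)) (g : List ℤ) (c : List ℤ) : List (List ℤ) :=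
  let ℓ := ellL n g V c
  let m := argmL n ℓ
  let L := - ℓ.getD m 0
  (List.range (n+1)).map fun i =>
    (List.range n).map fun j =>
      if i = m then 64 * (n:ℤ)^3 * G2 V m j
      else KcL n L (ℓ.getD i 0) * G2 V i j + (64 * (n:ℤ)^3 - KcL n L (ℓ.getD i 0)) * G2 V m j

def badL (n : ℕ) (s : ℤ) (c : List ℤ) : Option ℕ :=
  (List.range n).find? fun j => decide (c.getD j 0 < 0 ∨ ((n:ℤ) + 1) * s < c.getD j 0)

def levL (n : ℕ) (c : List ℤ) (j : ℕ) : List Bool :=
  (List.range n).map fun i =>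
    decide (c.getD j 0 < c.getD i 0 ∨ (c.getD i 0 = c.getD j 0 ∧ i ≤ j))

def levEL (n : ℕ) (c : List ℤ) (j : ℕ) : List Bool :=
  (List.range n).map fun i =>
    decide (i ≠ j ∧ (c.getD j 0 < c.getD i 0 ∨ (c.getD i 0 = c.getD j 0 ∧ i ≤ j)))

/-- the queries of one step -/
def qL (n : ℕ) (c : List ℤ) : List (List Bool) :=
  (List.range n).map (levL n c) ++ (List.range n).map (levEL n c)

def gyL (n : ℕ) (A : List ℤ) : List ℤ :=
  (List.range n).map fun j => A.getD j 0 - A.getD (n + j) 0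

def cutL (n : ℕ) (s : ℤ) (c : List ℤ) (A : List ℤ) : List ℤ :=
  match badL n s c with
  | some j0 => (List.range n).map fun j => if j = j0 then (if c.getD j0 0 < 0 then -1 else 1) else 0
  | none => gyL n A

def bestStep (n : ℕ) (c : List ℤ) (A : List ℤ) (bv : List Bool × ℤ) (j : ℕ) : List Bool × ℤ :=
  if A.getD j 0 < bv.2 then (levL n c j, A.getD j 0) else bv

def newBestL (n : ℕ) (s : ℤ) (c : List ℤ) (A : List ℤ) (bv : List Bool × ℤ) : List Bool × ℤ :=
  match badL n s c with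
  | some _ => bv
  | none => (List.range n).foldl (bestStep n c A) bv

/-- coded state -/
abbrev LSt := (List (List ℤ) × ℤ) × (List Bool × ℤ)

/-- queries of a state -/
def sfmQ (n : ℕ) (σ : LSt) : List (List Bool) := qL n (cenL n σ.1.1)

/-- new state from the answers -/
def sfmU (n : ℕ) (σ : LSt) (A : List ℤ) : LSt :=
  ((stepVL n σ.1.1 (cutL n σ.1.2 (cenL n σ.1.1) A) (cenL n σ.1.1), 64 * (n:ℤ)^3 * σ.1.2),
    newBestL n σ.1.2 (cenL n σ.1.1) A σ.2)

/-- initial state -/
def sfm0 (n : ℕ) : LSt :=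
  (((List.range (n+1)).map fun i => (List.range n).map fun j => if i = j + 1 then (n:ℤ) else 0, 1),
    ((List.range n).map fun _ => false, 0))

/-! ### correspondence -/

variable {n : ℕ}

/-- bits of a set -/
def bitsOf (A : Finset (Fin n)) : List Bool := List.ofFn fun i => decide (i ∈ A)



def VL (V : Fin (n+1) → Fin n → ℤ) : List (List ℤ) := List.ofFn fun i => List.ofFn (V i)

theorem range_map_eq_ofFn {α : Type*} (k : ℕ) (F : ℕ → α) (G : Fin k → α) (h : ∀ i : Fin k, F i = G i) :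
    (List.range k).map F = List.ofFn G := by
  apply List.ext_getElem
  · simp
  · intro i h1 h2
    simp only [List.getElem_map, List.getElem_range, List.getElem_ofFn]
    exact h ⟨i, by simpa using h1⟩

theorem getD_ofFn {α : Type*} {k : ℕ} (G : Fin k → α) (d : α) (i : Fin k) :
    (List.ofFn G).getD i d = G i := by
  simp [List.getD_eq_getElem?_getD]

theorem G2_VL (V : Fin (n+1) → Fin n → ℤ) (i : Fin (n+1)) (j : Fin n) : G2 (VL V) i j = V i j := by
  unfold G2 VL
  rw [getD_ofFn, getD_ofFn]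

theorem cenL_VL (V : Fin (n+1) → Fin n → ℤ) : cenL n (VL V) = List.ofFn (cen V) := by
  unfold cenL
  refine range_map_eq_ofFn _ _ _ fun j => ?_
  rw [Finset.sum_range]
  unfold cen
  exact Finset.sum_congr rfl fun i _ => G2_VL V i j

theorem ellL_VL (g : Fin n → ℤ) (V : Fin (n+1) → Fin n → ℤ) :
    ellL n (List.ofFn g) (VL V) (List.ofFn (cen V)) = List.ofFn (ell g V) := by
  unfold ellL
  refine range_map_eq_ofFn _ _ _ fun i => ?_
  rw [Finset.sum_range]
  unfold ell
  exact Finset.sum_congr rfl fun j _ => by rw [getD_ofFn, getD_ofFn, G2_VL]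

theorem foldl_val {k : ℕ} (ℓ : Fin (k+1) → ℤ) (l : List (Fin (k+1))) (b : Fin (k+1)) :
    (l.map Fin.val).foldl
      (fun b i => if (List.ofFn ℓ).getD i 0 < (List.ofFn ℓ).getD b 0 then i else b) (b:ℕ) =
      ((l.foldl (fun b i => if ℓ i < ℓ b then i else b) b : Fin (k+1)) : ℕ) := by
  induction l generalizing b with
  | nil => rfl
  | cons a l ih =>
    simp only [List.map_cons, List.foldl_cons]
    rw [getD_ofFn, getD_ofFn]
    by_cases h : ℓ a < ℓ b
    · simp only [h, if_true]; exact ih a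
    · simp only [h, if_false]; exact ih b

theorem range_eq_map_finRange (k : ℕ) : List.range k = (List.finRange k).map Fin.val := by
  simp

theorem argmL_VL (ℓ : Fin (n+1) → ℤ) : argmL n (List.ofFn ℓ) = (argm ℓ : ℕ) := by
  unfold argmL argm
  rw [range_eq_map_finRange]
  exact foldl_val ℓ (List.finRange (n+1)) 0

theorem stepVL_VL (g : Fin n → ℤ) (V : Fin (n+1) → Fin n → ℤ) :
    stepVL n (VL V) (List.ofFn g) (List.ofFn (cen V)) = VL (stepV V g) := by
  unfold stepVL
  simp only [ellL_VL, argmL_VL]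
  unfold VL
  refine range_map_eq_ofFn _ _ _ fun i => ?_
  refine range_map_eq_ofFn _ _ _ fun j => ?_
  have h1 := G2_VL V (argm (ell g V)) j
  have h2 := G2_VL V i j
  unfold VL at h1 h2
  rw [h1, h2, getD_ofFn, getD_ofFn]
  unfold stepV KcL Kc
  simp only [Fin.val_inj]

theorem badL_eq (s : ℤ) (V : Fin (n+1) → Fin n → ℤ) :
    badL n s (List.ofFn (cen V)) = (bad s V).map Fin.val := by
  unfold badL bad
  rw [range_eq_map_finRange, List.find?_map]
  have : ((fun j => decide ((List.ofFn (cen V)).getD j 0 < 0 ∨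
      ((n:ℤ) + 1) * s < (List.ofFn (cen V)).getD j 0)) ∘ (Fin.val : Fin n → ℕ)) =
      fun j => decide (cen V j < 0 ∨ ((n:ℤ) + 1) * s < cen V j) := by
    funext j
    simp only [Function.comp, getD_ofFn]
  rw [this]

theorem levL_eq (c : Fin n → ℤ) (j : Fin n) : levL n (List.ofFn c) j = bitsOf (lev c j) := by
  unfold levL bitsOf
  refine range_map_eq_ofFn _ _ _ fun i => ?_
  rw [getD_ofFn, getD_ofFn]
  simp [lev]

theorem levEL_eq (c : Fin n → ℤ) (j : Fin n) :
    levEL n (List.ofFn c) j = bitsOf ((lev c j).erase j) := by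
  unfold levEL bitsOf
  refine range_map_eq_ofFn _ _ _ fun i => ?_
  rw [getD_ofFn, getD_ofFn]
  simp [lev, Fin.ext_iff]

theorem qL_eq (c : Fin n → ℤ) : qL n (List.ofFn c) =
    (List.ofFn fun j => bitsOf (lev c j)) ++ (List.ofFn fun j => bitsOf ((lev c j).erase j)) := by
  unfold qL
  congr 1
  · exact range_map_eq_ofFn _ _ _ fun j => levL_eq c j
  · exact range_map_eq_ofFn _ _ _ fun j => levEL_eq c j

/-- answers -/
def ans (F : List Bool → ℤ) (c : Fin n → ℤ) : List ℤ :=
  (List.ofFn fun j => F (bitsOf (lev c j))) ++ (List.ofFn fun j => F (bitsOf ((lev c j).erase j)))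

theorem map_qL (F : List Bool → ℤ) (c : Fin n → ℤ) : (qL n (List.ofFn c)).map F = ans F c := by
  rw [qL_eq]; unfold ans
  rw [List.map_append, List.map_ofFn, List.map_ofFn]
  rfl

theorem ans_left (F : List Bool → ℤ) (c : Fin n → ℤ) (j : Fin n) :
    (ans F c).getD j 0 = F (bitsOf (lev c j)) := by
  unfold ans
  rw [List.getD_append _ _ _ _ (by simp), getD_ofFn]

theorem ans_right (F : List Bool → ℤ) (c : Fin n → ℤ) (j : Fin n) :
    (ans F c).getD (n + j) 0 = F (bitsOf ((lev c j).erase j)) := by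
  unfold ans
  rw [List.getD_append_right _ _ _ _ (by simp)]
  simp only [List.length_ofFn, Nat.add_sub_cancel_left]
  rw [getD_ofFn]

theorem foldl_best_val (f : Finset (Fin n) → ℤ) (F : List Bool → ℤ) (hF : ∀ A, F (bitsOf A) = f A)
    (c : Fin n → ℤ) (l : List (Fin n)) (b : Finset (Fin n)) :
    (l.map Fin.val).foldl (bestStep n (List.ofFn c) (ans F c)) (bitsOf b, f b) =
      (bitsOf (l.foldl (fun b j => if f (lev c j) < f b then lev c j else b) b),
        f (l.foldl (fun b j => if f (lev c j) < f b then lev c j else b) b)) := by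
  induction l generalizing b with
  | nil => rfl
  | cons a l ih =>
    simp only [List.map_cons, List.foldl_cons]
    have h1 : bestStep n (List.ofFn c) (ans F c) (bitsOf b, f b) (a:ℕ) =
        (bitsOf (if f (lev c a) < f b then lev c a else b),
          f (if f (lev c a) < f b then lev c a else b)) := by
      unfold bestStep
      rw [ans_left, levL_eq, hF]
      by_cases h : f (lev c a) < f b
      · simp [h]
      · simp [h]
    rw [h1]
    exact ih _

/-- the coded version of a state -/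
def codeSt (f : Finset (Fin n) → ℤ) (σ : St n) : LSt := ((VL σ.V, σ.s), (bitsOf σ.best, f σ.best))

theorem sfmU_codeSt (f : Finset (Fin n) → ℤ) (F : List Bool → ℤ) (hF : ∀ A, F (bitsOf A) = f A)
    (σ : St n) :
    sfmU n (codeSt f σ) ((sfmQ n (codeSt f σ)).map F) = codeSt f (stp f σ) := by
  unfold sfmU sfmQ codeSt
  simp only [cenL_VL, map_qL]
  have hcut : cutL n σ.s (List.ofFn (cen σ.V)) (ans F (cen σ.V)) = List.ofFn (cutg f σ) := by
    unfold cutL cutg
    rw [badL_eq]
    cases bad σ.s σ.V with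
    | none =>
      simp only [Option.map_none]
      unfold gyL gy
      refine range_map_eq_ofFn _ _ _ fun j => ?_
      rw [ans_left, ans_right, hF, hF]
    | some j0 =>
      simp only [Option.map_some]
      refine range_map_eq_ofFn _ _ _ fun j => ?_
      rw [getD_ofFn]
      simp only [Fin.val_inj]
  have hbest : newBestL n σ.s (List.ofFn (cen σ.V)) (ans F (cen σ.V)) (bitsOf σ.best, f σ.best) =
      (bitsOf (newBest f σ), f (newBest f σ)) := by
    unfold newBestL newBest
    rw [badL_eq]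
    cases bad σ.s σ.V with
    | none =>
      simp only [Option.map_none]
      rw [range_eq_map_finRange]
      exact foldl_best_val f F hF (cen σ.V) (List.finRange n) σ.best
    | some j0 => rfl
  rw [hcut, hbest, stepVL_VL]
  rfl

theorem sfm0_eq (f : Finset (Fin n) → ℤ) (h0 : f ∅ = 0) : sfm0 n = codeSt f (st0 n) := by
  unfold sfm0 codeSt st0
  simp only [h0]
  congr 1
  · congr 1
    unfold VL V0
    refine range_map_eq_ofFn _ _ _ fun i => ?_
    refine range_map_eq_ofFn _ _ _ fun j => ?_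
    simp [Fin.ext_iff]
  · congr 1
    unfold bitsOf
    exact range_map_eq_ofFn _ _ _ fun i => by simp

/-- one step of the program -/
def sfmStep (n : ℕ) (F : List Bool → ℤ) (σ : LSt) : LSt := sfmU n σ ((sfmQ n σ).map F)

theorem sfmStep_iter (f : Finset (Fin n) → ℤ) (F : List Bool → ℤ) (hF : ∀ A, F (bitsOf A) = f A)
    (h0 : f ∅ = 0) (k : ℕ) :
    (sfmStep n F)^[k] (sfm0 n) = codeSt f ((stp f)^[k] (st0 n)) := by
  induction k with
  | zero => exact sfm0_eq f h0
  | succ k ih =>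
    rw [Function.iterate_succ_apply', Function.iterate_succ_apply', ih]
    exact sfmU_codeSt f F hF _

/-- the program computes the minimiser -/
theorem sfmStep_final (M : ℕ) (f : Finset (Fin n) → ℤ) (F : List Bool → ℤ)
    (hF : ∀ A, F (bitsOf A) = f A) (h0 : f ∅ = 0) :
    ((sfmStep n F)^[sfmIter n M] (sfm0 n)).2 = (bitsOf (sfmArg n M f), f (sfmArg n M f)) := by
  rw [sfmStep_iter f F hF h0]
  rfl

end Crest.Agent.R302.Sfm646
end

-- ▼ part R302/SfmPT646
section

/-! Poly-time computability of the two halves of one step of the cutting-simplices algorithm. -/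

set_option autoImplicit false
set_option linter.dupNamespace false

namespace Crest.Agent.R302.Sfm646

open Crest.Agent.Lib.PT Crest.Agent.R309.PTX

variable {γ : Type} [PTCode γ]

theorem ptf_cast {n : γ → ℕ} (hn : PTU n) : PTF (fun c => ((n c : ℕ) : ℤ)) :=
  PTF.intNatCast (PTU.toPTF hn)

theorem ptu_fst {δ : Type} [PTCode δ] {n : γ → ℕ} (hn : PTU n) : PTU (fun p : γ × δ => n p.1) :=
  PTU.comp hn PTF.fst

theorem ptf_G2 {V : γ → List (List ℤ)} {i j : γ → ℕ} (hV : PTF V) (hi : PTF i) (hj : PTF j) :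
    PTF (fun c => G2 (V c) (i c) (j c)) :=
  ptf_getD' hj (ptf_getD' hi hV (PTF.const [])) (PTF.const 0)

theorem ptf_cenL {n : γ → ℕ} {V : γ → List (List ℤ)} (hn : PTU n) (hV : PTF V) :
    PTF (fun c => cenL (n c) (V c)) := by
  unfold cenL
  refine PTF.tabulate hn ?_
  refine PTF.intSumRange (n := fun p : γ × ℕ => n p.1 + 1)
    (f := fun p i => G2 (V p.1) i p.2) (PTU.succ (ptu_fst hn)) ?_
  exact ptf_G2 (PTF.comp hV (by fun_prop)) (by fun_prop) (by fun_prop)

theorem ptf_ellL {n : γ → ℕ} {V : γ → List (List ℤ)} {g c' : γ → List ℤ} (hn : PTU n) (hV : PTF V)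
    (hg : PTF g) (hc : PTF c') :
    PTF (fun c => ellL (n c) (g c) (V c) (c' c)) := by
  unfold ellL
  refine PTF.tabulate (PTU.succ hn) ?_
  refine PTF.intSumRange (n := fun p : γ × ℕ => n p.1)
    (f := fun p j => (g p.1).getD j 0 * (((n p.1 : ℤ) + 1) * G2 (V p.1) p.2 j - (c' p.1).getD j 0))
    (ptu_fst hn) ?_
  dsimp only [PTF₂]
  refine PTF.intMul (ptf_getD' (by fun_prop) (PTF.comp hg (by fun_prop)) (PTF.const 0)) ?_
  refine PTF.intSub (PTF.intMul (PTF.intAdd ?_ (PTF.const 1)) ?_) ?_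
  · exact ptf_cast (n := fun p : (γ × ℕ) × ℕ => n p.1.1) (ptu_fst (n := fun p : γ × ℕ => n p.1) (ptu_fst hn))
  · exact ptf_G2 (PTF.comp hV (by fun_prop)) (by fun_prop) (by fun_prop)
  · exact ptf_getD' (by fun_prop) (PTF.comp hc (by fun_prop)) (PTF.const 0)

theorem ptf_argmL {n : γ → ℕ} {l : γ → List ℤ} (hn : PTU n) (hl : PTF l) :
    PTF (fun c => argmL (n c) (l c)) := by
  unfold argmL
  refine PTF.foldl_bdd (f := fun c (b i : ℕ) => if (l c).getD i 0 < (l c).getD b 0 then i else b)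
    (PTF.range (PTU.succ hn)) ?_ (PTF.const 0) (G := fun c => sz (List.range (n c + 1)))
    (PTF.sz (PTF.range (PTU.succ hn))) ?_ ?_
  · refine PTF.ite (PTPred.intLt ?_ ?_) (by fun_prop) (by fun_prop)
    · exact ptf_getD' (by fun_prop) (PTF.comp hl (by fun_prop)) (PTF.const 0)
    · exact ptf_getD' (by fun_prop) (PTF.comp hl (by fun_prop)) (PTF.const 0)
  · intro c b a ha hb
    have h1 : sz a ≤ sz (List.range (n c + 1)) := sz_mem_le ha
    split_ifs
    · exact h1
    · exact hb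
  · intro c
    have : sz (0:ℕ) = 0 := by rw [sz_nat]; rfl
    omega

theorem ptf_KcL {n : γ → ℕ} {L l : γ → ℤ} (hn : PTU n) (hL : PTF L) (hl : PTF l) :
    PTF (fun c => KcL (n c) (L c) (l c)) := by
  unfold KcL cdiv
  have h1 := ptf_cast hn
  have h3 : PTF (fun c => 64 * ((n c : ℕ) : ℤ)^3 * (8 * ((n c : ℕ) : ℤ)^2 * L c)) :=
    PTF.intMul (PTF.intMul (PTF.const 64) (PTF.intPowConst h1 3))
      (PTF.intMul (PTF.intMul (PTF.const 8) (PTF.intPowConst h1 2)) hL)
  have h4 : PTF (fun c => 8 * ((n c : ℕ) : ℤ)^2 * L c + l c) :=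
    PTF.intAdd (PTF.intMul (PTF.intMul (PTF.const 8) (PTF.intPowConst h1 2)) hL) hl
  exact PTF.intNeg (PTF.intEdiv (PTF.intNeg h3) h4)

theorem ptf_stepVL {n : γ → ℕ} {V : γ → List (List ℤ)} {g c' : γ → List ℤ} (hn : PTU n)
    (hV : PTF V) (hg : PTF g) (hc : PTF c') :
    PTF (fun c => stepVL (n c) (V c) (g c) (c' c)) := by
  have hℓ := ptf_ellL hn hV hg hc
  have hm := ptf_argmL hn hℓ
  have h : PTF (fun c => (List.range (n c + 1)).map fun i =>
    (List.range (n c)).map fun j =>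
      if i = argmL (n c) (ellL (n c) (g c) (V c) (c' c)) then
        64 * ((n c : ℕ) : ℤ)^3 * G2 (V c) (argmL (n c) (ellL (n c) (g c) (V c) (c' c))) j
      else KcL (n c) (-(ellL (n c) (g c) (V c) (c' c)).getD
            (argmL (n c) (ellL (n c) (g c) (V c) (c' c))) 0)
            ((ellL (n c) (g c) (V c) (c' c)).getD i 0) * G2 (V c) i j +
        (64 * ((n c : ℕ) : ℤ)^3 - KcL (n c) (-(ellL (n c) (g c) (V c) (c' c)).getD
            (argmL (n c) (ellL (n c) (g c) (V c) (c' c))) 0)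
            ((ellL (n c) (g c) (V c) (c' c)).getD i 0)) *
          G2 (V c) (argmL (n c) (ellL (n c) (g c) (V c) (c' c))) j) := by
    generalize hE : (fun c => ellL (n c) (g c) (V c) (c' c)) = E at hℓ
    have hE' : ∀ c, ellL (n c) (g c) (V c) (c' c) = E c := fun c => congrFun hE c
    simp only [hE'] at hm ⊢
    generalize hM : (fun c => argmL (n c) (E c)) = m at hm
    have hM' : ∀ c, argmL (n c) (E c) = m c := fun c => congrFun hM c
    simp only [hM']
    refine PTF.tabulate (PTU.succ hn) ?_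
    refine PTF.tabulate (n := fun p : γ × ℕ => n p.1) (ptu_fst hn) ?_
    dsimp only [PTF₂]
    have hn2 : PTU (fun p : (γ × ℕ) × ℕ => n p.1.1) :=
      ptu_fst (n := fun p : γ × ℕ => n p.1) (ptu_fst hn)
    have hm2 : PTF (fun p : (γ × ℕ) × ℕ => m p.1.1) := PTF.comp hm (by fun_prop)
    have hE2 : PTF (fun p : (γ × ℕ) × ℕ => E p.1.1) := PTF.comp hℓ (by fun_prop)
    have hV2 : PTF (fun p : (γ × ℕ) × ℕ => V p.1.1) := PTF.comp hV (by fun_prop)
    have hD : PTF (fun p : (γ × ℕ) × ℕ => 64 * ((n p.1.1 : ℕ) : ℤ)^3) :=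
      PTF.intMul (PTF.const 64) (PTF.intPowConst (ptf_cast hn2) 3)
    have hGm : PTF (fun p : (γ × ℕ) × ℕ => G2 (V p.1.1) (m p.1.1) p.2) :=
      ptf_G2 hV2 hm2 (by fun_prop)
    have hGi : PTF (fun p : (γ × ℕ) × ℕ => G2 (V p.1.1) p.1.2 p.2) :=
      ptf_G2 hV2 (by fun_prop) (by fun_prop)
    have hK : PTF (fun p : (γ × ℕ) × ℕ => KcL (n p.1.1) (-(E p.1.1).getD (m p.1.1) 0)
        ((E p.1.1).getD p.1.2 0)) :=
      ptf_KcL hn2 (PTF.intNeg (ptf_getD' hm2 hE2 (PTF.const 0)))
        (ptf_getD' (by fun_prop) hE2 (PTF.const 0))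
    exact PTF.ite (PTPred.natEq (by fun_prop) hm2) (PTF.intMul hD hGm)
      (PTF.intAdd (PTF.intMul hK hGi) (PTF.intMul (PTF.intSub hD hK) hGm))
  exact h

theorem ptf_badL {n : γ → ℕ} {s : γ → ℤ} {c' : γ → List ℤ} (hn : PTU n) (hs : PTF s)
    (hc : PTF c') : PTF (fun c => badL (n c) (s c) (c' c)) := by
  unfold badL
  refine PTF.find? (PTF.range hn) ?_
  dsimp only [PTF₂]
  have h1 : PTF (fun p : γ × ℕ => (c' p.1).getD p.2 0) :=
    ptf_getD' (by fun_prop) (PTF.comp hc (by fun_prop)) (PTF.const 0)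
  have h2 : PTF (fun p : γ × ℕ => ((n p.1 : ℕ) : ℤ)) := ptf_cast (ptu_fst hn)
  exact PTPred.toPTF (PTPred.or (PTPred.intLt h1 (PTF.const 0))
    (PTPred.intLt (PTF.intMul (PTF.intAdd h2 (PTF.const 1)) (PTF.comp hs (by fun_prop))) h1))

theorem ptf_levL {n : γ → ℕ} {j : γ → ℕ} {c' : γ → List ℤ} (hn : PTU n) (hj : PTF j)
    (hc : PTF c') : PTF (fun c => levL (n c) (c' c) (j c)) := by
  unfold levL
  refine PTF.tabulate hn ?_
  dsimp only [PTF₂]
  have h1 : PTF (fun p : γ × ℕ => (c' p.1).getD p.2 0) :=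
    ptf_getD' (by fun_prop) (PTF.comp hc (by fun_prop)) (PTF.const 0)
  have h2 : PTF (fun p : γ × ℕ => (c' p.1).getD (j p.1) 0) :=
    ptf_getD' (PTF.comp hj (by fun_prop)) (PTF.comp hc (by fun_prop)) (PTF.const 0)
  exact PTPred.toPTF (PTPred.or (PTPred.intLt h2 h1)
    (PTPred.and (PTPred.intEq h1 h2) (PTPred.natLe (by fun_prop) (PTF.comp hj (by fun_prop)))))

theorem ptf_levEL {n : γ → ℕ} {j : γ → ℕ} {c' : γ → List ℤ} (hn : PTU n) (hj : PTF j)
    (hc : PTF c') : PTF (fun c => levEL (n c) (c' c) (j c)) := by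
  unfold levEL
  refine PTF.tabulate hn ?_
  dsimp only [PTF₂]
  have h1 : PTF (fun p : γ × ℕ => (c' p.1).getD p.2 0) :=
    ptf_getD' (by fun_prop) (PTF.comp hc (by fun_prop)) (PTF.const 0)
  have h2 : PTF (fun p : γ × ℕ => (c' p.1).getD (j p.1) 0) :=
    ptf_getD' (PTF.comp hj (by fun_prop)) (PTF.comp hc (by fun_prop)) (PTF.const 0)
  have h3 : PTF (fun p : γ × ℕ => j p.1) := PTF.comp hj (by fun_prop)
  exact PTPred.toPTF (PTPred.and (PTPred.not (PTPred.natEq (by fun_prop) h3))
    (PTPred.or (PTPred.intLt h2 h1) (PTPred.and (PTPred.intEq h1 h2) (PTPred.natLe (by fun_prop) h3))))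

theorem ptf_qL {n : γ → ℕ} {c' : γ → List ℤ} (hn : PTU n) (hc : PTF c') :
    PTF (fun c => qL (n c) (c' c)) := by
  unfold qL
  refine PTF.append (PTF.tabulate hn ?_) (PTF.tabulate hn ?_)
  · exact ptf_levL (γ := γ × ℕ) (n := fun p => n p.1) (j := fun p => p.2) (c' := fun p => c' p.1)
      (ptu_fst hn) (by fun_prop) (PTF.comp hc (by fun_prop))
  · exact ptf_levEL (γ := γ × ℕ) (n := fun p => n p.1) (j := fun p => p.2) (c' := fun p => c' p.1)
      (ptu_fst hn) (by fun_prop) (PTF.comp hc (by fun_prop))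

theorem ptf_gyL {n : γ → ℕ} {A : γ → List ℤ} (hn : PTU n) (hA : PTF A) :
    PTF (fun c => gyL (n c) (A c)) := by
  unfold gyL
  refine PTF.tabulate hn ?_
  dsimp only [PTF₂]
  refine PTF.intSub (ptf_getD' (by fun_prop) (PTF.comp hA (by fun_prop)) (PTF.const 0)) ?_
  exact ptf_getD' (PTF.natAdd (PTU.toPTF (ptu_fst hn)) (by fun_prop))
    (PTF.comp hA (by fun_prop)) (PTF.const 0)

theorem ptf_cutL {n : γ → ℕ} {s : γ → ℤ} {c' A : γ → List ℤ} (hn : PTU n) (hs : PTF s)
    (hc : PTF c') (hA : PTF A) : PTF (fun c => cutL (n c) (s c) (c' c) (A c)) := by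
  have h1 := ptf_badL hn hs hc
  refine PTF.of_eq (PTF.optionCasesOn (s := fun c => badL (n c) (s c) (c' c))
    (f := fun c => gyL (n c) (A c))
    (g := fun c j0 => (List.range (n c)).map fun j =>
      if j = j0 then (if (c' c).getD j0 0 < 0 then (-1:ℤ) else 1) else 0) h1 (ptf_gyL hn hA) ?_)
    (fun c => ?_)
  · refine PTF.tabulate (n := fun p : γ × ℕ => n p.1) (ptu_fst hn) ?_
    dsimp only [PTF₂]
    refine PTF.ite (PTPred.natEq (by fun_prop) (by fun_prop)) ?_ (PTF.const 0)
    refine PTF.ite (PTPred.intLt ?_ (PTF.const 0)) (PTF.const _) (PTF.const _)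
    exact ptf_getD' (by fun_prop) (PTF.comp hc (by fun_prop)) (PTF.const 0)
  · unfold cutL
    cases badL (n c) (s c) (c' c) <;> rfl

theorem ptf_bestStep {n : γ → ℕ} {c' A : γ → List ℤ} {bv : γ → List Bool × ℤ} {j : γ → ℕ}
    (hn : PTU n) (hc : PTF c') (hA : PTF A) (hb : PTF bv) (hj : PTF j) :
    PTF (fun c => bestStep (n c) (c' c) (A c) (bv c) (j c)) := by
  unfold bestStep
  have h1 : PTF (fun c => (A c).getD (j c) 0) := ptf_getD' hj hA (PTF.const 0)
  exact PTF.ite (PTPred.intLt h1 (PTF.comp PTF.snd hb)) (PTF.prodMk (ptf_levL hn hj hc) h1) hb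

theorem sz_levL (n : ℕ) (c : List ℤ) (j : ℕ) : sz (levL n c j) = 3 * n := by
  rw [sz_listBool]; simp [levL]

theorem sz_getD_le (A : List ℤ) (j : ℕ) : sz (A.getD j 0) ≤ sz A + 3 := by
  rw [List.getD_eq_getElem?_getD]
  cases h : A[j]? with
  | none =>
    have : sz (0:ℤ) = 3 := by rw [sz_int]; rfl
    simp only [Option.getD_none]
    omega
  | some a =>
    have := sz_mem_le (List.mem_of_getElem? h)
    simp only [Option.getD_some]
    omega

theorem sz_bestStep_le (n : ℕ) (c A : List ℤ) (bv : List Bool × ℤ) (j : ℕ) (B : ℕ)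
    (hB : sz bv ≤ B) (hB' : 2 * (3 * n) + 1 + (sz A + 3) ≤ B) : sz (bestStep n c A bv j) ≤ B := by
  unfold bestStep
  split_ifs
  · have h1 := sz_getD_le A j
    have h2 := sz_levL n c j
    rw [sz_prod]
    simp only
    omega
  · exact hB

theorem ptf_newBestL {n : γ → ℕ} {s : γ → ℤ} {c' A : γ → List ℤ} {bv : γ → List Bool × ℤ}
    (hn : PTU n) (hs : PTF s) (hc : PTF c') (hA : PTF A) (hb : PTF bv) :
    PTF (fun c => newBestL (n c) (s c) (c' c) (A c) (bv c)) := by
  have h1 := ptf_badL hn hs hc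
  have h2 : PTF (fun c => (List.range (n c)).foldl (bestStep (n c) (c' c) (A c)) (bv c)) := by
    refine PTF.foldl_bdd (f := fun c b j => bestStep (n c) (c' c) (A c) b j)
      (PTF.range hn) ?_ hb (G := fun c => sz (bv c) + (2 * (3 * n c) + 1 + (sz (A c) + 3)))
      ?_ ?_ ?_
    · exact ptf_bestStep (γ := γ × (List Bool × ℤ) × ℕ) (n := fun p => n p.1)
        (c' := fun p => c' p.1) (A := fun p => A p.1) (bv := fun p => p.2.1) (j := fun p => p.2.2)
        (ptu_fst hn) (PTF.comp hc (by fun_prop)) (PTF.comp hA (by fun_prop)) (by fun_prop)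
        (by fun_prop)
    · have := PTU.pb hn
      fun_prop
    · intro c b a _ hb
      exact sz_bestStep_le _ _ _ _ _ _ hb (by omega)
    · intro c; omega
  refine PTF.of_eq (PTF.optionCasesOn (s := fun c => badL (n c) (s c) (c' c))
    (f := fun c => (List.range (n c)).foldl (bestStep (n c) (c' c) (A c)) (bv c))
    (g := fun c _ => bv c) h1 h2 (PTF.comp hb (by fun_prop))) (fun c => ?_)
  unfold newBestL
  cases badL (n c) (s c) (c' c) <;> rfl

/-- the query half of a step -/
theorem ptf_sfmQ {n : γ → ℕ} {σ : γ → LSt} (hn : PTU n) (hσ : PTF σ) :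
    PTF (fun c => sfmQ (n c) (σ c)) :=
  ptf_qL hn (ptf_cenL hn (PTF.comp (g := fun s : LSt => s.1.1) (by fun_prop) hσ))

/-- the update half of a step -/
theorem ptf_sfmU {n : γ → ℕ} {σ : γ → LSt} {A : γ → List ℤ} (hn : PTU n) (hσ : PTF σ) (hA : PTF A) :
    PTF (fun c => sfmU (n c) (σ c) (A c)) := by
  have hV : PTF (fun c => (σ c).1.1) := PTF.comp (g := fun s : LSt => s.1.1) (by fun_prop) hσ
  have hs : PTF (fun c => (σ c).1.2) := PTF.comp (g := fun s : LSt => s.1.2) (by fun_prop) hσ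
  have hb : PTF (fun c => (σ c).2) := PTF.comp (g := fun s : LSt => s.2) (by fun_prop) hσ
  have hc := ptf_cenL hn hV
  have hD : PTF (fun c => 64 * ((n c : ℕ) : ℤ)^3) :=
    PTF.intMul (PTF.const 64) (PTF.intPowConst (ptf_cast hn) 3)
  exact PTF.prodMk (PTF.prodMk (ptf_stepVL hn hV (ptf_cutL hn hs hc hA) hc) (PTF.intMul hD hs))
    (ptf_newBestL hn hs hc hA hb)

theorem ptf_sfm0 {n : γ → ℕ} (hn : PTU n) : PTF (fun c => sfm0 (n c)) := by
  unfold sfm0
  refine PTF.prodMk (PTF.prodMk ?_ (PTF.const 1)) (PTF.prodMk ?_ (PTF.const 0))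
  · refine PTF.tabulate (PTU.succ hn) ?_
    refine PTF.tabulate (n := fun p : γ × ℕ => n p.1) (ptu_fst hn) ?_
    dsimp only [PTF₂]
    refine PTF.ite (PTPred.natEq (by fun_prop) (PTF.natAdd (by fun_prop) (PTF.const 1))) ?_
      (PTF.const 0)
    exact ptf_cast (n := fun p : (γ × ℕ) × ℕ => n p.1.1)
      (ptu_fst (n := fun p : γ × ℕ => n p.1) (ptu_fst hn))
  · exact PTF.tabulate hn (PTF.const false)

theorem ptu_sfmIter {n M : γ → ℕ} (hn : PTU n) (hM : PTF M) :
    PTU (fun c => sfmIter (n c) (M c)) := by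
  unfold sfmIter
  have h1 : PTF (fun c => n c * (3 * M c + 1)) :=
    PTF.natMul (PTU.toPTF hn) (PTF.natAdd (PTF.natMul (PTF.const 3) hM) (PTF.const 1))
  have h2 : PTU (fun c => Nat.clog 2 (n c * (3 * M c + 1))) := by
    have h3 : PTU (fun c => (n c * (3 * M c + 1) - 1).size) :=
      PTF.natSizeUn (PTF.natSub h1 (PTF.const 1))
    refine PTU.of_eq (PTU.ite (PTPred.natLe h1 (PTF.const 1)) (PTU.const 0) h3) (fun c => ?_)
    generalize n c * (3 * M c + 1) = x
    split_ifs with h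
    · rw [Nat.clog_of_right_le_one h]
    · have h1 : 1 < x := not_le.mp h
      apply le_antisymm
      · rw [Nat.size_le]
        have := Nat.le_pow_clog (by norm_num : 1 < 2) x
        omega
      · rw [Nat.clog_le_iff_le_pow (by norm_num)]
        have := Nat.lt_size_self (x - 1)
        omega
  exact PTU.mul (PTU.mul (PTU.const 64) (PTU.pow hn 3)) (PTU.succ h2)

/-! ### size of the orbit -/

section size

open Finset

variable {n : ℕ}

theorem Kc_bounds (hn : 1 ≤ n) (ℓ : Fin (n+1) → ℤ) (hsum : ∑ i, ℓ i = 0) (i : Fin (n+1)) :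
    0 ≤ Kc n ℓ (argm ℓ) i ∧ Kc n ℓ (argm ℓ) i ≤ 2 * (64 * (n:ℤ)^3) := by
  have hmin := argm_le ℓ
  have hD : (0:ℤ) < 64 * (n:ℤ)^3 := by
    have : (1:ℤ) ≤ n := by exact_mod_cast hn
    positivity
  have hle : ℓ (argm ℓ) ≤ 0 := by
    by_contra hcon
    have hcon := not_le.mp hcon
    have : 0 < ∑ i, ℓ i := Finset.sum_pos (fun i _ => lt_of_lt_of_le hcon (hmin i)) ⟨0, by simp⟩
    omega
  rcases hle.eq_or_lt with h0 | hneg
  · have hall : ∀ i, ℓ i = 0 := by
      have h1 : ∀ i ∈ (univ : Finset (Fin (n+1))), 0 ≤ ℓ i := fun i _ => h0 ▸ hmin i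
      intro i
      exact (Finset.sum_eq_zero_iff_of_nonneg h1).mp hsum i (Finset.mem_univ i)
    have : Kc n ℓ (argm ℓ) i = 0 := by
      unfold Kc cdiv
      rw [hall, hall]; simp
    rw [this]
    constructor <;> omega
  · have hd := den_pos hn ℓ (argm ℓ) hmin hneg i
    have hK := Kc_pos hn ℓ (argm ℓ) hmin hneg i
    refine ⟨hK.le, ?_⟩
    have h3 := cdiv_mul_lt (64 * (n:ℤ)^3 * (8 * (n:ℤ)^2 * (-ℓ (argm ℓ)))) _ hd
    change Kc n ℓ (argm ℓ) i * _ < _ at h3
    by_contra hcon
    have hcon := not_le.mp hcon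
    have h1 : (1:ℤ) ≤ n := by exact_mod_cast hn
    have h2 : (1:ℤ) ≤ (n:ℤ)^2 := by nlinarith
    have h4 := hmin i
    set A := 8 * (n:ℤ)^2 * (-ℓ (argm ℓ)) with hA
    have h5 : 8 * (-ℓ (argm ℓ)) ≤ A := by rw [hA]; nlinarith
    set D := 64 * (n:ℤ)^3 with hDdef
    have h6 : (2 * D + 1) * (A + ℓ i) ≤ Kc n ℓ (argm ℓ) i * (A + ℓ i) := by
      apply mul_le_mul_of_nonneg_right _ hd.le
      omega
    have h7 : 0 < A + 2 * ℓ i := by omega
    nlinarith

theorem stepV_bound (hn : 1 ≤ n) (V : Fin (n+1) → Fin n → ℤ) (g : Fin n → ℤ) (B : ℤ)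
    (hB : ∀ i j, |V i j| ≤ B) (i : Fin (n+1)) (j : Fin n) :
    |stepV V g i j| ≤ 3 * (64 * (n:ℤ)^3) * B := by
  have hD : (0:ℤ) < 64 * (n:ℤ)^3 := by
    have : (1:ℤ) ≤ n := by exact_mod_cast hn
    positivity
  have hB0 : 0 ≤ B := (abs_nonneg _).trans (hB i j)
  unfold stepV
  split_ifs
  · rw [abs_mul, abs_of_pos hD]
    have := hB (argm (ell g V)) j
    nlinarith
  · obtain ⟨h1, h2⟩ := Kc_bounds hn (ell g V) (sum_ell g V) i
    set K := Kc n (ell g V) (argm (ell g V)) i
    set D := 64 * (n:ℤ)^3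
    have h3 : |K| ≤ 2 * D := by rw [abs_of_nonneg h1]; exact h2
    have h4 : |D - K| ≤ D := by rw [abs_le]; constructor <;> omega
    calc |K * V i j + (D - K) * V (argm (ell g V)) j|
        ≤ |K * V i j| + |(D - K) * V (argm (ell g V)) j| := abs_add_le _ _
      _ = |K| * |V i j| + |D - K| * |V (argm (ell g V)) j| := by rw [abs_mul, abs_mul]
      _ ≤ 2 * D * B + D * B := by
          have := hB i j
          have := hB (argm (ell g V)) j
          gcongr
      _ = _ := by ring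



theorem sz_int_le (z : ℤ) (B : ℕ) (h : |z| ≤ 2^B) : sz z ≤ 3 + (B + 1) := by
  rw [sz_int]
  have h1 : z.natAbs ≤ 2^B := by
    have : (z.natAbs : ℤ) ≤ 2^B := by rwa [Int.natCast_natAbs]
    exact_mod_cast this
  have : z.natAbs.size ≤ B + 1 := by
    rw [Nat.size_le]
    calc z.natAbs ≤ 2^B := h1
      _ < 2^(B+1) := Nat.pow_lt_pow_right (by norm_num) (by omega)
  omega

theorem sz_VL_le (V : Fin (n+1) → Fin n → ℤ) (B : ℕ) (h : ∀ i j, |V i j| ≤ 2^B) :
    sz (VL V) ≤ (n+1) * (2 * (n * (2 * (3 + (B + 1)) + 1)) + 1) := by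
  have h1 : ∀ r ∈ VL V, sz r ≤ n * (2 * (3 + (B + 1)) + 1) := by
    intro r hr
    unfold VL at hr
    rw [List.mem_ofFn] at hr
    obtain ⟨i, rfl⟩ := hr
    have h2 : ∀ a ∈ List.ofFn (V i), sz a ≤ 3 + (B + 1) := by
      intro a ha
      rw [List.mem_ofFn] at ha
      obtain ⟨j, rfl⟩ := ha
      exact sz_int_le _ _ (h i j)
    have := sz_list_le h2
    simpa using this
  have := sz_list_le h1
  simpa [VL] using this



end size

end Crest.Agent.R302.Sfm646
end

-- ▼ part R302/SfmOPT646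
section

/-! The cutting-simplices algorithm as a polynomial-time function relative to an oracle. -/

set_option autoImplicit false
set_option linter.dupNamespace false

namespace Crest.Agent.R302.Sfm646

open Finset Crest.Agent.Lib.PT Crest.Agent.R302.ORAM Function

/-! ### size of the orbit for arbitrary answers -/

section size

variable {n : ℕ}

theorem ellL_VL' (g : List ℤ) (V : Fin (n+1) → Fin n → ℤ) :
    ellL n g (VL V) (List.ofFn (cen V)) = List.ofFn (ell (fun j => g.getD j 0) V) := by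
  unfold ellL
  refine range_map_eq_ofFn _ _ _ fun i => ?_
  rw [Finset.sum_range]
  unfold ell
  exact Finset.sum_congr rfl fun j _ => by rw [getD_ofFn, G2_VL]

theorem stepVL_VL' (g : List ℤ) (V : Fin (n+1) → Fin n → ℤ) :
    stepVL n (VL V) g (List.ofFn (cen V)) = VL (stepV V (fun j => g.getD j 0)) := by
  unfold stepVL
  simp only [ellL_VL', argmL_VL]
  unfold VL
  refine range_map_eq_ofFn _ _ _ fun i => ?_
  refine range_map_eq_ofFn _ _ _ fun j => ?_
  have h1 := G2_VL V (argm (ell (fun j => g.getD j 0) V)) j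
  have h2 := G2_VL V i j
  unfold VL at h1 h2
  rw [h1, h2, getD_ofFn, getD_ofFn]
  unfold stepV KcL Kc
  simp only [Fin.val_inj]

/-- shape of a state after `k` steps with arbitrary answers of size at most `T` -/
def Shape (n k T : ℕ) (σ : LSt) : Prop :=
  ∃ V : Fin (n+1) → Fin n → ℤ, σ.1.1 = VL V ∧ (∀ i j, |V i j| ≤ (192 * (n:ℤ)^3)^k * n) ∧
    σ.1.2 = (64 * (n:ℤ)^3)^k ∧ sz σ.2.1 ≤ 3 * n ∧ sz σ.2.2 ≤ T

theorem shape_zero (n T : ℕ) (hT : 3 ≤ T) : Shape n 0 T (sfm0 n) := by
  refine ⟨V0 n, ?_, ?_, by simp [sfm0], ?_, ?_⟩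
  · unfold sfm0 VL V0
    refine range_map_eq_ofFn _ _ _ fun i => ?_
    refine range_map_eq_ofFn _ _ _ fun j => ?_
    simp [Fin.ext_iff]
  · intro i j
    simp only [V0, pow_zero, one_mul]
    split_ifs
    · simp
    · simp
  · simp only [sfm0]
    rw [sz_listBool]; simp
  · have : sz (0:ℤ) = 3 := by rw [sz_int]; rfl
    simp only [sfm0]
    omega

theorem shape_succ (n k T : ℕ) (hT : 3 ≤ T) (σ : LSt) (hσ : Shape n k T σ) (A : List ℤ)
    (hA : ∀ a ∈ A, sz a ≤ T) : Shape n (k+1) T (sfmU n σ A) := by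
  obtain ⟨V, hV, hb, hs, hl, hv⟩ := hσ
  obtain ⟨⟨V', s'⟩, bv⟩ := σ
  simp only at hV hs hl hv
  subst hV
  refine ⟨stepV V (fun j => (cutL n s' (cenL n (VL V)) A).getD j 0), ?_, ?_, ?_, ?_, ?_⟩
  · simp only [sfmU]
    rw [cenL_VL]
    exact stepVL_VL' _ V
  · intro i j
    rcases Nat.eq_zero_or_pos n with hn | hn
    · subst hn; exact j.elim0
    · refine (stepV_bound hn V _ _ hb i j).trans (le_of_eq ?_)
      ring
  · simp only [sfmU, hs]
    ring
  · have key : ∀ (l : List ℕ) (b : List Bool × ℤ), sz b.1 ≤ 3 * n →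
        sz (l.foldl (bestStep n (cenL n (VL V)) A) b).1 ≤ 3 * n := by
      intro l
      induction l with
      | nil => intro b hb; exact hb
      | cons a l ih =>
        intro b hb
        rw [List.foldl_cons]
        apply ih
        unfold bestStep
        split_ifs
        · exact (sz_levL _ _ _).le
        · exact hb
    simp only [sfmU, newBestL]
    cases badL n s' (cenL n (VL V)) with
    | none => exact key _ _ hl
    | some _ => exact hl
  · have hg : ∀ j, sz (A.getD j 0) ≤ T := by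
      intro j
      rw [List.getD_eq_getElem?_getD]
      cases h : A[j]? with
      | none =>
        have : sz (0:ℤ) = 3 := by rw [sz_int]; rfl
        simp only [Option.getD_none]
        omega
      | some a => exact hA a (List.mem_of_getElem? h)
    have key : ∀ (l : List ℕ) (b : List Bool × ℤ), sz b.2 ≤ T →
        sz (l.foldl (bestStep n (cenL n (VL V)) A) b).2 ≤ T := by
      intro l
      induction l with
      | nil => intro b hb; exact hb
      | cons a l ih =>
        intro b hb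
        rw [List.foldl_cons]
        apply ih
        unfold bestStep
        split_ifs
        · exact hg a
        · exact hb
    simp only [sfmU, newBestL]
    cases badL n s' (cenL n (VL V)) with
    | none => exact key _ _ hv
    | some _ => exact hv

theorem length_levL (n : ℕ) (c : List ℤ) (j : ℕ) : (levL n c j).length = n := by simp [levL]

theorem length_levEL (n : ℕ) (c : List ℤ) (j : ℕ) : (levEL n c j).length = n := by simp [levEL]

theorem length_mem_sfmQ (n : ℕ) (σ : LSt) (l : List Bool) (hl : l ∈ sfmQ n σ) : l.length = n := by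
  unfold sfmQ qL at hl
  rw [List.mem_append, List.mem_map, List.mem_map] at hl
  rcases hl with ⟨j, _, rfl⟩ | ⟨j, _, rfl⟩
  · exact length_levL _ _ _
  · exact length_levEL _ _ _

theorem shape_iter (n T : ℕ) (hT : 3 ≤ T) (F : List Bool → ℤ)
    (hF : ∀ l : List Bool, l.length = n → sz (F l) ≤ T) (k : ℕ) :
    Shape n k T ((sfmStep n F)^[k] (sfm0 n)) := by
  induction k with
  | zero => exact shape_zero n T hT
  | succ k ih =>
    rw [Function.iterate_succ_apply']
    refine shape_succ n k T hT _ ih _ ?_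
    intro a ha
    rw [List.mem_map] at ha
    obtain ⟨l, hl, rfl⟩ := ha
    exact hF l (length_mem_sfmQ n _ l hl)

/-- explicit size bound -/
def sfmSzT (n T k : ℕ) : ℕ :=
  2 * (2 * ((n+1) * (2 * (n * (2 * (3 + (n + k * (8 + 3 * n) + 1)) + 1)) + 1)) + 1 +
    (3 + (k * (6 + 3 * n) + 1))) + 1 + (2 * (3 * n) + 1 + T)

theorem sfmSzT_mono (n T : ℕ) {k k' : ℕ} (h : k ≤ k') : sfmSzT n T k ≤ sfmSzT n T k' := by
  unfold sfmSzT
  gcongr

theorem Shape.sz_le {n k T : ℕ} {σ : LSt} (h : Shape n k T σ) : sz σ ≤ sfmSzT n T k := by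
  obtain ⟨V, hV, hb, hs, hl, hv⟩ := h
  have h1 : (n:ℤ) ≤ 2^n := by
    have := Nat.lt_two_pow_self (n := n)
    exact_mod_cast this.le
  have hV' : sz σ.1.1 ≤
      (n+1) * (2 * (n * (2 * (3 + (n + k * (8 + 3 * n) + 1)) + 1)) + 1) := by
    rw [hV]
    refine sz_VL_le _ _ fun i j => (hb i j).trans ?_
    have h2 : 192 * (n:ℤ)^3 ≤ 2^(8 + 3*n) := by
      calc 192 * (n:ℤ)^3 ≤ 256 * (2^n)^3 := by gcongr; norm_num
        _ = 2^(8 + 3*n) := by rw [pow_add, pow_mul']; norm_num
    calc (192 * (n:ℤ)^3)^k * n ≤ (2^(8 + 3*n))^k * 2^n := by gcongr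
      _ = 2 ^ (n + k * (8 + 3 * n)) := by rw [← pow_mul, ← pow_add]; ring_nf
  have hs' : sz σ.1.2 ≤ 3 + (k * (6 + 3 * n) + 1) := by
    refine sz_int_le _ _ ?_
    rw [hs]
    have h2 : 64 * (n:ℤ)^3 ≤ 2^(6 + 3*n) := by
      calc 64 * (n:ℤ)^3 ≤ 64 * (2^n)^3 := by gcongr
        _ = 2^(6 + 3*n) := by rw [pow_add, pow_mul']; norm_num
    rw [abs_of_nonneg (by positivity)]
    calc (64 * (n:ℤ)^3)^k ≤ (2^(6 + 3*n))^k := by gcongr
      _ = 2 ^ (k * (6 + 3 * n)) := by rw [← pow_mul]; ring_nf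
  unfold sfmSzT
  rw [sz_prod, sz_prod, sz_prod]
  omega

end size

/-! ### the program -/

/-- run of the algorithm: the best set and its value -/
def sfmRun (n M : ℕ) (F : List Bool → ℤ) : List Bool × ℤ :=
  ((sfmStep n F)^[sfmIter n M] (sfm0 n)).2

section optf

variable {γ : Type} [PTCode γ]

/-- **the minimiser is computable relative to the oracle** -/
theorem sfmRun_optf {n : γ → ℕ} {M : γ → ℕ} {F : Inst → γ → List Bool → ℤ} (hn : PTU n)
    (hM : PTF M) (hF : OPTF (fun I (p : γ × List Bool) => F I p.1 p.2)) :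
    OPTF (fun I c => sfmRun (n c) (M c) (F I c)) := by
  obtain ⟨p, hp⟩ := hF.bound
  have hstep : OPTF (fun I (q : γ × LSt) => sfmStep (n q.1) (F I q.1) q.2) := by
    have hn1 : PTU (fun q : γ × LSt => n q.1) := PTU.comp hn PTF.fst
    have h1 : OPTF (fun I (q : γ × LSt) => (sfmQ (n q.1) q.2).map (F I q.1)) := by
      refine OPTF.map (f := fun I (q : γ × LSt) l => F I q.1 l)
        (OPTF.of_ptf (ptf_sfmQ hn1 (by fun_prop))) ?_
      exact OPTF.pre (g := fun I (p : γ × List Bool) => F I p.1 p.2)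
        (f := fun q : (γ × LSt) × List Bool => (q.1.1, q.2)) hF (by fun_prop)
    have h2 : PTF (fun q : (γ × LSt) × List ℤ => sfmU (n q.1.1) q.1.2 q.2) :=
      ptf_sfmU (PTU.comp hn (by fun_prop)) (by fun_prop) (by fun_prop)
    exact OPTF.post (f := fun I (q : γ × LSt) => (q, (sfmQ (n q.1) q.2).map (F I q.1)))
      h2 (OPTF.prodMk OPTF.id h1)
  have hit : OPTF (fun I c => (sfmStep (n c) (F I c))^[sfmIter (n c) (M c)] (sfm0 (n c))) := by
    refine OPTF.iterate (f := fun I c σ => sfmStep (n c) (F I c) σ)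
      (n := fun _ c => sfmIter (n c) (M c)) (a := fun _ c => sfm0 (n c))
      (OPTU.of_ptu (ptu_sfmIter hn hM)) hstep (OPTF.of_ptf (ptf_sfm0 hn))
      (B := fun I c => sfmSzT (n c) (p.eval (2 * sz c + 1 + 3 * n c + I.sz) + 3)
        (sfmIter (n c) (M c))) ?_ ?_
    · have hnB : OPB (fun (_ : Inst) (c : γ) => n c) := OPB.of_pb (PTU.pb hn)
      have hkB : OPB (fun (_ : Inst) (c : γ) => sfmIter (n c) (M c)) :=
        OPB.of_pb (PTU.pb (ptu_sfmIter hn hM))
      have hT : OPB (fun I (c : γ) => p.eval (2 * sz c + 1 + 3 * n c + I.sz) + 3) :=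
        (OPB.eval p (((((OPB.const 2).mul OPB.sz).add (OPB.const 1)).add
          ((OPB.const 3).mul hnB)).add OPB.inst)).add (OPB.const 3)
      have c2 := OPB.const (α := γ) 2
      have c1 := OPB.const (α := γ) 1
      have c3 := OPB.const (α := γ) 3
      have h8 : OPB (fun (_ : Inst) (c : γ) => 8 + 3 * n c) := (OPB.const 8).add (c3.mul hnB)
      have h6 : OPB (fun (_ : Inst) (c : γ) => 6 + 3 * n c) := (OPB.const 6).add (c3.mul hnB)
      unfold sfmSzT
      exact ((c2.mul (((c2.mul ((hnB.add c1).mul ((c2.mul (hnB.mul ((c2.mul (c3.add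
        ((hnB.add (hkB.mul h8)).add c1))).add c1))).add c1))).add c1).add
        (c3.add ((hkB.mul h6).add c1)))).add c1).add (((c2.mul (c3.mul hnB)).add c1).add hT)
    · intro I c i hi
      refine ((shape_iter (n c) (p.eval (2 * sz c + 1 + 3 * n c + I.sz) + 3) (by omega) (F I c)
        ?_ i).sz_le).trans (sfmSzT_mono _ _ hi)
      intro l hl
      have h := hp I (c, l)
      rw [sz_prod, sz_listBool, hl] at h
      exact h.trans (Nat.le_add_right _ _)
  exact OPTF.snd hit

end optf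

/-! ### specification -/

section spec

variable {n : ℕ}

theorem sfmRun_eq (M : ℕ) (f : Finset (Fin n) → ℤ) (F : List Bool → ℤ)
    (hF : ∀ A, F (bitsOf A) = f A) (h0 : f ∅ = 0) :
    sfmRun n M F = (bitsOf (sfmArg n M f), f (sfmArg n M f)) :=
  sfmStep_final M f F hF h0








end spec

section optf2

variable {γ : Type} [PTCode γ]




end optf2

end Crest.Agent.R302.Sfm646
end

-- ▼ part R302/EDM4

/-!
# R302 / EDM, part 4: list-coded versions (data are lists of booleans / integers)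
-/

set_option autoImplicit false

namespace Crest.Agent.R302.EDM

open Finset Crest.Agent.R302.Facet Crest.Agent.R302.Sfm646 Crest.Agent.Lib.PT.Arith

/-! ### codes -/

/-- the set coded by a list of booleans -/
def setL (n : ℕ) (l : List Bool) : Finset (Fin n) := univ.filter fun i => l.getD i false = true

/-- the code of a set -/
def bitsL (n : ℕ) (A : Finset (Fin n)) : List Bool := List.ofFn fun i : Fin n => decide (i ∈ A)

/-- the vector coded by a list of integers -/
def vecL (n : ℕ) (x : List ℤ) : Fin n → ℤ := fun i => x.getD i 0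

variable {n : ℕ}

theorem mem_setL {l : List Bool} {i : Fin n} : i ∈ setL n l ↔ l.getD i false = true := by
  simp [setL]

theorem setL_bitsL (A : Finset (Fin n)) : setL n (bitsL n A) = A := by
  ext i
  rw [mem_setL, bitsL, List.getD_eq_getElem?_getD, List.getElem?_ofFn]
  simp


theorem getD_mapRange {α : Type*} (g : ℕ → α) (d : α) (i : Fin n) :
    ((List.range n).map g).getD i d = g i := by
  rw [List.getD_eq_getElem?_getD, List.getElem?_map, List.getElem?_range i.isLt]
  rfl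

theorem setL_map (g : ℕ → Bool) :
    setL n ((List.range n).map g) = univ.filter fun i : Fin n => g i = true := by
  ext i
  rw [mem_setL, getD_mapRange]
  simp

theorem sum_mapRange {M : Type*} [AddCommMonoid M] (g : ℕ → M) :
    ((List.range n).map g).sum = ∑ i : Fin n, g i := by
  rw [Fin.sum_univ_eq_sum_range g n, ← List.sum_toFinset g List.nodup_range, List.toFinset_range]

/-- the list function `r` represents the set function `ρ` -/
def RepL (n : ℕ) (r : List Bool → ℤ) (ρ : Finset (Fin n) → ℤ) : Prop := ∀ l, r l = ρ (setL n l)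


/-! ### submodular minimisation -/

/-- the minimiser as a list (helper646's program) -/
def sfmL (n M : ℕ) (f : List Bool → ℤ) : List Bool := (sfmRun n M f).1

theorem setL_sfmL (M : ℕ) {f : List Bool → ℤ} {φ : Finset (Fin n) → ℤ} (h : RepL n f φ)
    (h0 : φ ∅ = 0) : setL n (sfmL n M f) = sfmArg n M φ := by
  rw [sfmL, sfmRun_eq M φ f (fun A => by rw [h]; exact congrArg φ (setL_bitsL A)) h0]
  exact setL_bitsL _

theorem RepL.sfmL {f : List Bool → ℤ} {φ : Finset (Fin n) → ℤ} (h : RepL n f φ) (M : ℕ)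
    (h0 : φ ∅ = 0) : f (sfmL n M f) = sfmMin n M φ := by
  rw [h, setL_sfmL M h h0]
  rfl

/-! ### linear functions -/

/-- `∑ x j` over the coded set -/
def dotL (n : ℕ) (x : List ℤ) (l : List Bool) : ℤ :=
  ((List.range n).map fun j => if l.getD j false = true then x.getD j 0 else 0).sum

theorem dotL_eq (x : List ℤ) (l : List Bool) : dotL n x l = ∑ j ∈ setL n l, vecL n x j := by
  rw [dotL, sum_mapRange, setL, Finset.sum_filter]
  rfl

/-- `∑ x j` -/
def totL (n : ℕ) (x : List ℤ) : ℤ := ((List.range n).map fun j => x.getD j 0).sum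

theorem totL_eq (x : List ℤ) : totL n x = ∑ j, vecL n x j := by
  rw [totL, sum_mapRange]
  rfl

/-- `∑ |x j|` -/
def nrmL (n : ℕ) (x : List ℤ) : ℕ := ((List.range n).map fun j => (x.getD j 0).natAbs).sum

theorem nrmL_eq (x : List ℤ) : nrmL n x = nrm (vecL n x) := by
  rw [nrmL, sum_mapRange]
  rfl

/-- slack -/
def slkL (n : ℕ) (r : List Bool → ℤ) (x : List ℤ) (l : List Bool) : ℤ := r l - dotL n x l

theorem slkL_rep {r : List Bool → ℤ} {ρ : Finset (Fin n) → ℤ} (h : RepL n r ρ) (x : List ℤ) :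
    RepL n (slkL n r x) (fun A => ρ A - ∑ j ∈ A, vecL n x j) := by
  intro l
  rw [slkL, h, dotL_eq]

/-- minimum of the slack -/
def minSlkL (n K : ℕ) (r : List Bool → ℤ) (x : List ℤ) : ℤ :=
  slkL n r x (sfmL n (K + nrmL n x) (slkL n r x))

theorem minSlkL_eq (K : ℕ) {r : List Bool → ℤ} {ρ : Finset (Fin n) → ℤ} (h : RepL n r ρ)
    (h0 : ρ ∅ = 0) (x : List ℤ) : minSlkL n K r x = minSlk n K ρ (vecL n x) := by
  rw [minSlkL, (slkL_rep h x).sfmL _ (by simp [h0]), nrmL_eq]
  rfl

/-- membership in the base polytope -/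
def memL (n K : ℕ) (r : List Bool → ℤ) (R : ℤ) (x : List ℤ) : Bool :=
  decide (totL n x = R) && decide (0 ≤ minSlkL n K r x)

theorem memL_eq (K : ℕ) {r : List Bool → ℤ} {ρ : Finset (Fin n) → ℤ} (h : RepL n r ρ)
    (h0 : ρ ∅ = 0) (R : ℤ) (x : List ℤ) : memL n K r R x = memQ n K ρ R (vecL n x) := by
  rw [memL, memQ, totL_eq, minSlkL_eq K h h0]

theorem memL_iff {r : List Bool → ℤ} {ρ : Finset (Fin n) → ℤ} (h : RepL n r ρ) {K : ℕ} {R : ℤ}
    (hr : SubM ρ R) (hK : ∀ A, |ρ A| ≤ K) (x : List ℤ) :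
    memL n K r R x = true ↔ MemJ ρ R (vecL n x) := by
  rw [memL_eq K h hr.empty, memQ_iff hr hK]

/-! ### constrained minimisation and capacities -/

/-- `(A \ O) ∪ I` -/
def maskL (n : ℕ) (I O l : List Bool) : List Bool :=
  (List.range n).map fun j => (l.getD j false && !O.getD j false) || I.getD j false

theorem setL_maskL (I O l : List Bool) :
    setL n (maskL n I O l) = setL n l \ setL n O ∪ setL n I := by
  rw [maskL, setL_map]
  ext i
  simp only [mem_filter, mem_univ, true_and, mem_union, mem_sdiff, mem_setL, Bool.or_eq_true,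
    Bool.and_eq_true, Bool.not_eq_true', Bool.not_eq_true]

/-- minimiser between `I` and the complement of `O` -/
def minInL (n M : ℕ) (I O : List Bool) (f : List Bool → ℤ) : List Bool :=
  maskL n I O (sfmL n (2 * M) fun l => f (maskL n I O l) - f I)

theorem setL_minInL (M : ℕ) (I O : List Bool) {f : List Bool → ℤ} {φ : Finset (Fin n) → ℤ}
    (h : RepL n f φ) : setL n (minInL n M I O f) = minIn n M (setL n I) (setL n O) φ := by
  rw [minInL, setL_maskL, setL_sfmL (φ := fun A => φ (A \ setL n O ∪ setL n I) - φ (setL n I))]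
  · rfl
  · intro l
    show f (maskL n I O l) - f I = _
    rw [h, h, setL_maskL]
  · simp

/-- a singleton -/
def singL (n a : ℕ) : List Bool := (List.range n).map fun j => decide (j = a)

theorem setL_singL (a : Fin n) : setL n (singL n a) = {a} := by
  rw [singL, setL_map]
  ext i
  simp [Fin.ext_iff]

/-- exchange capacity -/
def capL (n K : ℕ) (r : List Bool → ℤ) (x : List ℤ) (a b : ℕ) : ℤ :=
  slkL n r x (minInL n (K + nrmL n x) (singL n a) (singL n b) (slkL n r x))

theorem capL_eq_capQ (K : ℕ) {r : List Bool → ℤ} {ρ : Finset (Fin n) → ℤ} (h : RepL n r ρ)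
    (x : List ℤ) (a b : Fin n) : capL n K r x a b = capQ n K ρ (vecL n x) a b := by
  rw [capL, slkL_rep h x, setL_minInL _ _ _ (slkL_rep h x), setL_singL, setL_singL, nrmL_eq]
  rfl

theorem capL_eq {r : List Bool → ℤ} {ρ : Finset (Fin n) → ℤ} (h : RepL n r ρ) {K : ℕ} {R : ℤ}
    (hr : SubM ρ R) (hK : ∀ A, |ρ A| ≤ K) (x : List ℤ) {a b : Fin n} (hab : a ≠ b) :
    capL n K r x a b = cap ρ (vecL n x) a b := by
  rw [capL_eq_capQ K h, capQ_eq hr hK _ hab]

/-! ### emptiness -/

/-- complement -/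
def cmpL (n : ℕ) (l : List Bool) : List Bool := (List.range n).map fun j => !l.getD j false

theorem setL_cmpL (l : List Bool) : setL n (cmpL n l) = (setL n l)ᶜ := by
  rw [cmpL, setL_map]
  ext i
  simp only [mem_filter, mem_univ, true_and, mem_compl, mem_setL, Bool.not_eq_true',
    Bool.not_eq_true]





/-! ### halves -/

/-- first half -/
def fstL (n : ℕ) (l : List Bool) : List Bool := (List.range n).map fun j => l.getD j false

/-- second half -/
def sndL (n : ℕ) (l : List Bool) : List Bool := (List.range n).map fun j => l.getD (n + j) false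

theorem setL_fstL (l : List Bool) : setL n (fstL n l) = fstH (setL (n + n) l) := by
  rw [fstL, setL_map, fstH]
  ext i
  simp only [mem_filter, mem_univ, true_and, mem_setL, Fin.val_castAdd]

theorem setL_sndL (l : List Bool) : setL n (sndL n l) = sndH (setL (n + n) l) := by
  rw [sndL, setL_map, sndH]
  ext i
  simp only [mem_filter, mem_univ, true_and, mem_setL, Fin.val_natAdd]


theorem mem_fstH_setL {l : List Bool} {i : Fin n} :
    i ∈ fstH (setL (n + n) l) ↔ l.getD i false = true := by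
  rw [fstH, mem_filter, mem_setL]
  simp

theorem mem_sndH_setL {l : List Bool} {i : Fin n} :
    i ∈ sndH (setL (n + n) l) ↔ l.getD (n + i) false = true := by
  rw [sndH, mem_filter, mem_setL]
  simp [add_comm]



theorem all_range_iff (p : ℕ → Bool) :
    (List.range n).all p = (List.finRange n).all fun i : Fin n => p i := by
  rw [Bool.eq_iff_iff, List.all_eq_true, List.all_eq_true]
  constructor
  · intro h i _
    exact h i (List.mem_range.2 i.isLt)
  · intro h j hj
    exact h ⟨j, List.mem_range.1 hj⟩ (List.mem_finRange _)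


/-- the coupled function of `feasB` -/
def dblBL (n : ℕ) (r₁ r₂ : List Bool → ℤ) (R : ℤ) (lo hi : List ℤ) (l : List Bool) : ℤ :=
  r₁ (fstL n l) + r₂ (cmpL n (sndL n l)) +
    (((List.range n).map fun j =>
      if l.getD (n + j) false = true ∧ l.getD j false = false then hi.getD j 0 else 0).sum -
    ((List.range n).map fun j =>
      if l.getD j false = true ∧ l.getD (n + j) false = false then lo.getD j 0 else 0).sum) - R

theorem dblBL_rep {r₁ r₂ : List Bool → ℤ} {ρ₁ ρ₂ : Finset (Fin n) → ℤ} (h₁ : RepL n r₁ ρ₁)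
    (h₂ : RepL n r₂ ρ₂) (R : ℤ) (lo hi : List ℤ) :
    RepL (n + n) (dblBL n r₁ r₂ R lo hi) (dblB ρ₁ ρ₂ R (vecL n lo) (vecL n hi)) := by
  intro l
  rw [dblBL, dblB, h₁, h₂, setL_cmpL, setL_fstL, setL_sndL, sum_mapRange, sum_mapRange, bx,
    ← Finset.sum_filter, ← Finset.sum_filter]
  congr 4
  · ext i
    simp only [mem_filter, mem_univ, true_and, mem_sdiff, mem_fstH_setL, mem_sndH_setL,
      Bool.not_eq_true]
  · ext i
    simp only [mem_filter, mem_univ, true_and, mem_sdiff, mem_fstH_setL, mem_sndH_setL,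
      Bool.not_eq_true]

/-- is there a common base in the box? -/
def feasBL (n K : ℕ) (r₁ r₂ : List Bool → ℤ) (R : ℤ) (lo hi : List ℤ) : Bool :=
  (List.range n).all (fun j => decide (lo.getD j 0 ≤ hi.getD j 0)) &&
    decide (0 ≤ dblBL n r₁ r₂ R lo hi
      (sfmL (n + n) (2 * K + R.natAbs + (nrmL n hi + nrmL n lo)) (dblBL n r₁ r₂ R lo hi)))

theorem feasBL_eq (K : ℕ) {r₁ r₂ : List Bool → ℤ} {ρ₁ ρ₂ : Finset (Fin n) → ℤ}
    (h₁ : RepL n r₁ ρ₁) (h₂ : RepL n r₂ ρ₂) {R : ℤ} (s₁ : SubM ρ₁ R) (s₂ : SubM ρ₂ R)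
    (lo hi : List ℤ) :
    feasBL n K r₁ r₂ R lo hi = feasB n K ρ₁ ρ₂ R (vecL n lo) (vecL n hi) := by
  rw [feasBL, feasB, (dblBL_rep h₁ h₂ R lo hi).sfmL _
    (by simp [dblB, fstH, sndH, s₁.empty, s₂.univ, bx]), nrmL_eq, nrmL_eq, all_range_iff]
  rfl

theorem feasBL_iff {r₁ r₂ : List Bool → ℤ} {ρ₁ ρ₂ : Finset (Fin n) → ℤ} (h₁ : RepL n r₁ ρ₁)
    (h₂ : RepL n r₂ ρ₂) {K : ℕ} {R : ℤ} (s₁ : SubM ρ₁ R) (s₂ : SubM ρ₂ R)
    (K₁ : ∀ A, |ρ₁ A| ≤ K) (K₂ : ∀ A, |ρ₂ A| ≤ K) (lo hi : List ℤ) :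
    feasBL n K r₁ r₂ R lo hi = true ↔ ∃ x : Fin n → ℤ,
      (∀ i, vecL n lo i ≤ x i ∧ x i ≤ vecL n hi i) ∧ MemJ ρ₁ R x ∧ MemJ ρ₂ R x := by
  rw [feasBL_eq K h₁ h₂ s₁ s₂, feasB_iff s₁ s₂ K₁ K₂]

/-! ### the finder -/

/-- one coordinate -/
def findStepL (K : ℕ) (P : List ℤ → Bool) (l : List ℤ) (j : ℕ) : List ℤ :=
  l.set j (bsMax K fun t => P (l.set j (t : ℤ)))

/-- coordinatewise maximal lower bound -/
def findVecL (n K : ℕ) (P : List ℤ → Bool) : List ℤ :=
  (List.range n).foldl (findStepL K P) (List.replicate n 0)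

theorem vecL_set {l : List ℤ} (j : Fin n) (hj : n ≤ l.length) (t : ℤ) :
    vecL n (l.set j t) = Function.update (vecL n l) j t := by
  funext i
  unfold vecL
  rw [List.getD_eq_getElem?_getD, List.getElem?_set]
  by_cases h : i = j
  · subst h
    rw [Function.update_self, if_pos rfl, if_pos (by omega)]
    rfl
  · rw [Function.update_of_ne h, if_neg (fun e => h (Fin.ext e.symm)), List.getD_eq_getElem?_getD]

theorem findVecL_aux (K : ℕ) {P : List ℤ → Bool} {Q : (Fin n → ℤ) → Bool}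
    (h : ∀ l : List ℤ, P l = Q (vecL n l)) (L : List (Fin n)) (l : List ℤ) (hl : n ≤ l.length) :
    vecL n ((L.map fun i : Fin n => (i : ℕ)).foldl (findStepL K P) l) =
      L.foldl (findStep K Q) (vecL n l) := by
  induction L generalizing l with
  | nil => rfl
  | cons j L ih =>
    rw [List.map_cons, List.foldl_cons, List.foldl_cons, ih _ (by simpa [findStepL] using hl)]
    congr 1
    rw [findStepL, vecL_set j hl, findStep]
    congr 3
    funext t
    rw [h, vecL_set j hl]

theorem map_val_finRange (n : ℕ) : (List.finRange n).map (fun i : Fin n => (i : ℕ)) =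
    List.range n := by
  refine List.ext_getElem (by simp) fun i h1 h2 => ?_
  simp

theorem findVecL_eq (K : ℕ) {P : List ℤ → Bool} {Q : (Fin n → ℤ) → Bool}
    (h : ∀ l : List ℤ, P l = Q (vecL n l)) : vecL n (findVecL n K P) = findVec K Q := by
  rw [findVecL, ← map_val_finRange, findVecL_aux K h _ _ (by simp)]
  congr 1
  funext i
  simp [vecL]

theorem length_foldl_findStepL (K : ℕ) (P : List ℤ → Bool) (L : List ℕ) (l : List ℤ) :
    (L.foldl (findStepL K P) l).length = l.length := by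
  induction L generalizing l with
  | nil => rfl
  | cons j L ih => rw [List.foldl_cons, ih, findStepL, List.length_set]





/-! ### binary search: the size invariant -/

theorem bsStep_inv (Q : ℕ → Bool) (K i : ℕ) :
    ((bsStep Q)^[i] (2 ^ K, 0)).1 + ((bsStep Q)^[i] (2 ^ K, 0)).2 ≤ 2 ^ K := by
  induction i with
  | zero => simp
  | succ i ih =>
    rw [Function.iterate_succ_apply']
    generalize (bsStep Q)^[i] (2 ^ K, 0) = s at ih
    unfold bsStep
    rw [Nat.div2_val]
    have h := Nat.div_mul_le_self s.1 2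
    simp only
    cases Q (s.2 + s.1 / 2)
    · simp only [cond_false]; omega
    · simp only [cond_true]; omega

theorem bsMax_le (K : ℕ) (Q : ℕ → Bool) : bsMax K Q ≤ 2 ^ K := by
  have := bsStep_inv Q K K
  unfold bsMax
  omega

end Crest.Agent.R302.EDM
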