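import Crest.Agent.R302.ORAM.OPTF
import Crest.Agent.R309.PTSolve
import Crest.Agent.Lib.PT.ArithMore
import Crest.Agent.Lib.PT.ArithInt

/-!
# R302: `opt_solve`, a recursive tactic for goals `OPTF _`, `OPTU _`, `OPTP _`, `OPB _`

The oracle-relative analogue of `pt_solve` (R309/PTSolve).  Calls of oracle-relative functions with
parameters are left to hypotheses applied by hand (`OPTF.comp₂`, ...).
-/

set_option autoImplicit false
set_option linter.dupNamespace false

namespace Crest.Agent.R302.ORAM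

open Crest.Agent.Lib.PT Crest.Agent.R309.Tape Crest.Agent.R309.PTX

variable {α β γ δ σ : Type} [PTCode α] [PTCode β] [PTCode γ] [PTCode δ] [PTCode σ]

/-- a polynomial-time function of three results -/
theorem OPTF.post₃ {g : β → γ → δ → σ} {f : Inst → α → β} {h : Inst → α → γ} {k : Inst → α → δ}
    (hg : PTF (fun p : β × γ × δ => g p.1 p.2.1 p.2.2)) (hf : OPTF f) (hh : OPTF h)
    (hk : OPTF k) : OPTF (fun I a => g (f I a) (h I a) (k I a)) :=
  OPTF.post (g := fun p : β × γ × δ => g p.1 p.2.1 p.2.2) hg (hf.prodMk (hh.prodMk hk))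

/-- a function of three parameters -/
theorem OPTF.comp₃ {g : Inst → β → γ → δ → σ} {f : Inst → α → β} {h : Inst → α → γ}
    {k : Inst → α → δ} (hg : OPTF (fun I (p : β × γ × δ) => g I p.1 p.2.1 p.2.2)) (hf : OPTF f)
    (hh : OPTF h) (hk : OPTF k) : OPTF (fun I a => g I (f I a) (h I a) (k I a)) :=
  OPTF.comp (g := fun I (p : β × γ × δ) => g I p.1 p.2.1 p.2.2) hg (hf.prodMk (hh.prodMk hk))

/-! ### lists -/

theorem OPTF.getD {l : Inst → γ → List α} {n : Inst → γ → ℕ} {d : Inst → γ → α} (hl : OPTF l)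
    (hn : OPTF n) (hd : OPTF d) : OPTF (fun I c => (l I c).getD (n I c) (d I c)) :=
  OPTF.post₃ (g := fun (l : List α) (n : ℕ) (d : α) => l.getD n d) (by pt_solve) hl hn hd

theorem OPTF.listSet {l : Inst → γ → List α} {n : Inst → γ → ℕ} {a : Inst → γ → α} (hl : OPTF l)
    (hn : OPTF n) (ha : OPTF a) : OPTF (fun I c => (l I c).set (n I c) (a I c)) :=
  OPTF.post₃ (g := fun (l : List α) (n : ℕ) (d : α) => l.set n d) (by pt_solve) hl hn ha

theorem OPTF.cons {a : Inst → γ → α} {l : Inst → γ → List α} (ha : OPTF a) (hl : OPTF l) :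
    OPTF (fun I c => a I c :: l I c) :=
  OPTF.post₂ (g := fun (a : α) (l : List α) => a :: l) (by pt_solve) ha hl

theorem OPTF.append {l l' : Inst → γ → List α} (hl : OPTF l) (hl' : OPTF l') :
    OPTF (fun I c => l I c ++ l' I c) :=
  OPTF.post₂ (g := fun (a l : List α) => a ++ l) (by pt_solve) hl hl'

theorem OPTF.reverse {l : Inst → γ → List α} (hl : OPTF l) : OPTF (fun I c => (l I c).reverse) :=
  OPTF.post (g := fun (l : List α) => l.reverse) (by pt_solve) hl

theorem OPTF.take {n : Inst → γ → ℕ} {l : Inst → γ → List α} (hn : OPTF n) (hl : OPTF l) :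
    OPTF (fun I c => (l I c).take (n I c)) :=
  OPTF.post₂ (g := fun (n : ℕ) (l : List α) => l.take n) (by pt_solve) hn hl

theorem OPTF.drop {n : Inst → γ → ℕ} {l : Inst → γ → List α} (hn : OPTF n) (hl : OPTF l) :
    OPTF (fun I c => (l I c).drop (n I c)) :=
  OPTF.post₂ (g := fun (n : ℕ) (l : List α) => l.drop n) (by pt_solve) hn hl

theorem OPTF.tail {l : Inst → γ → List α} (hl : OPTF l) : OPTF (fun I c => (l I c).tail) :=
  OPTF.post (g := fun (l : List α) => l.tail) (by pt_solve) hl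

theorem OPTF.head? {l : Inst → γ → List α} (hl : OPTF l) : OPTF (fun I c => (l I c).head?) :=
  OPTF.post (g := fun (l : List α) => l.head?) (by pt_solve) hl

theorem OPTF.zip {l : Inst → γ → List α} {l' : Inst → γ → List β} (hl : OPTF l) (hl' : OPTF l') :
    OPTF (fun I c => (l I c).zip (l' I c)) :=
  OPTF.post₂ (g := fun (a : List α) (l : List β) => a.zip l) (by pt_solve) hl hl'

theorem OPTF.zipWith {l : Inst → γ → List α} {l' : Inst → γ → List β} {f : Inst → γ → α → β → δ}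
    (hl : OPTF l) (hl' : OPTF l')
    (hf : OPTF (fun I (p : γ × α × β) => f I p.1 p.2.1 p.2.2)) :
    OPTF (fun I c => List.zipWith (f I c) (l I c) (l' I c)) :=
  (OPTF.map (f := fun I c (q : α × β) => f I c q.1 q.2) (OPTF.zip hl hl') hf).of_eq
    (fun I c => by rw [List.zip, List.map_zipWith])

theorem OPTF.replicate {n : Inst → γ → ℕ} {a : Inst → γ → α} (hn : OPTU n) (ha : OPTF a) :
    OPTF (fun I c => List.replicate (n I c) (a I c)) :=
  OPTF.post₂ (g := fun (u : Un) (a : α) => List.replicate u.val a) (by pt_solve) hn ha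

theorem OPTF.range {n : Inst → γ → ℕ} (hn : OPTU n) : OPTF (fun I c => List.range (n I c)) :=
  OPTF.post (g := fun (u : Un) => List.range u.val) (by pt_solve) hn

theorem OPTF.optionGetD {o : Inst → γ → Option α} {d : Inst → γ → α} (ho : OPTF o)
    (hd : OPTF d) : OPTF (fun I c => (o I c).getD (d I c)) :=
  OPTF.post₂ (g := fun (o : Option α) (d : α) => o.getD d) (by pt_solve) ho hd

theorem OPTF.some {a : Inst → γ → α} (ha : OPTF a) : OPTF (fun I c => Option.some (a I c)) :=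
  OPTF.post (g := fun (a : α) => Option.some a) (by pt_solve) ha

theorem OPTF.intSumL {l : Inst → γ → List ℤ} (hl : OPTF l) : OPTF (fun I c => (l I c).sum) :=
  OPTF.post (g := fun (l : List ℤ) => l.sum) (by pt_solve) hl

theorem OPTF.natSumL {l : Inst → γ → List ℕ} (hl : OPTF l) : OPTF (fun I c => (l I c).sum) :=
  OPTF.post (g := fun (l : List ℕ) => l.sum) (by pt_solve) hl

/-! ### arithmetic -/

section arith

variable {f g : Inst → α → ℤ} {m n : Inst → α → ℕ} {b c : Inst → α → Bool}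

theorem OPTF.intAdd (hf : OPTF f) (hg : OPTF g) : OPTF (fun I a => f I a + g I a) :=
  OPTF.post₂ (g := fun x y : ℤ => x + y) (by pt_solve) hf hg
theorem OPTF.intSub (hf : OPTF f) (hg : OPTF g) : OPTF (fun I a => f I a - g I a) :=
  OPTF.post₂ (g := fun x y : ℤ => x - y) (by pt_solve) hf hg
theorem OPTF.intMul (hf : OPTF f) (hg : OPTF g) : OPTF (fun I a => f I a * g I a) :=
  OPTF.post₂ (g := fun x y : ℤ => x * y) (by pt_solve) hf hg
theorem OPTF.intNeg (hf : OPTF f) : OPTF (fun I a => - f I a) :=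
  OPTF.post (g := fun x : ℤ => - x) (by pt_solve) hf
theorem OPTF.intEdiv (hf : OPTF f) (hg : OPTF g) : OPTF (fun I a => f I a / g I a) :=
  OPTF.post₂ (g := fun x y : ℤ => x / y) (by pt_solve) hf hg
theorem OPTF.intEmod (hf : OPTF f) (hg : OPTF g) : OPTF (fun I a => f I a % g I a) :=
  OPTF.post₂ (g := fun x y : ℤ => x % y) (by pt_solve) hf hg
theorem OPTF.intMax (hf : OPTF f) (hg : OPTF g) : OPTF (fun I a => max (f I a) (g I a)) :=
  OPTF.post₂ (g := fun x y : ℤ => max x y) (by pt_solve) hf hg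
theorem OPTF.intMin (hf : OPTF f) (hg : OPTF g) : OPTF (fun I a => min (f I a) (g I a)) :=
  OPTF.post₂ (g := fun x y : ℤ => min x y) (by pt_solve) hf hg
theorem OPTF.intNatCast (hm : OPTF m) : OPTF (fun I a => ((m I a : ℕ) : ℤ)) :=
  OPTF.post (g := fun x : ℕ => (x : ℤ)) (by pt_solve) hm
theorem OPTF.intToNat (hf : OPTF f) : OPTF (fun I a => (f I a).toNat) :=
  OPTF.post (g := fun x : ℤ => x.toNat) (by pt_solve) hf
theorem OPTF.intNatAbs (hf : OPTF f) : OPTF (fun I a => (f I a).natAbs) :=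
  OPTF.post (g := fun x : ℤ => x.natAbs) (by pt_solve) hf

theorem OPTF.natAdd (hm : OPTF m) (hn : OPTF n) : OPTF (fun I a => m I a + n I a) :=
  OPTF.post₂ (g := fun x y : ℕ => x + y) (by pt_solve) hm hn
theorem OPTF.natSub (hm : OPTF m) (hn : OPTF n) : OPTF (fun I a => m I a - n I a) :=
  OPTF.post₂ (g := fun x y : ℕ => x - y) (by pt_solve) hm hn
theorem OPTF.natMul (hm : OPTF m) (hn : OPTF n) : OPTF (fun I a => m I a * n I a) :=
  OPTF.post₂ (g := fun x y : ℕ => x * y) (by pt_solve) hm hn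
theorem OPTF.natDiv (hm : OPTF m) (hn : OPTF n) : OPTF (fun I a => m I a / n I a) :=
  OPTF.post₂ (g := fun x y : ℕ => x / y) (by pt_solve) hm hn
theorem OPTF.natMod (hm : OPTF m) (hn : OPTF n) : OPTF (fun I a => m I a % n I a) :=
  OPTF.post₂ (g := fun x y : ℕ => x % y) (by pt_solve) hm hn
theorem OPTF.natMax (hm : OPTF m) (hn : OPTF n) : OPTF (fun I a => max (m I a) (n I a)) :=
  OPTF.post₂ (g := fun x y : ℕ => max x y) (by pt_solve) hm hn
theorem OPTF.natMin (hm : OPTF m) (hn : OPTF n) : OPTF (fun I a => min (m I a) (n I a)) :=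
  OPTF.post₂ (g := fun x y : ℕ => min x y) (by pt_solve) hm hn
theorem OPTF.natTwoPow (hn : OPTU n) : OPTF (fun I a => 2 ^ n I a) :=
  OPTF.post (g := fun u : Un => 2 ^ u.val) (by pt_solve) hn
theorem OPTF.natPow (hm : OPTF m) (hn : OPTU n) : OPTF (fun I a => m I a ^ n I a) :=
  OPTF.post₂ (g := fun (x : ℕ) (u : Un) => x ^ u.val) (by pt_solve) hm hn
theorem OPTF.natSize (hm : OPTF m) : OPTU (fun I a => (m I a).size) :=
  OPTF.post (g := fun x : ℕ => Un.mk x.size) Arith.ptf_toNatSize hm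
theorem OPTF.natDiv2 (hm : OPTF m) : OPTF (fun I a => (m I a).div2) :=
  OPTF.post (g := fun x : ℕ => x.div2) Arith.ptf_div2 hm

theorem OPTF.and (hb : OPTF b) (hc : OPTF c) : OPTF (fun I a => b I a && c I a) :=
  OPTF.post₂ (g := fun x y : Bool => x && y) (by pt_solve) hb hc
theorem OPTF.or (hb : OPTF b) (hc : OPTF c) : OPTF (fun I a => b I a || c I a) :=
  OPTF.post₂ (g := fun x y : Bool => x || y) (by pt_solve) hb hc
theorem OPTF.not (hb : OPTF b) : OPTF (fun I a => !b I a) :=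
  OPTF.post (g := fun x : Bool => !x) (by pt_solve) hb

theorem OPTP.intLe (hf : OPTF f) (hg : OPTF g) : OPTP (fun I a => f I a ≤ g I a) :=
  OPTP.post (p := fun q : ℤ × ℤ => q.1 ≤ q.2) (by pt_solve) (hf.prodMk hg)
theorem OPTP.intLt (hf : OPTF f) (hg : OPTF g) : OPTP (fun I a => f I a < g I a) :=
  OPTP.post (p := fun q : ℤ × ℤ => q.1 < q.2) (by pt_solve) (hf.prodMk hg)
theorem OPTP.intEq (hf : OPTF f) (hg : OPTF g) : OPTP (fun I a => f I a = g I a) :=
  OPTP.post (p := fun q : ℤ × ℤ => q.1 = q.2) (by pt_solve) (hf.prodMk hg)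
theorem OPTP.natLe (hf : OPTF m) (hg : OPTF n) : OPTP (fun I a => m I a ≤ n I a) :=
  OPTP.post (p := fun q : ℕ × ℕ => q.1 ≤ q.2) (by pt_solve) (hf.prodMk hg)
theorem OPTP.natLt (hf : OPTF m) (hg : OPTF n) : OPTP (fun I a => m I a < n I a) :=
  OPTP.post (p := fun q : ℕ × ℕ => q.1 < q.2) (by pt_solve) (hf.prodMk hg)
theorem OPTP.natEq (hf : OPTF m) (hg : OPTF n) : OPTP (fun I a => m I a = n I a) :=
  OPTP.post (p := fun q : ℕ × ℕ => q.1 = q.2) (by pt_solve) (hf.prodMk hg)
theorem OPTP.eq {f g : Inst → α → β} (hf : OPTF f) (hg : OPTF g) :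
    OPTP (fun I a => f I a = g I a) :=
  OPTP.post (p := fun q : β × β => q.1 = q.2) (by pt_solve) (hf.prodMk hg)

end arith

/-! ### unary numbers -/

section unary

variable {m n : Inst → α → ℕ}

theorem OPTU.add (hm : OPTU m) (hn : OPTU n) : OPTU (fun I a => m I a + n I a) :=
  OPTF.post₂ (g := fun x y : Un => Un.mk (x.val + y.val)) (PTU.add (by fun_prop) (by fun_prop))
    hm hn
theorem OPTU.sub (hm : OPTU m) (hn : OPTU n) : OPTU (fun I a => m I a - n I a) :=
  OPTF.post₂ (g := fun x y : Un => Un.mk (x.val - y.val)) (PTU.sub (by fun_prop) (by fun_prop))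
    hm hn
theorem OPTU.mul (hm : OPTU m) (hn : OPTU n) : OPTU (fun I a => m I a * n I a) :=
  OPTF.post₂ (g := fun x y : Un => Un.mk (x.val * y.val)) (PTU.mul (by fun_prop) (by fun_prop))
    hm hn
theorem OPTU.max (hm : OPTU m) (hn : OPTU n) : OPTU (fun I a => max (m I a) (n I a)) :=
  OPTF.post₂ (g := fun x y : Un => Un.mk (Max.max x.val y.val))
    (ptu_max (by fun_prop) (by fun_prop)) hm hn
theorem OPTU.pow (hm : OPTU m) (k : ℕ) : OPTU (fun I a => m I a ^ k) :=
  OPTF.post (g := fun x : Un => Un.mk (x.val ^ k)) (PTU.pow (by fun_prop) k) hm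
theorem OPTU.length {l : Inst → γ → List α} (hl : OPTF l) : OPTU (fun I a => (l I a).length) :=
  OPTF.post (g := fun x : List α => Un.mk x.length) (PTU.length (by fun_prop)) hl
theorem OPTU.val {u : Inst → γ → Un} (hu : OPTF u) : OPTU (fun I a => (u I a).val) :=
  OPTF.post (g := fun x : Un => Un.mk x.val) (PTU.val (by fun_prop)) hu

end unary

/-- one recursion level of `opt_solve` -/
syntax "opt_solve" : tactic

/-- apply a lemma up to reducible unfolding and solve the side goals -/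
macro "opt_app " t:term : tactic => `(tactic| ((with_reducible refine $t) <;> opt_solve))

macro_rules
  | `(tactic| opt_solve) => `(tactic| first
    | assumption
    | (with_reducible refine OPTF.of_ptf ?_; pt_solve)
    | (with_reducible refine OPTU.of_ptu ?_; pt_solve)
    | (with_reducible refine OPTP.of_ptp ?_; pt_solve)
    | pt_solve
    | (dsimp only; opt_solve)
    | opt_app OPTF.ite ?_ ?_ ?_
    | opt_app OPTF.cond ?_ ?_ ?_
    | opt_app OPTF.prodMk ?_ ?_
    | opt_app OPTF.map ?_ ?_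
    | opt_app OPTF.zipWith ?_ ?_ ?_
    | opt_app OPTF.zip ?_ ?_
    | opt_app OPTF.filter ?_ ?_
    | opt_app OPTF.flatMap ?_ ?_
    | opt_app OPTF.any ?_ ?_
    | opt_app OPTF.all ?_ ?_
    | opt_app OPTF.find? ?_ ?_
    | opt_app OPTF.append ?_ ?_
    | opt_app OPTF.reverse ?_
    | opt_app OPTF.cons ?_ ?_
    | opt_app OPTF.replicate ?_ ?_
    | opt_app OPTF.range ?_
    | opt_app OPTF.take ?_ ?_
    | opt_app OPTF.drop ?_ ?_
    | opt_app OPTF.getD ?_ ?_ ?_
    | opt_app OPTF.listSet ?_ ?_ ?_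
    | opt_app OPTF.optionGetD ?_ ?_
    | opt_app OPTF.some ?_
    | opt_app OPTF.head? ?_
    | opt_app OPTF.tail ?_
    | opt_app OPTF.natSumL ?_
    | opt_app OPTF.intSumL ?_
    | opt_app OPTF.natAdd ?_ ?_
    | opt_app OPTF.natSub ?_ ?_
    | opt_app OPTF.natMul ?_ ?_
    | opt_app OPTF.natDiv ?_ ?_
    | opt_app OPTF.natMod ?_ ?_
    | opt_app OPTF.natMax ?_ ?_
    | opt_app OPTF.natMin ?_ ?_
    | opt_app OPTF.natTwoPow ?_
    | opt_app OPTF.natPow ?_ ?_
    | opt_app OPTF.natDiv2 ?_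
    | opt_app OPTF.intAdd ?_ ?_
    | opt_app OPTF.intSub ?_ ?_
    | opt_app OPTF.intMul ?_ ?_
    | opt_app OPTF.intNeg ?_
    | opt_app OPTF.intEdiv ?_ ?_
    | opt_app OPTF.intEmod ?_ ?_
    | opt_app OPTF.intMax ?_ ?_
    | opt_app OPTF.intMin ?_ ?_
    | opt_app OPTF.intNatCast ?_
    | opt_app OPTF.intToNat ?_
    | opt_app OPTF.intNatAbs ?_
    | opt_app OPTF.and ?_ ?_
    | opt_app OPTF.or ?_ ?_
    | opt_app OPTF.not ?_
    | opt_app OPTP.toOPTF ?_
    | opt_app OPTP.and ?_ ?_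
    | opt_app OPTP.or ?_ ?_
    | opt_app OPTP.not ?_
    | opt_app OPTP.natLt ?_ ?_
    | opt_app OPTP.natLe ?_ ?_
    | opt_app OPTP.natEq ?_ ?_
    | opt_app OPTP.intLt ?_ ?_
    | opt_app OPTP.intLe ?_ ?_
    | opt_app OPTP.intEq ?_ ?_
    | opt_app OPTP.eq ?_ ?_
    | opt_app OPTU.length ?_
    | opt_app OPTU.add ?_ ?_
    | opt_app OPTU.sub ?_ ?_
    | opt_app OPTU.mul ?_ ?_
    | opt_app OPTU.max ?_ ?_
    | opt_app OPTU.pow ?_ _
    | opt_app OPTF.natSize ?_
    | opt_app OPTU.val ?_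
    | opt_app OPTF.ans _ ?_
    | opt_app OPTF.ans₂ ?_ ?_
    | opt_app OPTU.toOPTF ?_
    | opt_app OPTF.fst ?_
    | opt_app OPTF.snd ?_)

section test


end test

end Crest.Agent.R302.ORAM
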