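import Crest.Agent.R302.EDM4
import Crest.Agent.R302.OPTSolve

/-!
# R302 / EDM, part 5: the list-coded functions are polynomial-time relative to the oracle
-/

set_option autoImplicit false
set_option maxHeartbeats 400000

namespace Crest.Agent.R302.EDM

open Crest.Agent.R302.Sfm646 Crest.Agent.R302.ORAM Crest.Agent.Lib.PT
open Crest.Agent.Lib.PT.Arith

variable {γ : Type} [PTCode γ]

section ctx

variable {β δ : Type} [PTCode β] [PTCode δ]

/-- weakening of the context -/
theorem ouf {n : Inst → γ → ℕ} (hn : OPTU n) : OPTU (fun I (p : γ × δ) => n I p.1) :=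
  OPTU.comp hn (OPTF.fst OPTF.id)

theorem off {f : Inst → γ → β} (hf : OPTF f) :
    OPTF (fun I (p : γ × δ) => f I p.1) := OPTF.comp hf (OPTF.fst OPTF.id)

theorem ofr {α : Type} [PTCode α] {r : Inst → γ → α → β}
    (hr : OPTF (fun I (p : γ × α) => r I p.1 p.2)) :
    OPTF (fun I (p : (γ × δ) × α) => r I p.1.1 p.2) :=
  OPTF.comp₂ (g := r) (f := fun _ (p : (γ × δ) × α) => p.1.1)
    (h := fun _ (p : (γ × δ) × α) => p.2) hr (by opt_solve) (by opt_solve)

end ctx

section sfm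

variable {n : Inst → γ → ℕ}

theorem sfmL_optf {M : Inst → γ → ℕ} {f : Inst → γ → List Bool → ℤ} (hn : OPTU n)
    (hM : OPTF M) (hf : OPTF (fun I (p : γ × List Bool) => f I p.1 p.2)) :
    OPTF (fun I c => sfmL (n I c) (M I c) (f I c)) := by
  have h := sfmRun_optf (γ := γ × Un × ℕ) (n := fun q => q.2.1.val) (M := fun q => q.2.2)
    (F := fun I q l => f I q.1 l) (PTU.val (by fun_prop)) (by fun_prop) (ofr hf)
  unfold sfmL
  refine OPTF.fst (f := fun I c => sfmRun (n I c) (M I c) (f I c)) ?_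
  exact OPTF.comp (g := fun I (q : γ × Un × ℕ) => sfmRun q.2.1.val q.2.2 (fun l => f I q.1 l))
    (f := fun I c => (c, Un.mk (n I c), M I c)) h (OPTF.prodMk OPTF.id (OPTF.prodMk hn hM))

theorem dotL_optf {x : Inst → γ → List ℤ} {l : Inst → γ → List Bool} (hn : OPTU n)
    (hx : OPTF x) (hl : OPTF l) : OPTF (fun I c => dotL (n I c) (x I c) (l I c)) := by
  unfold dotL
  have h1 : OPTF (fun I (p : γ × ℕ) => x I p.1) := off hx
  have h2 : OPTF (fun I (p : γ × ℕ) => l I p.1) := off hl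
  opt_solve

theorem totL_optf {x : Inst → γ → List ℤ} (hn : OPTU n)
    (hx : OPTF x) : OPTF (fun I c => totL (n I c) (x I c)) := by
  unfold totL
  have h1 : OPTF (fun I (p : γ × ℕ) => x I p.1) := off hx
  opt_solve

theorem nrmL_optf {x : Inst → γ → List ℤ} (hn : OPTU n)
    (hx : OPTF x) : OPTF (fun I c => nrmL (n I c) (x I c)) := by
  unfold nrmL
  have h1 : OPTF (fun I (p : γ × ℕ) => x I p.1) := off hx
  opt_solve

variable {r r₁ r₂ : Inst → γ → List Bool → ℤ} {x lo hi : Inst → γ → List ℤ}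
  {l inc exc : Inst → γ → List Bool} {K M : Inst → γ → ℕ} {R : Inst → γ → ℤ}

theorem slkL_optf (hn : OPTU n) (hr : OPTF (fun I (p : γ × List Bool) => r I p.1 p.2))
    (hx : OPTF x) (hl : OPTF l) : OPTF (fun I c => slkL (n I c) (r I c) (x I c) (l I c)) := by
  unfold slkL
  exact OPTF.intSub (OPTF.comp₂ hr OPTF.id hl) (dotL_optf hn hx hl)

theorem slkL_optf' (hn : OPTU n) (hr : OPTF (fun I (p : γ × List Bool) => r I p.1 p.2))
    (hx : OPTF x) :
    OPTF (fun I (p : γ × List Bool) => slkL (n I p.1) (r I p.1) (x I p.1) p.2) :=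
  slkL_optf (ouf hn) (ofr hr) (off hx) (OPTF.snd OPTF.id)

theorem minSlkL_optf (hn : OPTU n) (hK : OPTF K)
    (hr : OPTF (fun I (p : γ × List Bool) => r I p.1 p.2)) (hx : OPTF x) :
    OPTF (fun I c => minSlkL (n I c) (K I c) (r I c) (x I c)) := by
  unfold minSlkL
  exact slkL_optf hn hr hx (sfmL_optf hn (OPTF.natAdd hK (nrmL_optf hn hx))
    (slkL_optf' hn hr hx))

theorem memL_optf (hn : OPTU n) (hK : OPTF K)
    (hr : OPTF (fun I (p : γ × List Bool) => r I p.1 p.2)) (hR : OPTF R) (hx : OPTF x) :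
    OPTF (fun I c => memL (n I c) (K I c) (r I c) (R I c) (x I c)) := by
  unfold memL
  have h1 := totL_optf hn hx
  have h2 := minSlkL_optf hn hK hr hx
  opt_solve

theorem maskL_optf (hn : OPTU n) (hi : OPTF inc) (ho : OPTF exc) (hl : OPTF l) :
    OPTF (fun I c => maskL (n I c) (inc I c) (exc I c) (l I c)) := by
  unfold maskL
  have h1 : OPTF (fun I (p : γ × ℕ) => inc I p.1) := off hi
  have h2 : OPTF (fun I (p : γ × ℕ) => exc I p.1) := off ho
  have h3 : OPTF (fun I (p : γ × ℕ) => l I p.1) := off hl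
  opt_solve

theorem minInL_optf (hn : OPTU n) (hM : OPTF M) (hi : OPTF inc) (ho : OPTF exc)
    (hr : OPTF (fun I (p : γ × List Bool) => r I p.1 p.2)) :
    OPTF (fun I c => minInL (n I c) (M I c) (inc I c) (exc I c) (r I c)) := by
  unfold minInL
  refine maskL_optf hn hi ho (sfmL_optf (f := fun I c l =>
    r I c (maskL (n I c) (inc I c) (exc I c) l) - r I c (inc I c)) hn (by opt_solve) ?_)
  refine OPTF.intSub (OPTF.comp₂ (g := fun I (c : γ) (l : List Bool) => r I c l) hr
    (OPTF.fst OPTF.id) (maskL_optf (ouf hn) (off hi) (off ho) (OPTF.snd OPTF.id))) ?_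
  exact off (OPTF.comp₂ hr OPTF.id hi)

theorem singL_optf {a : Inst → γ → ℕ} (hn : OPTU n) (ha : OPTF a) :
    OPTF (fun I c => singL (n I c) (a I c)) := by
  unfold singL
  have h1 : OPTF (fun I (p : γ × ℕ) => a I p.1) := off ha
  opt_solve

/-- **exchange capacities** -/
theorem capL_optf {a b : Inst → γ → ℕ} (hn : OPTU n) (hK : OPTF K)
    (hr : OPTF (fun I (p : γ × List Bool) => r I p.1 p.2)) (hx : OPTF x) (ha : OPTF a)
    (hb : OPTF b) : OPTF (fun I c => capL (n I c) (K I c) (r I c) (x I c) (a I c) (b I c)) := by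
  unfold capL
  exact slkL_optf hn hr hx (minInL_optf hn (OPTF.natAdd hK (nrmL_optf hn hx)) (singL_optf hn ha)
    (singL_optf hn hb) (slkL_optf' hn hr hx))

theorem cmpL_optf (hn : OPTU n) (hl : OPTF l) : OPTF (fun I c => cmpL (n I c) (l I c)) := by
  unfold cmpL
  have h3 : OPTF (fun I (p : γ × ℕ) => l I p.1) := off hl
  opt_solve



theorem fstL_optf (hn : OPTU n) (hl : OPTF l) : OPTF (fun I c => fstL (n I c) (l I c)) := by
  unfold fstL
  have h3 : OPTF (fun I (p : γ × ℕ) => l I p.1) := off hl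
  opt_solve

theorem sndL_optf (hn : OPTU n) (hl : OPTF l) : OPTF (fun I c => sndL (n I c) (l I c)) := by
  unfold sndL
  have h3 : OPTF (fun I (p : γ × ℕ) => l I p.1) := off hl
  have h4 : OPTF (fun I (p : γ × ℕ) => n I p.1) := off (OPTU.toOPTF hn)
  opt_solve



theorem dblBL_optf (hn : OPTU n) (h₁ : OPTF (fun I (p : γ × List Bool) => r₁ I p.1 p.2))
    (h₂ : OPTF (fun I (p : γ × List Bool) => r₂ I p.1 p.2)) (hR : OPTF R) (hlo : OPTF lo)
    (hhi : OPTF hi) (hl : OPTF l) :
    OPTF (fun I c => dblBL (n I c) (r₁ I c) (r₂ I c) (R I c) (lo I c) (hi I c) (l I c)) := by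
  unfold dblBL
  have g1 := OPTF.comp₂ h₁ OPTF.id (fstL_optf hn hl)
  have g2 := OPTF.comp₂ h₂ OPTF.id (cmpL_optf hn (sndL_optf hn hl))
  have g3 : OPTF (fun I (p : γ × ℕ) => l I p.1) := off hl
  have g4 : OPTF (fun I (p : γ × ℕ) => n I p.1) := off (OPTU.toOPTF hn)
  have g5 : OPTF (fun I (p : γ × ℕ) => lo I p.1) := off hlo
  have g6 : OPTF (fun I (p : γ × ℕ) => hi I p.1) := off hhi
  opt_solve

/-- **is there a common base in a box** -/
theorem feasBL_optf (hn : OPTU n) (hK : OPTF K)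
    (h₁ : OPTF (fun I (p : γ × List Bool) => r₁ I p.1 p.2))
    (h₂ : OPTF (fun I (p : γ × List Bool) => r₂ I p.1 p.2)) (hR : OPTF R) (hlo : OPTF lo)
    (hhi : OPTF hi) :
    OPTF (fun I c => feasBL (n I c) (K I c) (r₁ I c) (r₂ I c) (R I c) (lo I c) (hi I c)) := by
  unfold feasBL
  have g5 : OPTF (fun I (p : γ × ℕ) => lo I p.1) := off hlo
  have g6 : OPTF (fun I (p : γ × ℕ) => hi I p.1) := off hhi
  have g7 := nrmL_optf hn hlo
  have g8 := nrmL_optf hn hhi
  have hM : OPTF (fun I c => 2 * K I c + (R I c).natAbs +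
      (nrmL (n I c) (hi I c) + nrmL (n I c) (lo I c))) := by
    opt_solve
  have hd : OPTF (fun I (p : γ × List Bool) =>
      dblBL (n I p.1) (r₁ I p.1) (r₂ I p.1) (R I p.1) (lo I p.1) (hi I p.1) p.2) :=
    dblBL_optf (ouf hn) (ofr h₁) (ofr h₂) (off hR) (off hlo) (off hhi) (OPTF.snd OPTF.id)
  have hs := dblBL_optf hn h₁ h₂ hR hlo hhi (sfmL_optf
    (f := fun I c => dblBL (n I c) (r₁ I c) (r₂ I c) (R I c) (lo I c) (hi I c))
    (OPTU.add hn hn) hM hd)
  opt_solve

end sfm

/-! ### binary search and the finder -/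

section find

variable {n K : Inst → γ → ℕ}

theorem bsStep_optf {Q : Inst → γ → ℕ → Bool} (hQ : OPTF (fun I (p : γ × ℕ) => Q I p.1 p.2)) :
    OPTF (fun I (p : γ × ℕ × ℕ) => bsStep (Q I p.1) p.2) := by
  unfold bsStep
  have h1 : OPTF (fun I (p : γ × ℕ × ℕ) => Q I p.1 (p.2.2 + p.2.1.div2)) :=
    OPTF.comp₂ (g := Q) (f := fun _ (p : γ × ℕ × ℕ) => p.1)
      (h := fun _ (p : γ × ℕ × ℕ) => p.2.2 + p.2.1.div2) hQ (by opt_solve) (by opt_solve)
  opt_solve

/-- **binary search relative to the oracle** -/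
theorem bsMax_optf {Q : Inst → γ → ℕ → Bool} (hK : OPTU K)
    (hQ : OPTF (fun I (p : γ × ℕ) => Q I p.1 p.2)) :
    OPTF (fun I c => bsMax (K I c) (Q I c)) := by
  unfold bsMax
  refine OPTF.snd (f := fun I c => (bsStep (Q I c))^[K I c] (2 ^ K I c, 0)) ?_
  refine OPTF.iterate (n := K) (f := fun I c s => bsStep (Q I c) s)
    (a := fun I c => (2 ^ K I c, 0)) hK (bsStep_optf hQ) (by opt_solve)
    (B := fun I c => 3 * (K I c + 1) + 1) ?_ ?_
  · exact ((OPB.const 3).mul ((OPTU.opb hK).add (OPB.const 1))).add (OPB.const 1)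
  · intro I c i _
    have h := bsStep_inv (Q I c) (K I c) i
    have h1 : ((bsStep (Q I c))^[i] (2 ^ K I c, 0)).1.size ≤ K I c + 1 := by
      rw [Nat.size_le]
      calc ((bsStep (Q I c))^[i] (2 ^ K I c, 0)).1 ≤ 2 ^ K I c := by omega
        _ < 2 ^ (K I c + 1) := Nat.pow_lt_pow_right (by norm_num) (by omega)
    have h2 : ((bsStep (Q I c))^[i] (2 ^ K I c, 0)).2.size ≤ K I c + 1 := by
      rw [Nat.size_le]
      calc ((bsStep (Q I c))^[i] (2 ^ K I c, 0)).2 ≤ 2 ^ K I c := by omega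
        _ < 2 ^ (K I c + 1) := Nat.pow_lt_pow_right (by norm_num) (by omega)
    change sz ((bsStep (Q I c))^[i] (2 ^ K I c, 0)) ≤ _
    rw [sz_prod, sz_nat, sz_nat]
    omega

theorem foldl_findStepL_bound (K : ℕ) (P : List ℤ → Bool) (L : List ℕ) (l : List ℤ)
    (hl : ∀ z ∈ l, |z| ≤ 2 ^ K) : ∀ z ∈ L.foldl (findStepL K P) l, |z| ≤ 2 ^ K := by
  induction L generalizing l with
  | nil => exact hl
  | cons j L ih =>
    rw [List.foldl_cons]
    refine ih _ fun z hz => ?_
    rcases List.mem_or_eq_of_mem_set hz with h | h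
    · exact hl z h
    · rw [h, abs_of_nonneg (by positivity)]
      exact_mod_cast bsMax_le K _

theorem findVecL_optf {P : Inst → γ → List ℤ → Bool} (hn : OPTU n) (hK : OPTU K)
    (hP : OPTF (fun I (p : γ × List ℤ) => P I p.1 p.2)) :
    OPTF (fun I c => findVecL (n I c) (K I c) (P I c)) := by
  unfold findVecL
  refine OPTF.foldl (l := fun I c => List.range (n I c)) (f := fun I c l j => findStepL (K I c) (P I c) l j)
    (b := fun I c => List.replicate (n I c) 0) (OPTF.range hn) ?_ (by opt_solve)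
    (B := fun I c => n I c * (2 * (3 + (K I c + 1)) + 1)) ?_ ?_
  · unfold findStepL
    have hQ : OPTF (fun I (p : (γ × List ℤ × ℕ) × ℕ) =>
        P I p.1.1 (p.1.2.1.set p.1.2.2 (p.2 : ℤ))) :=
      OPTF.comp₂ (g := P) (f := fun _ (p : (γ × List ℤ × ℕ) × ℕ) => p.1.1)
        (h := fun _ (p : (γ × List ℤ × ℕ) × ℕ) => p.1.2.1.set p.1.2.2 (p.2 : ℤ)) hP
        (by opt_solve) (by opt_solve)
    have hb := bsMax_optf (γ := γ × List ℤ × ℕ) (K := fun I p => K I p.1)
      (Q := fun I p t => P I p.1 (p.2.1.set p.2.2 (t : ℤ))) (ouf hK) hQ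
    opt_solve
  · exact (OPTU.opb hn).mul (((OPB.const 2).mul ((OPB.const 3).add
      ((OPTU.opb hK).add (OPB.const 1)))).add (OPB.const 1))
  · intro I c i _
    have h1 := foldl_findStepL_bound (K I c) (P I c) ((List.range (n I c)).take i)
      (List.replicate (n I c) 0) (fun z hz => by
        rw [List.eq_of_mem_replicate hz]
        simp)
    have h2 := sz_list_le (m := 3 + (K I c + 1)) (fun z hz => sz_int_le z _ (h1 z hz))
    rw [length_foldl_findStepL, List.length_replicate] at h2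
    exact h2


end find

/-! ### the oracle as a rank function -/




theorem lset_eq_setL (n : ℕ) (l : List Bool) : lset n l = setL n l := by
  ext i
  rw [mem_setL, lset, Finset.mem_filter]
  simp only [Finset.mem_univ, true_and, List.getD_eq_getElem?_getD]
  cases h : l[(i : ℕ)]? with
  | none => simp
  | some b => simp


end Crest.Agent.R302.EDM
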