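import Crest.Agent.R302.EDM4
import Crest.Agent.R309.Count632A
import Crest.Agent.R302.ORAM.OPTF
import Crest.Agent.R309.RAMMachine
import Crest.Agent.R309.RAMSpec
import Crest.Agent.Lib.PT.ArithMore
import Crest.Agent.Lib.PT.ArithRat
import Crest.Agent.Lib.PT.ListFns2
import Crest.Prelude.Def_Polymatroid
import Crest.Agent.R302.EDM5
import Crest.Agent.R309.Count632D

-- ▼ part R302/Top497A
section

/-!
# R302, block TOP (helper497), part A: bisection of coordinate boxes (pure mathematics)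

`PB r₁ r₂ R lo hi` = common integer bases in a box; `numCommonIntBases` is the case `0 ≤ x ≤ R`; the bisection
of the first non-degenerate coordinate is an instance of `Count632.Split`.
-/

set_option autoImplicit false

namespace Crest.Agent.R302.Top

open Finset Crest.Polymatroid Crest.Agent.R302.Facet Crest.Agent.R302.EDM

variable {n : ℕ}

open Classical in
/-- common bases in a box -/
noncomputable def PB (r₁ r₂ : Finset (Fin n) → ℕ) (R : ℕ) (lo hi : Fin n → ℤ) :
    Finset (Fin n → ℤ) :=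
  (Fintype.piFinset fun i => Finset.Icc (lo i) (hi i)).filter fun x =>
    MemJ (zr r₁) R x ∧ MemJ (zr r₂) R x

theorem mem_PB {r₁ r₂ : Finset (Fin n) → ℕ} {R : ℕ} {lo hi x : Fin n → ℤ} :
    x ∈ PB r₁ r₂ R lo hi ↔ (∀ i, lo i ≤ x i ∧ x i ≤ hi i) ∧ MemJ (zr r₁) R x ∧ MemJ (zr r₂) R x := by
  unfold PB
  simp only [mem_filter, Fintype.mem_piFinset, mem_Icc]

/-- the number of common integer bases as a box count -/
theorem num_eq_card_PB (R : ℕ) (r₁ r₂ : Finset (Fin n) → ℕ) :
    numCommonIntBases R r₁ r₂ = (PB r₁ r₂ R (fun _ => 0) (fun _ => R)).card := by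
  classical
  unfold numCommonIntBases
  refine Finset.card_bij (fun x _ => fun i => ((x i : ℕ) : ℤ)) ?_ ?_ ?_
  · intro x hx
    rw [mem_filter] at hx
    obtain ⟨_, h1, h2⟩ := hx
    rw [mem_PB]
    refine ⟨fun i => ⟨by positivity, ?_⟩, ?_⟩
    · have := (x i).2
      have h3 : (x i : ℕ) ≤ R := by omega
      exact_mod_cast h3
    · exact (memJ_iff_isBaseVec (r₁ := r₁) (r₂ := r₂) (fun i => (x i : ℕ))).2 ⟨h1, h2⟩
  · intro x _ y _ h
    funext i
    have := congrFun h i
    exact Fin.ext (by exact_mod_cast this)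
  · intro y hy
    rw [mem_PB] at hy
    obtain ⟨h1, h2⟩ := hy
    have h3 : ∀ i, ((y i).toNat : ℤ) = y i := fun i => Int.toNat_of_nonneg (h1 i).1
    have h4 : ∀ i, (y i).toNat < R + 1 := by
      intro i
      have := (h1 i).2
      have := h3 i
      omega
    have h5 : (fun i => (((y i).toNat : ℕ) : ℤ)) = y := funext h3
    have h6 := (memJ_iff_isBaseVec (r₁ := r₁) (r₂ := r₂) (R := R) (fun i => (y i).toNat)).1 (by
      rw [h5]; exact h2)
    refine ⟨fun i => ⟨(y i).toNat, h4 i⟩, ?_, ?_⟩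
    · rw [mem_filter]
      exact ⟨mem_univ _, h6.1, h6.2⟩
    · exact h5

/-! ### one cut -/

theorem PB_lo (r₁ r₂ : Finset (Fin n) → ℕ) (R : ℕ) (lo hi : Fin n → ℤ) (j : Fin n) (m : ℤ)
    (h : m ≤ hi j) [DecidablePred fun x : Fin n → ℤ => x j ≤ m] :
    PB r₁ r₂ R lo (Function.update hi j m) = (PB r₁ r₂ R lo hi).filter fun x => x j ≤ m := by
  ext x
  rw [mem_filter, mem_PB, mem_PB]
  constructor
  · rintro ⟨h1, h2⟩
    have hj := (h1 j).2
    rw [Function.update_self] at hj
    refine ⟨⟨fun i => ⟨(h1 i).1, ?_⟩, h2⟩, hj⟩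
    by_cases hi' : i = j
    · subst hi'; linarith
    · have := (h1 i).2
      rwa [Function.update_of_ne hi'] at this
  · rintro ⟨⟨h1, h2⟩, hj⟩
    refine ⟨fun i => ⟨(h1 i).1, ?_⟩, h2⟩
    by_cases hi' : i = j
    · subst hi'; rwa [Function.update_self]
    · rw [Function.update_of_ne hi']; exact (h1 i).2

theorem PB_hi (r₁ r₂ : Finset (Fin n) → ℕ) (R : ℕ) (lo hi : Fin n → ℤ) (j : Fin n) (m : ℤ)
    (h : lo j ≤ m + 1) [DecidablePred fun x : Fin n → ℤ => ¬ x j ≤ m] :
    PB r₁ r₂ R (Function.update lo j (m + 1)) hi = (PB r₁ r₂ R lo hi).filter fun x => ¬ x j ≤ m := by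
  ext x
  rw [mem_filter, mem_PB, mem_PB]
  constructor
  · rintro ⟨h1, h2⟩
    have hj := (h1 j).1
    rw [Function.update_self] at hj
    refine ⟨⟨fun i => ⟨?_, (h1 i).2⟩, h2⟩, by linarith⟩
    by_cases hi' : i = j
    · subst hi'; linarith
    · have := (h1 i).1
      rwa [Function.update_of_ne hi'] at this
  · rintro ⟨⟨h1, h2⟩, hj⟩
    refine ⟨fun i => ⟨?_, (h1 i).2⟩, h2⟩
    by_cases hi' : i = j
    · subst hi'; rw [Function.update_self]; omega
    · rw [Function.update_of_ne hi']; exact (h1 i).1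

theorem card_split (r₁ r₂ : Finset (Fin n) → ℕ) (R : ℕ) (lo hi : Fin n → ℤ) (j : Fin n) (m : ℤ)
    (h1 : m ≤ hi j) (h2 : lo j ≤ m + 1) :
    (PB r₁ r₂ R lo hi).card = (PB r₁ r₂ R lo (Function.update hi j m)).card +
      (PB r₁ r₂ R (Function.update lo j (m + 1)) hi).card := by
  classical
  rw [PB_lo r₁ r₂ R lo hi j m h1, PB_hi r₁ r₂ R lo hi j m h2]
  exact (Finset.card_filter_add_card_filter_not (s := PB r₁ r₂ R lo hi) _).symm

/-! ### the list-coded bisection -/

/-- the state of the bisection: lower and upper bounds -/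
abbrev Bx : Type := List ℤ × List ℤ

/-- the first non-degenerate coordinate -/
def pos? (n : ℕ) (s : Bx) : Option ℕ :=
  (List.range n).find? fun j => decide (s.1.getD j 0 < s.2.getD j 0)

/-- its index -/
def pj (n : ℕ) (s : Bx) : ℕ := (pos? n s).getD 0

/-- the cut -/
def mid (n : ℕ) (s : Bx) : ℤ := (s.1.getD (pj n s) 0 + s.2.getD (pj n s) 0) / 2

/-- all coordinates are fixed -/
def finB (n : ℕ) (s : Bx) : Bool := !(pos? n s).isSome

/-- the lower half -/
def loS (n : ℕ) (s : Bx) : Bx := (s.1, s.2.set (pj n s) (mid n s))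

/-- the upper half -/
def hiS (n : ℕ) (s : Bx) : Bx := (s.1.set (pj n s) (mid n s + 1), s.2)

/-- the measure -/
def mu (n : ℕ) (s : Bx) : ℕ := ∑ i : Fin n, ((vecL n s.2 i - vecL n s.1 i).toNat).size

/-- the count -/
noncomputable def cnt (r₁ r₂ : Finset (Fin n) → ℕ) (R : ℕ) (s : Bx) : ℕ :=
  (PB r₁ r₂ R (vecL n s.1) (vecL n s.2)).card

/-- valid boxes -/
def V (n R : ℕ) (s : Bx) : Prop :=
  ∃ lo hi : Fin n → ℤ, s = (List.ofFn lo, List.ofFn hi) ∧ ∀ i, 0 ≤ lo i ∧ lo i ≤ hi i ∧ hi i ≤ R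

theorem getD_ofFn' (f : Fin n → ℤ) (i : Fin n) : (List.ofFn f).getD (i : ℕ) 0 = f i := by
  rw [List.getD_eq_getElem?_getD, List.getElem?_ofFn]
  simp

theorem vecL_ofFn (f : Fin n → ℤ) : vecL n (List.ofFn f) = f := by
  funext i
  exact getD_ofFn' f i

theorem set_ofFn (f : Fin n → ℤ) (j : Fin n) (v : ℤ) :
    (List.ofFn f).set (j : ℕ) v = List.ofFn (Function.update f j v) := by
  apply List.ext_getElem
  · simp
  · intro i h1 h2
    rw [List.getElem_set]
    simp only [List.getElem_ofFn]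
    by_cases h : (j : ℕ) = i
    · subst h
      simp
    · rw [if_neg h, Function.update_of_ne]
      intro h'
      exact h (by rw [← h'])

theorem pos?_some {lo hi : Fin n → ℤ} {j : ℕ} (h : pos? n (List.ofFn lo, List.ofFn hi) = some j) :
    ∃ hj : j < n, lo ⟨j, hj⟩ < hi ⟨j, hj⟩ := by
  unfold pos? at h
  have h1 := List.find?_some h
  have h2 := List.mem_of_find?_eq_some h
  have hj : j < n := List.mem_range.1 h2
  refine ⟨hj, ?_⟩
  simp only [decide_eq_true_eq] at h1
  have e1 := getD_ofFn' lo ⟨j, hj⟩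
  have e2 := getD_ofFn' hi ⟨j, hj⟩
  simp only at e1 e2
  rwa [e1, e2] at h1

theorem pos?_none {lo hi : Fin n → ℤ} (h : pos? n (List.ofFn lo, List.ofFn hi) = none) (i : Fin n) :
    hi i ≤ lo i := by
  unfold pos? at h
  rw [List.find?_eq_none] at h
  have h1 := h (i : ℕ) (List.mem_range.2 i.2)
  simp only [decide_eq_true_eq, not_lt] at h1
  rwa [getD_ofFn', getD_ofFn'] at h1

theorem not_fin {n R : ℕ} {s : Bx} (hV : V n R s) (hf : finB n s = false) :
    ∃ (lo hi : Fin n → ℤ) (j : Fin n), s = (List.ofFn lo, List.ofFn hi) ∧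
      (∀ i, 0 ≤ lo i ∧ lo i ≤ hi i ∧ hi i ≤ R) ∧ lo j < hi j ∧ pj n s = j ∧
      mid n s = (lo j + hi j) / 2 ∧
      loS n s = (List.ofFn lo, List.ofFn (Function.update hi j ((lo j + hi j) / 2))) ∧
      hiS n s = (List.ofFn (Function.update lo j ((lo j + hi j) / 2 + 1)), List.ofFn hi) := by
  obtain ⟨lo, hi, rfl, hb⟩ := hV
  unfold finB at hf
  rcases hp : pos? n (List.ofFn lo, List.ofFn hi) with _ | j
  · rw [hp] at hf; simp at hf
  obtain ⟨hj, hlt⟩ := pos?_some hp
  have e1 : pj n (List.ofFn lo, List.ofFn hi) = j := by unfold pj; rw [hp]; rfl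
  have e2 : mid n (List.ofFn lo, List.ofFn hi) = (lo ⟨j, hj⟩ + hi ⟨j, hj⟩) / 2 := by
    unfold mid
    rw [e1]
    have a1 := getD_ofFn' lo ⟨j, hj⟩
    have a2 := getD_ofFn' hi ⟨j, hj⟩
    simp only at a1 a2 ⊢
    rw [a1, a2]
  refine ⟨lo, hi, ⟨j, hj⟩, rfl, hb, hlt, e1, e2, ?_, ?_⟩
  · unfold loS
    rw [e1, e2]
    have := set_ofFn hi ⟨j, hj⟩ ((lo ⟨j, hj⟩ + hi ⟨j, hj⟩) / 2)
    simp only at this ⊢
    rw [this]
  · unfold hiS
    rw [e1, e2]
    have := set_ofFn lo ⟨j, hj⟩ ((lo ⟨j, hj⟩ + hi ⟨j, hj⟩) / 2 + 1)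
    simp only at this ⊢
    rw [this]

theorem size_lt_of_two_mul_le {a b : ℕ} (h : 2 * a ≤ b) (hb : 0 < b) : a.size < b.size := by
  rcases Nat.eq_zero_or_pos a with h0 | ha
  · subst h0
    rw [Nat.size_zero]
    exact Nat.size_pos.2 hb
  · have h1 : (2 * a).size = a.size + 1 := by
      have := Nat.size_bit (b := false) (n := a) (by simp [Nat.bit]; omega)
      simpa [Nat.bit_val] using this
    have h2 := Nat.size_le_size h
    omega

theorem mu_ofFn (lo hi : Fin n → ℤ) :
    mu n (List.ofFn lo, List.ofFn hi) = ∑ i : Fin n, ((hi i - lo i).toNat).size := by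
  unfold mu
  simp only [vecL_ofFn]

theorem mu_lt {lo hi lo' hi' : Fin n → ℤ} (j : Fin n)
    (h : ∀ i, i ≠ j → hi' i - lo' i = hi i - lo i)
    (hj : 2 * (hi' j - lo' j).toNat ≤ (hi j - lo j).toNat) (hj0 : 0 < (hi j - lo j).toNat) :
    mu n (List.ofFn lo', List.ofFn hi') < mu n (List.ofFn lo, List.ofFn hi) := by
  rw [mu_ofFn, mu_ofFn]
  refine Finset.sum_lt_sum (fun i _ => ?_) ⟨j, mem_univ j, size_lt_of_two_mul_le hj hj0⟩
  by_cases hi' : i = j
  · subst hi'
    exact (size_lt_of_two_mul_le hj hj0).le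
  · rw [h i hi']

/-- **the bisection scheme** -/
theorem split {R : ℕ} (r₁ r₂ : Finset (Fin n) → ℕ) (leaf : Bx → Bool)
    (hleaf : ∀ s, V n R s → (leaf s = true ↔ 0 < cnt r₁ r₂ R s)) :
    Crest.Agent.R309.Count632.Split (cnt r₁ r₂ R) (mu n) (loS n) (hiS n) (finB n) leaf (V n R) where
  fin_of := by
    intro s hV hμ
    by_contra hf
    have hf' : finB n s = false := by simpa using hf
    obtain ⟨lo, hi, j, rfl, hb, hlt, -⟩ := not_fin hV hf'
    rw [mu_ofFn] at hμ
    have := (Finset.sum_eq_zero_iff.1 hμ) j (mem_univ j)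
    rw [Nat.size_eq_zero] at this
    omega
  mu_of := by
    intro s hV hf
    obtain ⟨lo, hi, rfl, hb⟩ := hV
    rw [mu_ofFn]
    refine Finset.sum_eq_zero fun i _ => ?_
    rw [Nat.size_eq_zero]
    have hp : pos? n (List.ofFn lo, List.ofFn hi) = none := by
      unfold finB at hf
      rcases h : pos? n (List.ofFn lo, List.ofFn hi) with _ | j
      · rfl
      · rw [h] at hf; simp at hf
    have := pos?_none hp i
    omega
  V_lo := by
    intro s hV hf
    obtain ⟨lo, hi, j, rfl, hb, hlt, -, -, e, -⟩ := not_fin hV hf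
    rw [e]
    refine ⟨_, _, rfl, fun i => ?_⟩
    have hbi := hb i
    by_cases hi' : i = j
    · subst hi'
      rw [Function.update_self]
      omega
    · rw [Function.update_of_ne hi']; exact hbi
  V_hi := by
    intro s hV hf
    obtain ⟨lo, hi, j, rfl, hb, hlt, -, -, -, e⟩ := not_fin hV hf
    rw [e]
    refine ⟨_, _, rfl, fun i => ?_⟩
    have hbi := hb i
    by_cases hi' : i = j
    · subst hi'
      rw [Function.update_self]
      omega
    · rw [Function.update_of_ne hi']; exact hbi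
  mu_lo := by
    intro s hV hf
    obtain ⟨lo, hi, j, rfl, hb, hlt, -, -, e, -⟩ := not_fin hV hf
    rw [e]
    refine mu_lt j (fun i hi' => by rw [Function.update_of_ne hi']) ?_ (by omega)
    rw [Function.update_self]
    omega
  mu_hi := by
    intro s hV hf
    obtain ⟨lo, hi, j, rfl, hb, hlt, -, -, -, e⟩ := not_fin hV hf
    rw [e]
    refine mu_lt j (fun i hi' => by rw [Function.update_of_ne hi']) ?_ (by omega)
    rw [Function.update_self]
    omega
  split := by
    intro s hV hf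
    obtain ⟨lo, hi, j, rfl, hb, hlt, -, -, e1, e2⟩ := not_fin hV hf
    rw [e1, e2]
    unfold cnt
    simp only [vecL_ofFn]
    exact card_split r₁ r₂ R lo hi j _ (by omega) (by omega)
  fin_le := by
    intro s hV hf
    obtain ⟨lo, hi, rfl, hb⟩ := hV
    have hp : pos? n (List.ofFn lo, List.ofFn hi) = none := by
      unfold finB at hf
      rcases h : pos? n (List.ofFn lo, List.ofFn hi) with _ | j
      · rfl
      · rw [h] at hf; simp at hf
    unfold cnt
    simp only [vecL_ofFn]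
    rw [Finset.card_le_one]
    intro x hx y hy
    rw [mem_PB] at hx hy
    funext i
    have h1 := hx.1 i
    have h2 := hy.1 i
    have h3 := pos?_none hp i
    omega
  leaf_iff := hleaf

/-- the ratio that the coin estimates -/
theorem ratio {R : ℕ} (r₁ r₂ : Finset (Fin n) → ℕ) {s : Bx} (hV : V n R s) (hf : finB n s = false)
    (φ : List ℤ → ℝ) (hφ : ∀ y, φ y = if y.getD (pj n s) 0 ≤ mid n s then 1 else 0) :
    (∑ x ∈ PB r₁ r₂ R (vecL n s.1) (vecL n s.2), φ (List.ofFn x)) = (cnt r₁ r₂ R (loS n s) : ℝ) := by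
  classical
  obtain ⟨lo, hi, j, rfl, hb, hlt, e0, e3, e1, -⟩ := not_fin hV hf
  rw [e1]
  unfold cnt
  simp only [vecL_ofFn]
  rw [PB_lo r₁ r₂ R lo hi j _ (by omega), Finset.card_filter]
  push_cast
  refine Finset.sum_congr rfl fun x _ => ?_
  rw [hφ, e0, e3, getD_ofFn']

theorem V_init (n R : ℕ) : V n R (List.replicate n 0, List.replicate n (R : ℤ)) :=
  ⟨fun _ => 0, fun _ => R, by rw [List.ofFn_const, List.ofFn_const], fun i => by
    refine ⟨le_rfl, by positivity, le_rfl⟩⟩

theorem cnt_init (R : ℕ) (r₁ r₂ : Finset (Fin n) → ℕ) :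
    cnt r₁ r₂ R (List.replicate n 0, List.replicate n (R : ℤ)) = numCommonIntBases R r₁ r₂ := by
  rw [num_eq_card_PB]
  unfold cnt
  simp only
  rw [← List.ofFn_const, ← List.ofFn_const, vecL_ofFn, vecL_ofFn]

theorem mu_init (n R : ℕ) : mu n (List.replicate n 0, List.replicate n (R : ℤ)) = n * R.size := by
  rw [← List.ofFn_const, ← List.ofFn_const, mu_ofFn]
  simp

end Crest.Agent.R302.Top
end

-- ▼ part R302/ORAM/Machine
section

/-!
# The one-shot oracle machine

Read the input words (the first one is `n`), append the word `2 ^ (w - 1)`, run the program `h` on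
the coded list, draw as many random bits as the result is long, run the program `c` on the pair of
the two, write the output words and halt.
-/

set_option autoImplicit false

namespace Crest.Agent.R302.ORAM

open Crest.WordRAM hiding init
open Crest.OracleRAM
open Crest.Agent.R309.RAM
open Crest.Agent.Lib.PT Function

/-- preamble -/
def preO (K : ℕ) : Prog :=
  .seq (.blk [.load (12 + K) 3]) (.seq (boot K) (.seq (.blk [.store 7 0, .add 0 0 4]) encP))

/-- final part -/
def postO : Prog := .seq (.blk [.load 2 (12 + 0)]) decP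

/-- the whole program -/
def wholeO (K : ℕ) (h c : OCmd) : OProg :=
  .seq (.base (preO K)) (.seq (otr K h) (.seq (.base (.seq drawP (tr (roundC .skip))))
    (.seq (otr K c) (.base postO))))

instance (K : ℕ) : NeZero (13 + K) := ⟨by omega⟩

/-- the machine -/
def omachine (K : ℕ) (h c : OCmd) : OProgram where
  numRegs := 13 + K
  code := (wholeO K h c).comp (13 + K) 0

instance (K : ℕ) (h c : OCmd) : NeZero (omachine K h c).numRegs :=
  inferInstanceAs (NeZero (13 + K))

theorem wholeO_ok {K : ℕ} {h c : OCmd} (hK : 2 < K) (hh : h.maxVar < K) (hc : c.maxVar < K) :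
    (wholeO K h c).ok (13 + K) := by
  refine ⟨⟨?_, ?_, ?_, ?_⟩, otr_ok hh, ⟨?_, ?_⟩, otr_ok hc, ?_, ?_⟩
  · intro i hi
    simp only [List.mem_cons, List.not_mem_nil, or_false] at hi
    subst hi
    simp only [Op.ok]; omega
  · exact Prog.ok_mono (boot_ok K) (by omega)
  · intro i hi
    simp only [List.mem_cons, List.not_mem_nil, or_false] at hi
    rcases hi with rfl | rfl <;> simp only [Op.ok] <;> omega
  · exact Prog.ok_mono (encP_ok K (by omega)) (by omega)
  · exact Prog.ok_mono (drawP_ok K (by omega)) (by omega)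
  · refine Prog.ok_mono (tr_ok (N := K) ?_) (by omega)
    simp only [roundC, Cmd.maxVar, mv, mvMap, pushAll]
    omega
  · intro i hi
    simp only [List.mem_cons, List.not_mem_nil, or_false] at hi
    subst hi
    simp only [Op.ok]; omega
  · exact Prog.ok_mono (decP_ok K (by omega)) (by omega)

theorem preO_run {w K H : ℕ} (ρ : ℕ → ℕ) (hK : 2 < K) (hw : 2 ≤ w)
    (hH : K * (H + 1) ≤ 2 ^ (w - 1)) (n : ℕ) (L : List ℕ) (hn : L.head? = some n)
    (hL : ∀ a ∈ L, a + 1 < 2 ^ w) (hroom : (enc (L ++ [2 ^ (w - 1)])).length + 2 ≤ H)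
    (σ : St) (h0 : σ.regs 0 = L.length % 2 ^ w) (h3 : σ.regs 3 = 0)
    (hm : ∀ i, σ.mem i = L[i]?.getD 0 % 2 ^ w) (hd : σ.drawn = 0) :
    ∃ σ' t, Ex w ρ (preO K) σ σ' t ∧ t ≤ 4 * w + 3 * K + 13 + (10 + 12 * w) * (L.length + 1) ∧
      Rep w K (init (false :: enc (L ++ [2 ^ (w - 1)]))) σ' ∧ σ'.regs (12 + K) = n ∧
      σ'.drawn = 0 := by
  have hB := two_pow_half (show 1 ≤ w by omega)
  have hKle : 3 * (H + 1) ≤ 2 ^ (w - 1) :=
    (Nat.mul_le_mul_right (H + 1) (show 3 ≤ K by omega)).trans hH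
  have hK3 : K * 3 ≤ 2 ^ (w - 1) :=
    (Nat.mul_le_mul_left K (show 3 ≤ H + 1 by omega)).trans hH
  have hlen : (L ++ [2 ^ (w - 1)]).length ≤ (enc (L ++ [2 ^ (w - 1)])).length := length_le_enc _
  simp only [List.length_append, List.length_cons, List.length_nil] at hlen
  have hLlen : L.length % 2 ^ w = L.length := Nat.mod_eq_of_lt (by omega)
  -- first instruction
  set σ1 := effs w ρ [.load (12 + K) 3] σ with hσ1
  have a1 : σ1.regs (12 + K) = n := by
    simp only [hσ1, effs_cons, effs_nil, Op.eff, update_self]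
    rw [h3, hm]
    cases L with
    | nil => simp at hn
    | cons a L =>
      simp only [List.head?_cons, Option.some.injEq] at hn
      subst hn
      simp only [List.getElem?_cons_zero, Option.getD_some]
      exact Nat.mod_eq_of_lt (by have := hL a (by simp); omega)
  have aj : ∀ j, j < 12 → σ1.regs j = σ.regs j := by
    intro j hj
    simp [hσ1, Op.eff, show j ≠ 12 + K by omega]
  obtain ⟨σ2, t2, e2, b2, r2, c0, cm, cd⟩ := boot_run (K := K) ρ hw (by omega) σ1
    (by rw [aj 3 (by omega), h3])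
  have c12 : σ2.regs (12 + K) = n := by
    rw [Ex.frame e2 (boot_ok K) (le_refl _), a1]
  set σ3 := effs w ρ [.store 7 0, .add 0 0 4] σ2 with hσ3
  have h0' : σ2.regs 0 = L.length := by rw [c0, aj 0 (by omega), h0, hLlen]
  have hst : (effs w ρ [.store 7 0] σ2).mem = update σ2.mem L.length (2 ^ (w - 1)) := by
    simp only [effs_cons, effs_nil, Op.eff]
    rw [h0', r2.base]
  have r3 : Rep w K (init []) σ3 := by
    have hr : Rep w K (init []) (effs w ρ [.store 7 0] σ2) := by
      refine Rep.congr r2 rfl rfl rfl rfl rfl (fun _ _ => rfl) ?_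
      intro a ha
      rw [hst, update_of_ne]
      omega
    simp only [hσ3, effs_cons, effs_nil]
    simp only [effs_cons, effs_nil] at hr
    exact hr.scratch (d := 0) _ (by omega)
  have g0 : σ3.regs 0 = L.length + 1 := by
    simp only [hσ3, effs_cons, effs_nil, Op.eff, update_self]
    rw [r2.one, h0']
    exact Nat.mod_eq_of_lt (by omega)
  have gm : ∀ i, σ3.mem i = if i = L.length then 2 ^ (w - 1) else σ2.mem i := by
    intro i
    have : σ3.mem i = (effs w ρ [.store 7 0] σ2).mem i := rfl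
    rw [this, hst, update_apply]
  have g12 : σ3.regs (12 + K) = n := by
    simp only [hσ3, effs_cons, effs_nil, Op.eff]
    rw [update_of_ne (show 12 + K ≠ 0 by omega), c12]
  obtain ⟨σ4, t4, e4, b4, r4, d4⟩ := encP_run ρ (show 1 ≤ w by omega) hH (by omega)
    (L ++ [2 ^ (w - 1)]) (by
      intro a ha
      rw [List.mem_append, List.mem_singleton] at ha
      rcases ha with ha | rfl
      · exact hL a ha
      · omega) (by
      simp only [List.length_append, List.length_cons, List.length_nil]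
      omega) (by omega) σ3 r3 (by
      rw [g0]
      simp) (by
      intro j hj
      simp only [List.length_append, List.length_cons, List.length_nil] at hj
      rw [gm]
      by_cases hjL : j = L.length
      · subst hjL
        simp
      · rw [if_neg hjL, cm j (by omega)]
        have hjl : j < L.length := by omega
        show σ.mem j = _
        rw [hm, List.getElem_append_left hjl, List.getElem?_eq_getElem hjl, Option.getD_some]
        exact Nat.mod_eq_of_lt (by have := hL _ (List.getElem_mem hjl); omega))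
  refine ⟨σ4, _, Ex.seq (Ex.blk _ _) (Ex.seq e2 (Ex.seq (Ex.blk _ _) e4)), ?_, r4,
    ?_, ?_⟩
  · simp only [List.length_append, List.length_cons, List.length_nil, zero_add] at b4
    simp only [List.length_cons, List.length_nil]
    omega
  · rw [Ex.frame e4 (encP_ok K (by omega)) (le_refl _), g12]
  · rw [d4]
    show σ2.drawn = 0
    rw [cd]
    exact hd

/-- a halted configuration does not change -/
theorem ostep_halted {P : OProgram} {n : ℕ} {O : Orc n} {w : ℕ} {ρ : ℕ → ℕ}
    {c : OCfg P.numRegs} (h : c.cfg.halted = true) : ostep P n O w ρ c = c := by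
  unfold ostep
  rw [if_pos h]

theorem oiterate_halted {P : OProgram} {n : ℕ} {O : Orc n} {w : ℕ} {ρ : ℕ → ℕ}
    {c : OCfg P.numRegs} (h : c.cfg.halted = true) (T : ℕ) : (ostep P n O w ρ)^[T] c = c := by
  induction T with
  | zero => rfl
  | succ T ih => rw [Function.iterate_succ_apply', ih, ostep_halted h]

theorem ostep_end {P : OProgram} {n : ℕ} {O : Orc n} {w : ℕ} {ρ : ℕ → ℕ} {pc : ℕ} {s : St} {k : ℕ}
    (h : P.code[pc]? = none) :
    ostep P n O w ρ (ocfg P.numRegs pc s k) = ⟨hcfg P.numRegs pc s, k⟩ := by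
  unfold ostep
  simp only [ocfg, cfg, Bool.false_eq_true, if_false, h, hcfg]

/-- the complete run -/
theorem omachine_run {w K H n1 n2 : ℕ} {h c : OCmd} (ρ : ℕ → ℕ) (hK : 2 < K) (hh : h.maxVar < K)
    (hc : c.maxVar < K) (hw : 2 ≤ w) (hH : K * (H + 1) ≤ 2 ^ (w - 1)) (I : Inst)
    (hI : ∀ b A, I.O b A + 1 < 2 ^ w) (L : List ℕ) (hn : L.head? = some I.n)
    (hL : ∀ a ∈ L, a + 1 < 2 ^ w) {s : List Bool} {out : List ℕ}
    (hrun : ORun I h (init (false :: enc (L ++ [2 ^ (w - 1)]))) (init s) n1)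
    (hrun' : ORun I c (init (pair s (rbits w ρ 0 s.length))) (init (true :: enc out)) n2)
    (hout : ∀ a ∈ out, a < 2 ^ w) (hlen : out.length ≤ 2 ^ (w - 1))
    (hroom1 : (enc (L ++ [2 ^ (w - 1)])).length + 2 + n1 ≤ H)
    (hroom2 : 16 * s.length + 10 + n2 ≤ H) (T : ℕ)
    (hT : 4 * w + 3 * K + 50 + (10 + 12 * w) * (L.length + 1) + (12 + 12 * w) * n1 +
      75 * s.length + (12 + 12 * w) * n2 + 9 * (enc out).length ≤ T) :
    (orun (omachine K h c) I.n I.O w ρ L T).cfg.halted = true ∧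
      (orun (omachine K h c) I.n I.O w ρ L T).cfg.output = out := by
  set σ0 : St := { regs := fun j => if j = 0 then L.length % 2 ^ w else 0
                   mem := fun i => L[i]?.getD 0 % 2 ^ w
                   drawn := 0 } with hσ0
  obtain ⟨σ1, t1, e1, b1, r1, q1, d1⟩ := preO_run ρ hK hw hH I.n L hn hL (by omega) σ0 rfl rfl
    (fun i => rfl) rfl
  -- first program
  obtain ⟨t, ht, hx⟩ := hrun
  obtain ⟨σ2, t2, e2, b2, r2, q2, d2⟩ := oexec_tr ρ (by omega) hH I hI hx hh (by
    intro k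
    have : ((init (false :: enc (L ++ [2 ^ (w - 1)])) : Store) k).length ≤
        (enc (L ++ [2 ^ (w - 1)])).length + 1 := by
      unfold init
      split <;> simp
    omega) σ1 r1 q1
  -- random bits
  obtain ⟨σ3, t3, e3, b3, r3, d3⟩ := draw_run ρ (by omega) hH hK s (by omega) σ2 r2
  have hd : σ2.drawn = 0 := d2.trans d1
  rw [hd] at r3
  obtain ⟨t', ht', hx'⟩ := roundC_run (c := .skip) (s := s) (τ := rbits w ρ 0 s.length)
    (y := pair s (rbits w ρ 0 s.length)) (n := 1) ⟨1, le_rfl, Exec.skip _⟩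
  rw [rbits_length] at ht'
  obtain ⟨σ4, t4, e4, b4, r4, d4⟩ := exec_tr ρ (by omega) hH hx' (by
    simp only [roundC, Cmd.maxVar, mv, mvMap, pushAll]
    omega) (by
    intro k
    have : ((update (update (init []) 1 s.reverse) 2
        (rbits w ρ 0 s.length).reverse : Store) k).length ≤ s.length := by
      by_cases hk2 : k = 2
      · subst hk2; simp [rbits_length]
      · by_cases hk1 : k = 1
        · subst hk1; simp
        · by_cases hk0 : k = 0
          · subst hk0; simp
          · simp [hk2, hk1, init]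
    omega) σ3 r3
  have okr : (tr (roundC .skip)).ok (12 + K) := by
    refine tr_ok (N := K) ?_
    simp only [roundC, Cmd.maxVar, mv, mvMap, pushAll]
    omega
  have q4 : σ4.regs (12 + K) = I.n := by
    rw [Ex.frame e4 okr (le_refl _), Ex.frame e3 (drawP_ok K (by omega)) (le_refl _), q2]
  -- second program
  obtain ⟨t5, ht5, hx5⟩ := hrun'
  obtain ⟨σ5, t6, e5, b5, r5, q5, d5⟩ := oexec_tr ρ (by omega) hH I hI hx5 hc (by
    intro k
    have : ((init (pair s (rbits w ρ 0 s.length)) : Store) k).length ≤ 3 * s.length + 1 := by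
      unfold init
      split
      · rw [core_length_pair, rbits_length]
        omega
      · simp
    omega) σ4 r4 q4
  -- output
  obtain ⟨σ6, t7, e6, b6, o0, o1, om, d6⟩ := decP_run ρ (by omega) (by omega) out σ5 r5 hout hlen
  have hall : OEx I.O w ρ (wholeO K h c) σ0 σ6 (t1 + (t2 + ((t3 + t4) + (t6 + (1 + t7))))) :=
    OEx.seq (OEx.base e1) (OEx.seq e2 (OEx.seq (OEx.base (Ex.seq e3 e4)) (OEx.seq e5
      (OEx.base (Ex.seq (Ex.blk _ _) e6)))))
  obtain ⟨k', hk'⟩ := OEx.run (P := omachine K h c) hall (o := 0) (k := 0) (wholeO_ok hK hh hc)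
    (OAt.self _)
  rw [zero_add] at hk'
  have hnone : (omachine K h c).code[(wholeO K h c).len]? = none := by
    apply List.getElem?_eq_none
    exact (OProg.length_comp _ _ _).le
  have hinit : (⟨WordRAM.init ⟨(omachine K h c).numRegs, []⟩ w L, 0⟩ :
      OCfg (omachine K h c).numRegs) = ocfg (omachine K h c).numRegs 0 σ0 0 := rfl
  have hfin : (ostep (omachine K h c) I.n I.O w ρ)^[1 + (t1 + (t2 + ((t3 + t4) + (t6 + (1 + t7)))))]
      (⟨WordRAM.init ⟨(omachine K h c).numRegs, []⟩ w L, 0⟩ : OCfg (omachine K h c).numRegs) =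
      ⟨hcfg (omachine K h c).numRegs (wholeO K h c).len σ6, k'⟩ := by
    rw [Function.iterate_add_apply, Function.iterate_one, hinit, hk', ostep_end hnone]
  have hle : 1 + (t1 + (t2 + ((t3 + t4) + (t6 + (1 + t7))))) ≤ T := by
    have h1 : (12 + 12 * w) * t ≤ (12 + 12 * w) * n1 := Nat.mul_le_mul_left _ ht
    have h2 : (12 + 12 * w) * t5 ≤ (12 + 12 * w) * n2 := Nat.mul_le_mul_left _ ht5
    omega
  obtain ⟨m, rfl⟩ := Nat.exists_eq_add_of_le hle
  have hrun : orun (omachine K h c) I.n I.O w ρ L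
      (1 + (t1 + (t2 + ((t3 + t4) + (t6 + (1 + t7))))) + m) =
      ⟨hcfg (omachine K h c).numRegs (wholeO K h c).len σ6, k'⟩ := by
    unfold orun
    rw [add_comm _ m, Function.iterate_add_apply, hfin, oiterate_halted rfl]
  rw [hrun]
  exact ⟨rfl, hcfg_output (show 1 < 13 + K by omega) o0 o1 om⟩

end Crest.Agent.R302.ORAM
end

-- ▼ part R302/ORAM/OneShot
section

/-!
# One-shot randomised oracle computations on the oracle word RAM
-/

set_option autoImplicit false

namespace Crest.Agent.R302.ORAM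

open Crest.WordRAM hiding init
open Crest.OracleRAM
open Crest.Agent.R309.RAM
open Crest.Agent.Lib.PT Function
open scoped ENNReal

/-- the probability of an event as an average -/
theorem ofReal_oprobAfter (P : OProgram) (n : ℕ) (O : Orc n) (w : ℕ) (input : List ℕ) (T : ℕ)
    (E : OCfg P.numRegs → Prop) :
    ENNReal.ofReal (oprobAfter P n O w input T E) =
      A w T (fun y => ind (E (orun P n O w y input T))) := by
  classical
  rw [A_eq_sum]
  unfold oprobAfter Crest.FinProb.uniformProb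
  rw [ENNReal.ofReal_div_of_pos (by positivity)]
  congr 1
  · rw [ENNReal.ofReal_natCast]
    unfold ind
    rw [Finset.sum_boole]
    congr 2
  · rw [Fintype.card_fun, Fintype.card_fin, Fintype.card_fin, ENNReal.ofReal_natCast]
    push_cast
    rfl

theorem oprobAfter_nonneg (P : OProgram) (n : ℕ) (O : Orc n) (w : ℕ) (input : List ℕ) (T : ℕ)
    (E : OCfg P.numRegs → Prop) : 0 ≤ oprobAfter P n O w input T E := by
  unfold oprobAfter Crest.FinProb.uniformProb
  positivity

/-- the probability when the outcome is a function of the first `N` random bits -/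
theorem oprobAfter_eq {P : OProgram} {n : ℕ} {O : Orc n} {w : ℕ} {input : List ℕ} {T N : ℕ}
    (hw : 1 ≤ w) (hN : N ≤ T) (E : OCfg P.numRegs → Prop) (G : List Bool → Prop)
    (h : ∀ ρ, E (orun P n O w ρ input T) ↔ G (rbits w ρ 0 N)) :
    oprobAfter P n O w input T E = Crest.Agent.R309.Tape.pr N G := by
  have h1 : ENNReal.ofReal (oprobAfter P n O w input T E) = B N (fun τ => ind (G τ)) := by
    rw [ofReal_oprobAfter]
    have h2 : ∀ y, ind (E (orun P n O w y input T)) = ind (G (rbits w y 0 N)) := by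
      intro y
      rw [propext (h y)]
    simp only [h2]
    obtain ⟨m, rfl⟩ := Nat.exists_eq_add_of_le hN
    have key : ∀ x : List ℕ, x.length = N →
        A w m (fun y => ind (G (rbits w (sapp x y) 0 N))) = ind (G (bits w x)) := by
      intro x hx
      have : ∀ y, rbits w (sapp x y) 0 N = bits w x := by
        intro y
        have := Sim.rbits_sapp w x y 0
        rw [hx] at this
        rw [← this, Sim.plc_zero]
      simp only [this]
      exact A_const _
    exact le_antisymm (A_le_B hw m N _ _ fun x hx => (key x hx).le)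
      (B_le_A hw m N _ _ fun x hx => (key x hx).ge)
  have h3 := ofReal_avg N (fun τ => Crest.Agent.R309.Tape.ind (G τ))
    fun τ _ => Crest.Agent.R309.Tape.ind_nonneg _
  have h4 : ENNReal.ofReal (Crest.Agent.R309.Tape.pr N G) = B N (fun τ => ind (G τ)) := by
    unfold Crest.Agent.R309.Tape.pr
    rw [h3.2]
    simp only [ofReal_ind]
  rw [← h4] at h1
  exact (ENNReal.ofReal_eq_ofReal_iff (oprobAfter_nonneg _ _ _ _ _ _ _) h3.1).1 h1

/-- the first `N` of `M` random bits -/
theorem take_rbits (w : ℕ) (ρ : ℕ → ℕ) : ∀ (N M d : ℕ), N ≤ M →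
    (rbits w ρ d M).take N = rbits w ρ d N := by
  intro N
  induction N with
  | zero => intro M d _; simp [rbits]
  | succ N ih =>
    intro M d h
    obtain ⟨M, rfl⟩ := Nat.exists_eq_succ_of_ne_zero (show M ≠ 0 by omega)
    simp only [rbits, List.take_succ_cons]
    rw [ih M (d + 1) (by omega)]

/-- **One-shot randomised oracle computations.** The input words `L` (the first one is `n`) with the
word `2 ^ (w - 1)` appended are turned into a typed input by `pre` (computable on the domain `D`);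
`N` random bits are drawn; the output is the list of words `F`. -/
theorem oneshot {α : Type} [PTCode α] {D : Inst → List ℕ → Prop} {pre : Inst → List ℕ → α}
    {g : Inst → List Bool → List Bool} (hg : OPT (fun I x => ∃ L, D I L ∧ x = enc L) g)
    (hpre : ∀ I L, D I L → g I (enc L) = enc (pre I L)) {N : α → ℕ} (hN : PTU N)
    {F : Inst → α × List Bool → List ℕ} (hF : OPTF F) :
    ∃ (P : OProgram) (q : Polynomial ℕ), ∀ (I : Inst) (w : ℕ) (L : List ℕ),
      D I (L ++ [2 ^ (w - 1)]) → L.head? = some I.n → (∀ a ∈ L, a + 1 < 2 ^ w) →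
      (∀ b A, I.O b A + 1 < 2 ^ w) → q.eval (sz L + w + I.sz) ≤ 2 ^ w →
      (∀ τ : List Bool, τ.length = N (pre I (L ++ [2 ^ (w - 1)])) →
        ∀ a ∈ F I (pre I (L ++ [2 ^ (w - 1)]), τ), a < 2 ^ w) →
      ∀ T, q.eval (sz L + w + I.sz) ≤ T →
        1 ≤ w ∧ N (pre I (L ++ [2 ^ (w - 1)])) ≤ T ∧
        ∀ ρ, (orun P I.n I.O w ρ L T).cfg.halted = true ∧
          (orun P I.n I.O w ρ L T).cfg.output = F I (pre I (L ++ [2 ^ (w - 1)]),
            rbits w ρ 0 (N (pre I (L ++ [2 ^ (w - 1)])))) := by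
  obtain ⟨NR, hNR, hN⟩ := hN
  obtain ⟨FR, hFR, hF⟩ := hF
  obtain ⟨bv, hbv, hbv'⟩ : PTF (fun b : Bits => b.val) := PTF.bitsVal PTF.id
  have hbv'' : ∀ l : List Bool, bv l = enc l := fun l => hbv' ⟨l⟩
  -- first program
  let hf : Inst → List Bool → List Bool := fun I z =>
    pair (g I z.tail) (NR (g I z.tail))
  have hgt : OPT (fun I z => ∃ L, D I L ∧ z = false :: enc L) (fun I z => g I z.tail) := by
    refine hg.comp (OPT.of_pt PT.tail) ?_
    rintro I _ ⟨L, hL, rfl⟩
    exact ⟨L, hL, rfl⟩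
  have hhf : OPT (fun I z => ∃ L, D I L ∧ z = false :: enc L) hf :=
    OPT.pair hgt ((OPT.of_pt (D := fun _ _ => True) hNR).comp hgt fun _ _ _ => trivial)
  -- second program
  let cf : Inst → List Bool → List Bool := fun I z =>
    true :: FR I (pair (fst (fst z)) (bv ((snd z).take (snd (fst z)).length)))
  have hcf : OPT (fun _ z => ∃ (x : α) (m : ℕ) (τ : List Bool),
      z = pair (pair (enc x) (List.replicate m true)) τ) cf := by
    refine (OPT.of_pt (D := fun _ _ => True) (PT.cons true)).comp (hFR.comp (OPT.of_pt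
      (PT.pair (PT.fst' PT.fst) (hbv.comp (PT.take' (PT.snd' PT.fst) PT.snd)))) ?_)
      fun _ _ _ => trivial
    rintro I _ ⟨x, m, τ, rfl⟩
    refine ⟨(x, τ.take m), ?_⟩
    simp only [core_fst_pair, core_snd_pair, List.length_replicate, enc_prod, hbv'']
  obtain ⟨bh, hbh⟩ := hhf.bound
  obtain ⟨bc, hbc⟩ := hcf.bound
  obtain ⟨h, ph, hh⟩ := hhf
  obtain ⟨c, pc, hc⟩ := hcf
  set K := max h.maxVar c.maxVar + 3 with hK
  -- polynomials
  set pX : Polynomial ℕ := Polynomial.X with hpX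
  set N1 : Polynomial ℕ := ph.comp (3 * pX + 2) with hN1
  set S1 : Polynomial ℕ := bh.comp (3 * pX + 2) with hS1
  set N2 : Polynomial ℕ := pc.comp (3 * S1 + 1 + pX) with hN2
  set O1 : Polynomial ℕ := bc.comp (3 * S1 + 1 + pX) with hO1
  set H1 : Polynomial ℕ := 2 * pX + 14 + N1 + 16 * S1 + N2 with hH1
  refine ⟨omachine K h c, 2 * (Polynomial.C K * (H1 + 1)) + 4 * pX + 3 * Polynomial.C K + 50 +
    (10 + 12 * pX) * (pX + 1) + (12 + 12 * pX) * N1 + 75 * S1 + (12 + 12 * pX) * N2 + 11 * O1, ?_⟩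
  intro I w L hD hn hL hI hq hout T hT
  set x : ℕ := sz L + w + I.sz with hx
  set L' : List ℕ := L ++ [2 ^ (w - 1)] with hL'
  have ev1 : N1.eval x = ph.eval (3 * x + 2) := by simp [hN1, hpX, Polynomial.eval_comp]
  have ev2 : S1.eval x = bh.eval (3 * x + 2) := by simp [hS1, hpX, Polynomial.eval_comp]
  have ev3 : N2.eval x = pc.eval (3 * S1.eval x + 1 + x) := by
    simp [hN2, hpX, Polynomial.eval_comp]
  have ev4 : O1.eval x = bc.eval (3 * S1.eval x + 1 + x) := by
    simp [hO1, hpX, Polynomial.eval_comp]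
  have ev5 : H1.eval x = 2 * x + 14 + N1.eval x + 16 * S1.eval x + N2.eval x := by
    simp [hH1, hpX]
  have evq : (2 * (Polynomial.C K * (H1 + 1)) + 4 * pX + 3 * Polynomial.C K + 50 +
      (10 + 12 * pX) * (pX + 1) + (12 + 12 * pX) * N1 + 75 * S1 + (12 + 12 * pX) * N2 +
      11 * O1 : Polynomial ℕ).eval x = 2 * (K * (H1.eval x + 1)) + 4 * x + 3 * K + 50 +
      (10 + 12 * x) * (x + 1) + (12 + 12 * x) * N1.eval x + 75 * S1.eval x +
      (12 + 12 * x) * N2.eval x + 11 * O1.eval x := by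
    simp [hpX]
  rw [evq] at hq hT
  have hw2 : 2 ≤ w := by
    by_contra hlt
    have h1 : 2 ^ w ≤ 2 ^ 1 := Nat.pow_le_pow_right (by omega) (by omega)
    omega
  have hB := two_pow_half (show 1 ≤ w by omega)
  have hHw : K * (H1.eval x + 1) ≤ 2 ^ (w - 1) := by omega
  have hszL' : (enc L').length = sz L + 2 * w + 1 := by
    have : sz L' = sz L + sz ([2 ^ (w - 1)] : List ℕ) := sz_append _ _
    have h2 : sz (2 ^ (w - 1)) = w := by
      rw [sz_nat, Nat.size_pow]
      omega
    rw [sz_cons, sz_nil, h2] at this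
    show sz L' = _
    omega
  have hlenz : (false :: enc L').length + I.sz ≤ 3 * x + 2 := by
    rw [List.length_cons, hszL']
    omega
  have hdom : ∃ L, D I L ∧ false :: enc L' = false :: enc L := ⟨L', hD, rfl⟩
  set y : α := pre I L' with hy
  have hs : hf I (false :: enc L') = pair (enc y) (List.replicate (N y) true) := by
    simp only [hf, List.tail_cons]
    rw [hpre I L' hD, hN]
    rfl
  set s : List Bool := pair (enc y) (List.replicate (N y) true) with hsdef
  have hslen : s.length ≤ S1.eval x := by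
    have := hbh I _ hdom
    rw [hs] at this
    rw [ev2]
    exact this.trans (polyEval_mono bh hlenz)
  have hNs : N y ≤ s.length := by
    rw [hsdef, core_length_pair, List.length_replicate]
    omega
  refine ⟨by omega, ?_, ?_⟩
  · have h75 : 75 * S1.eval x ≤ T := by omega
    omega
  intro ρ
  set τ : List Bool := rbits w ρ 0 s.length with hτ
  have hrun : ORun I h (init (false :: enc L')) (init s) (N1.eval x) := by
    have := hh I _ hdom
    rw [hs] at this
    refine this.mono ?_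
    rw [ev1]
    exact polyEval_mono ph hlenz
  have hdom2 : ∃ (x : α) (m : ℕ) (τ' : List Bool),
      pair s τ = pair (pair (enc x) (List.replicate m true)) τ' := ⟨y, N y, τ, rfl⟩
  have hlen2 : (pair s τ).length + I.sz ≤ 3 * S1.eval x + 1 + x := by
    rw [core_length_pair, hτ, rbits_length]
    omega
  set out : List ℕ := F I (y, rbits w ρ 0 (N y)) with hout'
  have hcs : cf I (pair s τ) = true :: enc out := by
    simp only [cf, core_fst_pair, core_snd_pair, hsdef, List.length_replicate]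
    rw [hbv'', hτ, take_rbits w ρ (N y) s.length 0 hNs, hout', ← hF, enc_prod]
  have hrun' : ORun I c (init (pair s τ)) (init (true :: enc out)) (N2.eval x) := by
    have := hc I _ hdom2
    rw [hcs] at this
    refine this.mono ?_
    rw [ev3]
    exact polyEval_mono pc hlen2
  have hol : (enc out).length ≤ O1.eval x := by
    have := hbc I _ hdom2
    rw [hcs, List.length_cons] at this
    rw [ev4]
    have h2 := this.trans (polyEval_mono bc hlen2)
    omega
  have holen := length_le_enc out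
  have hLlen := length_le_sz L
  refine omachine_run ρ (by omega) (by omega) (by omega) hw2 hHw I hI L hn hL hrun hrun'
    (hout _ (rbits_length _ _ _ _)) (by omega) (by rw [← hL', hszL', ev5]; omega)
    (by rw [ev5]; omega) T ?_
  have m1 : (10 + 12 * w) * (L.length + 1) ≤ (10 + 12 * x) * (x + 1) :=
    Nat.mul_le_mul (by omega) (by omega)
  have m2 : (12 + 12 * w) * N1.eval x ≤ (12 + 12 * x) * N1.eval x :=
    Nat.mul_le_mul_right _ (by omega)
  have m3 : (12 + 12 * w) * N2.eval x ≤ (12 + 12 * x) * N2.eval x :=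
    Nat.mul_le_mul_right _ (by omega)
  omega

end Crest.Agent.R302.ORAM
end

-- ▼ part R302/ORAM/DomF
section

/-!
# The typed layer on a domain; binary to unary for numbers at most `I.sz`
-/

set_option autoImplicit false
set_option linter.dupNamespace false

namespace Crest.Agent.R302.ORAM

open Crest.Agent.R309.RAM
open Crest.Agent.Lib.PT Function

/-- polynomial time relative to the oracle, on the domain `D` -/
def OPTFD {α β : Type} [PTCode α] [PTCode β] (D : Inst → α → Prop) (f : Inst → α → β) : Prop :=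
  ∃ g, OPT (fun I x => ∃ a, D I a ∧ x = enc a) g ∧ ∀ I a, D I a → g I (enc a) = enc (f I a)

section basic

variable {α β γ δ : Type} [PTCode α] [PTCode β] [PTCode γ] [PTCode δ]

theorem OPTFD.of_optf {f : Inst → α → β} (hf : OPTF f) (D : Inst → α → Prop) : OPTFD D f := by
  obtain ⟨g, hg, h⟩ := hf
  exact ⟨g, hg.weaken fun I x ⟨a, _, hx⟩ => ⟨a, hx⟩, fun I a _ => h I a⟩

theorem OPTFD.of_ptf {f : α → β} (hf : PTF f) (D : Inst → α → Prop) : OPTFD D (fun _ a => f a) :=
  OPTFD.of_optf (OPTF.of_ptf hf) D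

theorem OPTFD.comp {D : Inst → α → Prop} {D' : Inst → β → Prop} {g : Inst → β → γ}
    {f : Inst → α → β} (hg : OPTFD D' g) (hf : OPTFD D f) (h : ∀ I a, D I a → D' I (f I a)) :
    OPTFD D (fun I a => g I (f I a)) := by
  obtain ⟨g', hg', hg⟩ := hg
  obtain ⟨f', hf', hf⟩ := hf
  refine ⟨_, hg'.comp hf' ?_, fun I a ha => by rw [hf I a ha, hg I _ (h I a ha)]⟩
  rintro I _ ⟨a, ha, rfl⟩
  exact ⟨f I a, h I a ha, hf I a ha⟩

theorem OPTFD.prodMk {D : Inst → α → Prop} {f : Inst → α → β} {g : Inst → α → γ}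
    (hf : OPTFD D f) (hg : OPTFD D g) : OPTFD D (fun I a => (f I a, g I a)) := by
  obtain ⟨g', hg', hg⟩ := hg
  obtain ⟨f', hf', hf⟩ := hf
  exact ⟨_, OPT.pair hf' hg', fun I a ha => by rw [hf I a ha, hg I a ha]; rfl⟩

theorem OPTFD.iterate {D : Inst → γ → Prop} {n : Inst → γ → ℕ} {f : Inst → γ → α → α}
    {a : Inst → γ → α} (hn : OPTFD D (fun I c => Un.mk (n I c)))
    (hf : OPTF (fun I (p : γ × α) => f I p.1 p.2)) (ha : OPTFD D a)
    {B : Inst → γ → ℕ} (hB : OPB B)
    (hb : ∀ I c, D I c → ∀ i ≤ n I c, sz ((f I c)^[i] (a I c)) ≤ B I c) :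
    OPTFD D (fun I c => (f I c)^[n I c] (a I c)) := by
  obtain ⟨p, hp⟩ := hB
  obtain ⟨nR, hnR, hn⟩ := hn
  obtain ⟨fR, hfR, hf⟩ := hf
  obtain ⟨aR, haR, ha⟩ := ha
  let S : Inst → List Bool → List Bool := fun I s =>
    Crest.Agent.Lib.PT.pair (Crest.Agent.Lib.PT.fst s) (fR I s)
  have hS : OPT (Dom (γ × α)) S := OPT.pair (OPT.of_pt PT.fst) hfR
  have key : ∀ I c i, (S I)^[i] (Crest.Agent.Lib.PT.pair (enc c) (enc (a I c))) =
      Crest.Agent.Lib.PT.pair (enc c) (enc ((f I c)^[i] (a I c))) := by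
    intro I c i
    induction i with
    | zero => rfl
    | succ i ih =>
      rw [Function.iterate_succ_apply', ih, Function.iterate_succ_apply']
      have h1 := hf I (c, (f I c)^[i] (a I c))
      simp only [enc_prod] at h1
      simp only [S, fst_pair, h1]
  have hit : OPT (fun I x => ∃ a, D I a ∧ x = enc a) (fun I x => (S I)^[(nR I x).length]
      (Crest.Agent.Lib.PT.pair x (aR I x))) := by
    refine OPT.iter' (D' := Dom (γ × α)) hS hnR (OPT.pair (OPT.of_pt PT.id) haR) ?_
      ⟨2 * Polynomial.X + 1 + p, ?_⟩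
    · rintro I _ ⟨c, hc, rfl⟩ i _
      rw [ha I c hc, key]
      exact ⟨(c, (f I c)^[i] (a I c)), rfl⟩
    · rintro I _ ⟨c, hc, rfl⟩ i hi
      rw [hn I c hc, enc_un, List.length_replicate] at hi
      rw [ha I c hc, key, length_pair]
      have h1 := (hb I c hc i hi).trans (hp I c)
      have h2 : (enc c).length = sz c := rfl
      have h3 : (enc ((f I c)^[i] (a I c))).length = sz ((f I c)^[i] (a I c)) := rfl
      rw [h2, h3]
      simp only [Polynomial.eval_add, Polynomial.eval_mul, Polynomial.eval_ofNat,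
        Polynomial.eval_X, Polynomial.eval_one]
      omega
  refine ⟨_, (OPT.of_pt (D := fun _ _ => True) PT.snd).comp hit fun _ _ _ => trivial,
    fun I c hc => ?_⟩
  simp only [hn I c hc, ha I c hc, enc_un, List.length_replicate, key, snd_pair]

end basic

theorem double_iter (a i : ℕ) : (fun u : Un => Un.mk (min a (2 * u.val + 1)))^[i] (Un.mk 0) =
    Un.mk (min a (2 ^ i - 1)) := by
  induction i with
  | zero => simp
  | succ i ih =>
    rw [Function.iterate_succ_apply', ih]
    simp only [Un.mk.injEq]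
    have : 0 < 2 ^ i := by positivity
    rw [pow_succ]
    omega

/-- binary to unary for numbers at most `I.sz` -/
theorem optfd_unary : OPTFD (fun I a => a ≤ I.sz) (fun _ (a : ℕ) => Un.mk a) := by
  have h := OPTFD.iterate (D := fun (I : Inst) (a : ℕ) => a ≤ I.sz) (n := fun _ a => a.size)
    (f := fun _ a (u : Un) => Un.mk (min a (2 * u.val + 1))) (a := fun _ _ => Un.mk 0)
    (B := fun I _ => I.sz)
    (OPTFD.of_ptf (PTF.natSizeUn PTF.id) _)
    (OPTF.of_ptf (PTF.natMinUn PTF.fst (PTU.add (PTU.mul (PTU.const 2)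
      (PTU.val PTF.snd)) (PTU.const 1))))
    (OPTFD.of_ptf (PTF.const _) _) OPB.inst (fun I a ha i _ => by
      rw [double_iter, sz_un]
      exact (min_le_left _ _).trans ha)
  obtain ⟨g, hg, h⟩ := h
  refine ⟨g, hg, fun I a ha => ?_⟩
  rw [h I a ha]
  simp only [double_iter]
  rw [min_eq_left (by have := Nat.lt_size_self a; omega)]

end Crest.Agent.R302.ORAM
end

-- ▼ part R302/ORAM/Fpras
section

/-!
# From a typed randomised estimator to the oracle word RAM, in the form of S0461 / S0462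
-/

set_option autoImplicit false
set_option linter.dupNamespace false

namespace Crest.Agent.R302.ORAM

open Crest.WordRAM hiding init
open Crest.OracleRAM Crest.Polymatroid
open Crest.Agent.R309.RAM
open Crest.Agent.Lib.PT Function

/-! ### the typed input -/

/-- typed input: `n` (unary), `R`, `ε`, `δ`, `⌈1/ε⌉` (unary) -/
abbrev CIn : Type := Un × ℕ × ℚ × ℚ × Un

/-- the typed input of the counting problem -/
def cin (n R : ℕ) (ε δ : ℚ) : CIn := (⟨n⟩, R, ε, δ, ⟨⌈ε⁻¹⌉₊⟩)

/-- reading the input words -/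
def parse (L : List ℕ) : (ℕ × ℕ) × (ℕ × ℚ × ℚ) × ℕ :=
  ((L.getD 0 0, ⌈(mkRat (L.getD 2 0 : ℕ) (L.getD 3 0))⁻¹⌉₊),
    (L.getD 1 0, mkRat (L.getD 2 0 : ℕ) (L.getD 3 0), mkRat (L.getD 4 0 : ℕ) (L.getD 5 0)),
    L.getD 6 0)

theorem ptf_getC (k : ℕ) : PTF (fun L : List ℕ => L.getD k 0) :=
  PTF.getD (n := fun _ => k) (l := fun L => L) (d := fun _ => 0) (PTU.const k) PTF.id (PTF.const 0)

theorem ptf_ratC (k m : ℕ) : PTF (fun L : List ℕ => mkRat (L.getD k 0 : ℕ) (L.getD m 0)) :=
  PTF.ratMk (PTF.intNatCast (ptf_getC k)) (ptf_getC m)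

theorem ptf_natCeil {γ : Type} [PTCode γ] {f : γ → ℚ} (hf : PTF f) :
    PTF (fun a => ⌈f a⌉₊) :=
  (PTF.intToNat (PTF.ratCeil hf)).of_eq (fun a => by rw [Int.ceil_toNat])

theorem ptf_parse : PTF parse :=
  PTF.prodMk (PTF.prodMk (ptf_getC 0) (ptf_natCeil (PTF.ratInv (ptf_ratC 2 3))))
    (PTF.prodMk (PTF.prodMk (ptf_getC 1) (PTF.prodMk (ptf_ratC 2 3) (ptf_ratC 4 5))) (ptf_getC 6))

/-- the domain on which the input can be converted -/
def CDom (I : Inst) (L : List ℕ) : Prop := (parse L).1.1 ≤ I.sz ∧ (parse L).1.2 ≤ I.sz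

/-- the conversion of the input words -/
def cpre (L : List ℕ) : CIn × ℕ :=
  ((⟨(parse L).1.1⟩, (parse L).2.1.1, (parse L).2.1.2.1, (parse L).2.1.2.2, ⟨(parse L).1.2⟩),
    (parse L).2.2)

theorem optfd_cpre : OPTFD CDom (fun _ L => cpre L) := by
  have hp (D : Inst → List ℕ → Prop) : OPTFD D (fun _ L => parse L) := OPTFD.of_ptf ptf_parse D
  have h1 : OPTFD CDom (fun _ L => Un.mk (parse L).1.1) :=
    OPTFD.comp (f := fun _ (L : List ℕ) => (parse L).1.1) optfd_unary
      (OPTFD.of_ptf (PTF.comp (g := fun p : (ℕ × ℕ) × (ℕ × ℚ × ℚ) × ℕ => p.1.1) (by fun_prop)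
        ptf_parse) _) (fun I L h => h.1)
  have h2 : OPTFD CDom (fun _ L => Un.mk (parse L).1.2) :=
    OPTFD.comp (f := fun _ (L : List ℕ) => (parse L).1.2) optfd_unary
      (OPTFD.of_ptf (PTF.comp (g := fun p : (ℕ × ℕ) × (ℕ × ℚ × ℚ) × ℕ => p.1.2) (by fun_prop)
        ptf_parse) _) (fun I L h => h.2)
  have h3 (f : (ℕ × ℕ) × (ℕ × ℚ × ℚ) × ℕ → ℕ) (hf : PTF f) :
      OPTFD CDom (fun _ L => f (parse L)) := OPTFD.of_ptf (PTF.comp hf ptf_parse) _
  have h4 (f : (ℕ × ℕ) × (ℕ × ℚ × ℚ) × ℕ → ℚ) (hf : PTF f) :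
      OPTFD CDom (fun _ L => f (parse L)) := OPTFD.of_ptf (PTF.comp hf ptf_parse) _
  exact OPTFD.prodMk (OPTFD.prodMk h1 (OPTFD.prodMk (h3 (fun p => p.2.1.1) (by fun_prop))
    (OPTFD.prodMk (h4 (fun p => p.2.1.2.1) (by fun_prop))
      (OPTFD.prodMk (h4 (fun p => p.2.1.2.2) (by fun_prop)) h2))))
    (h3 (fun p => p.2.2) (by fun_prop))

/-! ### the output words -/

/-- `A` in base `2 ^ w` with `k` digits -/
def digs (w k A : ℕ) : List ℕ := (List.range k).map fun i => A / 2 ^ (w * i) % 2 ^ w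

theorem wordsVal_digs (w : ℕ) : ∀ k A : ℕ, wordsVal w (digs w k A) = A % 2 ^ (w * k) := by
  intro k
  induction k with
  | zero => intro A; simp [digs, wordsVal, Nat.mod_one]
  | succ k ih =>
    intro A
    have h1 : digs w (k + 1) A = (A % 2 ^ w) :: digs w k (A / 2 ^ w) := by
      unfold digs
      rw [List.range_succ_eq_map, List.map_cons, List.map_map]
      congr 1
      · simp
      · refine List.map_congr_left fun i _ => ?_
        simp only [comp_apply, Nat.succ_eq_add_one]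
        rw [Nat.div_div_eq_div_mul, ← pow_add]
        congr 3
        ring
    rw [h1]
    simp only [wordsVal]
    rw [ih, show w * (k + 1) = w + w * k by ring, pow_add, Nat.mod_mul]

theorem length_digs (w k A : ℕ) : (digs w k A).length = k := by simp [digs]

/-- number of digits used -/
def ndig (z : ℚ) : ℕ := z.num.natAbs.size + z.den.size + 1

/-- the output words of a rational -/
def wordsOut (w : ℕ) (z : ℚ) : List ℕ :=
  ndig z :: (digs w (ndig z) z.num.natAbs ++ digs w (ndig z) z.den)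

theorem decodeRat_wordsOut {w : ℕ} (hw : 1 ≤ w) {z : ℚ} (hz : 0 ≤ z) :
    decodeRat w (wordsOut w z) = some z := by
  have hlt : ∀ A : ℕ, A.size ≤ ndig z → A % 2 ^ (w * ndig z) = A := by
    intro A hA
    refine Nat.mod_eq_of_lt ((Nat.lt_size_self A).trans_le (Nat.pow_le_pow_right (by omega) ?_))
    exact hA.trans (Nat.le_mul_of_pos_left _ (by omega))
  unfold wordsOut decodeRat
  simp only
  rw [List.take_left' (length_digs _ _ _), List.drop_left' (length_digs _ _ _), wordsVal_digs,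
    wordsVal_digs, hlt _ (by unfold ndig; omega), hlt _ (by unfold ndig; omega),
    if_neg z.den_nz]
  congr 1
  have h1 : ((z.num.natAbs : ℕ) : ℚ) = (z.num : ℚ) := by
    rw [Nat.cast_natAbs, abs_of_nonneg (Rat.num_nonneg.2 hz)]
  rw [h1]
  exact z.num_div_den

theorem mem_wordsOut {w : ℕ} {z : ℚ} (hk : ndig z < 2 ^ w) : ∀ a ∈ wordsOut w z, a < 2 ^ w := by
  intro a ha
  have hp : 0 < 2 ^ w := by positivity
  simp only [wordsOut, digs, List.mem_cons, List.mem_append, List.mem_map, List.mem_range] at ha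
  rcases ha with rfl | ⟨i, _, rfl⟩ | ⟨i, _, rfl⟩
  · exact hk
  · exact Nat.mod_lt _ hp
  · exact Nat.mod_lt _ hp

theorem ptf_digs {γ : Type} [PTCode γ] {w k A : γ → ℕ} (hw : PTU w) (hk : PTU k) (hA : PTF A) :
    PTF (fun c => digs (w c) (k c) (A c)) := by
  have h : PTF (fun c => (List.range (k c)).map
      (fun i => A c / 2 ^ (w c * min i (k c)) % 2 ^ (w c))) := by
    refine PTF.tabulate (f := fun c i => A c / 2 ^ (w c * min i (k c)) % 2 ^ (w c)) hk ?_
    refine PTF.natMod (PTF.natDiv (PTF.comp hA PTF.fst) (PTF.natTwoPow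
      (PTU.mul (PTU.comp hw PTF.fst) ?_))) (PTF.natTwoPow (PTU.comp hw PTF.fst))
    exact PTF.natMinUn PTF.snd (PTU.comp hk PTF.fst)
  refine h.of_eq fun c => ?_
  unfold digs
  refine List.map_congr_left fun i hi => ?_
  rw [min_eq_left (List.mem_range.1 hi).le]

theorem ptu_ndig {γ : Type} [PTCode γ] {z : γ → ℚ} (hz : PTF z) : PTU (fun c => ndig (z c)) :=
  PTU.add (PTU.add (PTF.natSizeUn (PTF.intNatAbs (PTF.ratNum hz)))
    (PTF.natSizeUn (PTF.ratDen hz))) (PTU.const 1)

theorem ptf_wordsOut {γ : Type} [PTCode γ] {w : γ → ℕ} {z : γ → ℚ} (hw : PTU w) (hz : PTF z) :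
    PTF (fun c => wordsOut (w c) (z c)) :=
  PTF.listCons (PTU.toPTF (ptu_ndig hz)) (PTF.append
    (ptf_digs hw (ptu_ndig hz) (PTF.intNatAbs (PTF.ratNum hz)))
    (ptf_digs hw (ptu_ndig hz) (PTF.ratDen hz)))

/-! ### bounds on the parameters -/

/-- the base of the word length -/
def wbase (n R : ℕ) (ε δ : ℚ) : ℕ :=
  n + R + ε.num.natAbs + ε.den + δ.num.natAbs + δ.den + 2

theorem clog_le_succ (m : ℕ) : Nat.clog 2 (m + 2) ≤ m + 1 :=
  Nat.clog_le_of_le_pow (Nat.succ_le_of_lt Nat.lt_two_pow_self)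

theorem natAbs_num_pos {z : ℚ} (hz : 0 < z) : 1 ≤ z.num.natAbs := by
  have := Rat.num_pos.2 hz
  omega

theorem ceil_inv_le {ε : ℚ} (hε : 0 < ε) : ⌈ε⁻¹⌉₊ ≤ ε.den := by
  rw [Nat.ceil_le]
  have h1 : (1 : ℚ) ≤ ε.num := by exact_mod_cast Rat.num_pos.2 hε
  have hd : (0 : ℚ) < ε.den := by exact_mod_cast ε.den_pos
  rw [inv_le_comm₀ hε hd]
  calc ((ε.den : ℚ))⁻¹ ≤ ε.num * (ε.den : ℚ)⁻¹ := by
        have : (0 : ℚ) ≤ (ε.den : ℚ)⁻¹ := by positivity
        nlinarith
    _ = ε := by rw [← div_eq_mul_inv]; exact ε.num_div_den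

theorem two_le_den {δ : ℚ} (hδ : 0 < δ) (hδ1 : δ < 1) : 2 ≤ δ.den := by
  by_contra h
  have h1 : δ.den = 1 := by have := δ.den_pos; omega
  have h2 : δ = δ.num := by
    conv_lhs => rw [← δ.num_div_den, h1]
    simp
  have h3 : 0 < δ.num := Rat.num_pos.2 hδ
  have h4 : (δ.num : ℚ) < 1 := h2 ▸ hδ1
  have h5 : δ.num < 1 := by exact_mod_cast h4
  omega

theorem sizeParam_le {n R : ℕ} {ε δ : ℚ} (hε : 0 < ε) (hδ : 0 < δ) (hδ1 : δ < 1) :
    sizeParam n R ε δ + 1 ≤ 2 * wbase n R ε δ := by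
  unfold sizeParam wbase
  have h1 := clog_le_succ R
  have h2 := clog_le_succ ε.num.natAbs
  have h3 := clog_le_succ ε.den
  have h4 := clog_le_succ δ.num.natAbs
  have h5 := clog_le_succ δ.den
  have h6 := ceil_inv_le hε
  have h7 := natAbs_num_pos hε
  have h8 := natAbs_num_pos hδ
  have h9 := two_le_den hδ hδ1
  omega

theorem two_pow_clog_ge (m : ℕ) : m + 2 ≤ 2 ^ Nat.clog 2 (m + 2) := Nat.le_pow_clog (by omega) _

theorem clog_wbase_le (n R : ℕ) (ε δ : ℚ) : Nat.clog 2 (wbase n R ε δ) ≤ sizeParam n R ε δ := by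
  apply Nat.clog_le_of_le_pow
  unfold sizeParam wbase
  have key : ∀ x y X Y : ℕ, x + 2 ≤ X → y + 2 ≤ Y → x + y + 2 ≤ X * Y := by
    intro x y X Y hX hY
    calc x + y + 2 ≤ (x + 2) * (y + 2) := by nlinarith
      _ ≤ X * Y := Nat.mul_le_mul hX hY
  have key1 : n + R + 2 ≤ 2 ^ n * 2 ^ Nat.clog 2 (R + 2) := by
    have h1 : n + 1 ≤ 2 ^ n := Nat.succ_le_of_lt Nat.lt_two_pow_self
    calc n + R + 2 ≤ (n + 1) * (R + 2) := by nlinarith
      _ ≤ _ := Nat.mul_le_mul h1 (two_pow_clog_ge R)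
  have key2 := key _ _ _ _ key1 (two_pow_clog_ge ε.num.natAbs)
  have key3 := key _ _ _ _ key2 (two_pow_clog_ge ε.den)
  have key4 := key _ _ _ _ key3 (two_pow_clog_ge δ.num.natAbs)
  have key5 := key _ _ _ _ key4 (two_pow_clog_ge δ.den)
  rw [pow_add, pow_add, pow_add, pow_add, pow_add, pow_add]
  exact key5.trans (Nat.le_mul_of_pos_right _ (by positivity))

theorem size_le_clog (m : ℕ) : m.size ≤ Nat.clog 2 (m + 2) :=
  Nat.size_le.2 (by have := two_pow_clog_ge m; omega)

theorem poly_bound (q : Polynomial ℕ) : ∃ A d : ℕ, ∀ y, 1 ≤ y → q.eval y ≤ A * y ^ d := by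
  refine ⟨q.eval 1, q.natDegree, fun y hy => ?_⟩
  rw [Polynomial.eval_eq_sum_range, Polynomial.eval_eq_sum_range, Finset.sum_mul]
  refine Finset.sum_le_sum fun i hi => ?_
  rw [one_pow, mul_one]
  exact Nat.mul_le_mul_left _ (Nat.pow_le_pow_right hy (by
    have := Finset.mem_range.1 hi
    omega))

theorem exists_exp (M d : ℕ) : ∃ c, d ≤ c ∧ 1 ≤ c ∧ M * c ^ d ≤ 2 ^ c := by
  have h := tendsto_pow_const_mul_const_pow_of_abs_lt_one d (r := (1 / 2 : ℝ))
    (by rw [abs_of_pos] <;> norm_num)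
  have hM : (0 : ℝ) < 1 / (M + 1) := by positivity
  obtain ⟨c, hc⟩ := ((h.eventually (gt_mem_nhds hM)).and
    ((Filter.eventually_ge_atTop d).and (Filter.eventually_ge_atTop 1))).exists
  refine ⟨c, hc.2.1, hc.2.2, ?_⟩
  have h1 := hc.1
  have h2 : (0 : ℝ) < 2 ^ c := by positivity
  have h3 : (c : ℝ) ^ d * (M + 1) < 2 ^ c := by
    rw [lt_div_iff₀ (by positivity : (0 : ℝ) < M + 1)] at h1
    rw [one_div, inv_pow] at h1
    have h4 : (c : ℝ) ^ d * (2 ^ c)⁻¹ * (M + 1) * 2 ^ c < 1 * 2 ^ c :=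
      mul_lt_mul_of_pos_right h1 h2
    have h5 : (c : ℝ) ^ d * (2 ^ c)⁻¹ * (M + 1) * 2 ^ c = (c : ℝ) ^ d * (M + 1) := by
      field_simp
    rw [h5, one_mul] at h4
    exact h4
  have h6 : (M : ℝ) * c ^ d ≤ 2 ^ c := by
    have : (0 : ℝ) ≤ (c : ℝ) ^ d := by positivity
    nlinarith
  exact_mod_cast h6

/-- the choice of the constants -/
theorem choose_consts (q : Polynomial ℕ) : ∃ c₀ C d : ℕ, 1 ≤ c₀ ∧ ∀ b S x : ℕ, 2 ≤ b →
    S + 1 ≤ 2 * b → Nat.clog 2 b ≤ S → x ≤ 3 * S + 6 + c₀ * Nat.clog 2 b →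
    q.eval x ≤ 2 ^ (c₀ * Nat.clog 2 b) ∧ q.eval x ≤ C * (S + 1) ^ d := by
  obtain ⟨A, d, hA⟩ := poly_bound q
  obtain ⟨c, hdc, hc1, hc⟩ := exists_exp (A * 20 ^ d * 2 ^ d) d
  refine ⟨c, A * (c + 6) ^ d, d, hc1, ?_⟩
  intro b S x hb hS hcl hx
  have hx1 : x ≤ (c + 6) * (S + 1) := by
    have : c * Nat.clog 2 b ≤ c * S := Nat.mul_le_mul_left _ hcl
    nlinarith
  have hx2 : (c + 6) * (S + 1) ≤ 20 * c * b := by
    calc (c + 6) * (S + 1) ≤ (10 * c) * (2 * b) := Nat.mul_le_mul (by omega) hS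
      _ = 20 * c * b := by ring
  have hpos : 1 ≤ (c + 6) * (S + 1) := Nat.succ_le_of_lt (by positivity)
  have hq : q.eval x ≤ A * ((c + 6) * (S + 1)) ^ d :=
    (eval_mono q hx1).trans (hA _ hpos)
  constructor
  · have hbw : b ^ c ≤ 2 ^ (c * Nat.clog 2 b) := by
      rw [mul_comm, pow_mul]
      exact Nat.pow_le_pow_left (Nat.le_pow_clog (by omega) _) _
    refine hq.trans (le_trans ?_ hbw)
    have h1 : A * ((c + 6) * (S + 1)) ^ d ≤ A * (20 * c * b) ^ d :=
      Nat.mul_le_mul_left _ (Nat.pow_le_pow_left hx2 _)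
    refine h1.trans ?_
    have h2 : A * 20 ^ d * c ^ d ≤ b ^ (c - d) := by
      have h3 : A * 20 ^ d * c ^ d ≤ 2 ^ (c - d) := by
        have h4 : A * 20 ^ d * c ^ d * 2 ^ d ≤ 2 ^ (c - d) * 2 ^ d := by
          rw [← pow_add, Nat.sub_add_cancel hdc]
          calc A * 20 ^ d * c ^ d * 2 ^ d = A * 20 ^ d * 2 ^ d * c ^ d := by ring
            _ ≤ 2 ^ c := hc
        exact Nat.le_of_mul_le_mul_right h4 (by positivity)
      exact h3.trans (Nat.pow_le_pow_left hb _)
    calc A * (20 * c * b) ^ d = A * 20 ^ d * c ^ d * b ^ d := by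
          rw [mul_pow, mul_pow]; ring
      _ ≤ b ^ (c - d) * b ^ d := Nat.mul_le_mul_right _ h2
      _ = b ^ c := by rw [← pow_add, Nat.sub_add_cancel hdc]
  · refine hq.trans_eq ?_
    rw [mul_pow]
    ring

/-! ### the instance and the main theorem -/

/-- the oracle instance with size bound `sizeParam` -/
def mkI {n R : ℕ} (O : Orc n) (hO : ∀ b A, O b A ≤ max R 1) (ε δ : ℚ) : Inst where
  n := n
  O := O
  sz := sizeParam n R ε δ
  hn := by unfold sizeParam; omega
  hO := fun b A => by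
    have h1 := hO b A
    have h2 := two_pow_clog_ge R
    have h3 : (O b A).size ≤ Nat.clog 2 (R + 2) := Nat.size_le.2 (by omega)
    unfold sizeParam
    omega

/-- the output words as a typed function -/
def outF (G : Inst → CIn × List Bool → ℚ) (I : Inst) (p : (CIn × ℕ) × List Bool) : List ℕ :=
  wordsOut p.1.2.size (G I (p.1.1, p.2))

theorem optf_outF {G : Inst → CIn × List Bool → ℚ} (hG : OPTF G) : OPTF (outF G) := by
  have h0 : PTF (fun p : (CIn × ℕ) × List Bool => (p.1.1, p.2)) :=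
    PTF.prodMk (PTF.comp (g := fun q : CIn × ℕ => q.1) PTF.fst PTF.fst) PTF.snd
  have h2 : PTF (fun p : (CIn × ℕ) × List Bool => p.1.2) :=
    PTF.comp (g := fun q : CIn × ℕ => q.2) PTF.snd PTF.fst
  have h1 : OPTF (fun I (p : (CIn × ℕ) × List Bool) => (p.1.2, G I (p.1.1, p.2))) :=
    OPTF.prodMk (f := fun _ (p : (CIn × ℕ) × List Bool) => p.1.2)
      (g := fun I (p : (CIn × ℕ) × List Bool) => G I (p.1.1, p.2)) (OPTF.of_ptf h2)
      (OPTF.pre (g := G) (f := fun p : (CIn × ℕ) × List Bool => (p.1.1, p.2)) hG h0)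
  exact OPTF.post (g := fun p : ℕ × ℚ => wordsOut p.1.size p.2)
    (f := fun I (p : (CIn × ℕ) × List Bool) => (p.1.2, G I (p.1.1, p.2)))
    (ptf_wordsOut (PTF.natSizeUn PTF.fst) PTF.snd) h1

/-- **Randomised estimators given as typed functions run on the oracle word RAM.** -/
theorem fpras_of {G : Inst → CIn × List Bool → ℚ} {N : CIn → ℕ} (hG : OPTF G) (hN : PTU N) :
    ∃ (P : OProgram) (c₀ C d : ℕ), ∀ (n R : ℕ) (O : Orc n) (hO : ∀ b A, O b A ≤ max R 1)
      (ε δ : ℚ), 0 < ε → ε < 1 → 0 < δ → δ < 1 →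
      (∀ τ : List Bool, τ.length = N (cin n R ε δ) →
        0 ≤ G (mkI O hO ε δ) (cin n R ε δ, τ)) →
      (∀ ρ : ℕ → ℕ, (orun P n O (c₀ * Nat.clog 2 (wbase n R ε δ)) ρ (countInput n R ε δ)
        (C * (sizeParam n R ε δ + 1) ^ d)).cfg.halted = true) ∧
      (∀ ρ : ℕ → ℕ, ∃ τ : List Bool, τ.length = N (cin n R ε δ) ∧
        decodeRat (c₀ * Nat.clog 2 (wbase n R ε δ)) (orun P n O
          (c₀ * Nat.clog 2 (wbase n R ε δ)) ρ (countInput n R ε δ)
          (C * (sizeParam n R ε δ + 1) ^ d)).cfg.output =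
          some (G (mkI O hO ε δ) (cin n R ε δ, τ))) ∧
      (∀ E : ℚ → Prop, oprobAfter P n O (c₀ * Nat.clog 2 (wbase n R ε δ)) (countInput n R ε δ)
        (C * (sizeParam n R ε δ + 1) ^ d) (fun c => ∃ z : ℚ,
          decodeRat (c₀ * Nat.clog 2 (wbase n R ε δ)) c.cfg.output = some z ∧ E z) =
        Crest.Agent.R309.Tape.pr (N (cin n R ε δ))
          (fun τ => E (G (mkI O hO ε δ) (cin n R ε δ, τ)))) := by
  obtain ⟨g, hg, hg'⟩ := optfd_cpre
  obtain ⟨pG, hpG⟩ := hG.bound
  obtain ⟨pN, hpN⟩ := hN.pb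
  -- the typed function with words as output
  have hF : OPTF (outF G) := optf_outF hG
  have hN' : PTU (fun p : CIn × ℕ => N p.1) := PTU.comp hN PTF.fst
  obtain ⟨P, q, hP⟩ := oneshot (D := CDom) (pre := fun _ L => cpre L) (g := g) hg
    (fun I L h => hg' I L h) hN' hF
  set q' : Polynomial ℕ := q + pG.comp (2 * (10 * Polynomial.X + 40) + 1 +
    3 * pN.comp (10 * Polynomial.X + 40) + Polynomial.X) + 1 with hq'
  obtain ⟨c₀, C, d, hc1, hc⟩ := choose_consts q'
  refine ⟨P, c₀, C, d, ?_⟩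
  intro n R O hO ε δ hε hε1 hδ hδ1 hpos
  set I : Inst := mkI O hO ε δ with hI
  set w : ℕ := c₀ * Nat.clog 2 (wbase n R ε δ) with hw
  set S : ℕ := sizeParam n R ε δ with hS
  set T : ℕ := C * (S + 1) ^ d with hT
  set L : List ℕ := countInput n R ε δ with hL
  set x : CIn := cin n R ε δ with hx
  have hb2 : 8 ≤ wbase n R ε δ := by
    have h6 := two_le_den hε hε1
    have h7 := natAbs_num_pos hε
    have h8 := natAbs_num_pos hδ
    have h9 := two_le_den hδ hδ1
    unfold wbase
    omega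
  -- sizes
  have s0 : n.size ≤ n := Nat.size_le.2 Nat.lt_two_pow_self
  have s1 := size_le_clog R
  have s2 := size_le_clog ε.num.natAbs
  have s3 := size_le_clog ε.den
  have s4 := size_le_clog δ.num.natAbs
  have s5 := size_le_clog δ.den
  have hszL : sz L ≤ 2 * S + 6 := by
    simp only [hL, countInput, sz_cons, sz_nil, sz_nat]
    rw [hS]
    unfold sizeParam
    omega
  have hszx : sz x ≤ 10 * S + 40 := by
    simp only [hx, cin, sz_prod, sz_un, sz_nat, sz_rat]
    rw [hS]
    unfold sizeParam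
    omega
  obtain ⟨hc2, hc3⟩ := hc (wbase n R ε δ) S (sz L + w + S) (by omega)
    (sizeParam_le hε hδ hδ1) (clog_wbase_le n R ε δ) (by omega)
  set X : ℕ := sz L + w + S with hX
  have hq'X : q'.eval X = q.eval X + pG.eval (2 * (10 * X + 40) + 1 + 3 * pN.eval (10 * X + 40) +
      X) + 1 := by
    simp [hq', Polynomial.eval_comp]
  rw [hq'X] at hc2 hc3
  rw [← hw] at hc2
  have hIsz : I.sz = S := rfl
  have hwbase : wbase n R ε δ ≤ 2 ^ w := by
    have h1 : wbase n R ε δ ≤ 2 ^ Nat.clog 2 (wbase n R ε δ) := Nat.le_pow_clog (by omega) _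
    refine h1.trans (Nat.pow_le_pow_right (by omega) ?_)
    exact Nat.le_mul_of_pos_left _ hc1
  have hw1 : 1 ≤ w := by
    by_contra h
    have : w = 0 := by omega
    rw [this] at hwbase
    omega
  -- parsing
  have hlen : L.length = 6 := rfl
  have hpw : (2 ^ (w - 1)).size = w := by
    rw [Nat.size_pow]
    omega
  have hεn : (ε.num.natAbs : ℤ) = ε.num := Int.natAbs_of_nonneg (Rat.num_nonneg.2 hε.le)
  have hδn : (δ.num.natAbs : ℤ) = δ.num := Int.natAbs_of_nonneg (Rat.num_nonneg.2 hδ.le)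
  have hparse : parse (L ++ [2 ^ (w - 1)]) = ((n, ⌈ε⁻¹⌉₊), (R, ε, δ), 2 ^ (w - 1)) := by
    have e1 : mkRat ((L ++ [2 ^ (w - 1)]).getD 2 0 : ℕ) ((L ++ [2 ^ (w - 1)]).getD 3 0) = ε := by
      show mkRat (ε.num.natAbs : ℤ) ε.den = ε
      rw [hεn, Rat.mkRat_self]
    have e2 : mkRat ((L ++ [2 ^ (w - 1)]).getD 4 0 : ℕ) ((L ++ [2 ^ (w - 1)]).getD 5 0) = δ := by
      show mkRat (δ.num.natAbs : ℤ) δ.den = δ
      rw [hδn, Rat.mkRat_self]
    unfold parse
    rw [e1, e2]
    rfl
  have hcpre : cpre (L ++ [2 ^ (w - 1)]) = (x, 2 ^ (w - 1)) := by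
    unfold cpre
    rw [hparse]
    rfl
  have hdom : CDom I (L ++ [2 ^ (w - 1)]) := by
    unfold CDom
    rw [hparse]
    refine ⟨I.hn, ?_⟩
    show ⌈ε⁻¹⌉₊ ≤ sizeParam n R ε δ
    unfold sizeParam
    omega
  have hmain := hP I w L hdom rfl (by
    intro a ha
    have h9 : a + 1 < wbase n R ε δ := by
      have h6 := two_le_den hε hε1
      have h7 := natAbs_num_pos hε
      have h8 := natAbs_num_pos hδ
      have h9 := two_le_den hδ hδ1
      unfold wbase
      simp only [hL, countInput, List.mem_cons, List.not_mem_nil, or_false] at ha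
      rcases ha with rfl | rfl | rfl | rfl | rfl | rfl <;> omega
    omega) (by
    intro b A
    have h1 : I.O b A ≤ max R 1 := hO b A
    have h9 : max R 1 + 1 < wbase n R ε δ := by
      have h6 := two_le_den hε hε1
      have h7 := natAbs_num_pos hε
      have h8 := natAbs_num_pos hδ
      have h9 := two_le_den hδ hδ1
      unfold wbase
      omega
    omega) (by
    rw [hIsz]
    show q.eval X ≤ 2 ^ w
    omega) (by
    simp only [hcpre]
    intro τ hτ
    simp only [outF, hpw]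
    apply mem_wordsOut
    have h1 : ndig (G I (x, τ)) ≤ sz (G I (x, τ)) := by
      unfold ndig
      rw [sz_rat]
      omega
    have h4 : sz τ = 3 * τ.length := Arith.sz_boolList τ
    have h5 : τ.length ≤ pN.eval (10 * X + 40) := by
      rw [hτ]
      exact (hpN x).trans (eval_mono pN (by omega))
    have h3 : sz (x, τ) + I.sz ≤ 2 * (10 * X + 40) + 1 + 3 * pN.eval (10 * X + 40) + X := by
      rw [sz_prod, hIsz]
      show 2 * sz x + 1 + sz τ + S ≤ _
      omega
    have h6 : sz (G I (x, τ)) ≤ pG.eval (2 * (10 * X + 40) + 1 + 3 * pN.eval (10 * X + 40) + X) :=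
      (hpG I (x, τ)).trans (eval_mono pG h3)
    show ndig (G I (x, τ)) < 2 ^ w
    omega) T (by
    rw [hIsz]
    show q.eval X ≤ T
    omega)
  obtain ⟨_, hNT, hrun⟩ := hmain
  simp only [hcpre] at hNT hrun
  have hdec : ∀ ρ, decodeRat w (orun P n O w ρ L T).cfg.output =
      some (G I (x, rbits w ρ 0 (N x))) := by
    intro ρ
    have h1 : (orun P n O w ρ L T).cfg.output = outF G I ((x, 2 ^ (w - 1)), rbits w ρ 0 (N x)) :=
      (hrun ρ).2
    rw [h1]
    simp only [outF, hpw]
    exact decodeRat_wordsOut hw1 (hpos _ (rbits_length _ _ _ _))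
  refine ⟨fun ρ => (hrun ρ).1, fun ρ => ⟨_, rbits_length _ _ _ _, hdec ρ⟩, fun E => ?_⟩
  refine oprobAfter_eq hw1 hNT _ _ fun ρ => ?_
  constructor
  · rintro ⟨z, hz, hE⟩
    rw [hdec ρ, Option.some.injEq] at hz
    rw [hz]
    exact hE
  · intro h
    exact ⟨_, hdec ρ, h⟩

end Crest.Agent.R302.ORAM
private theorem rz_55f3d9d6f4 : type_of% @_root_.Crest.OracleRAM.wordsVal.eq_def := @_root_.Crest.OracleRAM.wordsVal.eq_def
private theorem rz_5878893948 : type_of% @_root_.Crest.OracleRAM.wordsVal.eq_1 := @_root_.Crest.OracleRAM.wordsVal.eq_1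
end

-- ▼ part R302/ORAM/Subst
section

/-!
# The matroid rank oracle computed from the independence oracle

* `greedyL`, `rkL`: the greedy algorithm on lists of bits; `rkL_eq`: it computes the rank;
* `optf_rkL`: it is polynomial time relative to the oracle;
* `mrk_isPolymatroidRank`, `count_mrk`: matroid rank functions are polymatroid rank functions and
  the common integer bases are the common bases.
-/

set_option autoImplicit false
set_option linter.dupNamespace false

namespace Crest.Agent.R302.ORAM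

open Crest.Polymatroid
open Crest.Agent.Lib.PT Function

/-! ### lists of bits as sets -/

theorem mem_lset {n : ℕ} {l : List Bool} {j : Fin n} : j ∈ lset n l ↔ l[(j : ℕ)]? = some true := by
  simp [lset]

theorem lset_nil (n : ℕ) : lset n [] = ∅ := by
  ext j
  simp [mem_lset]

theorem lset_append_false (n : ℕ) (l : List Bool) : lset n (l ++ [false]) = lset n l := by
  ext j
  rw [mem_lset, mem_lset]
  by_cases h : (j : ℕ) < l.length
  · rw [List.getElem?_append_left h]
  · rw [List.getElem?_append_right (by omega), List.getElem?_eq_none (l := l) (by omega)]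
    rcases hk : (j : ℕ) - l.length with _ | k <;> simp

theorem lset_append_true {n : ℕ} (l : List Bool) (h : l.length < n) :
    lset n (l ++ [true]) = insert (⟨l.length, h⟩ : Fin n) (lset n l) := by
  ext j
  rw [Finset.mem_insert, mem_lset, mem_lset]
  by_cases hj : (j : ℕ) < l.length
  · rw [List.getElem?_append_left hj]
    constructor
    · exact fun h' => Or.inr h'
    · rintro (h' | h')
      · rw [h'] at hj
        simp at hj
      · exact h'
  · rw [List.getElem?_append_right (by omega), List.getElem?_eq_none (l := l) (by omega)]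
    by_cases hk : (j : ℕ) = l.length
    · have : j = ⟨l.length, h⟩ := Fin.ext hk
      simp [this]
    · have h1 : j ≠ ⟨l.length, h⟩ := fun h' => hk (by rw [h'])
      have h2 : ([true] : List Bool)[(j : ℕ) - l.length]? = none :=
        List.getElem?_eq_none (by simp only [List.length_cons, List.length_nil]; omega)
      simp [h1, h2]

theorem notMem_lset {n : ℕ} (l : List Bool) (h : l.length < n) :
    (⟨l.length, h⟩ : Fin n) ∉ lset n l := by
  rw [mem_lset, List.getElem?_eq_none le_rfl]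
  simp

theorem lset_take (n : ℕ) (l : List Bool) : lset n (l.take n) = lset n l := by
  ext j
  rw [mem_lset, mem_lset, List.getElem?_take_of_lt j.2]

theorem card_lset {n : ℕ} (l : List Bool) (h : l.length ≤ n) :
    (lset n l).card = (l.filter fun b => b).length := by
  induction l using List.reverseRecOn with
  | nil => simp [lset_nil]
  | append_singleton l b ih =>
    rw [List.length_append, List.length_singleton] at h
    have ih' := ih (by omega)
    cases b
    · rw [lset_append_false, ih', List.filter_append]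
      simp
    · rw [lset_append_true l (by omega), Finset.card_insert_of_notMem (notMem_lset l _), ih',
        List.filter_append]
      simp

/-! ### the greedy algorithm -/

/-- one step: `S` is the current independent set, `b` says whether the next element is asked for -/
def gstep (q : List Bool → ℕ) (S : List Bool) (b : Bool) : List Bool :=
  if (b && decide (q (S ++ [true]) ≠ 0)) = true then S ++ [true] else S ++ [false]

/-- the greedy basis of the set coded by `l` -/
def greedyL (q : List Bool → ℕ) (l : List Bool) : List Bool := l.foldl (gstep q) []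

/-- the greedy rank -/
def rkL (q : List Bool → ℕ) (n : ℕ) (l : List Bool) : ℕ :=
  ((greedyL q (l.take n)).filter fun b => b).length

theorem length_gstep (q : List Bool → ℕ) (S : List Bool) (b : Bool) :
    (gstep q S b).length = S.length + 1 := by
  unfold gstep
  split <;> simp

theorem length_greedyL (q : List Bool → ℕ) (l : List Bool) : (greedyL q l).length = l.length := by
  unfold greedyL
  induction l using List.reverseRecOn with
  | nil => rfl
  | append_singleton l b ih =>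
    rw [List.foldl_append, List.foldl_cons, List.foldl_nil, length_gstep, ih]
    simp

theorem greedyL_basis {n : ℕ} {M : Matroid (Fin n)} (hM : M.E = Set.univ) {q : List Bool → ℕ}
    (hq : ∀ l, q l ≠ 0 ↔ M.Indep (lset n l : Set (Fin n))) (l : List Bool) (h : l.length ≤ n) :
    M.IsBasis (lset n (greedyL q l) : Set (Fin n)) (lset n l : Set (Fin n)) := by
  induction l using List.reverseRecOn with
  | nil =>
    have : greedyL q [] = [] := rfl
    rw [this, lset_nil]
    simp
  | append_singleton l b ih =>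
    rw [List.length_append, List.length_singleton] at h
    have ih' := ih (by omega)
    have hg : greedyL q (l ++ [b]) = gstep q (greedyL q l) b := by
      unfold greedyL
      rw [List.foldl_append, List.foldl_cons, List.foldl_nil]
    have hlen := length_greedyL q l
    set S := greedyL q l with hS
    rw [hg]
    have hlt : l.length < n := by omega
    have he : (⟨S.length, by omega⟩ : Fin n) = ⟨l.length, hlt⟩ := Fin.ext hlen
    cases b
    · have : gstep q S false = S ++ [false] := by simp [gstep]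
      rw [this, lset_append_false, lset_append_false]
      exact ih'
    · rw [lset_append_true l hlt, Finset.coe_insert]
      by_cases hc : q (S ++ [true]) ≠ 0
      · have : gstep q S true = S ++ [true] := by simp [gstep, hc]
        rw [this, lset_append_true S (by omega), Finset.coe_insert, he]
        refine ih'.insert_isBasis_insert ?_
        have := (hq _).1 hc
        rwa [lset_append_true S (by omega), Finset.coe_insert, he] at this
      · have : gstep q S true = S ++ [false] := by simp [gstep, not_not.1 hc]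
        rw [this, lset_append_false]
        have hni : ¬ M.Indep (insert (⟨l.length, hlt⟩ : Fin n) (lset n S : Set (Fin n))) := by
          intro hi
          apply hc
          rw [hq, lset_append_true S (by omega), Finset.coe_insert, he]
          exact hi
        refine (ih'.indep.isBasis_iff_forall_insert_dep
          (ih'.subset.trans (Set.subset_insert _ _))).2 ?_
        intro f hf
        rcases hf with ⟨hf1, hf2⟩
        rcases Set.mem_insert_iff.1 hf1 with rfl | hf1
        · exact ⟨hni, by rw [hM]; exact Set.subset_univ _⟩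
        · exact ih'.insert_dep ⟨hf1, hf2⟩

/-! ### the rank function of a matroid -/

/-- rank of a finite set -/
noncomputable def mrk {n : ℕ} (M : Matroid (Fin n)) (A : Finset (Fin n)) : ℕ :=
  (M.eRk (A : Set (Fin n))).toNat

theorem coe_mrk {n : ℕ} (M : Matroid (Fin n)) (A : Finset (Fin n)) :
    ((mrk M A : ℕ) : ℕ∞) = M.eRk (A : Set (Fin n)) := by
  refine ENat.natCast_toNat ?_
  refine ne_top_of_le_ne_top ?_ (M.eRk_le_encard (A : Set (Fin n)))
  rw [Set.encard_coe_eq_coe_finsetCard]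
  exact ENat.natCast_ne_top _

theorem mrk_mono {n : ℕ} (M : Matroid (Fin n)) {A B : Finset (Fin n)} (h : A ⊆ B) :
    mrk M A ≤ mrk M B := by
  have : ((mrk M A : ℕ) : ℕ∞) ≤ (mrk M B : ℕ) := by
    rw [coe_mrk, coe_mrk]
    exact M.eRk_mono (by exact_mod_cast h)
  exact_mod_cast this

theorem mrk_isPolymatroidRank {n : ℕ} (M : Matroid (Fin n)) : IsPolymatroidRank (mrk M) := by
  refine ⟨?_, fun A B h => mrk_mono M h, fun A B => ?_⟩
  · have : ((mrk M ∅ : ℕ) : ℕ∞) = (0 : ℕ) := by
      rw [coe_mrk]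
      simp
    exact_mod_cast this
  · have : ((mrk M (A ∪ B) + mrk M (A ∩ B) : ℕ) : ℕ∞) ≤ ((mrk M A + mrk M B : ℕ) : ℕ∞) := by
      push_cast
      rw [coe_mrk, coe_mrk, coe_mrk, coe_mrk, Finset.coe_union, Finset.coe_inter, add_comm]
      exact M.eRk_inter_add_eRk_union_le _ _
    exact_mod_cast this

theorem mrk_univ {n R : ℕ} {M : Matroid (Fin n)} (hM : M.E = Set.univ) (hR : M.eRank = R) :
    mrk M Finset.univ = R := by
  have : ((mrk M Finset.univ : ℕ) : ℕ∞) = (R : ℕ) := by
    rw [coe_mrk, Finset.coe_univ, ← hM, M.eRk_ground, hR]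
  exact_mod_cast this

theorem mrk_le_card {n : ℕ} (M : Matroid (Fin n)) (A : Finset (Fin n)) : mrk M A ≤ A.card := by
  have : ((mrk M A : ℕ) : ℕ∞) ≤ (A.card : ℕ) := by
    rw [coe_mrk, ← Set.encard_coe_eq_coe_finsetCard]
    exact M.eRk_le_encard _
  exact_mod_cast this

theorem indep_of_card_le {n : ℕ} {M : Matroid (Fin n)} {A : Finset (Fin n)}
    (h : A.card ≤ mrk M A) : M.Indep (A : Set (Fin n)) := by
  refine (M.indep_iff_eRk_eq_encard_of_finite A.finite_toSet).2 ?_
  rw [Set.encard_coe_eq_coe_finsetCard, ← coe_mrk]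
  exact_mod_cast le_antisymm (mrk_le_card M A) h

theorem mrk_of_indep {n : ℕ} {M : Matroid (Fin n)} {A : Finset (Fin n)}
    (h : M.Indep (A : Set (Fin n))) : mrk M A = A.card := by
  have : ((mrk M A : ℕ) : ℕ∞) = (A.card : ℕ) := by
    rw [coe_mrk, h.eRk_eq_encard, Set.encard_coe_eq_coe_finsetCard]
  exact_mod_cast this

theorem isBase_iff_card {n R : ℕ} {M : Matroid (Fin n)} (hR : M.eRank = R)
    (B : Finset (Fin n)) : M.IsBase (B : Set (Fin n)) ↔ M.Indep (B : Set (Fin n)) ∧ B.card = R := by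
  constructor
  · intro h
    refine ⟨h.indep, ?_⟩
    have : ((B.card : ℕ) : ℕ∞) = (R : ℕ) := by
      rw [← Set.encard_coe_eq_coe_finsetCard, h.encard_eq_eRank, hR]
    exact_mod_cast this
  · rintro ⟨hi, hc⟩
    refine hi.isBase_of_maximal fun J hJ hBJ => ?_
    refine Set.Finite.eq_of_subset_of_encard_le B.finite_toSet hBJ ?_
    rw [Set.encard_coe_eq_coe_finsetCard, hc, ← hR]
    exact hJ.encard_le_eRank

/-- the common integer bases of two matroids are their common bases -/
theorem count_mrk {n R : ℕ} {M₁ M₂ : Matroid (Fin n)} (h₁ : M₁.eRank = R) (h₂ : M₂.eRank = R) :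
    numCommonIntBases R (mrk M₁) (mrk M₂) = numCommonBases M₁ M₂ := by
  classical
  unfold numCommonIntBases numCommonBases
  have key : ∀ x : Fin n → Fin (R + 1), (∑ j, (x j : ℕ)) = R →
      (∀ A : Finset (Fin n), (∑ j ∈ A, (x j : ℕ)) ≤ mrk M₁ A ∧ (∑ j ∈ A, (x j : ℕ)) ≤ mrk M₂ A) →
      ∀ j, (x j : ℕ) ≤ 1 := by
    intro x _ hx j
    have := (hx {j}).1
    rw [Finset.sum_singleton] at this
    have h2 := mrk_le_card M₁ {j}
    rw [Finset.card_singleton] at h2
    omega
  have hsum : ∀ x : Fin n → Fin (R + 1), (∀ j, (x j : ℕ) ≤ 1) → ∀ A : Finset (Fin n),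
      (∑ j ∈ A, (x j : ℕ)) = (A.filter fun j => (x j : ℕ) = 1).card := by
    intro x hx A
    rw [Finset.card_filter]
    refine Finset.sum_congr rfl fun j _ => ?_
    have := hx j
    split <;> omega
  refine Finset.card_bij (fun x _ => Finset.univ.filter fun j => (x j : ℕ) = 1) ?_ ?_ ?_
  · intro x hx
    simp only [Finset.mem_filter, Finset.mem_univ, true_and] at hx ⊢
    have h01 := key x hx.1 hx.2
    set B : Finset (Fin n) := Finset.univ.filter fun j => (x j : ℕ) = 1 with hB
    have hcard : B.card = R := by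
      rw [← hsum x h01 Finset.univ, hx.1]
    have hsB : (∑ j ∈ B, (x j : ℕ)) = B.card := by
      rw [hsum x h01 B]
      congr 1
      rw [hB, Finset.filter_filter]
      simp
    have hb := hx.2 B
    rw [hsB] at hb
    exact ⟨(isBase_iff_card h₁ B).2 ⟨indep_of_card_le hb.1, hcard⟩,
      (isBase_iff_card h₂ B).2 ⟨indep_of_card_le hb.2, hcard⟩⟩
  · intro x hx y hy hxy
    simp only [Finset.mem_filter, Finset.mem_univ, true_and] at hx hy
    have hx01 := key x hx.1 hx.2
    have hy01 := key y hy.1 hy.2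
    funext j
    apply Fin.ext
    have h1 : (x j : ℕ) = 1 ↔ (y j : ℕ) = 1 := by
      have := congrArg (fun B : Finset (Fin n) => j ∈ B) hxy
      simpa using this
    have h2 := hx01 j
    have h3 := hy01 j
    omega
  · intro B hB
    simp only [Finset.mem_filter, Finset.mem_univ, true_and] at hB
    obtain ⟨hi1, hc⟩ := (isBase_iff_card h₁ B).1 hB.1
    obtain ⟨hi2, _⟩ := (isBase_iff_card h₂ B).1 hB.2
    have hlt : ∀ j, (if j ∈ B then 1 else 0) < R + 1 := by
      intro j
      split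
      · rename_i hj
        have : 0 < B.card := Finset.card_pos.2 ⟨j, hj⟩
        omega
      · omega
    have hs : ∀ A : Finset (Fin n), (∑ j ∈ A, if j ∈ B then 1 else 0) = (A ∩ B).card := by
      intro A
      rw [Finset.sum_ite_mem]
      simp
    have hrk : ∀ M : Matroid (Fin n), M.Indep (B : Set (Fin n)) → ∀ A : Finset (Fin n),
        (A ∩ B).card ≤ mrk M A := by
      intro M hM A
      have h3 : M.Indep ((A ∩ B : Finset (Fin n)) : Set (Fin n)) :=
        hM.subset (by exact_mod_cast Finset.inter_subset_right)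
      rw [← mrk_of_indep h3]
      exact mrk_mono M Finset.inter_subset_left
    refine ⟨fun j => ⟨if j ∈ B then 1 else 0, hlt j⟩, ?_, ?_⟩
    · simp only [Finset.mem_filter, Finset.mem_univ, true_and]
      refine ⟨?_, fun A => ?_⟩
      · rw [hs]
        simpa using hc
      · rw [hs]
        exact ⟨hrk M₁ hi1 A, hrk M₂ hi2 A⟩
    · ext j
      simp

theorem rkL_eq {n : ℕ} {M : Matroid (Fin n)} (hM : M.E = Set.univ) {q : List Bool → ℕ}
    (hq : ∀ l, q l ≠ 0 ↔ M.Indep (lset n l : Set (Fin n))) (l : List Bool) :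
    rkL q n l = mrk M (lset n l) := by
  have hlen : (l.take n).length ≤ n := List.length_take_le _ _
  have hb := greedyL_basis hM hq (l.take n) hlen
  rw [lset_take] at hb
  have h1 : ((mrk M (lset n l) : ℕ) : ℕ∞) = ((lset n (greedyL q (l.take n))).card : ℕ) := by
    rw [coe_mrk, hb.eRk_eq_encard, Set.encard_coe_eq_coe_finsetCard]
  have h2 : mrk M (lset n l) = (lset n (greedyL q (l.take n))).card := by exact_mod_cast h1
  rw [h2, card_lset _ (by rw [length_greedyL]; exact hlen)]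
  rfl

/-! ### polynomial time -/

theorem optf_gstep : OPTF (fun I (p : (Bool × List Bool) × List Bool × Bool) =>
    gstep (I.ans p.1.1) p.2.1 p.2.2) := by
  have h1 : OPTF (fun I (p : (Bool × List Bool) × List Bool × Bool) =>
      I.ans p.1.1 (p.2.1 ++ [true])) :=
    OPTF.ans₂ (b := fun _ (p : (Bool × List Bool) × List Bool × Bool) => p.1.1)
      (l := fun _ (p : (Bool × List Bool) × List Bool × Bool) => p.2.1 ++ [true])
      (OPTF.of_ptf (by fun_prop)) (OPTF.of_ptf (by fun_prop))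
  have h2 : OPTF (fun I (p : (Bool × List Bool) × List Bool × Bool) =>
      (p.2.2 && decide (I.ans p.1.1 (p.2.1 ++ [true]) ≠ 0))) := by
    refine OPTF.post₂ (g := fun (b : Bool) (m : ℕ) => b && decide (m ≠ 0))
      (f := fun _ (p : (Bool × List Bool) × List Bool × Bool) => p.2.2) ?_
      (OPTF.of_ptf (by fun_prop)) h1
    exact PTF.and PTF.fst (PTPred.toPTF (PTPred.not (PTPred.natEq PTF.snd (PTF.const 0))))
  refine (OPTF.cond h2 (OPTF.of_ptf (f := fun p : (Bool × List Bool) × List Bool × Bool =>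
    p.2.1 ++ [true]) (by fun_prop)) (OPTF.of_ptf (f := fun p : (Bool × List Bool) × List Bool × Bool
      => p.2.1 ++ [false]) (by fun_prop))).of_eq (fun I p => ?_)
  unfold gstep
  cases (p.2.2 && decide (I.ans p.1.1 (p.2.1 ++ [true]) ≠ 0)) <;> rfl

theorem optf_rkL : OPTF (fun I (p : Bool × List Bool) => rkL (I.ans p.1) I.n p.2) := by
  have ht : OPTF (fun I (p : Bool × List Bool) => p.2.take I.n) := by
    refine OPTF.post₂ (g := fun (u : Un) (l : List Bool) => l.take u.val)
      (f := fun I (_ : Bool × List Bool) => Un.mk I.n)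
      (h := fun _ (p : Bool × List Bool) => p.2) ?_ OPTU.ground (OPTF.of_ptf (by fun_prop))
    exact PTF.take (n := fun p : Un × List Bool => p.1.val) (PTU.val PTF.fst) PTF.snd
  have hf : OPTF (fun I (p : Bool × List Bool) =>
      (p.2.take I.n).foldl (gstep (I.ans p.1)) []) := by
    refine OPTF.foldl (f := fun I (p : Bool × List Bool) S b => gstep (I.ans p.1) S b)
      (b := fun _ _ => []) ht optf_gstep (OPTF.const [])
      (B := fun _ (p : Bool × List Bool) => 3 * sz p) ((OPB.const 3).mul OPB.sz) ?_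
    intro I c i hi
    have h1 : (((c.2.take I.n).take i).foldl (fun S b => gstep (I.ans c.1) S b) []).length ≤
        c.2.length := by
      have := length_greedyL (I.ans c.1) ((c.2.take I.n).take i)
      unfold greedyL at this
      rw [this, List.length_take, List.length_take]
      omega
    have h2 : sz c = 2 * sz c.1 + 1 + sz c.2 := sz_prod c
    have h3 := length_le_sz c.2
    rw [Arith.sz_boolList]
    show 3 * _ ≤ 3 * sz c
    omega
  refine (OPTF.post (g := fun l : List Bool => (l.filter fun b => b).length) ?_ hf).of_eq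
    (fun I p => rfl)
  exact PTU.toPTF (PTU.length (PTF.filter (p := fun _ b => b) PTF.id (by pt_prop)))

end Crest.Agent.R302.ORAM
end

-- ▼ part R302/ORAM/Final
section

/-!
# S0461 and S0462 from one pure statement
-/

set_option autoImplicit false
set_option linter.dupNamespace false

namespace Crest.Agent.R302.ORAM

open Crest.OracleRAM Crest.Polymatroid
open Crest.Agent.R309 (Tape.pr)
open Crest.Agent.Lib.PT Function

/-- the query function of two rank functions -/
def rq {n : ℕ} (r₁ r₂ : Finset (Fin n) → ℕ) : Bool → List Bool → ℕ :=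
  fun b l => (if b then r₂ else r₁) (lset n l)

/-- The estimator `G` is computable relative to every query function that is. -/
def RelComp (G : (Bool → List Bool → ℕ) → CIn × List Bool → ℚ) : Prop :=
  ∀ Q : Inst → Bool → List Bool → ℕ, OPTF (fun I (p : Bool × List Bool) => Q I p.1 p.2) →
    OPTF (fun I (p : CIn × List Bool) => G (Q I) p)

/-- **The pure specification** of the estimator `G` using `N` random bits. -/
def CountSpec (G : (Bool → List Bool → ℕ) → CIn × List Bool → ℚ) (N : CIn → ℕ) : Prop :=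
  ∀ (n R : ℕ) (r₁ r₂ : Finset (Fin n) → ℕ) (ε δ : ℚ),
    IsPolymatroidRank r₁ → IsPolymatroidRank r₂ → r₁ Finset.univ = R → r₂ Finset.univ = R →
    0 < ε → ε < 1 → 0 < δ → δ < 1 →
    (∀ τ : List Bool, τ.length = N (cin n R ε δ) → 0 ≤ G (rq r₁ r₂) (cin n R ε δ, τ)) ∧
    (numCommonIntBases R r₁ r₂ = 0 → ∀ τ : List Bool, τ.length = N (cin n R ε δ) →
      G (rq r₁ r₂) (cin n R ε δ, τ) = 0) ∧
    1 - (δ : ℝ) ≤ Crest.Agent.R309.Tape.pr (N (cin n R ε δ)) (fun τ =>
      (1 - ε) * numCommonIntBases R r₁ r₂ ≤ G (rq r₁ r₂) (cin n R ε δ, τ) ∧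
        G (rq r₁ r₂) (cin n R ε δ, τ) ≤ (1 + ε) * numCommonIntBases R r₁ r₂)

/-- **S0461** -/
theorem s0461_of {G : (Bool → List Bool → ℕ) → CIn × List Bool → ℚ} {N : CIn → ℕ}
    (hG : RelComp G) (hN : PTU N) (hS : CountSpec G N) :
    ∃ (P : Crest.OracleRAM.OProgram) (c₀ C d : ℕ),
      ∀ (n R : ℕ) (r₁ r₂ : Finset (Fin n) → ℕ) (ε δ : ℚ),
        IsPolymatroidRank r₁ → IsPolymatroidRank r₂ → r₁ Finset.univ = R → r₂ Finset.univ = R →
        0 < ε → ε < 1 → 0 < δ → δ < 1 →
        (∀ ρ : ℕ → ℕ, (Crest.OracleRAM.orun P n (fun b => if b then r₂ else r₁)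
            (c₀ * Nat.clog 2 (n + R + ε.num.natAbs + ε.den + δ.num.natAbs + δ.den + 2)) ρ
            (countInput n R ε δ) (C * (sizeParam n R ε δ + 1) ^ d)).cfg.halted = true) ∧
        (∀ ρ : ℕ → ℕ, ∃ z : ℚ, 0 ≤ z ∧
          Crest.OracleRAM.decodeRat
              (c₀ * Nat.clog 2 (n + R + ε.num.natAbs + ε.den + δ.num.natAbs + δ.den + 2))
              (Crest.OracleRAM.orun P n (fun b => if b then r₂ else r₁)
                (c₀ * Nat.clog 2 (n + R + ε.num.natAbs + ε.den + δ.num.natAbs + δ.den + 2)) ρ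
                (countInput n R ε δ) (C * (sizeParam n R ε δ + 1) ^ d)).cfg.output = some z) ∧
        (numCommonIntBases R r₁ r₂ = 0 → ∀ ρ : ℕ → ℕ,
          Crest.OracleRAM.decodeRat
              (c₀ * Nat.clog 2 (n + R + ε.num.natAbs + ε.den + δ.num.natAbs + δ.den + 2))
              (Crest.OracleRAM.orun P n (fun b => if b then r₂ else r₁)
                (c₀ * Nat.clog 2 (n + R + ε.num.natAbs + ε.den + δ.num.natAbs + δ.den + 2)) ρ
                (countInput n R ε δ) (C * (sizeParam n R ε δ + 1) ^ d)).cfg.output = some 0) ∧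
        1 - (δ : ℝ) ≤ Crest.OracleRAM.oprobAfter P n (fun b => if b then r₂ else r₁)
            (c₀ * Nat.clog 2 (n + R + ε.num.natAbs + ε.den + δ.num.natAbs + δ.den + 2))
            (countInput n R ε δ) (C * (sizeParam n R ε δ + 1) ^ d)
            (fun c => ∃ z : ℚ, Crest.OracleRAM.decodeRat
                (c₀ * Nat.clog 2 (n + R + ε.num.natAbs + ε.den + δ.num.natAbs + δ.den + 2))
                c.cfg.output = some z ∧
              (1 - ε) * numCommonIntBases R r₁ r₂ ≤ z ∧ z ≤ (1 + ε) * numCommonIntBases R r₁ r₂) := by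
  have hQ : OPTF (fun I (p : Bool × List Bool) => I.ans p.1 p.2) :=
    OPTF.ans₂ (OPTF.of_ptf PTF.fst) (OPTF.of_ptf PTF.snd)
  obtain ⟨P, c₀, C, d, hP⟩ := fpras_of (hG (fun I b l => I.ans b l) hQ) hN
  refine ⟨P, c₀, C, d, ?_⟩
  intro n R r₁ r₂ ε δ h1 h2 hR1 hR2 hε hε1 hδ hδ1
  obtain ⟨s1, s2, s3⟩ := hS n R r₁ r₂ ε δ h1 h2 hR1 hR2 hε hε1 hδ hδ1
  have hO : ∀ (b : Bool) (A : Finset (Fin n)), (if b then r₂ else r₁) A ≤ max R 1 := by
    intro b A
    refine le_trans ?_ (le_max_left _ _)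
    cases b
    · exact (h1.2.1 A Finset.univ (Finset.subset_univ _)).trans_eq hR1
    · exact (h2.2.1 A Finset.univ (Finset.subset_univ _)).trans_eq hR2
  obtain ⟨g1, g2, g3⟩ := hP n R (fun b => if b then r₂ else r₁) hO ε δ hε hε1 hδ hδ1 s1
  refine ⟨g1, ?_, ?_, ?_⟩
  · intro ρ
    obtain ⟨τ, hτ, hd⟩ := g2 ρ
    exact ⟨_, s1 τ hτ, hd⟩
  · intro h0 ρ
    obtain ⟨τ, hτ, hd⟩ := g2 ρ
    have : G (rq r₁ r₂) (cin n R ε δ, τ) = 0 := s2 h0 τ hτ
    rw [← this]
    exact hd
  · have := g3 (fun z => (1 - ε) * numCommonIntBases R r₁ r₂ ≤ z ∧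
      z ≤ (1 + ε) * numCommonIntBases R r₁ r₂)
    exact s3.trans_eq this.symm

theorem indepOracle_ne {n : ℕ} (M₁ M₂ : Matroid (Fin n)) (b : Bool) (A : Finset (Fin n)) :
    indepOracle M₁ M₂ b A ≠ 0 ↔ (if b then M₂ else M₁).Indep (A : Set (Fin n)) := by
  unfold indepOracle
  split <;> simp_all

theorem indepOracle_le {n : ℕ} (M₁ M₂ : Matroid (Fin n)) (b : Bool) (A : Finset (Fin n)) :
    indepOracle M₁ M₂ b A ≤ 1 := by
  classical
  unfold indepOracle
  by_cases h : (if b then M₂ else M₁).Indep (A : Set (Fin n))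
  · rw [if_pos h]
  · rw [if_neg h]; exact Nat.zero_le 1

/-- **S0462** -/
theorem s0462_of {G : (Bool → List Bool → ℕ) → CIn × List Bool → ℚ} {N : CIn → ℕ}
    (hG : RelComp G) (hN : PTU N) (hS : CountSpec G N) :
    ∃ (P : Crest.OracleRAM.OProgram) (c₀ C d : ℕ),
      ∀ (n r : ℕ) (M₁ M₂ : Matroid (Fin n)) (ε δ : ℚ),
        M₁.E = Set.univ → M₂.E = Set.univ → M₁.eRank = r → M₂.eRank = r →
        0 < ε → ε < 1 → 0 < δ → δ < 1 →
        (∀ ρ : ℕ → ℕ, (Crest.OracleRAM.orun P n (indepOracle M₁ M₂)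
            (c₀ * Nat.clog 2 (n + r + ε.num.natAbs + ε.den + δ.num.natAbs + δ.den + 2)) ρ
            (countInput n r ε δ) (C * (sizeParam n r ε δ + 1) ^ d)).cfg.halted = true) ∧
        (∀ ρ : ℕ → ℕ, ∃ z : ℚ, 0 ≤ z ∧
          Crest.OracleRAM.decodeRat
              (c₀ * Nat.clog 2 (n + r + ε.num.natAbs + ε.den + δ.num.natAbs + δ.den + 2))
              (Crest.OracleRAM.orun P n (indepOracle M₁ M₂)
                (c₀ * Nat.clog 2 (n + r + ε.num.natAbs + ε.den + δ.num.natAbs + δ.den + 2)) ρ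
                (countInput n r ε δ) (C * (sizeParam n r ε δ + 1) ^ d)).cfg.output = some z) ∧
        (numCommonBases M₁ M₂ = 0 → ∀ ρ : ℕ → ℕ,
          Crest.OracleRAM.decodeRat
              (c₀ * Nat.clog 2 (n + r + ε.num.natAbs + ε.den + δ.num.natAbs + δ.den + 2))
              (Crest.OracleRAM.orun P n (indepOracle M₁ M₂)
                (c₀ * Nat.clog 2 (n + r + ε.num.natAbs + ε.den + δ.num.natAbs + δ.den + 2)) ρ
                (countInput n r ε δ) (C * (sizeParam n r ε δ + 1) ^ d)).cfg.output = some 0) ∧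
        1 - (δ : ℝ) ≤ Crest.OracleRAM.oprobAfter P n (indepOracle M₁ M₂)
            (c₀ * Nat.clog 2 (n + r + ε.num.natAbs + ε.den + δ.num.natAbs + δ.den + 2))
            (countInput n r ε δ) (C * (sizeParam n r ε δ + 1) ^ d)
            (fun c => ∃ z : ℚ, Crest.OracleRAM.decodeRat
                (c₀ * Nat.clog 2 (n + r + ε.num.natAbs + ε.den + δ.num.natAbs + δ.den + 2))
                c.cfg.output = some z ∧
              (1 - ε) * numCommonBases M₁ M₂ ≤ z ∧ z ≤ (1 + ε) * numCommonBases M₁ M₂) := by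
  obtain ⟨P, c₀, C, d, hP⟩ := fpras_of (hG (fun I b l => rkL (I.ans b) I.n l) optf_rkL) hN
  refine ⟨P, c₀, C, d, ?_⟩
  intro n r M₁ M₂ ε δ hE1 hE2 hR1 hR2 hε hε1 hδ hδ1
  obtain ⟨s1, s2, s3⟩ := hS n r (mrk M₁) (mrk M₂) ε δ (mrk_isPolymatroidRank M₁)
    (mrk_isPolymatroidRank M₂) (mrk_univ hE1 hR1) (mrk_univ hE2 hR2) hε hε1 hδ hδ1
  rw [count_mrk hR1 hR2] at s2 s3
  have hO : ∀ (b : Bool) (A : Finset (Fin n)), indepOracle M₁ M₂ b A ≤ max r 1 := fun b A =>
    (indepOracle_le M₁ M₂ b A).trans (le_max_right _ _)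
  have hI : (fun (b : Bool) (l : List Bool) => rkL ((mkI (indepOracle M₁ M₂) hO ε δ).ans b)
      (mkI (indepOracle M₁ M₂) hO ε δ).n l) = rq (mrk M₁) (mrk M₂) := by
    funext b l
    show rkL (fun l => indepOracle M₁ M₂ b (lset n l)) n l = _
    cases b
    · exact rkL_eq (M := M₁) hE1 (fun l => indepOracle_ne M₁ M₂ false _) l
    · exact rkL_eq (M := M₂) hE2 (fun l => indepOracle_ne M₁ M₂ true _) l
  rw [← hI] at s1 s2 s3
  obtain ⟨g1, g2, g3⟩ := hP n r (indepOracle M₁ M₂) hO ε δ hε hε1 hδ hδ1 s1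
  refine ⟨g1, ?_, ?_, ?_⟩
  · intro ρ
    obtain ⟨τ, hτ, hd⟩ := g2 ρ
    exact ⟨_, s1 τ hτ, hd⟩
  · intro h0 ρ
    obtain ⟨τ, hτ, hd⟩ := g2 ρ
    rw [← s2 h0 τ hτ]
    exact hd
  · have := g3 (fun z => (1 - ε) * numCommonBases M₁ M₂ ≤ z ∧ z ≤ (1 + ε) * numCommonBases M₁ M₂)
    exact s3.trans_eq this.symm

end Crest.Agent.R302.ORAM
end

-- ▼ part R302/Top497B

/-!
# R302, block TOP (helper497), part B: the estimator built on a box sampler, and its law

`smp q s τ` is a sampler of common integer bases in a box (input `s : SIn = (n, R, m, lo, hi)`), correct up to `1/m`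
in total variation (`SmpSpec`); `G smp slen` is the estimator of `Final.lean` and `CountSpec (G ..) (N ..)` holds.
-/

set_option autoImplicit false
set_option linter.dupNamespace false

namespace Crest.Agent.R302.Top

open Finset Crest.Polymatroid Crest.Agent.R302.Facet Crest.Agent.R302.EDM Crest.Agent.R302.ORAM
open Crest.Agent.R309.Tape Crest.Agent.R309.Count632 Crest.Agent.Lib.PT

/-- input of the sampler: `n` (unary), `R`, accuracy `m` (unary), lower and upper bounds -/
abbrev SIn : Type := Un × ℕ × Un × List ℤ × List ℤ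

/-- the type of samplers -/
abbrev Smp : Type := (Bool → List Bool → ℕ) → SIn → List Bool → List ℤ

/-- **The specification of the sampler.** -/
def SmpSpec (smp : Smp) (slen : SIn → ℕ) : Prop :=
  ∀ (n R : ℕ) (r₁ r₂ : Finset (Fin n) → ℕ) (m : ℕ) (lo hi : Fin n → ℤ),
    IsPolymatroidRank r₁ → IsPolymatroidRank r₂ → r₁ Finset.univ = R → r₂ Finset.univ = R →
    1 ≤ m → (∀ i, 0 ≤ lo i ∧ lo i ≤ hi i ∧ hi i ≤ R) → (PB r₁ r₂ R lo hi).Nonempty →
    ∀ φ : List ℤ → ℝ, (∀ y, 0 ≤ φ y ∧ φ y ≤ 1) →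
      |avg (slen (⟨n⟩, R, ⟨m⟩, List.ofFn lo, List.ofFn hi))
          (fun l => φ (smp (rq r₁ r₂) (⟨n⟩, R, ⟨m⟩, List.ofFn lo, List.ofFn hi) l)) -
        (∑ x ∈ PB r₁ r₂ R lo hi, φ (List.ofFn x)) / (PB r₁ r₂ R lo hi).card| ≤ 1 / m

/-! ### parameters -/

/-- ground set size -/
def cn (c : CIn) : ℕ := c.1.val
/-- total rank -/
def cR (c : CIn) : ℕ := c.2.1
/-- accuracy -/
def cE (c : CIn) : ℕ := c.2.2.2.2.val
/-- number of rounds -/
def cJ (c : CIn) : ℕ := cn c * (cR c).size + 1
/-- samples per round -/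
def cK (c : CIn) : ℕ := 64 * cJ c ^ 3 * cE c ^ 2
/-- accuracy of a sample -/
def cm (c : CIn) : ℕ := 8 * cJ c * cE c
/-- half the number of runs -/
def cM (c : CIn) : ℕ := 3 * (c.2.2.2.1.den).size
/-- bound for the size of a box -/
def cS (c : CIn) : ℕ := 3 * (cn c * (2 * (3 + (cR c).size) + 1)) + 1
/-- bound for the size of a sampler input -/
def cI (c : CIn) : ℕ := 2 * cn c + 1 + (2 * (cR c).size + 1 + (2 * cm c + 1 + cS c))
/-- bits per sample; `q` bounds the number of bits of the sampler -/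
def cr (q : Polynomial ℕ) (c : CIn) : ℕ := q.eval (cI c)

/-- the input of the sampler -/
def sin (c : CIn) (s : Bx) : SIn := (⟨cn c⟩, cR c, ⟨cm c⟩, s.1, s.2)

/-- the coin -/
def coin (smp : Smp) (slen : SIn → ℕ) (Q : Bool → List Bool → ℕ) (c : CIn) (s : Bx)
    (l : List Bool) : Bool :=
  decide ((smp Q (sin c s) (l.take (slen (sin c s)))).getD (pj (cn c) s) 0 ≤ mid (cn c) s)

/-- the leaf test -/
def leaf (Q : Bool → List Bool → ℕ) (c : CIn) (s : Bx) : Bool :=
  feasBL (cn c) (cR c) (fun l => (Q false l : ℤ)) (fun l => (Q true l : ℤ)) (cR c) s.1 s.2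

/-- the root box -/
def s0 (c : CIn) : Bx := (List.replicate (cn c) 0, List.replicate (cn c) (cR c : ℤ))

/-- one run of the estimator -/
def run (smp : Smp) (slen : SIn → ℕ) (q : Polynomial ℕ) (Q : Bool → List Bool → ℕ)
    (p : CIn × List Bool) : ℚ :=
  base (coin smp slen Q p.1) (loS (cn p.1)) (hiS (cn p.1)) (finB (cn p.1)) (leaf Q p.1) (cr q p.1)
    (cK p.1) (cJ p.1) (s0 p.1) p.2

/-- **The estimator.** -/
def G (smp : Smp) (slen : SIn → ℕ) (q : Polynomial ℕ) (Q : Bool → List Bool → ℕ)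
    (p : CIn × List Bool) : ℚ :=
  est (coin smp slen Q p.1) (loS (cn p.1)) (hiS (cn p.1)) (finB (cn p.1)) (leaf Q p.1) (cr q p.1)
    (cK p.1) (cJ p.1) (cM p.1) (s0 p.1) p.2

/-- the number of random bits -/
def N (q : Polynomial ℕ) (c : CIn) : ℕ := 2 * cM c * (cJ c * (cK c * cr q c))

/-! ### sizes -/

theorem natAbs_size_le {z : ℤ} {R : ℕ} (h0 : 0 ≤ z) (h1 : z ≤ R) : sz z ≤ 3 + R.size := by
  rw [sz_int]
  have : z.natAbs ≤ R := by omega
  have := Nat.size_le_size this
  omega

theorem sz_ofFn_le {n R : ℕ} {f : Fin n → ℤ} (h : ∀ i, 0 ≤ f i ∧ f i ≤ R) :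
    sz (List.ofFn f) ≤ n * (2 * (3 + R.size) + 1) := by
  have h1 : ∀ a ∈ List.ofFn f, sz a ≤ 3 + R.size := by
    intro a ha
    rw [List.mem_ofFn] at ha
    obtain ⟨i, rfl⟩ := ha
    exact natAbs_size_le (h i).1 (h i).2
  have := sz_list_le h1
  rwa [List.length_ofFn] at this

theorem sz_box_le {c : CIn} {s : Bx} (h : V (cn c) (cR c) s) : sz s ≤ cS c := by
  obtain ⟨lo, hi, rfl, hb⟩ := h
  rw [sz_prod]
  have h1 := sz_ofFn_le (f := lo) (R := cR c) (fun i => ⟨(hb i).1, by have := hb i; omega⟩)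
  have h2 := sz_ofFn_le (f := hi) (R := cR c) (fun i => ⟨by have := hb i; omega, (hb i).2.2⟩)
  unfold cS
  simp only
  omega

theorem sz_sin_le {c : CIn} {s : Bx} (h : V (cn c) (cR c) s) : sz (sin c s) ≤ cI c := by
  have h1 := sz_box_le h
  have e : sz s = 2 * sz s.1 + 1 + sz s.2 := by
    conv_lhs => rw [← Prod.mk.eta (p := s)]
    rw [sz_prod]
  unfold sin cI
  simp only [sz_prod, sz_un, sz_nat]
  omega

/-! ### correctness -/

theorem repL {n : ℕ} (r₁ r₂ : Finset (Fin n) → ℕ) (b : Bool) :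
    RepL n (fun l => (rq r₁ r₂ b l : ℤ)) (zr (if b then r₂ else r₁)) := by
  intro l
  unfold rq zr
  simp only [lset_eq_setL]

theorem leaf_iff {n R : ℕ} {r₁ r₂ : Finset (Fin n) → ℕ} {ε δ : ℚ} (h₁ : IsPolymatroidRank r₁)
    (h₂ : IsPolymatroidRank r₂) (e₁ : r₁ univ = R) (e₂ : r₂ univ = R) (s : Bx) :
    leaf (rq r₁ r₂) (cin n R ε δ) s = true ↔ 0 < cnt r₁ r₂ R s := by
  have hr1 := repL r₁ r₂ false
  have hr2 := repL r₁ r₂ true
  simp only [Bool.false_eq_true, if_false, if_true] at hr1 hr2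
  have h := feasBL_iff (n := n) hr1 hr2 (K := R) (R := (R : ℤ)) (zr_subM h₁ e₁) (zr_subM h₂ e₂)
    (zr_abs h₁ e₁) (zr_abs h₂ e₂) s.1 s.2
  have h' : leaf (rq r₁ r₂) (cin n R ε δ) s = feasBL n R (fun l => (rq r₁ r₂ false l : ℤ))
      (fun l => (rq r₁ r₂ true l : ℤ)) (R : ℤ) s.1 s.2 := rfl
  rw [h', h]
  unfold cnt
  rw [Finset.card_pos]
  constructor
  · rintro ⟨x, hx⟩
    exact ⟨x, mem_PB.2 hx⟩
  · rintro ⟨x, hx⟩
    exact ⟨x, mem_PB.1 hx⟩

theorem coin_law {smp : Smp} {slen : SIn → ℕ} (hS : SmpSpec smp slen) {q : Polynomial ℕ}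
    (hq : ∀ s, slen s ≤ q.eval (sz s)) {n R : ℕ} {r₁ r₂ : Finset (Fin n) → ℕ} {ε δ : ℚ}
    (h₁ : IsPolymatroidRank r₁) (h₂ : IsPolymatroidRank r₂) (e₁ : r₁ univ = R) (e₂ : r₂ univ = R)
    (hm : 1 ≤ cm (cin n R ε δ)) (s : Bx) (hV : V n R s) (hf : finB n s = false)
    (hN : 0 < cnt r₁ r₂ R s) :
    |pr (cr q (cin n R ε δ)) (fun l => coin smp slen (rq r₁ r₂) (cin n R ε δ) s l = true) -
      (cnt r₁ r₂ R (loS n s) : ℝ) / cnt r₁ r₂ R s| ≤ 1 / cm (cin n R ε δ) := by
  classical
  set c := cin n R ε δ with hc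
  have hcn : cn c = n := rfl
  have hcR : cR c = R := rfl
  have hlen : slen (sin c s) ≤ cr q c := (hq _).trans (eval_mono q (sz_sin_le (c := c) hV))
  set φ : List ℤ → ℝ := fun y => ind (y.getD (pj n s) 0 ≤ mid n s) with hφ
  have e : pr (cr q c) (fun l => coin smp slen (rq r₁ r₂) c s l = true) =
      avg (slen (sin c s)) (fun l => φ (smp (rq r₁ r₂) (sin c s) l)) := by
    rw [← avg_take hlen (fun l => φ (smp (rq r₁ r₂) (sin c s) l))]
    unfold pr coin
    simp only [decide_eq_true_eq, hcn, hφ]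
  obtain ⟨lo, hi, rfl, hb⟩ := id hV
  have hspec := hS n R r₁ r₂ (cm c) lo hi h₁ h₂ e₁ e₂ hm hb
    (by
      unfold cnt at hN
      simp only [vecL_ofFn] at hN
      exact Finset.card_pos.1 hN) φ (fun y => ⟨ind_nonneg _, ind_le_one _⟩)
  have e2 : (∑ x ∈ PB r₁ r₂ R lo hi, φ (List.ofFn x)) / (PB r₁ r₂ R lo hi).card =
      (cnt r₁ r₂ R (loS n (List.ofFn lo, List.ofFn hi)) : ℝ) /
        cnt r₁ r₂ R (List.ofFn lo, List.ofFn hi) := by
    have h3 := ratio r₁ r₂ hV hf φ (fun y => by
      simp only [hφ]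
      by_cases h : y.getD (pj n (List.ofFn lo, List.ofFn hi)) 0 ≤ mid n (List.ofFn lo, List.ofFn hi)
      · rw [ind_of h, if_pos h]
      · rw [ind_of_not h, if_neg h])
    simp only [vecL_ofFn] at h3
    rw [h3]
    congr 2
    unfold cnt
    simp only [vecL_ofFn]
  rw [e, ← e2]
  exact hspec

theorem pow_le_delta {δ : ℚ} (hδ : 0 < δ) : ((3 : ℝ) / 4) ^ (3 * δ.den.size) ≤ (δ : ℝ) := by
  have hd : (0 : ℝ) < δ.den := by exact_mod_cast δ.den_pos
  have h1 : ((3 : ℝ) / 4) ^ (3 * δ.den.size) ≤ (1 / 2) ^ δ.den.size := by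
    rw [pow_mul]
    exact pow_le_pow_left₀ (by norm_num) (by norm_num) _
  have h2 : ((1 : ℝ) / 2) ^ δ.den.size ≤ 1 / δ.den := by
    rw [one_div_pow]
    refine one_div_le_one_div_of_le hd ?_
    exact_mod_cast (Nat.lt_size_self δ.den).le
  have h3 : (1 : ℝ) / δ.den ≤ δ := by
    have h4 : (1 : ℝ) ≤ δ.num := by
      have := Rat.num_pos.2 hδ
      exact_mod_cast this
    have h5 : (δ : ℝ) = δ.num / δ.den := by
      conv_lhs => rw [← Rat.num_div_den δ]
      push_cast
      rfl
    rw [h5]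
    gcongr
  linarith

/-- **The estimator satisfies the counting specification.** -/
theorem countSpec {smp : Smp} {slen : SIn → ℕ} (hS : SmpSpec smp slen) {q : Polynomial ℕ}
    (hq : ∀ s, slen s ≤ q.eval (sz s)) : CountSpec (G smp slen q) (N q) := by
  intro n R r₁ r₂ ε δ h₁ h₂ e₁ e₂ hε hε1 hδ hδ1
  set c := cin n R ε δ with hc
  have hcn : cn c = n := rfl
  have hcR : cR c = R := rfl
  have hs0 : s0 c = (List.replicate n 0, List.replicate n (R : ℤ)) := rfl
  have hcnt : cnt r₁ r₂ R (s0 c) = numCommonIntBases R r₁ r₂ := by rw [hs0]; exact cnt_init R r₁ r₂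
  have hV0 : V n R (s0 c) := by rw [hs0]; exact V_init n R
  have hsplit := split (n := n) (R := R) r₁ r₂ (leaf (rq r₁ r₂) c)
    (fun s _ => leaf_iff (ε := ε) (δ := δ) h₁ h₂ e₁ e₂ s)
  have hE : 1 ≤ cE c := by
    show 1 ≤ ⌈ε⁻¹⌉₊
    exact Nat.succ_le_of_lt (Nat.ceil_pos.2 (by positivity))
  have hJ : 1 ≤ cJ c := by unfold cJ; omega
  have hm : 1 ≤ cm c := by
    unfold cm
    have : 0 < 8 * cJ c * cE c := by positivity
    omega
  refine ⟨?_, ?_, ?_⟩
  · intro τ _
    exact est_nonneg _ _ _ _ _ _ _ _ _ _ _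
  · intro h0 τ _
    exact est_eq_zero hsplit _ _ _ _ _ _ hV0 (by rw [hcnt]; exact h0) τ
  · have h := est_pr hsplit (coin smp slen (rq r₁ r₂) c) (cr q c) (cK c) (cJ c) (cE c) (cM c)
      hJ hE le_rfl
      (fun s hV hf hN => by
        have h3 : ((cm c : ℕ) : ℝ) = 8 * cJ c * cE c := by unfold cm; push_cast; ring
        rw [← h3]
        exact coin_law hS hq h₁ h₂ e₁ e₂ hm s hV hf hN)
      (s0 c) hV0 (by rw [hs0, mu_init]; unfold cJ; rw [hcn, hcR]; omega)
    have hM : ((3 : ℝ) / 4) ^ cM c ≤ δ := pow_le_delta hδ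
    refine le_trans (by linarith) (h.trans (pr_mono fun τ _ hτ => ?_))
    have hEε : 1 / (cE c : ℚ) ≤ ε := by
      have h5 : ε⁻¹ ≤ (cE c : ℚ) := Nat.le_ceil _
      have h6 : (0 : ℚ) < ε⁻¹ := by positivity
      calc 1 / (cE c : ℚ) ≤ 1 / ε⁻¹ := one_div_le_one_div_of_le h6 h5
        _ = ε := by rw [one_div, inv_inv]
    rw [hcnt] at hτ
    have hN0 : (0 : ℚ) ≤ numCommonIntBases R r₁ r₂ := Nat.cast_nonneg _
    constructor
    · refine le_trans ?_ hτ.1
      exact mul_le_mul_of_nonneg_right (by linarith) hN0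
    · refine hτ.2.trans ?_
      exact mul_le_mul_of_nonneg_right (by linarith) hN0

end Crest.Agent.R302.Top
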