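import Crest.Agent.R302.Center970B
import Crest.Agent.R302.EDM4
import Crest.Agent.R302.OPTSolve
import Mathlib
import Crest.Agent.R302.EDM3
import Crest.Agent.R302.EDM6
import Crest.Agent.R302.Loop272C
import Crest.Agent.R302.Ann425F
import Crest.Agent.R302.Top497B

-- ▼ part R302/CenL646
section

/-!
# R302: list version of helper970's deterministic integral centre
-/

set_option autoImplicit false

namespace Crest.Agent.R302.CenL

open Finset Crest.Agent.R302.Facet Crest.Agent.R302.Center Crest.Agent.R302.EDM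

/-! ### definitions -/

/-- lookup in a table of optional vectors -/
def lkT (T : List (List (Option (List ℤ)))) (u v : ℕ) : Option (List ℤ) :=
  (T.getD u []).getD v none

/-- lookup in a Boolean table -/
def lkB (P : List (List Bool)) (u v : ℕ) : Bool := (P.getD u []).getD v false

/-- lookup in an integer table -/
def lkZ (C : List (List ℤ)) (u v : ℕ) : ℤ := (C.getD u []).getD v 0

/-- unit vector -/
def ev01 (w i : ℕ) : ℤ := if i = w then 1 else 0

/-- candidate for the entry `(u, v)` through `w` -/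
def wcandL (n : ℕ) (P1 P2 : List (List Bool)) (T : List (List (Option (List ℤ)))) (u v w : ℕ) :
    Option (List ℤ) :=
  match lkT T u w with
  | none => none
  | some z => if lkB P1 w v then
        some ((List.range n).map fun i => z.getD i 0 + (ev01 w i - ev01 v i))
      else if lkB P2 v w then some z else none

/-- new entry `(u, v)` -/
def wentL (n : ℕ) (P1 P2 : List (List Bool)) (T : List (List (Option (List ℤ)))) (u v : ℕ) :
    Option (List ℤ) :=
  match lkT T u v with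
  | none => ((List.range n).filterMap (wcandL n P1 P2 T u v)).head?
  | some z => some z

/-- one relaxation round -/
def wstepL (n : ℕ) (P1 P2 : List (List Bool)) (T : List (List (Option (List ℤ)))) :
    List (List (Option (List ℤ))) :=
  (List.range n).map fun u => (List.range n).map fun v => wentL n P1 P2 T u v

/-- walks without steps -/
def w0L (n : ℕ) : List (List (Option (List ℤ))) :=
  (List.range n).map fun u => (List.range n).map fun v =>
    if u = v then some ((List.range n).map fun _ => 0) else none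

/-- the walk table -/
def wtabL (n : ℕ) (P1 P2 : List (List Bool)) : List (List (Option (List ℤ))) :=
  (wstepL n P1 P2)^[n] (w0L n)

/-- entry of the closed walk vector -/
def cycL (P1 : List (List Bool)) (T : List (List (Option (List ℤ)))) (a b i : ℕ) : ℤ :=
  if lkB P1 a b then
    match lkT T b a with
    | none => 0
    | some z => z.getD i 0 + (ev01 a i - ev01 b i)
  else 0

/-- the cone vector from the table -/
def zsumL (n : ℕ) (P1 : List (List Bool)) (T : List (List (Option (List ℤ)))) : List ℤ :=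
  (List.range n).map fun i =>
    ((List.range n).map fun a => ((List.range n).map fun b => cycL P1 T a b i).sum).sum

/-- the cone vector -/
def zvecL (n : ℕ) (P1 P2 : List (List Bool)) : List ℤ := zsumL n P1 (wtabL n P1 P2)

/-- threshold table -/
def thrL (n : ℕ) (C : List (List ℤ)) (θ : ℤ) : List (List Bool) :=
  (List.range n).map fun a => (List.range n).map fun b => decide (a ≠ b ∧ θ < lkZ C a b)

/-- one half-step -/
def halfL (n : ℕ) (C1 C2 : List (List ℤ)) (θ : ℤ) (x : List ℤ) : List ℤ :=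
  (List.range n).map fun i =>
    x.getD i 0 + (θ / (16 * zb n)) * (zvecL n (thrL n C1 θ) (thrL n C2 θ)).getD i 0

/-- table of all capacities -/
def capTabL (n : ℕ) (cp : List ℤ → ℕ → ℕ → ℤ) (x : List ℤ) : List (List ℤ) :=
  (List.range n).map fun a => (List.range n).map fun b => cp x a b

/-- one scale -/
def cstepL (n : ℕ) (cp1 cp2 : List ℤ → ℕ → ℕ → ℤ) (θ : ℤ) (x : List ℤ) : List ℤ :=
  halfL n (capTabL n cp2 (halfL n (capTabL n cp1 x) (capTabL n cp2 x) θ x))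
    (capTabL n cp1 (halfL n (capTabL n cp1 x) (capTabL n cp2 x) θ x)) θ
    (halfL n (capTabL n cp1 x) (capTabL n cp2 x) θ x)

/-- one scale with the counter -/
def centerItL (n : ℕ) (cp1 cp2 : List ℤ → ℕ → ℕ → ℤ) (σ : List ℤ × ℤ) : List ℤ × ℤ :=
  (cstepL n cp1 cp2 σ.2 σ.1, σ.2 / 2)

/-- all scales `2^k, …, 2, 1` -/
def centerL (n : ℕ) (cp1 cp2 : List ℤ → ℕ → ℕ → ℤ) (k : ℕ) (x : List ℤ) : List ℤ :=
  ((centerItL n cp1 cp2)^[k + 1] (x, 2 ^ k)).1

/-! ### correspondence -/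

section corr

variable {n : ℕ}

theorem mapRange_ofFn {α : Type*} (F : ℕ → α) (G : Fin n → α) (h : ∀ i : Fin n, F i = G i) :
    (List.range n).map F = List.ofFn G := by
  apply List.ext_getElem
  · simp
  · intro i h1 h2
    simp only [List.getElem_map, List.getElem_range, List.getElem_ofFn]
    exact h ⟨i, by simpa using h1⟩

theorem getD_ofFn' {α : Type*} (G : Fin n → α) (d : α) (i : Fin n) :
    (List.ofFn G).getD i d = G i := by
  simp [List.getD_eq_getElem?_getD]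

/-- table of a function -/
def TL (W : Fin n → Fin n → Option (Fin n → ℤ)) : List (List (Option (List ℤ))) :=
  List.ofFn fun u => List.ofFn fun v => (W u v).map List.ofFn

theorem lkT_TL (W : Fin n → Fin n → Option (Fin n → ℤ)) (u v : Fin n) :
    lkT (TL W) u v = (W u v).map List.ofFn := by
  unfold lkT TL
  rw [getD_ofFn', getD_ofFn']

theorem ev01_eq (w i : Fin n) : ev01 w i = ev w i := by
  unfold ev01 ev
  simp only [Fin.ext_iff]

/-- the Boolean function of a table -/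
def bf (n : ℕ) (P : List (List Bool)) : Fin n → Fin n → Bool := fun a b => lkB P a b

theorem wcandL_TL (P1 P2 : List (List Bool)) (W : Fin n → Fin n → Option (Fin n → ℤ))
    (u v w : Fin n) : wcandL n P1 P2 (TL W) u v w = (match W u w with
      | some z => if bf n P1 w v then some (fun i => z i + (ev w i - ev v i))
                  else if bf n P2 v w then some z else none
      | none => none : Option (Fin n → ℤ)).map List.ofFn := by
  unfold wcandL
  rw [lkT_TL]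
  cases W u w with
  | none => rfl
  | some z =>
    simp only [Option.map_some]
    by_cases h1 : lkB P1 w v = true
    · have h1' : bf n P1 w v = true := h1
      rw [if_pos h1, if_pos h1', Option.map_some, Option.some.injEq]
      exact mapRange_ofFn _ _ fun i => by rw [getD_ofFn', ev01_eq, ev01_eq]
    · have h1' : ¬ bf n P1 w v = true := h1
      rw [if_neg h1, if_neg h1']
      by_cases h2 : lkB P2 v w = true
      · have h2' : bf n P2 v w = true := h2
        rw [if_pos h2, if_pos h2']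
        rfl
      · have h2' : ¬ bf n P2 v w = true := h2
        rw [if_neg h2, if_neg h2']
        rfl

theorem wentL_TL (P1 P2 : List (List Bool)) (W : Fin n → Fin n → Option (Fin n → ℤ))
    (u v : Fin n) : wentL n P1 P2 (TL W) u v =
      (wstep (bf n P1) (bf n P2) W u v).map List.ofFn := by
  unfold wentL wstep
  rw [lkT_TL]
  cases W u v with
  | some z => rfl
  | none =>
    simp only [Option.map_none]
    rw [List.head?_filterMap, ← List.map_coe_finRange_eq_range, List.findSome?_map]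
    have key : ∀ l : List (Fin n), List.findSome? (wcandL n P1 P2 (TL W) u v ∘ fun x : Fin n => (x : ℕ)) l =
        (l.findSome? fun w => match W u w with
          | some z => if bf n P1 w v then some (fun i => z i + (ev w i - ev v i))
                  else if bf n P2 v w then some z else none
          | none => none).map List.ofFn := by
      intro l
      induction l with
      | nil => rfl
      | cons a l ih =>
        rw [List.findSome?_cons, List.findSome?_cons, ih]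
        have h := wcandL_TL P1 P2 W u v a
        simp only [Function.comp_apply]
        rw [h]
        generalize (match W u a with
          | some z => if bf n P1 a v then some (fun i => z i + (ev a i - ev v i))
                  else if bf n P2 v a then some z else none
          | none => none : Option (Fin n → ℤ)) = o
        cases o <;> rfl
    exact key _

theorem wstepL_TL (P1 P2 : List (List Bool)) (W : Fin n → Fin n → Option (Fin n → ℤ)) :
    wstepL n P1 P2 (TL W) = TL (wstep (bf n P1) (bf n P2) W) := by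
  unfold wstepL
  conv_rhs => unfold TL
  exact mapRange_ofFn _ _ fun u => mapRange_ofFn _ _ fun v => wentL_TL P1 P2 W u v

theorem w0L_eq : w0L n = TL (w0 (n := n)) := by
  unfold w0L TL
  refine mapRange_ofFn _ _ fun u => mapRange_ofFn _ _ fun v => ?_
  unfold w0
  simp only [Fin.ext_iff]
  split_ifs
  · simp only [Option.map_some, Option.some.injEq]
    exact mapRange_ofFn _ _ fun i => rfl
  · rfl

theorem wstepL_iter (P1 P2 : List (List Bool)) (k : ℕ) :
    (wstepL n P1 P2)^[k] (w0L n) = TL (wtab (bf n P1) (bf n P2) k) := by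
  induction k with
  | zero => rw [Function.iterate_zero, id, w0L_eq]; rfl
  | succ k ih =>
    rw [Function.iterate_succ_apply', ih, wstepL_TL]
    unfold wtab
    rw [Function.iterate_succ_apply']

theorem wtabL_eq (P1 P2 : List (List Bool)) :
    wtabL n P1 P2 = TL (wtab (bf n P1) (bf n P2) n) := wstepL_iter P1 P2 n

theorem cycL_eq (P1 : List (List Bool)) (W : Fin n → Fin n → Option (Fin n → ℤ))
    (a b i : Fin n) : cycL P1 (TL W) a b i = cyc (bf n P1) W a b i := by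
  unfold cycL cyc
  rw [lkT_TL]
  by_cases h : lkB P1 a b = true
  · have h' : bf n P1 a b = true := h
    rw [if_pos h, if_pos h']
    cases W b a with
    | none => rfl
    | some z =>
      simp only [Option.map_some]
      rw [getD_ofFn', ev01_eq, ev01_eq]
  · have h' : ¬ bf n P1 a b = true := h
    rw [if_neg h, if_neg h']

theorem zvecL_eq (P1 P2 : List (List Bool)) :
    zvecL n P1 P2 = List.ofFn (zvec (bf n P1) (bf n P2)) := by
  unfold zvecL zsumL
  rw [wtabL_eq]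
  refine mapRange_ofFn _ _ fun i => ?_
  unfold zvec
  rw [sum_mapRange]
  refine Finset.sum_congr rfl fun a _ => ?_
  rw [sum_mapRange]
  exact Finset.sum_congr rfl fun b _ => cycL_eq P1 _ a b i

theorem bf_thrL (C : List (List ℤ)) (θ : ℤ) :
    bf n (thrL n C θ) = thr (fun a b : Fin n => lkZ C a b) θ := by
  funext a b
  unfold bf lkB thrL thr
  rw [getD_mapRange, getD_mapRange]
  simp only [ne_eq, Fin.ext_iff]

theorem halfL_eq (C1 C2 : List (List ℤ)) (θ : ℤ) (x : List ℤ) :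
    halfL n C1 C2 θ x = List.ofFn (halfMove (fun a b : Fin n => lkZ C1 a b)
      (fun a b : Fin n => lkZ C2 a b) θ (vecL n x)) := by
  unfold halfL
  refine mapRange_ofFn _ _ fun i => ?_
  unfold halfMove
  rw [zvecL_eq, getD_ofFn', bf_thrL, bf_thrL]
  rfl

theorem thr_congr {c c' : Fin n → Fin n → ℤ} (h : ∀ a b, a ≠ b → c a b = c' a b) (θ : ℤ) :
    thr c θ = thr c' θ := by
  funext a b
  unfold thr
  by_cases hab : a = b
  · simp [hab]
  · rw [h a b hab]

theorem vecL_ofFn (f : Fin n → ℤ) : vecL n (List.ofFn f) = f := by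
  funext i
  unfold vecL
  rw [getD_ofFn']

theorem lkZ_capTabL (cp : List ℤ → ℕ → ℕ → ℤ) (x : List ℤ) (a b : Fin n) :
    lkZ (capTabL n cp x) a b = cp x a b := by
  unfold lkZ capTabL
  rw [getD_mapRange, getD_mapRange]

theorem halfL_cap {cp1 cp2 : List ℤ → ℕ → ℕ → ℤ} {c1 c2 : (Fin n → ℤ) → Fin n → Fin n → ℤ}
    {x : List ℤ} (h1 : ∀ a b : Fin n, a ≠ b → cp1 x a b = c1 (vecL n x) a b)
    (h2 : ∀ a b : Fin n, a ≠ b → cp2 x a b = c2 (vecL n x) a b) (θ : ℤ) :
    halfL n (capTabL n cp1 x) (capTabL n cp2 x) θ x =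
      List.ofFn (halfMove (c1 (vecL n x)) (c2 (vecL n x)) θ (vecL n x)) := by
  rw [halfL_eq]
  unfold halfMove
  rw [thr_congr (c := fun a b : Fin n => lkZ (capTabL n cp1 x) a b) (c' := c1 (vecL n x))
      (fun a b hab => by rw [lkZ_capTabL]; exact h1 a b hab),
    thr_congr (c := fun a b : Fin n => lkZ (capTabL n cp2 x) a b) (c' := c2 (vecL n x))
      (fun a b hab => by rw [lkZ_capTabL]; exact h2 a b hab)]





end corr

end Crest.Agent.R302.CenL
end

-- ▼ part R302/CenOPT646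
section

/-!
# R302: the deterministic integral centre is a polynomial-time function relative to the oracle
-/

set_option autoImplicit false
set_option linter.dupNamespace false

namespace Crest.Agent.R302.CenL

open Finset Crest.Agent.R302.Facet Crest.Agent.R302.Center Crest.Agent.R302.EDM
open Crest.Agent.Lib.PT Crest.Agent.R309.PTX Crest.Agent.R302.ORAM Function

section ptf

variable {γ : Type} [PTCode γ]

/-! ### poly-time pieces -/

theorem ptf_lkT {T : γ → List (List (Option (List ℤ)))} {u v : γ → ℕ} (hT : PTF T) (hu : PTF u)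
    (hv : PTF v) : PTF (fun c => lkT (T c) (u c) (v c)) :=
  ptf_getD' hv (ptf_getD' hu hT (PTF.const [])) (PTF.const none)

theorem ptf_lkB {T : γ → List (List Bool)} {u v : γ → ℕ} (hT : PTF T) (hu : PTF u)
    (hv : PTF v) : PTF (fun c => lkB (T c) (u c) (v c)) :=
  ptf_getD' hv (ptf_getD' hu hT (PTF.const [])) (PTF.const false)

theorem ptf_lkZ {T : γ → List (List ℤ)} {u v : γ → ℕ} (hT : PTF T) (hu : PTF u)
    (hv : PTF v) : PTF (fun c => lkZ (T c) (u c) (v c)) :=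
  ptf_getD' hv (ptf_getD' hu hT (PTF.const [])) (PTF.const 0)

theorem ptf_ev01 {w i : γ → ℕ} (hw : PTF w) (hi : PTF i) : PTF (fun c => ev01 (w c) (i c)) :=
  PTF.ite (PTPred.natEq hi hw) (PTF.const 1) (PTF.const 0)

theorem ptf_wcandL {n : γ → ℕ} {P1 P2 : γ → List (List Bool)}
    {T : γ → List (List (Option (List ℤ)))} {u v w : γ → ℕ} (hn : PTU n) (hP1 : PTF P1)
    (hP2 : PTF P2) (hT : PTF T) (hu : PTF u) (hv : PTF v) (hw : PTF w) :
    PTF (fun c => wcandL (n c) (P1 c) (P2 c) (T c) (u c) (v c) (w c)) := by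
  refine PTF.of_eq (PTF.optionCasesOn (s := fun c => lkT (T c) (u c) (w c))
    (f := fun _ => none)
    (g := fun c z => if lkB (P1 c) (w c) (v c) = true then
        some ((List.range (n c)).map fun i => z.getD i 0 + (ev01 (w c) i - ev01 (v c) i))
      else if lkB (P2 c) (v c) (w c) = true then some z else none)
    (ptf_lkT hT hu hw) (PTF.const none) ?_) (fun c => ?_)
  · have hw1 : PTF (fun p : γ × List ℤ => w p.1) := PTF.comp hw (by fun_prop)
    have hv1 : PTF (fun p : γ × List ℤ => v p.1) := PTF.comp hv (by fun_prop)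
    have hP11 : PTF (fun p : γ × List ℤ => P1 p.1) := PTF.comp hP1 (by fun_prop)
    have hP21 : PTF (fun p : γ × List ℤ => P2 p.1) := PTF.comp hP2 (by fun_prop)
    have h3 : PTF (fun p : γ × List ℤ => (List.range (n p.1)).map fun i =>
        p.2.getD i 0 + (ev01 (w p.1) i - ev01 (v p.1) i)) := by
      refine PTF.tabulate (n := fun p : γ × List ℤ => n p.1) (PTU.comp hn (by fun_prop)) ?_
      dsimp only [PTF₂]
      exact PTF.intAdd (ptf_getD' (by fun_prop) (by fun_prop) (PTF.const 0))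
        (PTF.intSub (ptf_ev01 (PTF.comp hw (by fun_prop)) (by fun_prop))
          (ptf_ev01 (PTF.comp hv (by fun_prop)) (by fun_prop)))
    refine PTF.ite (PTPred.iff_ptf.2 (ptf_lkB hP11 hw1 hv1)) ?_
      (PTF.ite (PTPred.iff_ptf.2 (ptf_lkB hP21 hv1 hw1)) (by fun_prop) (PTF.const none))
    exact PTF.comp (g := fun l : List ℤ => some l) (by fun_prop) h3
  · unfold wcandL
    cases lkT (T c) (u c) (w c) <;> rfl

theorem ptf_wentL {n : γ → ℕ} {P1 P2 : γ → List (List Bool)}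
    {T : γ → List (List (Option (List ℤ)))} {u v : γ → ℕ} (hn : PTU n) (hP1 : PTF P1)
    (hP2 : PTF P2) (hT : PTF T) (hu : PTF u) (hv : PTF v) :
    PTF (fun c => wentL (n c) (P1 c) (P2 c) (T c) (u c) (v c)) := by
  refine PTF.of_eq (PTF.optionCasesOn (s := fun c => lkT (T c) (u c) (v c))
    (f := fun c => ((List.range (n c)).filterMap
      (wcandL (n c) (P1 c) (P2 c) (T c) (u c) (v c))).head?)
    (g := fun _ z => some z)
    (ptf_lkT hT hu hv) ?_
    (PTF.comp (g := fun z : List ℤ => some z) (f := fun p : γ × List ℤ => p.2) (by fun_prop)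
      PTF.snd)) (fun c => ?_)
  · refine PTF.head? (PTF.filterMap (f := fun c w => wcandL (n c) (P1 c) (P2 c) (T c) (u c) (v c) w)
      (PTF.range hn) ?_)
    dsimp only [PTF₂]
    exact ptf_wcandL (n := fun p : γ × ℕ => n p.1) (PTU.comp hn (by fun_prop))
      (PTF.comp hP1 (by fun_prop)) (PTF.comp hP2 (by fun_prop)) (PTF.comp hT (by fun_prop))
      (PTF.comp hu (by fun_prop)) (PTF.comp hv (by fun_prop)) (by fun_prop)
  · unfold wentL
    cases lkT (T c) (u c) (v c) <;> rfl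

theorem ptf_wstepL {n : γ → ℕ} {P1 P2 : γ → List (List Bool)}
    {T : γ → List (List (Option (List ℤ)))} (hn : PTU n) (hP1 : PTF P1)
    (hP2 : PTF P2) (hT : PTF T) :
    PTF (fun c => wstepL (n c) (P1 c) (P2 c) (T c)) := by
  unfold wstepL
  refine PTF.tabulate hn ?_
  refine PTF.tabulate (n := fun p : γ × ℕ => n p.1) (PTU.comp hn (by fun_prop)) ?_
  dsimp only [PTF₂]
  exact ptf_wentL (n := fun p : (γ × ℕ) × ℕ => n p.1.1) (PTU.comp hn (by fun_prop))
      (PTF.comp hP1 (by fun_prop)) (PTF.comp hP2 (by fun_prop)) (PTF.comp hT (by fun_prop))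
      (by fun_prop) (by fun_prop)

theorem ptf_w0L {n : γ → ℕ} (hn : PTU n) : PTF (fun c => w0L (n c)) := by
  unfold w0L
  refine PTF.tabulate hn ?_
  refine PTF.tabulate (n := fun p : γ × ℕ => n p.1) (PTU.comp hn (by fun_prop)) ?_
  dsimp only [PTF₂]
  refine PTF.ite (PTPred.natEq (by fun_prop) (by fun_prop)) ?_ (PTF.const none)
  exact PTF.comp (g := fun l : List ℤ => some l) (by fun_prop)
    (PTF.tabulate (n := fun p : (γ × ℕ) × ℕ => n p.1.1) (f := fun _ _ => (0:ℤ))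
      (PTU.comp hn (by fun_prop)) (PTF.const 0))

/-- size of the walk table -/
theorem sz_TL_le {n : ℕ} (W : Fin n → Fin n → Option (Fin n → ℤ)) (B : ℕ)
    (h : ∀ u v z, W u v = some z → ∀ i, |z i| ≤ 2 ^ B) :
    sz (TL W) ≤ n * (2 * (n * (2 * (n * (2 * (3 + (B + 1)) + 1) + 1) + 1)) + 1) := by
  have h1 : ∀ r ∈ TL W, sz r ≤ n * (2 * (n * (2 * (3 + (B + 1)) + 1) + 1) + 1) := by
    intro r hr
    unfold TL at hr
    rw [List.mem_ofFn] at hr
    obtain ⟨u, rfl⟩ := hr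
    have h2 : ∀ o ∈ List.ofFn (fun v => (W u v).map List.ofFn),
        sz o ≤ n * (2 * (3 + (B + 1)) + 1) + 1 := by
      intro o ho
      rw [List.mem_ofFn] at ho
      obtain ⟨v, rfl⟩ := ho
      cases hW : W u v with
      | none => simp
      | some z =>
        simp only [Option.map_some, sz_some]
        have h3 : ∀ a ∈ List.ofFn z, sz a ≤ 3 + (B + 1) := by
          intro a ha
          rw [List.mem_ofFn] at ha
          obtain ⟨j, rfl⟩ := ha
          exact Sfm646.sz_int_le _ _ (h u v z hW j)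
        have := sz_list_le h3
        simp only [List.length_ofFn] at this
        omega
    have := sz_list_le h2
    simpa using this
  have := sz_list_le h1
  simpa [TL] using this

theorem sz_wtabL_iter (n k : ℕ) (P1 P2 : List (List Bool)) :
    sz ((wstepL n P1 P2)^[k] (w0L n)) ≤
      n * (2 * (n * (2 * (n * (2 * (3 + (2 * k + 1)) + 1) + 1) + 1)) + 1) := by
  rw [wstepL_iter]
  refine sz_TL_le _ _ fun u v z hz i => ?_
  have h := (wtab_ok _ _ k u v z hz).nb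
  have h1 : |z i| ≤ ∑ i, |z i| :=
    Finset.single_le_sum (f := fun i => |z i|) (fun i _ => abs_nonneg _) (Finset.mem_univ i)
  have h2 : (2 * k : ℕ) < 2 ^ (2 * k) := Nat.lt_two_pow_self
  have h3 : ((2 * k : ℕ) : ℤ) ≤ 2 ^ (2 * k) := by exact_mod_cast h2.le
  push_cast at h3
  linarith

theorem ptf_wtabL {n : γ → ℕ} {P1 P2 : γ → List (List Bool)} (hn : PTU n) (hP1 : PTF P1)
    (hP2 : PTF P2) : PTF (fun c => wtabL (n c) (P1 c) (P2 c)) := by
  unfold wtabL
  refine PTF.iterate' (f := fun c T => wstepL (n c) (P1 c) (P2 c) T) hn ?_ (ptf_w0L hn)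
    (B := fun c => n c * (2 * (n c * (2 * (n c * (2 * (3 + (2 * n c + 1)) + 1) + 1) + 1)) + 1))
    ?_ ?_
  · dsimp only [PTF₂]
    exact ptf_wstepL (γ := γ × List (List (Option (List ℤ)))) (n := fun p => n p.1)
      (P1 := fun p => P1 p.1) (P2 := fun p => P2 p.1) (T := fun p => p.2)
      (PTU.comp hn (by fun_prop))
      (PTF.comp hP1 (by fun_prop)) (PTF.comp hP2 (by fun_prop)) (by fun_prop)
  · have := PTU.pb hn
    fun_prop
  · intro c i hi
    refine (sz_wtabL_iter (n c) i (P1 c) (P2 c)).trans ?_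
    gcongr

theorem ptf_cycL {P1 : γ → List (List Bool)} {T : γ → List (List (Option (List ℤ)))}
    {a b i : γ → ℕ} (hP1 : PTF P1) (hT : PTF T) (ha : PTF a) (hb : PTF b) (hi : PTF i) :
    PTF (fun c => cycL (P1 c) (T c) (a c) (b c) (i c)) := by
  unfold cycL
  refine PTF.ite (PTPred.iff_ptf.2 (ptf_lkB hP1 ha hb)) ?_ (PTF.const 0)
  refine PTF.of_eq (PTF.optionCasesOn (s := fun c => lkT (T c) (b c) (a c))
    (f := fun _ => (0:ℤ))
    (g := fun c z => z.getD (i c) 0 + (ev01 (a c) (i c) - ev01 (b c) (i c)))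
    (ptf_lkT hT hb ha) (PTF.const 0) ?_) (fun c => ?_)
  · have hi1 : PTF (fun p : γ × List ℤ => i p.1) := PTF.comp hi (by fun_prop)
    exact PTF.intAdd (ptf_getD' hi1 (by fun_prop) (PTF.const 0))
        (PTF.intSub (ptf_ev01 (PTF.comp ha (by fun_prop)) hi1)
          (ptf_ev01 (PTF.comp hb (by fun_prop)) hi1))
  · cases lkT (T c) (b c) (a c) <;> rfl

theorem ptf_zvecL {n : γ → ℕ} {P1 P2 : γ → List (List Bool)} (hn : PTU n) (hP1 : PTF P1)
    (hP2 : PTF P2) : PTF (fun c => zvecL (n c) (P1 c) (P2 c)) := by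
  unfold zvecL
  have hT := ptf_wtabL hn hP1 hP2
  generalize hE : (fun c => wtabL (n c) (P1 c) (P2 c)) = T at hT
  have hE' : ∀ c, wtabL (n c) (P1 c) (P2 c) = T c := fun c => congrFun hE c
  simp only [hE']
  unfold zsumL
  refine PTF.tabulate hn ?_
  dsimp only [PTF₂]
  refine PTF.intListSum (PTF.tabulate (n := fun p : γ × ℕ => n p.1)
    (PTU.comp hn (by fun_prop)) ?_)
  dsimp only [PTF₂]
  refine PTF.intListSum (PTF.tabulate (n := fun p : (γ × ℕ) × ℕ => n p.1.1)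
    (PTU.comp hn (by fun_prop)) ?_)
  dsimp only [PTF₂]
  exact ptf_cycL (PTF.comp hP1 (by fun_prop)) (PTF.comp hT (by fun_prop)) (by fun_prop)
    (by fun_prop) (by fun_prop)

theorem ptf_thrL {n : γ → ℕ} {C : γ → List (List ℤ)} {θ : γ → ℤ} (hn : PTU n) (hC : PTF C)
    (hθ : PTF θ) : PTF (fun c => thrL (n c) (C c) (θ c)) := by
  unfold thrL
  refine PTF.tabulate hn ?_
  refine PTF.tabulate (n := fun p : γ × ℕ => n p.1) (PTU.comp hn (by fun_prop)) ?_
  dsimp only [PTF₂]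
  exact PTPred.toPTF (PTPred.and (PTPred.not (PTPred.natEq (by fun_prop) (by fun_prop)))
    (PTPred.intLt (PTF.comp hθ (by fun_prop))
      (ptf_lkZ (PTF.comp hC (by fun_prop)) (by fun_prop) (by fun_prop))))

theorem ptf_zb {n : γ → ℕ} (hn : PTU n) : PTF (fun c => zb (n c)) := by
  unfold zb
  have h1 := Sfm646.ptf_cast hn
  exact PTF.intMul (PTF.intPowConst h1 2) (PTF.intAdd (PTF.intMul (PTF.const 2) h1) (PTF.const 2))

theorem ptf_halfL {n : γ → ℕ} {C1 C2 : γ → List (List ℤ)} {θ : γ → ℤ} {x : γ → List ℤ}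
    (hn : PTU n) (hC1 : PTF C1) (hC2 : PTF C2) (hθ : PTF θ) (hx : PTF x) :
    PTF (fun c => halfL (n c) (C1 c) (C2 c) (θ c) (x c)) := by
  have hz := ptf_zvecL hn (ptf_thrL hn hC1 hθ) (ptf_thrL hn hC2 hθ)
  unfold halfL
  generalize hE : (fun c => zvecL (n c) (thrL (n c) (C1 c) (θ c)) (thrL (n c) (C2 c) (θ c))) = Z
    at hz
  have hE' : ∀ c, zvecL (n c) (thrL (n c) (C1 c) (θ c)) (thrL (n c) (C2 c) (θ c)) = Z c :=
    fun c => congrFun hE c
  simp only [hE']
  refine PTF.tabulate hn ?_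
  dsimp only [PTF₂]
  refine PTF.intAdd (ptf_getD' (by fun_prop) (PTF.comp hx (by fun_prop)) (PTF.const 0))
    (PTF.intMul (PTF.intEdiv (PTF.comp hθ (by fun_prop)) (PTF.intMul (PTF.const 16)
      (ptf_zb (n := fun p : γ × ℕ => n p.1) (PTU.comp hn (by fun_prop)))))
      (ptf_getD' (by fun_prop) (PTF.comp hz (by fun_prop)) (PTF.const 0)))

end ptf

/-! ### size of the orbit -/

section size

variable {n : ℕ}

theorem halfMove_le (c1 c2 : Fin n → Fin n → ℤ) {θ : ℤ} (hθ : 0 ≤ θ) (x : Fin n → ℤ) (i : Fin n) :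
    |halfMove c1 c2 θ x i - x i| ≤ θ := by
  have h := (zvec_spec (thr c1 θ) (thr c2 θ)).2.2.2.1
  rw [← zb_eq] at h
  have h1 : |zvec (thr c1 θ) (thr c2 θ) i| ≤ zb n :=
    (Finset.single_le_sum (f := fun i => |zvec (thr c1 θ) (thr c2 θ) i|)
      (fun i _ => abs_nonneg _) (Finset.mem_univ i)).trans h
  have h2 : halfMove c1 c2 θ x i - x i = jl n θ * zvec (thr c1 θ) (thr c2 θ) i := by
    unfold halfMove jl; ring
  have h3 := jl_nonneg (n := n) hθ
  have h4 := jl_mul (n := n) hθ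
  rw [h2, abs_mul, abs_of_nonneg h3]
  have h5 := mul_le_mul_of_nonneg_left h1 h3
  have h6 : 0 ≤ jl n θ * zb n := mul_nonneg h3 (zb_nonneg n)
  linarith

theorem cstepL_shape (cp1 cp2 : List ℤ → ℕ → ℕ → ℤ) {θ : ℤ} (hθ : 0 ≤ θ) (x : List ℤ) :
    ∃ f : Fin n → ℤ, cstepL n cp1 cp2 θ x = List.ofFn f ∧ ∀ i, |f i - vecL n x i| ≤ 2 * θ := by
  refine ⟨_, halfL_eq _ _ θ _, fun i => ?_⟩
  have h1 := halfMove_le
    (fun a b : Fin n => lkZ (capTabL n cp2 (halfL n (capTabL n cp1 x) (capTabL n cp2 x) θ x)) a b)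
    (fun a b : Fin n => lkZ (capTabL n cp1 (halfL n (capTabL n cp1 x) (capTabL n cp2 x) θ x)) a b)
    hθ (vecL n (halfL n (capTabL n cp1 x) (capTabL n cp2 x) θ x)) i
  have h2 : |vecL n (halfL n (capTabL n cp1 x) (capTabL n cp2 x) θ x) i - vecL n x i| ≤ θ := by
    rw [halfL_eq, vecL_ofFn]
    exact halfMove_le _ _ hθ _ i
  rw [abs_le] at h1 h2 ⊢
  constructor <;> linarith [h1.1, h1.2, h2.1, h2.2]

theorem centerIt_shape (cp1 cp2 : List ℤ → ℕ → ℕ → ℤ) (k : ℕ) (x : List ℤ) (i : ℕ) :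
    (0 ≤ ((centerItL n cp1 cp2)^[i] (x, 2 ^ k)).2 ∧
      ((centerItL n cp1 cp2)^[i] (x, 2 ^ k)).2 ≤ 2 ^ k) ∧
    (((centerItL n cp1 cp2)^[i] (x, 2 ^ k)).1 = x ∨
      ∃ f : Fin n → ℤ, ((centerItL n cp1 cp2)^[i] (x, 2 ^ k)).1 = List.ofFn f) ∧
    ∀ j : Fin n, |vecL n ((centerItL n cp1 cp2)^[i] (x, 2 ^ k)).1 j| ≤
      |vecL n x j| + 2 * i * 2 ^ k := by
  induction i with
  | zero =>
    refine ⟨⟨by simp, by simp⟩, Or.inl rfl, fun j => by simp⟩
  | succ i ih =>
    rw [Function.iterate_succ_apply']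
    obtain ⟨⟨h0, hk⟩, -, hb⟩ := ih
    set σ := (centerItL n cp1 cp2)^[i] (x, 2 ^ k) with hσ
    obtain ⟨f, hf, hf'⟩ := cstepL_shape (n := n) cp1 cp2 h0 σ.1
    refine ⟨⟨?_, ?_⟩, Or.inr ⟨f, hf⟩, fun j => ?_⟩
    · show 0 ≤ σ.2 / 2
      omega
    · show σ.2 / 2 ≤ 2 ^ k
      omega
    · show |vecL n (cstepL n cp1 cp2 σ.2 σ.1) j| ≤ _
      rw [hf, vecL_ofFn]
      have h1 := hf' j
      have h2 := hb j
      have h3 : |f j| ≤ |f j - vecL n σ.1 j| + |vecL n σ.1 j| := by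
        have := abs_add_le (f j - vecL n σ.1 j) (vecL n σ.1 j)
        simpa using this
      push_cast
      linarith

theorem vecL_le (x : List ℤ) (j : Fin n) : |vecL n x j| ≤ 2 ^ sz x := by
  unfold vecL
  have h1 := Sfm646.sz_getD_le x j
  rw [sz_int] at h1
  have h2 : (x.getD j 0).natAbs.size ≤ sz x := by omega
  rw [Nat.size_le] at h2
  have h3 : (((x.getD j 0).natAbs : ℕ) : ℤ) ≤ 2 ^ sz x := by exact_mod_cast h2.le
  rwa [Int.natCast_natAbs] at h3

/-- bound for the sizes of the states -/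
def cenSz (n k s : ℕ) : ℕ :=
  2 * (s + n * (2 * (3 + (s + 2 * k + 2 + 1)) + 1)) + 1 + (3 + (k + 1))

theorem centerIt_sz (cp1 cp2 : List ℤ → ℕ → ℕ → ℤ) (k : ℕ) (x : List ℤ) {i : ℕ}
    (hi : i ≤ k + 1) : sz ((centerItL n cp1 cp2)^[i] (x, 2 ^ k)) ≤ cenSz n k (sz x) := by
  obtain ⟨⟨h0, hk⟩, hs, hb⟩ := centerIt_shape (n := n) cp1 cp2 k x i
  set σ := (centerItL n cp1 cp2)^[i] (x, 2 ^ k) with hσ
  have h2 : sz σ.2 ≤ 3 + (k + 1) := Sfm646.sz_int_le _ _ (by rw [abs_of_nonneg h0]; exact hk)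
  have h1 : sz σ.1 ≤ sz x + n * (2 * (3 + (sz x + 2 * k + 2 + 1)) + 1) := by
    rcases hs with hs | ⟨f, hf⟩
    · rw [hs]; omega
    · have h3 : ∀ a ∈ List.ofFn f, sz a ≤ 3 + (sz x + 2 * k + 2 + 1) := by
        intro a ha
        rw [List.mem_ofFn] at ha
        obtain ⟨j, rfl⟩ := ha
        refine Sfm646.sz_int_le _ _ ?_
        have h4 := hb j
        rw [hf, vecL_ofFn] at h4
        have h5 := vecL_le x j
        have h6 : (i : ℤ) ≤ 2 ^ k := by
          have h7 : k < 2 ^ k := Nat.lt_two_pow_self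
          have h8 : i ≤ 2 ^ k := by omega
          exact_mod_cast h8
        have h9 : 2 * (i : ℤ) * 2 ^ k ≤ 2 * 2 ^ k * 2 ^ k := by gcongr
        have h10 : (2 : ℤ) * 2 ^ k * 2 ^ k = 2 ^ (2 * k + 1) := by
          rw [pow_succ, two_mul k, pow_add]; ring
        have h11 : (2 : ℤ) ^ sz x ≤ 2 ^ (sz x + (2 * k + 1)) :=
          pow_le_pow_right₀ (by norm_num) (by omega)
        have h12 : (2 : ℤ) ^ (2 * k + 1) ≤ 2 ^ (sz x + (2 * k + 1)) :=
          pow_le_pow_right₀ (by norm_num) (by omega)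
        have h13 : (2 : ℤ) ^ (sz x + 2 * k + 2) = 2 * 2 ^ (sz x + (2 * k + 1)) := by
          rw [show sz x + 2 * k + 2 = (sz x + (2 * k + 1)) + 1 by ring, pow_succ]; ring
        rw [h13]
        linarith
      have := sz_list_le h3
      rw [List.length_ofFn] at this
      rw [hf]
      omega
  unfold cenSz
  rw [sz_prod]
  omega

end size

/-! ### the program -/

section optf

variable {γ : Type} [PTCode γ]

theorem capTabL_optf {n : Inst → γ → ℕ} {cp : Inst → γ → List ℤ → ℕ → ℕ → ℤ}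
    {x : Inst → γ → List ℤ} (hn : OPTU n)
    (hcp : OPTF (fun I (p : γ × List ℤ × ℕ × ℕ) => cp I p.1 p.2.1 p.2.2.1 p.2.2.2))
    (hx : OPTF x) : OPTF (fun I c => capTabL (n I c) (cp I c) (x I c)) := by
  unfold capTabL
  refine OPTF.map (f := fun I c a => (List.range (n I c)).map fun b => cp I c (x I c) a b)
    (OPTF.range hn) ?_
  refine OPTF.map (f := fun I (p : γ × ℕ) b => cp I p.1 (x I p.1) p.2 b)
    (OPTF.range (OPTU.comp (n := n) (f := fun _ (p : γ × ℕ) => p.1) hn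
      (OPTF.of_ptf (by fun_prop)))) ?_
  refine OPTF.comp (g := fun I (p : γ × List ℤ × ℕ × ℕ) => cp I p.1 p.2.1 p.2.2.1 p.2.2.2)
    (f := fun I (p : (γ × ℕ) × ℕ) => (p.1.1, x I p.1.1, p.1.2, p.2)) hcp ?_
  refine OPTF.prodMk (OPTF.of_ptf (by fun_prop)) (OPTF.prodMk ?_ (OPTF.of_ptf (by fun_prop)))
  exact OPTF.comp (g := x) (f := fun _ (p : (γ × ℕ) × ℕ) => p.1.1) hx (OPTF.of_ptf (by fun_prop))

theorem halfL_optf {n : Inst → γ → ℕ} {C1 C2 : Inst → γ → List (List ℤ)} {θ : Inst → γ → ℤ}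
    {x : Inst → γ → List ℤ} (hn : OPTU n) (h1 : OPTF C1) (h2 : OPTF C2) (hθ : OPTF θ)
    (hx : OPTF x) : OPTF (fun I c => halfL (n I c) (C1 I c) (C2 I c) (θ I c) (x I c)) := by
  have hg : PTF (fun p : Un × List (List ℤ) × List (List ℤ) × ℤ × List ℤ =>
      halfL p.1.val p.2.1 p.2.2.1 p.2.2.2.1 p.2.2.2.2) :=
    ptf_halfL (n := fun p : Un × List (List ℤ) × List (List ℤ) × ℤ × List ℤ => p.1.val)
      (PTU.val (by fun_prop)) (by fun_prop) (by fun_prop) (by fun_prop) (by fun_prop)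
  exact OPTF.post (g := fun p : Un × List (List ℤ) × List (List ℤ) × ℤ × List ℤ =>
      halfL p.1.val p.2.1 p.2.2.1 p.2.2.2.1 p.2.2.2.2)
    (f := fun I c => (Un.mk (n I c), C1 I c, C2 I c, θ I c, x I c)) hg
    (OPTF.prodMk hn (h1.prodMk (h2.prodMk (hθ.prodMk hx))))

theorem cstepL_optf {n : Inst → γ → ℕ} {cp1 cp2 : Inst → γ → List ℤ → ℕ → ℕ → ℤ}
    {θ : Inst → γ → ℤ} {x : Inst → γ → List ℤ} (hn : OPTU n)
    (h1 : OPTF (fun I (p : γ × List ℤ × ℕ × ℕ) => cp1 I p.1 p.2.1 p.2.2.1 p.2.2.2))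
    (h2 : OPTF (fun I (p : γ × List ℤ × ℕ × ℕ) => cp2 I p.1 p.2.1 p.2.2.1 p.2.2.2))
    (hθ : OPTF θ) (hx : OPTF x) :
    OPTF (fun I c => cstepL (n I c) (cp1 I c) (cp2 I c) (θ I c) (x I c)) := by
  unfold cstepL
  have hy := halfL_optf hn (capTabL_optf hn h1 hx) (capTabL_optf hn h2 hx) hθ hx
  exact halfL_optf hn (capTabL_optf hn h2 hy) (capTabL_optf hn h1 hy) hθ hy

/-- **the deterministic integral centre is computable relative to the oracle** -/
theorem centerL_optf {n k : Inst → γ → ℕ} {cp1 cp2 : Inst → γ → List ℤ → ℕ → ℕ → ℤ}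
    {x : Inst → γ → List ℤ} (hn : OPTU n)
    (h1 : OPTF (fun I (p : γ × List ℤ × ℕ × ℕ) => cp1 I p.1 p.2.1 p.2.2.1 p.2.2.2))
    (h2 : OPTF (fun I (p : γ × List ℤ × ℕ × ℕ) => cp2 I p.1 p.2.1 p.2.2.1 p.2.2.2))
    (hk : OPTU k) (hx : OPTF x) :
    OPTF (fun I c => centerL (n I c) (cp1 I c) (cp2 I c) (k I c) (x I c)) := by
  unfold centerL
  refine OPTF.fst ?_
  refine OPTF.iterate (n := fun I c => k I c + 1)
    (f := fun I c σ => centerItL (n I c) (cp1 I c) (cp2 I c) σ)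
    (a := fun I c => (x I c, 2 ^ k I c))
    (hk.add (OPTU.const 1)) ?_ ?_
    (B := fun I c => cenSz (n I c) (k I c) (sz (x I c))) ?_ ?_
  · unfold centerItL
    refine OPTF.prodMk ?_ (OPTF.intEdiv (OPTF.of_ptf (by fun_prop)) (OPTF.const 2))
    refine cstepL_optf (γ := γ × (List ℤ × ℤ)) (n := fun I q => n I q.1)
      (cp1 := fun I q => cp1 I q.1) (cp2 := fun I q => cp2 I q.1) (θ := fun _ q => q.2.2)
      (x := fun _ q => q.2.1) ?_ ?_ ?_ (OPTF.of_ptf (by fun_prop)) (OPTF.of_ptf (by fun_prop))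
    · exact OPTU.comp (n := n) (f := fun _ (p : γ × (List ℤ × ℤ)) => p.1) hn
        (OPTF.of_ptf (by fun_prop))
    · exact OPTF.pre (g := fun I (p : γ × List ℤ × ℕ × ℕ) => cp1 I p.1 p.2.1 p.2.2.1 p.2.2.2)
        (f := fun p : (γ × (List ℤ × ℤ)) × List ℤ × ℕ × ℕ => (p.1.1, p.2)) h1 (by fun_prop)
    · exact OPTF.pre (g := fun I (p : γ × List ℤ × ℕ × ℕ) => cp2 I p.1 p.2.1 p.2.2.1 p.2.2.2)
        (f := fun p : (γ × (List ℤ × ℤ)) × List ℤ × ℕ × ℕ => (p.1.1, p.2)) h2 (by fun_prop)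
  · refine OPTF.prodMk hx ?_
    exact (OPTF.intNatCast (OPTF.natTwoPow hk)).of_eq (fun I c => by push_cast; rfl)
  · have hnB := hn.opb
    have hkB := hk.opb
    have hsB : OPB (fun I c => sz (x I c)) := hx.bound
    unfold cenSz
    exact (((OPB.const 2).mul (hsB.add (hnB.mul (((OPB.const 2).mul ((OPB.const 3).add
      (((hsB.add ((OPB.const 2).mul hkB)).add (OPB.const 2)).add (OPB.const 1)))).add
      (OPB.const 1))))).add (OPB.const 1)).add ((OPB.const 3).add (hkB.add (OPB.const 1)))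
  · intro I c i hi
    exact centerIt_sz _ _ _ _ hi

end optf

end Crest.Agent.R302.CenL
end

-- ▼ part R302/Center970C
section

/-!
R302 (helper970), block CENTER, part C: the center with the computable capacities `capQ` of
helper838.

`centerQ n K r₁ r₂ x` : start at `x ∈ J₁ ∩ J₂`, `K` bounds `|r₁|, |r₂|`.
-/

set_option autoImplicit false

namespace Crest.Agent.R302.Center

open Finset Crest.Agent.R302.Facet Crest.Agent.R302.EDM

variable {n : ℕ}






theorem cap_le_three {r : Finset (Fin n) → ℤ} {R : ℤ} {K : ℕ} (hr : SubM r R)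
    (hK : ∀ A, |r A| ≤ K) {x : Fin n → ℤ} (hx : MemJ r R x) {g h : Fin n} (hgh : g ≠ h) :
    cap r x g h ≤ 3 * K := by
  obtain ⟨B, hg, hh, hB⟩ := exists_cap (r := r) (x := x) hgh
  rw [← hB]
  unfold slk
  have c1 := hx.1 Bᶜ
  have c3 := Finset.sum_add_sum_compl B x
  rw [hx.2] at c3
  have c4 := hr.univ
  have k1 := abs_le.1 (hK B)
  have k2 := abs_le.1 (hK Bᶜ)
  have k3 := abs_le.1 (hK univ)
  rw [c4] at k3
  omega


end Crest.Agent.R302.Center
end

-- ▼ part R302/CenBox646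
section

/-!
# R302: the deterministic integral centre of `J₁ ∩ J₂ ∩ [lo, hi]`, list version and program
-/

set_option autoImplicit false
set_option linter.dupNamespace false

namespace Crest.Agent.R302.CenL

open Finset Crest.Agent.R302.Facet Crest.Agent.R302.Center Crest.Agent.R302.EDM
open Crest.Agent.Lib.PT Crest.Agent.R309.PTX Crest.Agent.R302.ORAM Function

section corr

variable {n : ℕ}

theorem cstepL_eq_inv {cp1 cp2 : List ℤ → ℕ → ℕ → ℤ} {c1 c2 : (Fin n → ℤ) → Fin n → Fin n → ℤ}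
    {Inv : (Fin n → ℤ) → Prop}
    (h1 : ∀ x, Inv (vecL n x) → ∀ a b : Fin n, a ≠ b → cp1 x a b = c1 (vecL n x) a b)
    (h2 : ∀ x, Inv (vecL n x) → ∀ a b : Fin n, a ≠ b → cp2 x a b = c2 (vecL n x) a b) {θ : ℤ}
    (i1 : ∀ x, Inv x → Inv (halfMove (c1 x) (c2 x) θ x)) {x : List ℤ} (hx : Inv (vecL n x)) :
    cstepL n cp1 cp2 θ x = List.ofFn (cstep c1 c2 θ (vecL n x)) := by
  unfold cstepL cstep
  rw [halfL_cap (h1 x hx) (h2 x hx)]
  have hy : Inv (vecL n (List.ofFn (halfMove (c1 (vecL n x)) (c2 (vecL n x)) θ (vecL n x)))) := by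
    rw [vecL_ofFn]; exact i1 _ hx
  rw [halfL_cap (h2 _ hy) (h1 _ hy), vecL_ofFn]

/-- equality along an invariant set -/
theorem centerL_eq_inv {cp1 cp2 : List ℤ → ℕ → ℕ → ℤ} {c1 c2 : (Fin n → ℤ) → Fin n → Fin n → ℤ}
    {Inv : (Fin n → ℤ) → Prop}
    (h1 : ∀ x, Inv (vecL n x) → ∀ a b : Fin n, a ≠ b → cp1 x a b = c1 (vecL n x) a b)
    (h2 : ∀ x, Inv (vecL n x) → ∀ a b : Fin n, a ≠ b → cp2 x a b = c2 (vecL n x) a b)
    (i1 : ∀ θ : ℤ, 0 ≤ θ → ∀ x, Inv x → Inv (halfMove (c1 x) (c2 x) θ x))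
    (i2 : ∀ θ : ℤ, 0 ≤ θ → ∀ x, Inv x → Inv (halfMove (c2 x) (c1 x) θ x)) (k : ℕ) :
    ∀ x : List ℤ, Inv (vecL n x) →
      centerL n cp1 cp2 k x = List.ofFn (center c1 c2 k (vecL n x)) := by
  unfold centerL
  induction k with
  | zero =>
    intro x hx
    simp only [zero_add, Function.iterate_one, centerItL, pow_zero]
    rw [cstepL_eq_inv h1 h2 (i1 1 (by norm_num)) hx]
    rfl
  | succ k ih =>
    intro x hx
    rw [Function.iterate_succ_apply]
    have h : centerItL n cp1 cp2 (x, 2 ^ (k + 1)) = (cstepL n cp1 cp2 (2 ^ (k + 1)) x, 2 ^ k) := by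
      unfold centerItL
      have : (2 : ℤ) ^ (k + 1) / 2 = 2 ^ k := by
        rw [pow_succ]
        exact Int.mul_ediv_cancel _ (by norm_num)
      simp only [this]
    have hc := cstepL_eq_inv h1 h2 (i1 (2 ^ (k + 1)) (by positivity)) hx
    have hi : Inv (cstep c1 c2 (2 ^ (k + 1)) (vecL n x)) := by
      unfold cstep
      exact i2 _ (by positivity) _ (i1 _ (by positivity) _ hx)
    rw [h, ih _ (by rw [hc, vecL_ofFn]; exact hi), hc, vecL_ofFn]
    rfl

/-- **the centre of the box instance** -/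
def cenBL (n K : ℕ) (r₁ r₂ : List Bool → ℤ) (R : ℕ) (lo hi : List ℤ) : List ℤ :=
  centerL n (fun x a b => capBL n K r₁ lo hi x a b) (fun x a b => capBL n K r₂ lo hi x a b)
    (3 * K).size (baseBL n K r₁ r₂ R lo hi)

theorem length_cstepL (cp1 cp2 : List ℤ → ℕ → ℕ → ℤ) (θ : ℤ) (x : List ℤ) :
    (cstepL n cp1 cp2 θ x).length = n := by
  unfold cstepL halfL
  simp

theorem length_centerL (cp1 cp2 : List ℤ → ℕ → ℕ → ℤ) (k : ℕ) (x : List ℤ) :
    (centerL n cp1 cp2 k x).length = n := by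
  unfold centerL
  rw [Function.iterate_succ_apply']
  exact length_cstepL _ _ _ _

theorem length_cenBL (K : ℕ) (r₁ r₂ : List Bool → ℤ) (R : ℕ) (lo hi : List ℤ) :
    (cenBL n K r₁ r₂ R lo hi).length = n := length_centerL _ _ _ _

theorem ofFn_vecL {x : List ℤ} (hx : x.length = n) : List.ofFn (vecL n x) = x := by
  apply List.ext_getElem
  · simp [hx]
  · intro i h1 h2
    rw [List.getElem_ofFn]
    show x.getD i 0 = _
    rw [List.getD_eq_getElem?_getD, List.getElem?_eq_getElem h2]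
    rfl

theorem ofFn_cenBL (K : ℕ) (r₁ r₂ : List Bool → ℤ) (R : ℕ) (lo hi : List ℤ) :
    List.ofFn (vecL n (cenBL n K r₁ r₂ R lo hi)) = cenBL n K r₁ r₂ R lo hi :=
  ofFn_vecL (length_cenBL K r₁ r₂ R lo hi)

theorem cenBL_eq {r₁ r₂ : List Bool → ℤ} {ρ₁ ρ₂ : Finset (Fin n) → ℤ}
    (e₁ : RepL n r₁ ρ₁) (e₂ : RepL n r₂ ρ₂) {K R : ℕ} (s₁ : SubM ρ₁ R) (s₂ : SubM ρ₂ R)
    (b₁ : ∀ A, |ρ₁ A| ≤ K) (b₂ : ∀ A, |ρ₂ A| ≤ K) {lo hi : List ℤ}
    (hR : ∀ i, vecL n hi i - vecL n lo i ≤ R)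
    (hne : ∃ x : Fin n → ℤ, (∀ i, vecL n lo i ≤ x i ∧ x i ≤ vecL n hi i) ∧ MemJ ρ₁ R x ∧
      MemJ ρ₂ R x) :
    vecL n (cenBL n K r₁ r₂ R lo hi) =
      center (cap (boxR (vecL n lo) (vecL n hi) ρ₁)) (cap (boxR (vecL n lo) (vecL n hi) ρ₂))
        (3 * K).size (vecL n (baseBL n K r₁ r₂ R lo hi)) := by
  obtain ⟨hb, m1, m2⟩ := baseBL_spec e₁ e₂ s₁ s₂ b₁ b₂ hR hne
  unfold cenBL
  rw [centerL_eq_inv (c1 := cap (boxR (vecL n lo) (vecL n hi) ρ₁))
    (c2 := cap (boxR (vecL n lo) (vecL n hi) ρ₂))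
    (Inv := fun x => MemJ (boxR (vecL n lo) (vecL n hi) ρ₁) R x ∧
      MemJ (boxR (vecL n lo) (vecL n hi) ρ₂) R x) ?_ ?_ ?_ ?_ (3 * K).size _ ?_, vecL_ofFn]
  · rintro x ⟨hx, -⟩ a b hab
    obtain ⟨hx, hbox⟩ := (AnnBox.memJ_boxR s₁ _ _ _).1 hx
    exact capBL_eq e₁ s₁ b₁ hx hbox hab
  · rintro x ⟨-, hx⟩ a b hab
    obtain ⟨hx, hbox⟩ := (AnnBox.memJ_boxR s₂ _ _ _).1 hx
    exact capBL_eq e₂ s₂ b₂ hx hbox hab
  · rintro θ hθ x ⟨h1, h2⟩
    have h := half_ok h1 h2 hθ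
    exact ⟨h.m1, h.m2⟩
  · rintro θ hθ x ⟨h1, h2⟩
    have h := half_ok h2 h1 hθ
    exact ⟨h.m2, h.m1⟩
  · exact ⟨(AnnBox.memJ_boxR s₁ _ _ _).2 ⟨m1, hb⟩, (AnnBox.memJ_boxR s₂ _ _ _).2 ⟨m2, hb⟩⟩

/-- **specification**: an integral centre of the box instance -/
theorem cenBL_spec {r₁ r₂ : List Bool → ℤ} {ρ₁ ρ₂ : Finset (Fin n) → ℤ}
    (e₁ : RepL n r₁ ρ₁) (e₂ : RepL n r₂ ρ₂) {K R : ℕ} (s₁ : SubM ρ₁ R) (s₂ : SubM ρ₂ R)
    (b₁ : ∀ A, |ρ₁ A| ≤ K) (b₂ : ∀ A, |ρ₂ A| ≤ K) {lo hi : List ℤ}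
    (hR : ∀ i, vecL n hi i - vecL n lo i ≤ R)
    (hne : ∃ x : Fin n → ℤ, (∀ i, vecL n lo i ≤ x i ∧ x i ≤ vecL n hi i) ∧ MemJ ρ₁ R x ∧
      MemJ ρ₂ R x) (P : Finset (Fin n → ℤ))
    (hP : ∀ x, x ∈ P → (∀ i, vecL n lo i ≤ x i ∧ x i ≤ vecL n hi i) ∧ MemJ ρ₁ R x ∧
      MemJ ρ₂ R x) :
    (∀ i, vecL n lo i ≤ vecL n (cenBL n K r₁ r₂ R lo hi) i ∧
      vecL n (cenBL n K r₁ r₂ R lo hi) i ≤ vecL n hi i) ∧
      MemJ ρ₁ R (vecL n (cenBL n K r₁ r₂ R lo hi)) ∧
      MemJ ρ₂ R (vecL n (cenBL n K r₁ r₂ R lo hi)) ∧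
      IsCenter (boxR (vecL n lo) (vecL n hi) ρ₁) (boxR (vecL n lo) (vecL n hi) ρ₂) P (cC n)
        (vecL n (cenBL n K r₁ r₂ R lo hi)) := by
  obtain ⟨hb, m1, m2⟩ := baseBL_spec e₁ e₂ s₁ s₂ b₁ b₂ hR hne
  rw [cenBL_eq e₁ e₂ s₁ s₂ b₁ b₂ hR hne]
  have t₁ : SubM (boxR (vecL n lo) (vecL n hi) ρ₁) R := AnnBox.subM_boxR s₁ m1 hb
  have t₂ : SubM (boxR (vecL n lo) (vecL n hi) ρ₂) R := AnnBox.subM_boxR s₂ m2 hb
  have hlt : ((3 * K : ℕ) : ℤ) < 2 ^ (3 * K).size := by
    exact_mod_cast Nat.lt_size_self (3 * K)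
  push_cast at hlt
  have main := center_isCenter t₁ t₂ ((AnnBox.memJ_boxR s₁ _ _ _).2 ⟨m1, hb⟩)
    ((AnnBox.memJ_boxR s₂ _ _ _).2 ⟨m2, hb⟩) (K := (3 * K).size)
    (fun y hy₁ _ g h hgh => by
      obtain ⟨hy, hbox⟩ := (AnnBox.memJ_boxR s₁ _ _ _).1 hy₁
      rw [AnnBox.cap_boxR s₁ hy hbox hgh]
      exact (min_le_left _ _).trans ((cap_le_three s₁ b₁ hy hgh).trans hlt.le))
    (fun y _ hy₂ g h hgh => by
      obtain ⟨hy, hbox⟩ := (AnnBox.memJ_boxR s₂ _ _ _).1 hy₂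
      rw [AnnBox.cap_boxR s₂ hy hbox hgh]
      exact (min_le_left _ _).trans ((cap_le_three s₂ b₂ hy hgh).trans hlt.le)) P
    (fun x hx => by
      obtain ⟨h1, h2, h3⟩ := hP x hx
      exact ⟨(AnnBox.memJ_boxR s₁ _ _ _).2 ⟨h2, h1⟩, (AnnBox.memJ_boxR s₂ _ _ _).2 ⟨h3, h1⟩⟩)
  obtain ⟨c1, c2, c3⟩ := main
  obtain ⟨d1, d2⟩ := (AnnBox.memJ_boxR s₁ _ _ _).1 c1
  obtain ⟨d3, -⟩ := (AnnBox.memJ_boxR s₂ _ _ _).1 c2
  exact ⟨d2, d1, d3, c3⟩

end corr

section optf

variable {γ : Type} [PTCode γ]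

/-- **the centre of the box instance is computable relative to the oracle** -/
theorem cenBL_optf {N K R : Inst → γ → ℕ} {r₁ r₂ : Inst → γ → List Bool → ℤ}
    {lo hi : Inst → γ → List ℤ} (hn : OPTU N) (hK : OPTF K)
    (h₁ : OPTF (fun I (p : γ × List Bool) => r₁ I p.1 p.2))
    (h₂ : OPTF (fun I (p : γ × List Bool) => r₂ I p.1 p.2)) (hR : OPTF R) (hlo : OPTF lo)
    (hhi : OPTF hi) :
    OPTF (fun I c => cenBL (N I c) (K I c) (r₁ I c) (r₂ I c) (R I c) (lo I c) (hi I c)) := by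
  unfold cenBL
  have key : ∀ {r : Inst → γ → List Bool → ℤ},
      OPTF (fun I (p : γ × List Bool) => r I p.1 p.2) →
      OPTF (fun I (p : γ × List ℤ × ℕ × ℕ) =>
        capBL (N I p.1) (K I p.1) (r I p.1) (lo I p.1) (hi I p.1) p.2.1 p.2.2.1 p.2.2.2) := by
    intro r hr
    exact capBL_optf (ouf hn) (off hK) (ofr hr) (off hlo) (off hhi)
      (OPTF.of_ptf (f := fun p : γ × List ℤ × ℕ × ℕ => p.2.1) (by fun_prop))
      (OPTF.of_ptf (f := fun p : γ × List ℤ × ℕ × ℕ => p.2.2.1) (by fun_prop))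
      (OPTF.of_ptf (f := fun p : γ × List ℤ × ℕ × ℕ => p.2.2.2) (by fun_prop))
  exact centerL_optf (n := N) (k := fun I c => (3 * K I c).size)
    (cp1 := fun I c x a b => capBL (N I c) (K I c) (r₁ I c) (lo I c) (hi I c) x a b)
    (cp2 := fun I c x a b => capBL (N I c) (K I c) (r₂ I c) (lo I c) (hi I c) x a b)
    hn (key h₁) (key h₂) (OPTF.natSize (OPTF.natMul (OPTF.const 3) hK))
    (baseBL_optf hn hK h₁ h₂ hR hlo hhi)

end optf

end Crest.Agent.R302.CenL
end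

-- ▼ part R302/Smp272

/-!
# R302, assembly (helper272): the sampler `smp` and `SmpSpec` from one `ChainOK` per stage

* `Prg Ω` : the data of the program (all parameters are functions of the input of the sampler, the runs may depend
  on the query function); `Prg.ch` : the chain of `Loop272C`; `smp`, `slen` : the sampler.
* `IsInst` : an instance together with its annealing data (`425`), centre (`646`, `970`).
* `smpSpec` : if all the stages satisfy `ChainOK` and the errors sum up to at most `1/m`, then `SmpSpec`.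
-/

set_option autoImplicit false
set_option linter.dupNamespace false

namespace Crest.Agent.R302.Smp

open Finset Crest.Polymatroid Crest.Agent.R302.Facet Crest.Agent.R302.EDM Crest.Agent.R302.ORAM
open Crest.Agent.R302.AnnBox Crest.Agent.R302.Loop Crest.Agent.R302.CenL Crest.Agent.R302.Center
open Crest.Agent.R302.Top Crest.Agent.R309.Tape Crest.Agent.Lib.PT

variable {Ω : Type*}

/-! ### decoding the input -/

def sn (s : SIn) : ℕ := s.1.val
def sR (s : SIn) : ℕ := s.2.1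
def sm (s : SIn) : ℕ := s.2.2.1.val
def slo (s : SIn) : List ℤ := s.2.2.2.1
def shi (s : SIn) : List ℤ := s.2.2.2.2

/-- the input of the sampler -/
def inp (n R m : ℕ) (lo hi : Fin n → ℤ) : SIn := (⟨n⟩, R, ⟨m⟩, List.ofFn lo, List.ofFn hi)

/-- query functions -/
abbrev Qf : Type := Bool → List Bool → ℕ

/-- the program data -/
structure Prg (Ω : Type*) where
  /-- precision exponent of the start -/
  pL : SIn → ℕ
  /-- link exponent of a pair of links (estimators) -/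
  pm : SIn → ℕ
  /-- accuracy of the gauge estimates -/
  pD : SIn → ℕ
  /-- bits of an estimator run -/
  pE : SIn → ℕ
  /-- bits of a mover run -/
  pM : SIn → ℕ
  runE : Qf → SIn → ℕ → List ℤ → List ℤ → List Bool → Ω
  runM : Qf → SIn → ℕ → List ℤ → List ℤ → List Bool → Ω
  out : Qf → SIn → ℕ → Ω → Option (List ℤ)
  ev : Qf → SIn → ℕ → ℕ → ℕ → Ω → Bool
  rep : Qf → SIn → ℕ → ℕ → ℕ

namespace Prg

variable (P : Prg Ω)

/-- the chain of `Loop272C` -/
def ch (Q : Qf) (s : SIn) : Chain (List ℤ) Ω where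
  runE := P.runE Q s
  runM := P.runM Q s
  out := P.out Q s
  ev := P.ev Q s
  rep := P.rep Q s
  ρE := P.pE s
  ρM := P.pM s
  m := P.pm s
  D := P.pD s

/-- number of stages -/
def T (s : SIn) : ℕ := nStages (sn s) (P.pL s) (sR s)

/-- number of estimator particles -/
def K (s : SIn) : ℕ := P.pD s * 2 ^ P.pm s

/-- size of the population at the start -/
def pop (s : SIn) : ℕ := 1 + P.T s * (1 + P.K s)

/-- bits per stage -/
def rb (s : SIn) : ℕ := P.K s * P.pE s + P.pop s * P.pM s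

end Prg

/-- the centre of the box instance -/
def cen (Q : Qf) (s : SIn) : List ℤ :=
  cenBL (sn s) (sR s) (fun l => (Q false l : ℤ)) (fun l => (Q true l : ℤ)) (sR s) (slo s) (shi s)

/-- **the sampler** -/
def smp (P : Prg Ω) : Smp := fun Q s l =>
  if sn s = 0 then [] else
    (runSteps (stage ((P.ch Q s).sys (sn s))) (P.rb s) (P.T s)
      (0, List.replicate (sn s) 0,
        List.replicate (popSize ((P.ch Q s).sys (sn s)) 1 (P.T s)) (cen Q s)) l).2.2.headD (cen Q s)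

/-- the number of bits -/
def slen (P : Prg Ω) (s : SIn) : ℕ := P.T s * P.rb s

theorem popSize_ch (P : Prg Ω) (Q : Qf) (s : SIn) :
    popSize ((P.ch Q s).sys (sn s)) 1 (P.T s) = P.pop s := by
  rw [popSize_sys]; rfl

/-! ### instances -/

/-- one-link counts, indexed by natural numbers; `NN u v` = mass of the pairs `z₂ = z₁ + e_v - e_u` -/
noncomputable def NN {n : ℕ} (𝒜 : AnnData n) (t : ℕ) (u v : ℕ) : ℝ :=
  if h : u < n ∧ v < n then 𝒜.Nst t ⟨v, h.2⟩ ⟨u, h.1⟩ else 0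

theorem NN_eq {n : ℕ} (𝒜 : AnnData n) (t : ℕ) (u v : Fin n) : NN 𝒜 t u v = 𝒜.Nst t v u := by
  unfold NN; rw [dif_pos ⟨u.2, v.2⟩]

/-- an instance of the sampler with its annealing data -/
structure IsInst (P : Prg Ω) (n R m : ℕ) (r₁ r₂ : Finset (Fin n) → ℕ) (lo hi : Fin n → ℤ)
    (𝒜 : AnnData n) : Prop where
  n0 : 0 < n
  m1 : 1 ≤ m
  pr₁ : IsPolymatroidRank r₁
  pr₂ : IsPolymatroidRank r₂
  e₁ : r₁ Finset.univ = R
  e₂ : r₂ Finset.univ = R
  box : ∀ i, 0 ≤ lo i ∧ lo i ≤ hi i ∧ hi i ≤ R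
  A₁ : 𝒜.r₁ = boxR lo hi (zr r₁)
  A₂ : 𝒜.r₂ = boxR lo hi (zr r₂)
  AR : 𝒜.R = R
  Ax : 𝒜.x₀ = vecL n (cen (rq r₁ r₂) (inp n R m lo hi))
  AL : 𝒜.L = P.pL (inp n R m lo hi)
  ctr : IsCenter 𝒜.r₁ 𝒜.r₂ (𝒜.PH 0) (cC n) 𝒜.x₀

theorem vecL_ofFn' {n : ℕ} (x : Fin n → ℤ) : vecL n (List.ofFn x) = x := CenL.vecL_ofFn x

/-- the common bases of the instance -/
theorem IsInst.mem_PH {P : Prg Ω} {n R m : ℕ} {r₁ r₂ : Finset (Fin n) → ℕ} {lo hi : Fin n → ℤ}
    {𝒜 : AnnData n} (h : IsInst P n R m r₁ r₂ lo hi 𝒜) (x : Fin n → ℤ) :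
    x ∈ 𝒜.PH 0 ↔ x ∈ PB r₁ r₂ R lo hi := by
  rw [𝒜.mem_P, h.A₁, h.A₂, h.AR, memJ_boxR (zr_subM h.pr₁ h.e₁), memJ_boxR (zr_subM h.pr₂ h.e₂),
    mem_PB]
  tauto

theorem IsInst.PH_eq {P : Prg Ω} {n R m : ℕ} {r₁ r₂ : Finset (Fin n) → ℕ} {lo hi : Fin n → ℤ}
    {𝒜 : AnnData n} (h : IsInst P n R m r₁ r₂ lo hi 𝒜) : 𝒜.PH 0 = PB r₁ r₂ R lo hi :=
  Finset.ext h.mem_PH

/-- every instance has annealing data -/
theorem exists_inst (P : Prg Ω) {n R m : ℕ} {r₁ r₂ : Finset (Fin n) → ℕ} {lo hi : Fin n → ℤ}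
    (n0 : 0 < n) (m1 : 1 ≤ m) (pr₁ : IsPolymatroidRank r₁) (pr₂ : IsPolymatroidRank r₂)
    (e₁ : r₁ Finset.univ = R) (e₂ : r₂ Finset.univ = R)
    (box : ∀ i, 0 ≤ lo i ∧ lo i ≤ hi i ∧ hi i ≤ R) (hne : (PB r₁ r₂ R lo hi).Nonempty)
    (hL : 1 ≤ P.pL (inp n R m lo hi))
    (hL2 : 8 * (n : ℝ) * (1 / 2) ^ P.pL (inp n R m lo hi) ≤ 1) :
    ∃ 𝒜 : AnnData n, IsInst P n R m r₁ r₂ lo hi 𝒜 := by
  have hr1 := repL r₁ r₂ false
  have hr2 := repL r₁ r₂ true
  simp only [Bool.false_eq_true, if_false, if_true] at hr1 hr2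
  have s1 := zr_subM pr₁ e₁
  have s2 := zr_subM pr₂ e₂
  have hR : ∀ i, vecL n (List.ofFn hi) i - vecL n (List.ofFn lo) i ≤ R := by
    intro i
    rw [vecL_ofFn', vecL_ofFn']
    have := box i
    omega
  have hne' : ∃ x : Fin n → ℤ, (∀ i, vecL n (List.ofFn lo) i ≤ x i ∧ x i ≤ vecL n (List.ofFn hi) i) ∧
      MemJ (zr r₁) R x ∧ MemJ (zr r₂) R x := by
    obtain ⟨x, hx⟩ := hne
    rw [mem_PB] at hx
    exact ⟨x, by rw [vecL_ofFn', vecL_ofFn']; exact hx⟩
  obtain ⟨c1, c2, c3, c4⟩ := cenBL_spec hr1 hr2 (K := R) (R := R) s1 s2 (zr_abs pr₁ e₁) (zr_abs pr₂ e₂)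
    hR hne' (PB r₁ r₂ R lo hi) (by
      intro x hx
      rw [mem_PB] at hx
      rw [vecL_ofFn', vecL_ofFn']; exact hx)
  set c := vecL n (cenBL n R (fun l => (rq r₁ r₂ false l : ℤ)) (fun l => (rq r₁ r₂ true l : ℤ)) R
    (List.ofFn lo) (List.ofFn hi)) with hc
  rw [vecL_ofFn', vecL_ofFn'] at c1 c4
  let 𝒜 : AnnData n :=
    { r₁ := boxR lo hi (zr r₁)
      r₂ := boxR lo hi (zr r₂)
      R := R
      sub₁ := subM_boxR s1 c2 c1
      sub₂ := subM_boxR s2 c3 c1
      x₀ := c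
      mem₁ := (memJ_boxR s1 _ _ _).2 ⟨c2, c1⟩
      mem₂ := (memJ_boxR s2 _ _ _).2 ⟨c3, c1⟩
      L := P.pL (inp n R m lo hi)
      hL := hL
      hL2 := hL2 }
  have hPH : 𝒜.PH 0 = PB r₁ r₂ R lo hi := by
    ext x
    rw [𝒜.mem_P]
    show MemJ (boxR lo hi (zr r₁)) R x ∧ MemJ (boxR lo hi (zr r₂)) R x ↔ _
    rw [memJ_boxR s1, memJ_boxR s2, mem_PB]
    tauto
  exact ⟨𝒜, n0, m1, pr₁, pr₂, e₁, e₂, box, rfl, rfl, rfl, rfl, rfl, by rw [hPH]; exact c4⟩

theorem NN_nonneg {n : ℕ} (𝒜 : AnnData n) (t u v : ℕ) : 0 ≤ NN 𝒜 t u v := by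
  unfold NN; split_ifs
  · exact 𝒜.Nst_nonneg _ _ _
  · exact le_rfl

/-- `ChainOK` of a stage from the six fields which are not automatic for annealing data -/
theorem chainOK_ann {n : ℕ} {𝒜 : AnnData n} {C : Chain (List ℤ) Ω} {t : ℕ} {π : List ℤ → Law Ω}
    {eE eM : ℝ} (rep_lt : ∀ u < n, C.rep t u < n)
    (conv : ∀ g : List ℤ, GoodR n (C.rep t) (NN 𝒜 (t + 1)) (𝒜.Z (t + 1)) 64 g →
      ∀ φ : Ω → ℝ, (∀ y, 0 ≤ φ y ∧ φ y ≤ 1) →
        |(𝒜.stLaw t).E (fun x => avg C.ρE (fun l => φ (C.runE t g x l))) - (π g).E φ| ≤ eE)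
    (rat : ∀ g : List ℤ, GoodR n (C.rep t) (NN 𝒜 (t + 1)) (𝒜.Z (t + 1)) 64 g →
      ∀ u < n, ∀ v < n,
        |2 ^ C.m * (π g).E (fun y => Crest.Agent.R309.Tape.ind (C.ev t (C.rep t u) (C.rep t v) y = true)) -
          NN 𝒜 (t + 1) (C.rep t u) (C.rep t v) * (2 : ℝ) ^ (g.getD (C.rep t u) 0) /
            (𝒜.Z (t + 1) * (2 : ℝ) ^ (g.getD (C.rep t v) 0))| ≤
          (1 / 4) * (NN 𝒜 (t + 1) (C.rep t u) (C.rep t v) * (2 : ℝ) ^ (g.getD (C.rep t u) 0) /
            (𝒜.Z (t + 1) * (2 : ℝ) ^ (g.getD (C.rep t v) 0))))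
    (move : ∀ g : List ℤ, GoodR n (C.rep t) (NN 𝒜 (t + 1)) (𝒜.Z (t + 1)) 64 g →
      ∀ φ : List ℤ → ℝ, (∀ y, 0 ≤ φ y ∧ φ y ≤ 1) → ∀ d : List ℤ, d ∈ (𝒜.stLaw t).supp →
        |(𝒜.stLaw t).E (fun x => avg C.ρM (fun l => φ ((C.out t (C.runM t g x l)).getD d))) -
          (𝒜.stLaw (t + 1)).E φ| ≤ eM)
    (tri : ∀ u v w : Fin n, 𝒜.Nst (t + 1) v u * 𝒜.Nst (t + 1) w v ≤
      2 * 𝒜.Z (t + 1) * 𝒜.Nst (t + 1) w u)
    (blk : ∀ u < n, ∀ v < n, NN 𝒜 (t + 1) u v ≤ 2 * NN 𝒜 (t + 1) (C.rep t u) (C.rep t v)) :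
    ChainOK C n t (𝒜.stLaw t) (𝒜.stLaw (t + 1)) π (NN 𝒜 t) (NN 𝒜 (t + 1)) (𝒜.Z t)
      (𝒜.Z (t + 1)) 2 2 eE eM where
  rep_lt := rep_lt
  conv := fun g hg => conv g (by convert hg using 1; norm_num)
  rat := fun g hg => rat g (by convert hg using 1; norm_num)
  move := fun g hg => move g (by convert hg using 1; norm_num)
  nonneg := fun u v => NN_nonneg 𝒜 _ u v
  tri := fun u hu v hv w hw => by
    have := tri ⟨u, hu⟩ ⟨v, hv⟩ ⟨w, hw⟩
    rw [← NN_eq, ← NN_eq, ← NN_eq] at this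
    exact this
  blk := blk
  monN := fun u hu v hv => by
    have := 𝒜.Nst_ratio t ⟨v, hv⟩ ⟨u, hu⟩
    rw [← NN_eq, ← NN_eq] at this
    exact this
  monZ := 𝒜.Z_mono t
  posZ := 𝒜.Z_pos t

/-! ### the theorem -/

/-- total error of the sampler -/
noncomputable def err (P : Prg Ω) (eE eM : SIn → ℝ) (s : SIn) : ℝ :=
  P.T s * ((P.K s : ℝ) * eE s + 16 * (sn s) ^ 2 * 2 ^ P.pm s / P.pD s + P.pop s * eM s) +
    P.pop s * (8 * sn s * (1 / 2) ^ P.pL s)

/-- **`SmpSpec` from one `ChainOK` per stage.** -/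
theorem smpSpec (P : Prg Ω) (eE eM : SIn → ℝ)
    (hL : ∀ s, 1 ≤ P.pL s ∧ 8 * (sn s : ℝ) * (1 / 2) ^ P.pL s ≤ 1) (hD : ∀ s, 0 < P.pD s)
    (heE : ∀ s, 0 ≤ eE s) (heM : ∀ s, 0 ≤ eM s)
    (herr : ∀ s, 0 < sn s → 1 ≤ sm s → err P eE eM s ≤ 1 / sm s)
    (H : ∀ (n R m : ℕ) (r₁ r₂ : Finset (Fin n) → ℕ) (lo hi : Fin n → ℤ) (𝒜 : AnnData n),
      IsInst P n R m r₁ r₂ lo hi 𝒜 → ∀ t < P.T (inp n R m lo hi), ∃ π : List ℤ → Law Ω,
        ChainOK (P.ch (rq r₁ r₂) (inp n R m lo hi)) n t (𝒜.stLaw t) (𝒜.stLaw (t + 1)) π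
          (NN 𝒜 t) (NN 𝒜 (t + 1)) (𝒜.Z t) (𝒜.Z (t + 1)) 2 2 (eE (inp n R m lo hi))
          (eM (inp n R m lo hi))) :
    SmpSpec (smp P) (slen P) := by
  classical
  intro n R r₁ r₂ m lo hi pr₁ pr₂ e₁ e₂ m1 box hne φ hφ
  show |avg (slen P (inp n R m lo hi)) (fun l => φ (smp P (rq r₁ r₂) (inp n R m lo hi) l)) -
    (∑ x ∈ PB r₁ r₂ R lo hi, φ (List.ofFn x)) / (PB r₁ r₂ R lo hi).card| ≤ 1 / m
  rcases Nat.eq_zero_or_pos n with h0 | n0
  · -- no elements
    subst h0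
    have e1 : ∀ l, smp P (rq r₁ r₂) (inp 0 R m lo hi) l = [] := fun l => by
      unfold smp; rw [if_pos (show sn (inp 0 R m lo hi) = 0 from rfl)]
    have e2 : ∀ x : Fin 0 → ℤ, List.ofFn x = [] := fun x => by simp
    simp only [e1, e2, avg_const, sum_const, nsmul_eq_mul]
    have h3 : ((PB r₁ r₂ R lo hi).card : ℝ) ≠ 0 := by
      have := Finset.card_pos.2 hne
      positivity
    rw [mul_div_cancel_left₀ _ h3, sub_self, abs_zero]
    positivity
  · set s := inp n R m lo hi with hs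
    have hsn : sn s = n := rfl
    have hsR : sR s = R := rfl
    have hsm : sm s = m := rfl
    obtain ⟨hL1, hL2⟩ := hL s
    rw [hsn] at hL2
    obtain ⟨𝒜, hA⟩ := exists_inst P n0 m1 pr₁ pr₂ e₁ e₂ box hne hL1 hL2
    have hAL : 𝒜.L = P.pL s := hA.AL
    choose π hπ using H n R m r₁ r₂ lo hi 𝒜 hA
    -- total law family
    let π' : ℕ → List ℤ → Law Ω := fun t => if h : t < P.T s then π t h else π 0 (by
      rcases Nat.eq_zero_or_pos (P.T s) with h' | h'
      · exact absurd h' (by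
          have : 0 < P.T s := by
            unfold Prg.T nStages AnnBox.T0
            have h1 : 0 < sn s * (P.pL s * cA (sn s)) := by
              rw [hsn]
              exact Nat.mul_pos n0 (Nat.mul_pos hL1 (cA_pos n))
            omega
          omega)
      · exact h')
    have hH : ∀ t < P.T s, ChainOK (P.ch (rq r₁ r₂) s) n t (𝒜.stLaw t) (𝒜.stLaw (t + 1)) (π' t)
        (NN 𝒜 t) (NN 𝒜 (t + 1)) (𝒜.Z t) (𝒜.Z (t + 1)) 2 2 (eE s) (eM s) := by
      intro t ht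
      have : π' t = π t ht := dif_pos ht
      rw [this]; exact hπ t ht
    have hcen : List.ofFn 𝒜.x₀ = cen (rq r₁ r₂) s := by
      rw [hA.Ax]
      exact ofFn_cenBL _ _ _ _ _ _
    have hg0 : GoodG n (NN 𝒜 0) (𝒜.Z 0) (16 * 2) (List.replicate n 0) := by
      intro u hu v hv
      have h1 : NN 𝒜 0 u v = 𝒜.Nst 0 ⟨v, hv⟩ ⟨u, hu⟩ := NN_eq 𝒜 0 ⟨u, hu⟩ ⟨v, hv⟩
      rw [h1]
      have h2 := 𝒜.Nst_first ⟨v, hv⟩ ⟨u, hu⟩
      have h3 := 𝒜.Z_pos 0
      have g1 : (List.replicate n (0 : ℤ)).getD u 0 = 0 := by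
        simp [List.getD_eq_getElem?_getD, hu]
      have g2 : (List.replicate n (0 : ℤ)).getD v 0 = 0 := by
        simp [List.getD_eq_getElem?_getD, hv]
      rw [g1, g2, zpow_zero, mul_one, mul_one]
      linarith
    have main := chain_sampler (C := P.ch (rq r₁ r₂) s) (n := n) (T := P.T s) n0
      (μ := fun t => 𝒜.stLaw t) (π := π') (N := fun t => NN 𝒜 t) (Z := fun t => 𝒜.Z t)
      (kap := 2) (B := 2) (eE := eE s) (eM := eM s) (e0 := 8 * n * (1 / 2) ^ 𝒜.L)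
      (by norm_num) (by norm_num) (heE s) (heM s) (hD s) hH (P.rb s)
      (by
        have := popSize_ch P (rq r₁ r₂) s
        rw [hsn] at this
        rw [this]; exact le_rfl)
      (cen (rq r₁ r₂) s) (cen (rq r₁ r₂) s) (List.replicate n 0) hg0
      (fun φ hφ => by
        rw [← hcen, abs_sub_comm]
        exact 𝒜.stLaw_start hφ) φ hφ
    have hpop := popSize_ch P (rq r₁ r₂) s
    rw [hsn] at hpop
    -- the last law
    have hlast : (𝒜.stLaw (P.T s)).E φ =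
        (∑ x ∈ PB r₁ r₂ R lo hi, φ (List.ofFn x)) / (PB r₁ r₂ R lo hi).card := by
      rw [𝒜.stLaw_last (K := R) (t := P.T s) (by rw [hAL]; exact le_rfl) ?_ φ, hA.PH_eq]
      intro x hx v
      have h1 := 𝒜.x₀_mem
      rw [hA.PH_eq, mem_PB] at hx h1
      have a1 := hx.1 v
      have a2 := h1.1 v
      have a3 := box v
      constructor <;> omega
    have hsmp : ∀ l, smp P (rq r₁ r₂) s l = (runSteps (stage ((P.ch (rq r₁ r₂) s).sys n)) (P.rb s) (P.T s)
        (0, List.replicate n 0,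
          List.replicate (popSize ((P.ch (rq r₁ r₂) s).sys n) 1 (P.T s)) (cen (rq r₁ r₂) s)) l).2.2.headD
            (cen (rq r₁ r₂) s) := by
      intro l
      unfold smp
      rw [if_neg (by rw [hsn]; omega)]
      rfl
    simp only [hsmp]
    rw [← hlast]
    refine main.trans ?_
    rw [hpop, hAL]
    exact herr s n0 m1

end Crest.Agent.R302.Smp
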