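import Mathlib

/-!
# R302 (S0461), the one-dimensional step (helper675)

Pure real-number lemma used in the closure of the multi-scale Poincaré inequality
(helper893 #7262, steps (7), (8)).

`z 0, …, z m` is a positive sequence, `0 ≤ z (m+1)`, log-concave, `z (a+1) ≤ Q z a`.
`g` is centred: `∑ z g = 0`, `P a = ∑_{c<a} z c g c` (so `P (a+1)` is `T_a` of the paper),
`V = ∑ z g²`.

* `var_parts` : `V = ∑_{a<m} P (a+1) (g a - g (a+1))`
* `AB_le` : `∑_{a<m} P (a+1)² ((q a - q (a+1)) + (1 - q a)²) / z (a+1) ≤ (4Q+4) V`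
* `one_d` : the bound of the root term.
-/

set_option autoImplicit false

namespace Crest.Agent.R302.OneD

open Finset

/-- partial sums, `P a = ∑_{c<a} z c g c` -/
def P (z g : ℕ → ℝ) (a : ℕ) : ℝ := ∑ c ∈ range a, z c * g c

/-- ratio -/
noncomputable def q (z : ℕ → ℝ) (a : ℕ) : ℝ := z (a + 1) / z a

theorem P_zero (z g : ℕ → ℝ) : P z g 0 = 0 := by simp [P]

theorem P_succ (z g : ℕ → ℝ) (a : ℕ) : P z g (a + 1) = P z g a + z a * g a := by
  simp [P, sum_range_succ]

/-- summation by parts -/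
theorem parts (c X : ℕ → ℝ) (m : ℕ) :
    ∑ a ∈ range (m + 1), c a * (X (a + 1) - X a)
      = ∑ a ∈ range m, X (a + 1) * (c a - c (a + 1)) + c m * X (m + 1) - c 0 * X 0 := by
  induction m with
  | zero => simp; ring
  | succ m ih => rw [sum_range_succ, ih, sum_range_succ _ m]; ring

theorem var_parts {z g : ℕ → ℝ} {m : ℕ} (h0 : P z g (m + 1) = 0) :
    ∑ a ∈ range (m + 1), z a * g a ^ 2
      = ∑ a ∈ range m, P z g (a + 1) * (g a - g (a + 1)) := by
  have h := parts g (P z g) m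
  rw [h0, P_zero] at h
  have e : ∀ a, g a * (P z g (a + 1) - P z g a) = z a * g a ^ 2 := fun a => by
    rw [P_succ]; ring
  simp only [e] at h
  rw [h]; ring

section

variable {z g : ℕ → ℝ} {m : ℕ} {Q : ℝ}







/-- modified ratio `q' a = q (a-1)`, `q' 0 = 1` -/
noncomputable def q' (z : ℕ → ℝ) (a : ℕ) : ℝ := if a = 0 then 1 else q z (a - 1)




end

/-! ## The form of helper142 / helper893 #7466: exact identity, no log-concavity -/

section form2

variable (z F : ℕ → ℝ) (m : ℕ)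

/-- mean of `F` with respect to `z 0, …, z m` -/
noncomputable def mu : ℝ :=
  (∑ a ∈ range (m + 1), z a * F a) / ∑ a ∈ range (m + 1), z a

/-- partial sums of the centred function -/
noncomputable def T (a : ℕ) : ℝ := ∑ c ∈ range (a + 1), z c * (F c - mu z F m)

/-- (unnormalised) variance -/
noncomputable def V : ℝ := ∑ a ∈ range (m + 1), z a * (F a - mu z F m) ^ 2

variable {z F m}

theorem T_eq_P (a : ℕ) : T z F m a = P z (fun c => F c - mu z F m) (a + 1) := rfl

theorem sum_pos' (hpos : ∀ a ≤ m, 0 < z a) : 0 < ∑ a ∈ range (m + 1), z a :=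
  sum_pos (fun a ha => hpos a (by simpa [Nat.lt_succ_iff] using ha)) ⟨0, by simp⟩

theorem T_last (hpos : ∀ a ≤ m, 0 < z a) : T z F m m = 0 := by
  have h := (sum_pos' hpos).ne'
  have : T z F m m = ∑ c ∈ range (m + 1), z c * F c
      - (∑ c ∈ range (m + 1), z c) * mu z F m := by
    rw [T, sum_mul, ← sum_sub_distrib]
    exact sum_congr rfl fun c _ => by ring
  rw [this, mu, mul_div_cancel₀ _ h, sub_self]


theorem V_nonneg (hpos : ∀ a ≤ m, 0 < z a) : 0 ≤ V z F m :=
  sum_nonneg fun a ha => by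
    have := hpos a (by simpa [Nat.lt_succ_iff] using ha)
    positivity

/-- (i) -/
theorem V_eq (hpos : ∀ a ≤ m, 0 < z a) :
    V z F m = ∑ a ∈ range m, T z F m a * (F a - F (a + 1)) := by
  rw [V, var_parts (g := fun c => F c - mu z F m) (T_last hpos)]
  exact sum_congr rfl fun a _ => by rw [← T_eq_P]; ring

/-- the exact identity of helper142 #7348, section 3 -/
theorem one_d_id {g r : ℕ → ℝ} (hpos : ∀ a ≤ m, 0 < z a) (h0 : P z g (m + 1) = 0) :
    ∑ a ∈ range m, P z g (a + 1) ^ 2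
        * (-(r a) / z a ^ 2 + 2 * r (a + 1) / (z a * z (a + 1)) - r (a + 2) / z (a + 1) ^ 2)
      = ∑ a ∈ range (m + 1), r a * g a ^ 2
        + 2 * ∑ a ∈ range m, g a * P z g (a + 1) * (r (a + 1) / z (a + 1) - r a / z a)
        - ∑ a ∈ range m, r (a + 1) * (P z g (a + 1) / z (a + 1) - P z g a / z a) ^ 2
        - r (m + 1) * (P z g m / z m) ^ 2 := by
  have key : ∀ k ≤ m, ∑ a ∈ range k, P z g (a + 1) ^ 2
        * (-(r a) / z a ^ 2 + 2 * r (a + 1) / (z a * z (a + 1)) - r (a + 2) / z (a + 1) ^ 2)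
      = ∑ a ∈ range k, r a * g a ^ 2
        + 2 * ∑ a ∈ range k, g a * P z g (a + 1) * (r (a + 1) / z (a + 1) - r a / z a)
        - ∑ a ∈ range k, r (a + 1) * (P z g (a + 1) / z (a + 1) - P z g a / z a) ^ 2
        + (r k * P z g k ^ 2 / z k ^ 2 - r (k + 1) * (P z g k / z k) ^ 2) := by
    intro k
    induction k with
    | zero => intro _; simp [P_zero]
    | succ k ih =>
      intro hk
      have hz := (hpos k (by omega)).ne'
      have hz1 := (hpos (k + 1) hk).ne'
      rw [sum_range_succ, ih (by omega), sum_range_succ, sum_range_succ, sum_range_succ,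
        P_succ z g k]
      field_simp
      ring
  have h1 := key m le_rfl
  have hz := (hpos m le_rfl).ne'
  have h2 : P z g m = -(z m * g m) := by
    have := P_succ z g m
    linarith
  rw [h1, sum_range_succ (fun a => r a * g a ^ 2)]
  have h3 : r m * P z g m ^ 2 / z m ^ 2 = r m * g m ^ 2 := by
    rw [h2]; field_simp
  rw [h3]
  ring

/-- (ii), general centred `g` -/
theorem one_d_g {g r : ℕ → ℝ} {U : ℝ} (hpos : ∀ a ≤ m, 0 < z a) (h0 : P z g (m + 1) = 0)
    (hr0 : ∀ a ≤ m + 1, 0 ≤ r a) (hrU : ∀ a ≤ m, r a ≤ U * z a) :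
    ∑ a ∈ range m, P z g (a + 1) ^ 2
        * (-(r a) / z a ^ 2 + 2 * r (a + 1) / (z a * z (a + 1)) - r (a + 2) / z (a + 1) ^ 2)
      ≤ U * (∑ a ∈ range (m + 1), z a * g a ^ 2)
        + 2 * (√(∑ a ∈ range (m + 1), z a * g a ^ 2)
          * √(∑ a ∈ range m, P z g (a + 1) ^ 2 * (r (a + 1) / z (a + 1) - r a / z a) ^ 2 / z a)) := by
  rw [one_d_id hpos h0]
  have h1 : ∑ a ∈ range (m + 1), r a * g a ^ 2 ≤ U * ∑ a ∈ range (m + 1), z a * g a ^ 2 := by
    rw [mul_sum]
    refine sum_le_sum fun a ha => ?_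
    have := hrU a (by simpa [Nat.lt_succ_iff] using ha)
    calc r a * g a ^ 2 ≤ (U * z a) * g a ^ 2 := by gcongr
      _ = _ := by ring
  have h2 : ∑ a ∈ range m, g a * P z g (a + 1) * (r (a + 1) / z (a + 1) - r a / z a)
      ≤ √(∑ a ∈ range (m + 1), z a * g a ^ 2)
          * √(∑ a ∈ range m, P z g (a + 1) ^ 2
              * (r (a + 1) / z (a + 1) - r a / z a) ^ 2 / z a) := by
    have h3 : ∑ a ∈ range m, z a * g a ^ 2 ≤ ∑ a ∈ range (m + 1), z a * g a ^ 2 := by
      rw [sum_range_succ]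
      have := hpos m le_rfl
      have : 0 ≤ z m * g m ^ 2 := by positivity
      linarith
    have h4 : (0:ℝ) ≤ √(∑ a ∈ range m, P z g (a + 1) ^ 2
              * (r (a + 1) / z (a + 1) - r a / z a) ^ 2 / z a) := Real.sqrt_nonneg _
    refine le_trans ?_ (mul_le_mul_of_nonneg_right (Real.sqrt_le_sqrt h3) h4)
    have hn1 : 0 ≤ ∑ a ∈ range m, z a * g a ^ 2 := sum_nonneg fun a ha => by
      have := hpos a (mem_range.1 ha).le
      positivity
    rw [← Real.sqrt_mul hn1]
    refine Real.le_sqrt_of_sq_le ?_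
    refine sum_sq_le_sum_mul_sum_of_sq_le_mul _ ?_ ?_ ?_
    · intro a ha
      have := hpos a (mem_range.1 ha).le
      positivity
    · intro a ha
      have := hpos a (mem_range.1 ha).le
      positivity
    · intro a ha
      have := (hpos a (mem_range.1 ha).le).ne'
      apply le_of_eq
      field_simp
  have h3 : 0 ≤ ∑ a ∈ range m, r (a + 1) * (P z g (a + 1) / z (a + 1) - P z g a / z a) ^ 2 :=
    sum_nonneg fun a ha => mul_nonneg (hr0 _ (by have := mem_range.1 ha; omega)) (sq_nonneg _)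
  have h4 : 0 ≤ r (m + 1) * (P z g m / z m) ^ 2 := mul_nonneg (hr0 _ le_rfl) (sq_nonneg _)
  linarith

/-- (ii) of helper893 #7466 -/
theorem one_d' {r : ℕ → ℝ} {U : ℝ} (hpos : ∀ a ≤ m, 0 < z a)
    (hr0 : ∀ a ≤ m + 1, 0 ≤ r a) (hrU : ∀ a ≤ m, r a ≤ U * z a) :
    ∑ a ∈ range m, T z F m a ^ 2
        * (-(r a) / z a ^ 2 + 2 * r (a + 1) / (z a * z (a + 1)) - r (a + 2) / z (a + 1) ^ 2)
      ≤ U * V z F m + 2 * (√(V z F m)
          * √(∑ a ∈ range m, T z F m a ^ 2 * (r (a + 1) / z (a + 1) - r a / z a) ^ 2 / z a)) :=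
  one_d_g (g := fun c => F c - mu z F m) hpos (T_last hpos) hr0 hrU

theorem mu_le {A : ℝ} (hpos : ∀ a ≤ m, 0 < z a) (hF : ∀ a ≤ m, F a ≤ A) : mu z F m ≤ A := by
  rw [mu, div_le_iff₀ (sum_pos' hpos), mul_sum]
  refine sum_le_sum fun a ha => ?_
  have ha' : a ≤ m := by simpa [Nat.lt_succ_iff] using ha
  have := hpos a ha'
  nlinarith [hF a ha']

theorem le_mu {A : ℝ} (hpos : ∀ a ≤ m, 0 < z a) (hF : ∀ a ≤ m, A ≤ F a) : A ≤ mu z F m := by
  rw [mu, le_div_iff₀ (sum_pos' hpos), mul_sum]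
  refine sum_le_sum fun a ha => ?_
  have ha' : a ≤ m := by simpa [Nat.lt_succ_iff] using ha
  have := hpos a ha'
  nlinarith [hF a ha']

theorem abs_sub_mu_le {A : ℝ} (hpos : ∀ a ≤ m, 0 < z a) (hF : ∀ a ≤ m, |F a| ≤ A) {a : ℕ}
    (ha : a ≤ m) : |F a - mu z F m| ≤ 2 * A := by
  have h1 := mu_le hpos fun a ha => (abs_le.1 (hF a ha)).2
  have h2 := le_mu hpos fun a ha => (abs_le.1 (hF a ha)).1
  have h3 := abs_le.1 (hF a ha)
  rw [abs_le]
  constructor <;> linarith

/-- log-concave and ratio `≥ 1` at `a`: nondecreasing before -/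
theorem le_of_left (hpos : ∀ a ≤ m, 0 < z a) (hlc : ∀ a, a + 2 ≤ m → z a * z (a + 2) ≤ z (a + 1) ^ 2)
    {a : ℕ} (ha : a + 1 ≤ m) (h : z a ≤ z (a + 1)) : ∀ k ≤ a, z (a - k) ≤ z a := by
  have key : ∀ k ≤ a, z (a - k) ≤ z (a - k + 1) ∧ z (a - k) ≤ z a := by
    intro k
    induction k with
    | zero => intro _; exact ⟨by simpa using h, by simp⟩
    | succ k ih =>
      intro hk
      obtain ⟨h1, h2⟩ := ih (by omega)
      obtain ⟨b, hb⟩ : ∃ b, a - k = b + 1 := ⟨a - k - 1, by omega⟩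
      have hb' : a - (k + 1) = b := by omega
      rw [hb] at h1 h2
      rw [hb']
      have h3 := hlc b (by omega)
      have hz := hpos b (by omega)
      have hz1 := hpos (b + 1) (by omega)
      have hz2 := hpos (b + 2) (by omega)
      have h4 : z b ≤ z (b + 1) := by
        have : z b * z (b + 1) ≤ z (b + 1) * z (b + 1) := by
          calc z b * z (b + 1) ≤ z b * z (b + 2) := by
                exact mul_le_mul_of_nonneg_left h1 hz.le
            _ ≤ z (b + 1) ^ 2 := h3
            _ = _ := by ring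
        exact le_of_mul_le_mul_right this hz1
      exact ⟨h4, h4.trans h2⟩
  exact fun k hk => (key k hk).2

theorem le_of_right (hpos : ∀ a ≤ m, 0 < z a)
    (hlc : ∀ a, a + 2 ≤ m → z a * z (a + 2) ≤ z (a + 1) ^ 2)
    {a : ℕ} (h : z (a + 1) ≤ z a) : ∀ k, a + k ≤ m → z (a + k) ≤ z a := by
  have key : ∀ k, a + k + 1 ≤ m → z (a + k + 1) ≤ z (a + k) ∧ z (a + k + 1) ≤ z a := by
    intro k
    induction k with
    | zero => intro _; exact ⟨h, h⟩
    | succ k ih =>
      intro hk
      obtain ⟨h1, h2⟩ := ih (by omega)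
      have h3 := hlc (a + k) (by omega)
      have hz := hpos (a + k) (by omega)
      have hz1 := hpos (a + k + 1) (by omega)
      have hz2 := hpos (a + k + 2) (by omega)
      have h4 : z (a + k + 2) ≤ z (a + k + 1) := by
        have : z (a + k) * z (a + k + 2) ≤ z (a + k) * z (a + k + 1) := by
          calc z (a + k) * z (a + k + 2) ≤ z (a + k + 1) ^ 2 := h3
            _ = z (a + k + 1) * z (a + k + 1) := by ring
            _ ≤ z (a + k) * z (a + k + 1) := mul_le_mul_of_nonneg_right h1 hz1.le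
        exact le_of_mul_le_mul_left this hz
      exact ⟨h4, h4.trans h2⟩
  intro k hk
  rcases Nat.eq_zero_or_pos k with h | h
  · simp [h]
  · obtain ⟨j, rfl⟩ : ∃ j, k = j + 1 := ⟨k - 1, by omega⟩
    exact (key j hk).2

/-- (iii), absolute value form -/
theorem abs_T_le {A : ℝ} (hpos : ∀ a ≤ m, 0 < z a)
    (hlc : ∀ a, a + 2 ≤ m → z a * z (a + 2) ≤ z (a + 1) ^ 2) (hF : ∀ a ≤ m, |F a| ≤ A)
    {a : ℕ} (ha : a ≤ m) : |T z F m a| ≤ 2 * A * (m + 1) * z a := by
  have hA : 0 ≤ A := (abs_nonneg _).trans (hF 0 (by omega))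
  have hza := hpos a ha
  rcases ha.eq_or_lt with h | h
  · subst h
    rw [T_last hpos, abs_zero]
    positivity
  rcases le_total (z a) (z (a + 1)) with h1 | h1
  · -- left side
    have h2 := le_of_left hpos hlc h h1
    calc |T z F m a| ≤ ∑ c ∈ range (a + 1), |z c * (F c - mu z F m)| := abs_sum_le_sum_abs _ _
      _ ≤ ∑ _c ∈ range (a + 1), 2 * A * z a := by
          refine sum_le_sum fun c hc => ?_
          have hc' : c ≤ a := by simpa [Nat.lt_succ_iff] using hc
          have h3 := h2 (a - c) (by omega)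
          rw [show a - (a - c) = c by omega] at h3
          have h4 := hpos c (by omega)
          have h5 := abs_sub_mu_le hpos hF (show c ≤ m by omega)
          rw [abs_mul, abs_of_pos h4]
          calc z c * |F c - mu z F m| ≤ z a * (2 * A) := by gcongr
            _ = _ := by ring
      _ = 2 * A * (a + 1) * z a := by
          rw [sum_const, card_range, nsmul_eq_mul]; push_cast; ring
      _ ≤ 2 * A * (m + 1) * z a := by gcongr
  · have h2 := le_of_right hpos hlc h1
    have h6 : T z F m a = -∑ k ∈ range (m - a), z (a + 1 + k) * (F (a + 1 + k) - mu z F m) := by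
      have h7 := T_last (F := F) hpos
      have h8 : T z F m m = T z F m a
          + ∑ k ∈ range (m - a), z (a + 1 + k) * (F (a + 1 + k) - mu z F m) := by
        rw [T, T, show m + 1 = (a + 1) + (m - a) by omega, sum_range_add]
      linarith
    rw [h6, abs_neg]
    calc |∑ k ∈ range (m - a), z (a + 1 + k) * (F (a + 1 + k) - mu z F m)|
        ≤ ∑ k ∈ range (m - a), |z (a + 1 + k) * (F (a + 1 + k) - mu z F m)| :=
          abs_sum_le_sum_abs _ _
      _ ≤ ∑ _k ∈ range (m - a), 2 * A * z a := by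
          refine sum_le_sum fun k hk => ?_
          have hk' := mem_range.1 hk
          have h3 := h2 (1 + k) (by omega)
          rw [← add_assoc] at h3
          have h4 := hpos (a + 1 + k) (by omega)
          have h5 := abs_sub_mu_le hpos hF (show a + 1 + k ≤ m by omega)
          rw [abs_mul, abs_of_pos h4]
          calc z (a + 1 + k) * |F (a + 1 + k) - mu z F m| ≤ z a * (2 * A) := by gcongr
            _ = _ := by ring
      _ = 2 * A * ((m - a : ℕ) : ℝ) * z a := by
          rw [sum_const, card_range, nsmul_eq_mul]; ring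
      _ ≤ 2 * A * (m + 1) * z a := by
          gcongr
          have : ((m - a : ℕ) : ℝ) ≤ (m : ℝ) := by exact_mod_cast Nat.sub_le m a
          linarith

/-- (iii) of helper893 #7466 -/
theorem T_sq_le {A : ℝ} (hpos : ∀ a ≤ m, 0 < z a)
    (hlc : ∀ a, a + 2 ≤ m → z a * z (a + 2) ≤ z (a + 1) ^ 2) (hF : ∀ a ≤ m, |F a| ≤ A)
    {a : ℕ} (ha : a ≤ m) : T z F m a ^ 2 ≤ 4 * A ^ 2 * (m + 1) ^ 2 * z a ^ 2 := by
  have h := abs_T_le hpos hlc hF ha
  calc T z F m a ^ 2 = |T z F m a| ^ 2 := (sq_abs _).symm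
    _ ≤ (2 * A * (m + 1) * z a) ^ 2 := by gcongr
    _ = _ := by ring

end form2

end Crest.Agent.R302.OneD
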