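import Crest.Agent.R302.MSP893A
import Crest.Agent.R302.Tree550
import Crest.Agent.R302.Cut550
import Crest.Agent.R302.OneD675
import Mathlib
import Crest.Agent.R302.Mart675
import Crest.Agent.R302.Repair725

-- ▼ part R302/MSP893B
section

/-!
R302 (helper893): log-concavity of the brackets, crude velocity bound, rooted trees
(summation by parts) and the CUT LEMMA.
-/

set_option autoImplicit false
set_option linter.unusedSectionVars false

namespace Crest.Agent.R302.T893

open Finset Lor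

variable {V E : Type*} [Fintype V] [DecidableEq V] [DecidableEq E]

/-! ### small vectors -/

/-- unit vector -/
def uv (p : V) : V → ℝ := fun q => if q = p then 1 else 0

theorem sum_uv (p : V) (a : V → ℝ) : ∑ q, uv p q * a q = a p := by
  simp [uv, ite_mul, Finset.sum_ite_eq']

theorem row_uv (A : V → V → ℝ) (p a : V) : row A (uv p) a = A a p := by
  unfold row; exact sum_uv p _

theorem Q_uv_right {A : V → V → ℝ} (hA : ∀ a b, A a b = A b a) (x : V → ℝ) (p : V) :
    Q A x (uv p) = row A x p := by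
  rw [Q_comm hA, Q_eq_row]
  exact sum_uv p _

theorem Q_uv_uv {A : V → V → ℝ} (hA : ∀ a b, A a b = A b a) (p q : V) :
    Q A (uv p) (uv q) = A p q := by
  rw [Q_uv_right hA, row_uv, hA]


theorem Q_smul_right (A : V → V → ℝ) (t : ℝ) (x y : V → ℝ) : Q A x (t • y) = t * Q A x y := by
  unfold Q
  simp only [Pi.smul_apply, smul_eq_mul, Finset.mul_sum]
  refine Finset.sum_congr rfl fun a _ => Finset.sum_congr rfl fun b _ => by ring

theorem Q_two {A : V → V → ℝ} (hA : ∀ a b, A a b = A b a) (a b : V) (α β : ℝ) :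
    Q A (α • uv a - β • uv b) (α • uv a - β • uv b) =
      α ^ 2 * A a a - 2 * α * β * A a b + β ^ 2 * A b b := by
  rw [Q_sub_smul hA, Q_smul_left, Q_smul_right, Q_smul_left, Q_uv_uv hA, Q_uv_uv hA, Q_uv_uv hA]
  ring

/-- the form is negative semidefinite on the hyperplane of a positive vertex -/
theorem Q_neg {A : V → V → ℝ} (hA : ∀ a b, A a b = A b a) (hAF : AF A) {p : V} (hp : 0 < A p p)
    {x : V → ℝ} (hx : row A x p = 0) : Q A x x ≤ 0 := by
  refine hAF.neg (y := uv p) ?_ ?_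
  · rw [Q_uv_uv hA]; exact hp
  · rw [Q_uv_right hA]; exact hx

/-! ### log-concavity -/

section LC

variable {m : ℕ} {X Y : E → V} {F : (V → ℤ) → ℝ} {γ : (E → ℤ) → V → ℤ}

theorem csum_lc (hF : ∀ δ, 0 < F δ) (hAF : ∀ δ, AF (fun p q => F (δ + ev p + ev q)))
    (hγ : ∀ y k, γ (y + Pi.single k 1) = γ y + ev (X k) - ev (Y k)) (δ : V → ℤ)
    (cs : List E) (k : E) (x : E → ℤ) :
    csum m (fun y => F (γ y + δ)) cs x * csum m (fun y => F (γ y + δ)) cs
        (x + Pi.single k 1 + Pi.single k 1) ≤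
      csum m (fun y => F (γ y + δ)) cs (x + Pi.single k 1) ^ 2 := by
  -- one-token functional
  set F1 : (E → ℤ) → V → ℝ := fun y p => F (γ y + δ - ev (Y k) + ev p) with hF1
  set G : (E → ℤ) → V → V → ℝ := fun y p q =>
    F (γ y + δ - ev (Y k) - ev (Y k) + ev p + ev q) with hG
  set z0 := csum m (fun y => F (γ y + δ)) cs x with hz0
  set z1 := csum m (fun y => F (γ y + δ)) cs (x + Pi.single k 1) with hz1
  set z2 := csum m (fun y => F (γ y + δ)) cs (x + Pi.single k 1 + Pi.single k 1) with hz2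
  have p0 : 0 < z0 := csum_pos (fun y => hF _) _ _
  have p1 : 0 < z1 := csum_pos (fun y => hF _) _ _
  have e0 : csum m (fun y => F1 y (Y k)) cs x = z0 :=
    csum_congr (fun y => by simp only [hF1]; congr 1; abel) _ _
  have e1 : csum m (fun y => F1 y (X k)) cs x = z1 := by
    rw [hz1, ← csum_shift]
    refine csum_congr (fun y => ?_) _ _
    simp only [hF1]
    rw [hγ]
    congr 1
    abel
  set v : V → ℝ := z0⁻¹ • uv (Y k) - z1⁻¹ • uv (X k) with hv
  have hbal : Bal m F1 cs x v := by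
    unfold Bal
    have : ∀ a : V → ℝ, ∑ p, v p * a p = z0⁻¹ * a (Y k) - z1⁻¹ * a (X k) := by
      intro a
      simp only [hv, Pi.sub_apply, Pi.smul_apply, smul_eq_mul, sub_mul, mul_assoc,
        Finset.sum_sub_distrib, ← Finset.mul_sum, sum_uv]
    rw [this, e0, e1, inv_mul_cancel₀ p0.ne', inv_mul_cancel₀ p1.ne', sub_self]
  have hinv : ∀ j y, F1 y (X j) = F1 (y + Pi.single j 1) (Y j) := by
    intro j y
    simp only [hF1]
    rw [hγ]
    congr 1
    abel
  have h1 : Q (fun p q => csum m (fun y => G y p q) cs x) v v ≤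
      en m Y X F1 (fun y v => Q (fun p q => G y p q) v v) cs x v := by
    refine en_quad (F := F1) (fun j _ y => hF _) (fun j _ y => hinv j y)
      (fun y p q => (hF _).le) ?_ ?_ hbal
    · intro y p q
      show F _ = F _
      congr 1; abel
    · intro j _ y q
      show F _ = F _
      rw [hγ]
      congr 1
      abel
  have h2 : en m Y X F1 (fun y v => Q (fun p q => G y p q) v v) cs x v ≤ 0 := by
    have : en m Y X F1 (fun y v => Q (fun p q => G y p q) v v) cs x v ≤
        en m Y X F1 (fun _ _ => (0 : ℝ)) cs x v := by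
      refine en_mono (F := F1) (fun j _ y => hF _) (fun j _ y => hinv j y) ?_ hbal
      intro y w hw
      refine Q_neg (p := Y k) ?_ ?_ ?_ ?_
      · intro a b; simp only [hG]; congr 1; abel
      · exact hAF (γ y + δ - ev (Y k) - ev (Y k))
      · exact hF _
      · unfold row
        rw [← hw]
        refine Finset.sum_congr rfl fun p _ => ?_
        simp only [hG, hF1]
        congr 2
        abel
    refine this.trans ?_
    rw [en_const (fun _ => (0 : ℝ))]
    have h0 := csum_smul m 0 (fun _ : E → ℤ => (0 : ℝ)) cs x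
    simp only [mul_zero, zero_mul] at h0
    exact h0.le
  have h3 := h1.trans h2
  rw [hv, Q_two (fun a b => csum_congr (fun y => by simp only [hG]; congr 1; abel) _ _)] at h3
  have eYY : csum m (fun y => G y (Y k) (Y k)) cs x = z0 :=
    csum_congr (fun y => by simp only [hG]; congr 1; abel) _ _
  have eYX : csum m (fun y => G y (Y k) (X k)) cs x = z1 := by
    rw [hz1, ← csum_shift]
    refine csum_congr (fun y => ?_) _ _
    simp only [hG]
    rw [hγ]
    congr 1
    abel
  have eXX : csum m (fun y => G y (X k) (X k)) cs x = z2 := by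
    rw [hz2, add_assoc, ← csum_shift]
    refine csum_congr (fun y => ?_) _ _
    simp only [hG]
    rw [← add_assoc y, hγ, hγ]
    congr 1
    abel
  rw [eYY, eYX, eXX] at h3
  have h4 : z0⁻¹ ^ 2 * z0 - 2 * z0⁻¹ * z1⁻¹ * z1 + z1⁻¹ ^ 2 * z2 = (z0 * z2 - z1 ^ 2) / (z0 * z1 ^ 2) := by
    field_simp
    ring
  rw [h4] at h3
  have h5 : 0 < z0 * z1 ^ 2 := by positivity
  rw [div_le_iff₀ h5, zero_mul] at h3
  linarith

end LC

/-! ### crude velocity bound -/

theorem unimodal_side {H : ℕ → ℝ} (hH : ∀ s, 0 < H s) (hl : ∀ s, H s * H (s + 2) ≤ H (s + 1) ^ 2)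
    (m s : ℕ) (hs : s ≤ m + 1) :
    ∑ t ∈ range s, H t ≤ (m + 1) * H s ∨ ∑ t ∈ Ico s (m + 1), H t ≤ (m + 1) * H s := by
  have mono : ∀ a b, a ≤ b → H (b + 1) * H a ≤ H (a + 1) * H b := by
    intro a b hab
    induction b, hab using Nat.le_induction with
    | base => exact le_rfl
    | succ b hab ih =>
      have h1 := hl b
      have : H (b + 2) * H a * H b ≤ H (a + 1) * H (b + 1) * H b := by
        calc H (b + 2) * H a * H b = (H b * H (b + 2)) * H a := by ring
          _ ≤ H (b + 1) ^ 2 * H a := mul_le_mul_of_nonneg_right h1 (hH a).le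
          _ = H (b + 1) * (H (b + 1) * H a) := by ring
          _ ≤ H (b + 1) * (H (a + 1) * H b) := mul_le_mul_of_nonneg_left ih (hH _).le
          _ = H (a + 1) * H (b + 1) * H b := by ring
      exact le_of_mul_le_mul_right this (hH b)
  rcases Nat.eq_zero_or_pos s with rfl | hs0
  · left
    simp only [Finset.range_zero, Finset.sum_empty]
    have := (hH 0).le
    positivity
  · obtain ⟨r, rfl⟩ : ∃ r, s = r + 1 := ⟨s - 1, by omega⟩
    rcases le_total (H r) (H (r + 1)) with h | h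
    · left
      -- increasing up to r + 1
      have inc : ∀ j, j ≤ r → H j ≤ H (j + 1) := by
        intro j hj
        have h1 := mono j r hj
        have : H r * H j ≤ H r * H (j + 1) := by
          calc H r * H j ≤ H (r + 1) * H j := mul_le_mul_of_nonneg_right h (hH j).le
            _ ≤ H (j + 1) * H r := h1
            _ = H r * H (j + 1) := mul_comm _ _
        exact le_of_mul_le_mul_left this (hH r)
      have top : ∀ j, j ≤ r + 1 → H (r + 1 - j) ≤ H (r + 1) := by
        intro j hj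
        induction j with
        | zero => exact le_rfl
        | succ j ih =>
          have := inc (r + 1 - (j + 1)) (by omega)
          have e : r + 1 - (j + 1) + 1 = r + 1 - j := by omega
          rw [e] at this
          exact this.trans (ih (by omega))
      have hle : ∀ t ∈ range (r + 1), H t ≤ H (r + 1) := by
        intro t ht
        have ht' := Finset.mem_range.1 ht
        have := top (r + 1 - t) (by omega)
        have e : r + 1 - (r + 1 - t) = t := by omega
        rwa [e] at this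
      calc ∑ t ∈ range (r + 1), H t ≤ ∑ t ∈ range (r + 1), H (r + 1) := Finset.sum_le_sum hle
        _ = (r + 1 : ℕ) * H (r + 1) := by simp
        _ ≤ (m + 1) * H (r + 1) := by
          refine mul_le_mul_of_nonneg_right ?_ (hH _).le
          exact_mod_cast hs
    · right
      have dec : ∀ j, r ≤ j → H (j + 1) ≤ H j := by
        intro j hj
        have h1 := mono r j hj
        have : H (j + 1) * H r ≤ H j * H r := by
          calc H (j + 1) * H r ≤ H (r + 1) * H j := h1
            _ ≤ H r * H j := mul_le_mul_of_nonneg_right h (hH j).le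
            _ = H j * H r := mul_comm _ _
        exact le_of_mul_le_mul_right this (hH r)
      have top : ∀ j, r + 1 ≤ j → H j ≤ H (r + 1) := by
        intro j hj
        induction j, hj using Nat.le_induction with
        | base => exact le_rfl
        | succ j hj ih => exact (dec j (by omega)).trans ih
      calc ∑ t ∈ Ico (r + 1) (m + 1), H t ≤ ∑ t ∈ Ico (r + 1) (m + 1), H (r + 1) :=
            Finset.sum_le_sum fun t ht => top t (Finset.mem_Ico.1 ht).1
        _ = ((m + 1 - (r + 1) : ℕ) : ℝ) * H (r + 1) := by simp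
        _ ≤ (m + 1) * H (r + 1) := by
          refine mul_le_mul_of_nonneg_right ?_ (hH _).le
          have : (m + 1 - (r + 1) : ℕ) ≤ m + 1 := Nat.sub_le _ _
          exact_mod_cast this

section Crude

variable {m : ℕ} {X Y : E → V} {F : (E → ℤ) → V → ℝ}

/-- `ℓ¹` norm -/
def nrm (v : V → ℝ) : ℝ := ∑ p, |v p|

theorem nrm_nonneg (v : V → ℝ) : 0 ≤ nrm v := Finset.sum_nonneg fun _ _ => abs_nonneg _

theorem psi_bound {κ : ℝ} (hF : ∀ y p, 0 < F y p) (hκ : ∀ y p q, F y p ≤ κ * F y q)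
    {cs : List E} {k : E} {x : E → ℤ} {v : V → ℝ}
    (hlc : ∀ s : ℕ, csum m (fun y => F y (Y k)) cs (x + Pi.single k (s : ℤ)) *
      csum m (fun y => F y (Y k)) cs (x + Pi.single k ((s + 2 : ℕ) : ℤ)) ≤
      csum m (fun y => F y (Y k)) cs (x + Pi.single k ((s + 1 : ℕ) : ℤ)) ^ 2)
    (hbal : Bal m F (k :: cs) x v) (s : ℕ) (hs : s ≤ m + 1) :
    |psi m Y F cs k x v s| ≤ κ * (m + 1) * nrm v := by
  set H : ℕ → ℝ := fun s => csum m (fun y => F y (Y k)) cs (x + Pi.single k (s : ℤ)) with hH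
  have hpos : ∀ s, 0 < H s := fun s => csum_pos (fun y => hF _ _) _ _
  have hκ0 : 0 ≤ κ := by
    have h1 := hF x (Y k)
    have h2 := hκ x (Y k) (Y k)
    by_contra hc
    push Not at hc
    nlinarith
  set f : ℕ → ℝ := fun t => ∑ p, v p * csum m (fun y => F y p) cs (x + Pi.single k (t : ℤ))
    with hf
  have hfb : ∀ t, |f t| ≤ κ * nrm v * H t := by
    intro t
    calc |f t| ≤ ∑ p, |v p * csum m (fun y => F y p) cs (x + Pi.single k (t : ℤ))| :=
          Finset.abs_sum_le_sum_abs _ _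
      _ ≤ ∑ p, |v p| * (κ * H t) := by
          refine Finset.sum_le_sum fun p _ => ?_
          rw [abs_mul, abs_of_nonneg (csum_nonneg (fun y => (hF y p).le) _ _)]
          refine mul_le_mul_of_nonneg_left ?_ (abs_nonneg _)
          rw [hH, ← csum_smul]
          exact csum_mono (fun y => hκ y p (Y k)) _ _
      _ = κ * nrm v * H t := by rw [← Finset.sum_mul]; unfold nrm; ring
  have hnum : |num m F cs k x v s| ≤ κ * nrm v * ((m + 1) * H s) := by
    have hK : 0 ≤ κ * nrm v := mul_nonneg hκ0 (nrm_nonneg v)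
    rcases unimodal_side hpos hlc m s hs with h | h
    · calc |num m F cs k x v s| ≤ ∑ t ∈ range s, |f t| := Finset.abs_sum_le_sum_abs _ _
        _ ≤ ∑ t ∈ range s, κ * nrm v * H t := Finset.sum_le_sum fun t _ => hfb t
        _ = κ * nrm v * ∑ t ∈ range s, H t := by rw [Finset.mul_sum]
        _ ≤ κ * nrm v * ((m + 1) * H s) := mul_le_mul_of_nonneg_left h hK
    · have h0 := num_last hbal
      have h1 : num m F cs k x v s = - ∑ t ∈ Ico s (m + 1), f t := by
        have := Finset.sum_range_add_sum_Ico f hs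
        unfold num at h0 ⊢
        rw [← this] at h0
        linarith
      rw [h1, abs_neg]
      calc |∑ t ∈ Ico s (m + 1), f t| ≤ ∑ t ∈ Ico s (m + 1), |f t| :=
            Finset.abs_sum_le_sum_abs _ _
        _ ≤ ∑ t ∈ Ico s (m + 1), κ * nrm v * H t := Finset.sum_le_sum fun t _ => hfb t
        _ = κ * nrm v * ∑ t ∈ Ico s (m + 1), H t := by rw [Finset.mul_sum]
        _ ≤ κ * nrm v * ((m + 1) * H s) := mul_le_mul_of_nonneg_left h hK
  unfold psi
  rw [abs_div, abs_of_pos (hpos s), div_le_iff₀ (hpos s)]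
  calc |num m F cs k x v s| ≤ κ * nrm v * ((m + 1) * H s) := hnum
    _ = κ * (m + 1) * nrm v * H s := by ring

theorem nrm_nxt (cs : List E) (k : E) (x : E → ℤ) (v : V → ℝ) (s : ℕ) :
    nrm (nxt m Y X F cs k x v s) ≤ nrm v + |psi m Y F cs k x v (s + 1)| + |psi m Y F cs k x v s| := by
  unfold nrm nxt
  calc ∑ p, |v p - psi m Y F cs k x v (s + 1) * (if p = X k then 1 else 0)
        + psi m Y F cs k x v s * (if p = Y k then 1 else 0)|
      ≤ ∑ p, (|v p| + |psi m Y F cs k x v (s + 1)| * (if p = X k then 1 else 0)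
        + |psi m Y F cs k x v s| * (if p = Y k then 1 else 0)) := by
        refine Finset.sum_le_sum fun p _ => ?_
        refine (abs_add_le _ _).trans (add_le_add ((abs_sub _ _).trans (add_le_add le_rfl ?_)) ?_)
        · rw [abs_mul]; split_ifs <;> simp
        · rw [abs_mul]; split_ifs <;> simp
    _ = _ := by
        simp only [Finset.sum_add_distrib, ← Finset.mul_sum, Finset.sum_ite_eq', Finset.mem_univ,
          if_true, mul_one]

/-- **crude bound**: the velocities never exceed `(1 + 2κ(m+1))^{#cs}` times the root velocity -/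
theorem en_crude {κ : ℝ} (hF : ∀ y p, 0 < F y p) (hκ : ∀ y p q, F y p ≤ κ * F y q)
    (hinv : ∀ k y, F y (X k) = F (y + Pi.single k 1) (Y k))
    (hlc : ∀ (cs : List E) (k : E) (x : E → ℤ), csum m (fun y => F y (Y k)) cs x *
      csum m (fun y => F y (Y k)) cs (x + Pi.single k 1 + Pi.single k 1) ≤
      csum m (fun y => F y (Y k)) cs (x + Pi.single k 1) ^ 2)
    {G : (E → ℤ) → ℝ} (hG : ∀ y, 0 ≤ G y) (cs : List E) (x : E → ℤ) (v : V → ℝ)
    (hbal : Bal m F cs x v) :
    en m Y X F (fun y v => nrm v ^ 2 * G y) cs x v ≤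
      ((1 + 2 * κ * (m + 1)) ^ cs.length * nrm v) ^ 2 * csum m G cs x := by
  induction cs generalizing x v with
  | nil => simp
  | cons k cs ih =>
    have hκ0 : 0 ≤ κ := by
      have h1 := hF x (Y k)
      have h2 := hκ x (Y k) (Y k)
      by_contra hc
      push Not at hc
      nlinarith
    rw [en_cons, csum_cons, Finset.mul_sum]
    refine Finset.sum_le_sum fun s hs => ?_
    have hs' : s + 1 ≤ m + 1 := Finset.mem_range.1 hs
    refine (ih _ _ (bal_nxt (fun y => hF y _) (fun y => hinv k y) s)).trans ?_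
    refine mul_le_mul_of_nonneg_right ?_ (csum_nonneg hG _ _)
    have hlc' : ∀ s : ℕ, csum m (fun y => F y (Y k)) cs (x + Pi.single k (s : ℤ)) *
      csum m (fun y => F y (Y k)) cs (x + Pi.single k ((s + 2 : ℕ) : ℤ)) ≤
      csum m (fun y => F y (Y k)) cs (x + Pi.single k ((s + 1 : ℕ) : ℤ)) ^ 2 := by
      intro s
      have := hlc cs k (x + Pi.single k (s : ℤ))
      rw [show x + Pi.single k (s : ℤ) + Pi.single k 1 = x + Pi.single k ((s + 1 : ℕ) : ℤ) by
        rw [single_succ, add_assoc]] at this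
      rwa [show x + Pi.single k ((s + 1 : ℕ) : ℤ) + Pi.single k 1 =
        x + Pi.single k ((s + 2 : ℕ) : ℤ) by
        rw [show s + 2 = (s + 1) + 1 from rfl, single_succ k (s + 1), add_assoc]] at this
    have b1 := psi_bound hF hκ hlc' hbal (s + 1) hs'
    have b2 := psi_bound hF hκ hlc' hbal s (by omega)
    have hn := nrm_nxt (m := m) (X := X) (Y := Y) (F := F) cs k x v s
    have h3 : nrm (nxt m Y X F cs k x v s) ≤ (1 + 2 * κ * (m + 1)) * nrm v := by
      linarith
    have h4 : 0 ≤ 1 + 2 * κ * ((m : ℝ) + 1) := by positivity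
    have h5 : (1 + 2 * κ * ((m : ℝ) + 1)) ^ cs.length * nrm (nxt m Y X F cs k x v s) ≤
        (1 + 2 * κ * ((m : ℝ) + 1)) ^ (k :: cs).length * nrm v := by
      rw [List.length_cons, pow_succ, mul_assoc ((1 + 2 * κ * ((m : ℝ) + 1)) ^ cs.length)]
      exact mul_le_mul_of_nonneg_left h3 (pow_nonneg h4 _)
    exact pow_le_pow_left₀ (mul_nonneg (pow_nonneg h4 _) (nrm_nonneg _)) h5 2

end Crude

end Crest.Agent.R302.T893
end

-- ▼ part R302/MSP893C
section

/-!
R302 (helper893): stage theorem, part 1: the flow at the root of a stage, Cauchy-Schwarz for leaf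
sums, the difference of conditional means, the transport of the test functionals.
-/

set_option autoImplicit false
set_option linter.unusedSectionVars false

namespace Crest.Agent.R302.T893

open Finset Lor
open Crest.Agent.R302.Tree (RTree)

variable {V E : Type*} [Fintype V] [DecidableEq V] [DecidableEq E]

theorem sq_le_of_disc {A B C : ℝ} (h : ∀ s : ℝ, 0 ≤ A - 2 * s * B + s ^ 2 * C) : B ^ 2 ≤ A * C := by
  have h1 : ∀ s : ℝ, 0 ≤ C * (s * s) + (-2 * B) * s + A := fun s => by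
    have := h s; nlinarith
  have h2 := discrim_le_zero h1
  unfold discrim at h2
  nlinarith

section Stage

variable {m : ℕ} {X Y : E → V} {F : (V → ℤ) → ℝ} {γ : (E → ℤ) → V → ℤ}

/-- one-token weights: cell `i` misses one unit, a token sits at `q` -/
def F1 (Y : E → V) (F : (V → ℤ) → ℝ) (γ : (E → ℤ) → V → ℤ) (i : E) (y : E → ℤ) (q : V) : ℝ :=
  F (γ y - ev (Y i) + ev q)

theorem F1_pos (hF : ∀ δ, 0 < F δ) (i : E) (y : E → ℤ) (q : V) : 0 < F1 Y F γ i y q := hF _

theorem F1_inv (hγ : ∀ y k, γ (y + Pi.single k 1) = γ y + ev (X k) - ev (Y k)) (i k : E)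
    (y : E → ℤ) : F1 Y F γ i y (X k) = F1 Y F γ i (y + Pi.single k 1) (Y k) := by
  unfold F1
  rw [hγ]
  congr 1
  abel

theorem F1_Y (i : E) (y : E → ℤ) : F1 Y F γ i y (Y i) = F (γ y) := by
  unfold F1
  congr 1
  abel

theorem F1_X (hγ : ∀ y k, γ (y + Pi.single k 1) = γ y + ev (X k) - ev (Y k)) (i : E)
    (y : E → ℤ) : F1 Y F γ i y (X i) = F (γ (y + Pi.single i 1)) := by
  rw [F1_inv hγ, F1_Y]

/-- weight of content `a` of cell `i` -/
noncomputable def zz (m : ℕ) (F : (V → ℤ) → ℝ) (γ : (E → ℤ) → V → ℤ) (i : E) (cs : List E)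
    (x : E → ℤ) (a : ℕ) : ℝ := csum m (fun y => F (γ y)) cs (x + Pi.single i (a : ℤ))

theorem zz_pos (hF : ∀ δ, 0 < F δ) (i : E) (cs : List E) (x : E → ℤ) (a : ℕ) :
    0 < zz m F γ i cs x a := csum_pos (fun _ => hF _) _ _

/-- the velocity at the root of a stage -/
noncomputable def vel (m : ℕ) (X Y : E → V) (F : (V → ℤ) → ℝ) (γ : (E → ℤ) → V → ℤ) (i : E)
    (cs : List E) (x : E → ℤ) (a : ℕ) : V → ℝ :=
  (zz m F γ i cs x a)⁻¹ • uv (Y i) - (zz m F γ i cs x (a + 1))⁻¹ • uv (X i)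

theorem sum_vel (i : E) (cs : List E) (x : E → ℤ) (a : ℕ) (g : V → ℝ) :
    ∑ p, vel m X Y F γ i cs x a p * g p =
      (zz m F γ i cs x a)⁻¹ * g (Y i) - (zz m F γ i cs x (a + 1))⁻¹ * g (X i) := by
  simp only [vel, Pi.sub_apply, Pi.smul_apply, smul_eq_mul, sub_mul, mul_assoc,
        Finset.sum_sub_distrib, ← Finset.mul_sum, sum_uv]

theorem bal_vel (hF : ∀ δ, 0 < F δ)
    (hγ : ∀ y k, γ (y + Pi.single k 1) = γ y + ev (X k) - ev (Y k)) (i : E) (cs : List E)
    (x : E → ℤ) (a : ℕ) :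
    Bal m (F1 Y F γ i) cs (x + Pi.single i (a : ℤ)) (vel m X Y F γ i cs x a) := by
  unfold Bal
  rw [sum_vel]
  have e0 : csum m (fun y => F1 Y F γ i y (Y i)) cs (x + Pi.single i (a : ℤ)) =
      zz m F γ i cs x a := csum_congr (fun y => F1_Y i y) _ _
  have e1 : csum m (fun y => F1 Y F γ i y (X i)) cs (x + Pi.single i (a : ℤ)) =
      zz m F γ i cs x (a + 1) := by
    unfold zz
    exact csum_inv (G := fun y => F1 Y F γ i y (X i)) (G' := fun y => F (γ y))
      (fun y => F1_X hγ i y) cs x a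
  rw [e0, e1, inv_mul_cancel₀ (zz_pos hF _ _ _ _).ne', inv_mul_cancel₀ (zz_pos hF _ _ _ _).ne',
    sub_self]

/-- leaf sums of a stage -/
noncomputable def leaf (m : ℕ) (X Y : E → V) (F : (V → ℤ) → ℝ) (γ : (E → ℤ) → V → ℤ) (i : E)
    (cs : List E) (x : E → ℤ) (a : ℕ) (Φ : (E → ℤ) → (V → ℝ) → ℝ) : ℝ :=
  en m Y X (F1 Y F γ i) Φ cs (x + Pi.single i (a : ℤ)) (vel m X Y F γ i cs x a)

theorem leaf_add (i : E) (cs : List E) (x : E → ℤ) (a : ℕ) (Φ Φ' : (E → ℤ) → (V → ℝ) → ℝ) :
    leaf m X Y F γ i cs x a (fun y v => Φ y v + Φ' y v) =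
      leaf m X Y F γ i cs x a Φ + leaf m X Y F γ i cs x a Φ' := en_add _ _ _ _ _

theorem leaf_smul (i : E) (cs : List E) (x : E → ℤ) (a : ℕ) (c : ℝ)
    (Φ : (E → ℤ) → (V → ℝ) → ℝ) :
    leaf m X Y F γ i cs x a (fun y v => c * Φ y v) = c * leaf m X Y F γ i cs x a Φ :=
  en_smul _ _ _ _ _

theorem leaf_sum {ι : Type*} (t : Finset ι) (i : E) (cs : List E) (x : E → ℤ) (a : ℕ)
    (Φ : ι → (E → ℤ) → (V → ℝ) → ℝ) :
    leaf m X Y F γ i cs x a (fun y v => ∑ j ∈ t, Φ j y v) =
      ∑ j ∈ t, leaf m X Y F γ i cs x a (Φ j) := en_sum _ _ _ _ _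

theorem leaf_nonneg (i : E) (cs : List E) (x : E → ℤ) (a : ℕ)
    {Φ : (E → ℤ) → (V → ℝ) → ℝ} (h : ∀ y v, 0 ≤ Φ y v) : 0 ≤ leaf m X Y F γ i cs x a Φ :=
  en_nonneg h _ _ _

theorem leaf_mono (hF : ∀ δ, 0 < F δ)
    (hγ : ∀ y k, γ (y + Pi.single k 1) = γ y + ev (X k) - ev (Y k)) (i : E) (cs : List E)
    (x : E → ℤ) (a : ℕ) {Φ Φ' : (E → ℤ) → (V → ℝ) → ℝ}
    (h : ∀ y v, ∑ p, v p * F1 Y F γ i y p = 0 → Φ y v ≤ Φ' y v) :
    leaf m X Y F γ i cs x a Φ ≤ leaf m X Y F γ i cs x a Φ' :=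
  en_mono (fun k _ y => F1_pos hF i y _) (fun k _ y => F1_inv hγ i k y) h (bal_vel hF hγ i cs x a)

theorem leaf_congr (hF : ∀ δ, 0 < F δ)
    (hγ : ∀ y k, γ (y + Pi.single k 1) = γ y + ev (X k) - ev (Y k)) (i : E) (cs : List E)
    (x : E → ℤ) (a : ℕ) {Φ Φ' : (E → ℤ) → (V → ℝ) → ℝ}
    (h : ∀ y v, ∑ p, v p * F1 Y F γ i y p = 0 → Φ y v = Φ' y v) :
    leaf m X Y F γ i cs x a Φ = leaf m X Y F γ i cs x a Φ' :=
  le_antisymm (leaf_mono hF hγ i cs x a fun y v hv => (h y v hv).le)
    (leaf_mono hF hγ i cs x a fun y v hv => (h y v hv).ge)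

theorem leaf_const (i : E) (cs : List E) (x : E → ℤ) (a : ℕ) (G : (E → ℤ) → ℝ) :
    leaf m X Y F γ i cs x a (fun y _ => G y) = csum m G cs (x + Pi.single i (a : ℤ)) :=
  en_const _ _ _ _

/-- transport -/
theorem leaf_lin (hF : ∀ δ, 0 < F δ)
    (hγ : ∀ y k, γ (y + Pi.single k 1) = γ y + ev (X k) - ev (Y k)) (i : E) (cs : List E)
    (x : E → ℤ) (a : ℕ) {G : (E → ℤ) → V → ℝ}
    (hG : ∀ k ∈ cs, ∀ y, G y (X k) = G (y + Pi.single k 1) (Y k)) :
    leaf m X Y F γ i cs x a (fun y v => ∑ p, v p * G y p) =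
      (zz m F γ i cs x a)⁻¹ * csum m (fun y => G y (Y i)) cs (x + Pi.single i (a : ℤ)) -
      (zz m F γ i cs x (a + 1))⁻¹ * csum m (fun y => G y (X i)) cs (x + Pi.single i (a : ℤ)) := by
  unfold leaf
  rw [en_lin (fun k _ y => F1_pos hF i y _) (fun k _ y => F1_inv hγ i k y) hG
    (bal_vel hF hγ i cs x a), sum_vel]

/-- conservation law -/
theorem leaf_quad (hF : ∀ δ, 0 < F δ)
    (hγ : ∀ y k, γ (y + Pi.single k 1) = γ y + ev (X k) - ev (Y k)) (i : E) (cs : List E)
    (x : E → ℤ) (a : ℕ) {G : (E → ℤ) → V → V → ℝ}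
    (hG0 : ∀ y p q, 0 ≤ G y p q) (hGs : ∀ y p q, G y p q = G y q p)
    (hG : ∀ k y q, G y (X k) q = G (y + Pi.single k 1) (Y k) q) :
    leaf m X Y F γ i cs x a (fun y v => - Q (fun p q => G y p q) v v) ≤
      -(csum m (fun y => G y (Y i) (Y i)) cs (x + Pi.single i (a : ℤ))) / zz m F γ i cs x a ^ 2
      + 2 * csum m (fun y => G y (Y i) (Y i)) cs (x + Pi.single i ((a + 1 : ℕ) : ℤ)) /
        (zz m F γ i cs x a * zz m F γ i cs x (a + 1))
      - csum m (fun y => G y (Y i) (Y i)) cs (x + Pi.single i ((a + 2 : ℕ) : ℤ)) /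
        zz m F γ i cs x (a + 1) ^ 2 := by
  have h1 := en_quad (m := m) (F := F1 Y F γ i) (X := X) (Y := Y) (cs := cs)
    (fun k _ y => F1_pos hF i y _)
    (fun k _ y => F1_inv hγ i k y) hG0 hGs (fun k _ y q => hG k y q) (bal_vel hF hγ i cs x a)
  have h2 : leaf m X Y F γ i cs x a (fun y v => - Q (fun p q => G y p q) v v) =
      - leaf m X Y F γ i cs x a (fun y v => Q (fun p q => G y p q) v v) := by
    have := leaf_smul (m := m) (X := X) (Y := Y) (F := F) (γ := γ) i cs x a (-1)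
      (fun y v => Q (fun p q => G y p q) v v)
    simpa using this
  rw [h2]
  have h3 : Q (fun p q => csum m (fun y => G y p q) cs (x + Pi.single i (a : ℤ)))
      (vel m X Y F γ i cs x a) (vel m X Y F γ i cs x a) =
      csum m (fun y => G y (Y i) (Y i)) cs (x + Pi.single i (a : ℤ)) / zz m F γ i cs x a ^ 2
      - 2 * csum m (fun y => G y (Y i) (Y i)) cs (x + Pi.single i ((a + 1 : ℕ) : ℤ)) /
        (zz m F γ i cs x a * zz m F γ i cs x (a + 1))
      + csum m (fun y => G y (Y i) (Y i)) cs (x + Pi.single i ((a + 2 : ℕ) : ℤ)) /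
        zz m F γ i cs x (a + 1) ^ 2 := by
    unfold vel
    rw [Q_two (fun p q => csum_congr (fun y => hGs y p q) cs _)]
    have eYX : csum m (fun y => G y (Y i) (X i)) cs (x + Pi.single i (a : ℤ)) =
        csum m (fun y => G y (Y i) (Y i)) cs (x + Pi.single i ((a + 1 : ℕ) : ℤ)) := by
      rw [csum_congr (fun y => hGs y (Y i) (X i))]
      exact csum_inv (G := fun y => G y (X i) (Y i)) (G' := fun y => G y (Y i) (Y i))
        (fun y => hG i y (Y i)) cs x a
    have eXX : csum m (fun y => G y (X i) (X i)) cs (x + Pi.single i (a : ℤ)) =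
        csum m (fun y => G y (Y i) (Y i)) cs (x + Pi.single i ((a + 2 : ℕ) : ℤ)) := by
      rw [csum_inv (G := fun y => G y (X i) (X i)) (G' := fun y => G y (Y i) (X i))
        (fun y => hG i y (X i)) cs x a]
      rw [csum_congr (fun y => hGs y (Y i) (X i))]
      exact csum_inv (G := fun y => G y (X i) (Y i)) (G' := fun y => G y (Y i) (Y i))
        (fun y => hG i y (Y i)) cs x (a + 1)
    rw [eYX, eXX]
    have p0 := (zz_pos (m := m) (γ := γ) hF i cs x a).ne'
    have p1 := (zz_pos (m := m) (γ := γ) hF i cs x (a + 1)).ne'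
    field_simp
  rw [h3] at h1
  have h4 : leaf m X Y F γ i cs x a (fun y v => Q (fun p q => G y p q) v v) =
      en m Y X (F1 Y F γ i) (fun y v => Q (fun p q => G y p q) v v) cs
        (x + Pi.single i (a : ℤ)) (vel m X Y F γ i cs x a) := rfl
  rw [h4]
  have e5 : ∀ A B : ℝ, -A / B = -(A / B) := fun A B => neg_div _ _
  rw [e5]
  linarith

/-- Cauchy-Schwarz over `a` and the leaves -/
theorem leaf_cs (hF : ∀ δ, 0 < F δ) (i : E) (cs : List E)
    (x : E → ℤ) (s : Finset ℕ) (t : ℕ → ℝ) (K : (E → ℤ) → (V → ℝ) → ℝ) (W : (E → ℤ) → ℝ)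
    (hW : ∀ y, 0 < W y) (D : (E → ℤ) → ℝ) :
    (∑ a ∈ s, t a * leaf m X Y F γ i cs x a (fun y v => K y v * D y)) ^ 2 ≤
      (∑ a ∈ s, t a ^ 2 * leaf m X Y F γ i cs x a (fun y v => K y v ^ 2 / W y)) *
      (∑ a ∈ s, csum m (fun y => W y * D y ^ 2) cs (x + Pi.single i (a : ℤ))) := by
  refine sq_le_of_disc fun u => ?_
  have h1 : ∀ a ∈ s, t a ^ 2 * leaf m X Y F γ i cs x a (fun y v => K y v ^ 2 / W y)
      - 2 * u * (t a * leaf m X Y F γ i cs x a (fun y v => K y v * D y))
      + u ^ 2 * csum m (fun y => W y * D y ^ 2) cs (x + Pi.single i (a : ℤ)) =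
      leaf m X Y F γ i cs x a (fun y v => W y * (t a * (K y v / W y) - u * D y) ^ 2) := by
    intro a _
    rw [← leaf_const (X := X) (Y := Y) (F := F) (γ := γ) i cs x a (fun y => W y * D y ^ 2)]
    have e0 : leaf m X Y F γ i cs x a
        (fun y v => W y * (t a * (K y v / W y) - u * D y) ^ 2) =
        leaf m X Y F γ i cs x a (fun y v => (t a ^ 2 * (K y v ^ 2 / W y)
          + (-(2 * u * t a)) * (K y v * D y)) + u ^ 2 * (W y * D y ^ 2)) := by
      congr 1
      funext y v
      have := (hW y).ne'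
      field_simp
      ring
    rw [e0, leaf_add, leaf_add, leaf_smul, leaf_smul, leaf_smul]
    ring
  rw [Finset.mul_sum, Finset.mul_sum, ← Finset.sum_sub_distrib, ← Finset.sum_add_distrib,
    Finset.sum_congr rfl h1]
  exact Finset.sum_nonneg fun a _ => leaf_nonneg i cs x a fun y v =>
    mul_nonneg (hW y).le (sq_nonneg _)

end Stage

end Crest.Agent.R302.T893
end

-- ▼ part R302/MSP893D
section

/-!
R302 (helper893): stage theorem, part 2: the energies `X_p`, their inequality, the increments of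
`r_a / z_a`, the variance bound and the crude tail.
-/

set_option autoImplicit false
set_option linter.unusedSectionVars false
set_option linter.unusedVariables false

namespace Crest.Agent.R302.T893

open Finset Lor
open Crest.Agent.R302.Tree (RTree)
open Crest.Agent.R302.Cut (cw ind dvec)

variable {V E : Type*} [Fintype V] [DecidableEq V] [DecidableEq E]

/-- the level functional of the cut `C_p` -/
noncomputable def lev (T : RTree V) (p : V) (δ : V → ℤ) : ℝ := ((∑ r ∈ T.desc p, δ r : ℤ) : ℝ)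

theorem lev_add (T : RTree V) (p : V) (δ δ' : V → ℤ) :
    lev T p (δ + δ') = lev T p δ + lev T p δ' := by
  unfold lev
  rw [← Int.cast_add, ← Finset.sum_add_distrib]
  rfl

theorem lev_ev (T : RTree V) (p q : V) : lev T p (ev q) = ind (T.desc p) q := by
  unfold lev ind ev
  rw [Finset.sum_pi_single']
  split_ifs <;> simp

theorem lev_add_ev (T : RTree V) (p q : V) (δ : V → ℤ) :
    lev T p (δ + ev q) = lev T p δ + ind (T.desc p) q := by
  rw [lev_add, lev_ev]

section Stage2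

variable {m : ℕ} {X Y : E → V} {F : (V → ℤ) → ℝ} {γ : (E → ℤ) → V → ℤ}

/-- flux through the tree edge below `p` -/
noncomputable def Kf (T : RTree V) (Y : E → V) (F : (V → ℤ) → ℝ) (γ : (E → ℤ) → V → ℤ) (i : E)
    (p : V) (y : E → ℤ) (v : V → ℝ) : ℝ := T.cut (fun q => v q * F1 Y F γ i y q) p

/-- energy of the flux -/
noncomputable def En (m : ℕ) (X Y : E → V) (F : (V → ℤ) → ℝ) (γ : (E → ℤ) → V → ℤ) (T : RTree V)
    (i : E) (cs : List E) (x : E → ℤ) (p : V) (a : ℕ) : ℝ :=
  leaf m X Y F γ i cs x a (fun y v => Kf T Y F γ i p y v ^ 2 / F1 Y F γ i y p)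

theorem En_nonneg (hF : ∀ δ, 0 < F δ) (T : RTree V) (i : E) (cs : List E) (x : E → ℤ) (p : V)
    (a : ℕ) : 0 ≤ En m X Y F γ T i cs x p a :=
  leaf_nonneg i cs x a fun y _ => div_nonneg (sq_nonneg _) (F1_pos hF i y p).le

/-- energy of the flux near the window boundary -/
noncomputable def EnT (m : ℕ) (X Y : E → V) (F : (V → ℤ) → ℝ) (γ : (E → ℤ) → V → ℤ) (T : RTree V)
    (L c : V → ℝ) (i : E) (cs : List E) (x : E → ℤ) (p : V) (a : ℕ) : ℝ :=
  leaf m X Y F γ i cs x a (fun y v =>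
    if |lev T p (γ y - ev (Y i)) + 1 - c p| ≤ L p - 1 then 0
    else Kf T Y F γ i p y v ^ 2 / F1 Y F γ i y p)

/-- the windowed two-token functional -/
noncomputable def G2 (Y : E → V) (F : (V → ℤ) → ℝ) (γ : (E → ℤ) → V → ℤ) (T : RTree V)
    (L c : V → ℝ) (i : E) (p : V) (y : E → ℤ) (q q' : V) : ℝ :=
  cw (L p) (c p) (lev T p (γ y - ev (Y i) + ev q + ev q')) *
    F (γ y - ev (Y i) - ev p + ev q + ev q')

/-- root functional `r_a` -/
noncomputable def rr (m : ℕ) (Y : E → V) (F : (V → ℤ) → ℝ) (γ : (E → ℤ) → V → ℤ) (T : RTree V)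
    (L c : V → ℝ) (i : E) (cs : List E) (x : E → ℤ) (p : V) (a : ℕ) : ℝ :=
  csum m (fun y => G2 Y F γ T L c i p y (Y i) (Y i)) cs (x + Pi.single i (a : ℤ))

variable (hF : ∀ δ, 0 < F δ) (hAF : ∀ δ, AF (fun p q => F (δ + ev p + ev q)))
  (hγ : ∀ y k, γ (y + Pi.single k 1) = γ y + ev (X k) - ev (Y k))
  {κ : ℝ} (hκ : ∀ δ p q, F (δ + ev p) ≤ κ * F (δ + ev q))
  (T : RTree V) {L c b s : V → ℝ} (hL : ∀ p, 1 ≤ L p)
  (hs0 : ∀ q, 0 ≤ s q)
  (hs : ∀ p, ∀ q ∈ T.desc p, q ≠ p → ∀ δ : V → ℤ,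
    -Q (fun a b => F (δ - ev p + ev a + ev b))
      (dvec (fun q => F (δ + ev q)) q (T.par q))
      (dvec (fun q => F (δ + ev q)) q (T.par q)) ≤ s q / F (δ + ev q))
  (hb0 : ∀ q, 0 ≤ b q)
  (hb : ∀ q, q ≠ T.root → ∀ δ : V → ℤ,
    |F (δ + ev q) - F (δ + ev (T.par q))| ≤ b q * F (δ + ev (T.par q)))

include hF hAF hγ hL hs0 hs in
/-- the energy inequality at fixed `a` -/
theorem En_le (i : E) (cs : List E) (x : E → ℤ) (p : V) (a : ℕ) :
    2 * En m X Y F γ T i cs x p a ≤
      (-(rr m Y F γ T L c i cs x p a) / zz m F γ i cs x a ^ 2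
        + 2 * rr m Y F γ T L c i cs x p (a + 1) /
          (zz m F γ i cs x a * zz m F γ i cs x (a + 1))
        - rr m Y F γ T L c i cs x p (a + 2) / zz m F γ i cs x (a + 1) ^ 2)
      + 6 * (Fintype.card V * ∑ q ∈ (T.desc p).erase p, s q * En m X Y F γ T i cs x q a)
      + (2 * L p + 2) * EnT m X Y F γ T L c i cs x p a := by
  have h1 : leaf m X Y F γ i cs x a (fun y v => 2 * (Kf T Y F γ i p y v ^ 2 / F1 Y F γ i y p)) ≤
      leaf m X Y F γ i cs x a (fun y v => ((- Q (fun q q' => G2 Y F γ T L c i p y q q') v v)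
        + 6 * (Fintype.card V * ∑ q ∈ (T.desc p).erase p,
            s q * (Kf T Y F γ i q y v ^ 2 / F1 Y F γ i y q)))
        + (2 * L p + 2) * (if |lev T p (γ y - ev (Y i)) + 1 - c p| ≤ L p - 1 then 0
            else Kf T Y F γ i p y v ^ 2 / F1 Y F γ i y p)) := by
    refine leaf_mono hF hγ i cs x a ?_
    intro y v hv
    have hA : ∀ q, F (γ y - ev (Y i) - ev p + ev p + ev q) = F1 Y F γ i y q := by
      intro q
      unfold F1
      congr 1
      abel
    have h := Cut.cut_lemma_cw T (A := fun q q' => F (γ y - ev (Y i) - ev p + ev q + ev q'))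
      (fun q q' => by show F _ = F _; congr 1; abel) (hAF _) p (fun q => hF _) v
      (by simp only [hA]; exact hv) (hL p) (c p) (lev T p (γ y - ev (Y i))) s hs0
      (fun q hq hqp => by
        have := hs p q hq hqp (γ y - ev (Y i))
        simp only [hA]
        exact this)
      (fun q q' => G2 Y F γ T L c i p y q q')
      (fun q q' => by simp only [G2, lev_add_ev])
    simp only [hA] at h
    unfold Kf
    have e : (2 * L p + 2) * (if |lev T p (γ y - ev (Y i)) + 1 - c p| ≤ L p - 1 then 0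
            else T.cut (fun q => v q * F1 Y F γ i y q) p ^ 2 / F1 Y F γ i y p) =
        (if |lev T p (γ y - ev (Y i)) + 1 - c p| ≤ L p - 1 then 0
            else (2 * L p + 2) *
              (T.cut (fun q => v q * F1 Y F γ i y q) p ^ 2 / F1 Y F γ i y p)) := by
      split_ifs
      · ring
      · ring
    rw [e]
    exact h
  have h2 := leaf_quad (m := m) (X := X) (Y := Y) (F := F) (γ := γ) hF hγ i cs x a
    (G := fun y q q' => G2 Y F γ T L c i p y q q')
    (fun y q q' => mul_nonneg (Cut.cw_pos (by linarith [hL p]) _ _).le (hF _).le)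
    (fun y q q' => by
      unfold G2
      rw [show γ y - ev (Y i) + ev q + ev q' = γ y - ev (Y i) + ev q' + ev q by abel,
        show γ y - ev (Y i) - ev p + ev q + ev q' = γ y - ev (Y i) - ev p + ev q' + ev q by abel])
    (fun k y q => by
      unfold G2
      rw [hγ, show γ y - ev (Y i) + ev (X k) + ev q =
          γ y + ev (X k) - ev (Y k) - ev (Y i) + ev (Y k) + ev q by abel,
        show γ y - ev (Y i) - ev p + ev (X k) + ev q =
          γ y + ev (X k) - ev (Y k) - ev (Y i) - ev p + ev (Y k) + ev q by abel])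
  rw [leaf_smul] at h1
  rw [leaf_add, leaf_add, leaf_smul, leaf_smul, leaf_smul, leaf_sum] at h1
  have h3 : ∀ q ∈ (T.desc p).erase p, leaf m X Y F γ i cs x a
      (fun y v => s q * (Kf T Y F γ i q y v ^ 2 / F1 Y F γ i y q)) =
      s q * En m X Y F γ T i cs x q a := fun q _ => leaf_smul _ _ _ _ _ _
  rw [Finset.sum_congr rfl h3] at h1
  have h4 : leaf m X Y F γ i cs x a (fun y v => Kf T Y F γ i p y v ^ 2 / F1 Y F γ i y p) =
    En m X Y F γ T i cs x p a := rfl
  have h5 : leaf m X Y F γ i cs x a (fun y v =>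
    if |lev T p (γ y - ev (Y i)) + 1 - c p| ≤ L p - 1 then 0
    else Kf T Y F γ i p y v ^ 2 / F1 Y F γ i y p) = EnT m X Y F γ T L c i cs x p a := rfl
  rw [h4, h5] at h1
  unfold rr
  linarith

theorem ind_par {q p : V} (hq : q ≠ T.root) (hqp : q ≠ p) :
    ind (T.desc p) q = ind (T.desc p) (T.par q) := by
  unfold ind
  by_cases h : q ∈ T.desc p
  · rw [if_pos h, if_pos (RTree.mem_desc_par h hqp)]
  · rw [if_neg h, if_neg (fun h' => h (RTree.mem_desc_of_par hq h'))]

theorem ind_par_self {p : V} (hp : p ≠ T.root) :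
    ind (T.desc p) p = 1 ∧ ind (T.desc p) (T.par p) = 0 := by
  unfold ind
  refine ⟨if_pos (RTree.self_mem_desc p), if_neg fun h => ?_⟩
  have h1 := (RTree.mem_desc.1 h).dep_le
  have h2 := T.dep_lt p hp
  omega

/-- increments of the test functional along a tree edge -/
theorem incr_le {w w' ρ' b κ U : ℝ} {f f' g g' : ℝ} (hf : 0 < f) (hf' : 0 < f') (hg : 0 < g)
    (hg' : 0 < g') (h1 : |f - f'| ≤ b * f') (h2 : |g - g'| ≤ b * g')
    (hb : 0 ≤ b) (h3 : f' ≤ κ * g') (h4 : g' ≤ κ * g) (hw0 : 0 ≤ w) (hwU : w ≤ U) :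
    |w * (f / g) - w' * (f' / g')| ≤ U * (2 * b * κ ^ 2) + κ * |w - w'| := by
  have hκ : 0 < κ := by
    by_contra hc
    push Not at hc
    have := mul_nonpos_of_nonpos_of_nonneg hc hg.le
    linarith
  have e : w * (f / g) - w' * (f' / g') = w * (f / g - f' / g') + (f' / g') * (w - w') := by ring
  have h5 : f' / g' ≤ κ := by rw [div_le_iff₀ hg']; exact h3
  have h6 : |f / g - f' / g'| ≤ 2 * b * κ ^ 2 := by
    have e2 : f / g - f' / g' = ((f - f') * g' - f' * (g - g')) / (g * g') := by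
      field_simp
      ring
    rw [e2, abs_div, abs_of_pos (mul_pos hg hg'), div_le_iff₀ (mul_pos hg hg')]
    calc |(f - f') * g' - f' * (g - g')| ≤ |(f - f') * g'| + |f' * (g - g')| := abs_sub _ _
      _ = |f - f'| * g' + f' * |g - g'| := by
          rw [abs_mul, abs_mul, abs_of_pos hg', abs_of_pos hf']
      _ ≤ (b * f') * g' + f' * (b * g') := by gcongr
      _ = 2 * b * (f' * g') := by ring
      _ ≤ 2 * b * ((κ * g') * (κ * g)) := by
          have : f' * g' ≤ (κ * g') * (κ * g) := mul_le_mul h3 h4 hg'.le (by positivity)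
          have hb' : 0 ≤ 2 * b := by positivity
          exact mul_le_mul_of_nonneg_left this hb'
      _ = 2 * b * κ ^ 2 * (g * g') := by ring
  rw [e]
  refine (abs_add_le _ _).trans (add_le_add ?_ ?_)
  · rw [abs_mul, abs_of_nonneg hw0]
    exact mul_le_mul hwU h6 (abs_nonneg _) (hw0.trans hwU)
  · rw [abs_mul, abs_of_pos (div_pos hf' hg')]
    exact mul_le_mul_of_nonneg_right h5 (abs_nonneg _)

include hF hγ hκ hL hb0 hb in
/-- the increments of `r_a / z_a` are controlled by the energies -/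
theorem rz_incr (hκ1 : 1 ≤ κ) (i : E) (cs : List E) (x : E → ℤ) (p : V) (a : ℕ) :
    (rr m Y F γ T L c i cs x p (a + 1) / zz m F γ i cs x (a + 1)
      - rr m Y F γ T L c i cs x p a / zz m F γ i cs x a) ^ 2 / zz m F γ i cs x a ≤
      Fintype.card V * κ * (2 * κ * L p ^ 2) ^ 2 *
        ∑ q ∈ univ.erase T.root, (2 * κ * b q + 1 / L q) ^ 2 * En m X Y F γ T i cs x q a := by
  set U : ℝ := 2 * κ * L p ^ 2 with hU
  set N : ℝ := (Fintype.card V : ℝ) with hN
  set G' : (E → ℤ) → V → ℝ := fun y q =>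
    cw (L p) (c p) (lev T p (γ y + ev q)) * F (γ y - ev p + ev q) with hG'
  have hinv : ∀ k y, G' y (X k) = G' (y + Pi.single k 1) (Y k) := by
    intro k y
    simp only [hG']
    rw [hγ, show γ y + ev (X k) - ev (Y k) + ev (Y k) = γ y + ev (X k) by abel,
      show γ y + ev (X k) - ev (Y k) - ev p + ev (Y k) = γ y - ev p + ev (X k) by abel]
  have hr : ∀ a' : ℕ, csum m (fun y => G' y (Y i)) cs (x + Pi.single i (a' : ℤ)) =
      rr m Y F γ T L c i cs x p a' := by
    intro a'
    unfold rr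
    refine csum_congr (fun y => ?_) _ _
    simp only [hG', G2]
    rw [show γ y - ev (Y i) + ev (Y i) + ev (Y i) = γ y + ev (Y i) by abel,
      show γ y - ev (Y i) - ev p + ev (Y i) + ev (Y i) = γ y - ev p + ev (Y i) by abel]
  have hlin := leaf_lin (m := m) (X := X) (Y := Y) (F := F) (γ := γ) hF hγ i cs x a (G := G')
    (fun k _ y => hinv k y)
  rw [hr a, csum_inv (G := fun y => G' y (X i)) (G' := fun y => G' y (Y i))
    (fun y => hinv i y) cs x a, hr (a + 1)] at hlin
  -- the increments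
  set H : (E → ℤ) → V → ℝ := fun y q =>
    cw (L p) (c p) (lev T p (γ y + ev q)) * (F (γ y - ev p + ev q) / F1 Y F γ i y q) with hH
  have hleaf : leaf m X Y F γ i cs x a (fun y v => ∑ q, v q * G' y q) =
      ∑ q ∈ univ.erase T.root,
        leaf m X Y F γ i cs x a (fun y v => Kf T Y F γ i q y v * (H y q - H y (T.par q))) := by
    rw [← leaf_sum]
    refine leaf_congr hF hγ i cs x a ?_
    intro y v hv
    have h1 : ∑ q, v q * G' y q = ∑ q, (v q * F1 Y F γ i y q) * H y q := by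
      refine Finset.sum_congr rfl fun q _ => ?_
      have := (F1_pos (Y := Y) (γ := γ) hF i y q).ne'
      simp only [hG', hH]
      field_simp
    rw [h1, RTree.sum_mul_eq' (T := T) hv]
    rfl
  -- bound of the increments of H
  have hinc : ∀ q ∈ univ.erase T.root, ∀ y, (H y q - H y (T.par q)) ^ 2 ≤
      ((2 * κ * b q + 1 / L q) * U) ^ 2 := by
    intro q hq y
    have hqr : q ≠ T.root := (Finset.mem_erase.1 hq).1
    have hLp : (0 : ℝ) < L p := by linarith [hL p]
    have hLq : (0 : ℝ) < L q := by linarith [hL q]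
    have hw : |cw (L p) (c p) (lev T p (γ y + ev q)) -
        cw (L p) (c p) (lev T p (γ y + ev (T.par q)))| ≤ 2 * L p ^ 2 * (1 / L q) := by
      by_cases hqp : q = p
      · subst hqp
        rw [lev_add_ev, lev_add_ev, (ind_par_self T hqr).1, (ind_par_self T hqr).2, add_zero]
        refine (Cut.cw_diff (hL q) _ _).trans (le_of_eq ?_)
        field_simp
      · rw [lev_add_ev, lev_add_ev, ind_par T hqr hqp, sub_self, abs_zero]
        positivity
    have h0 := incr_le (w := cw (L p) (c p) (lev T p (γ y + ev q)))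
      (w' := cw (L p) (c p) (lev T p (γ y + ev (T.par q)))) (ρ' := 0) (b := b q) (κ := κ)
      (U := 2 * L p ^ 2) (f := F (γ y - ev p + ev q)) (f' := F (γ y - ev p + ev (T.par q)))
      (g := F1 Y F γ i y q) (g' := F1 Y F γ i y (T.par q)) (hF _) (hF _) (F1_pos hF _ _ _)
      (F1_pos hF _ _ _) (hb q hqr _) (hb q hqr _) (hb0 q) ?_ ?_
      (Cut.cw_pos hLp _ _).le (Cut.cw_le _ _ _)
    · have h1 : |H y q - H y (T.par q)| ≤ (2 * κ * b q + 1 / L q) * U := by
        refine h0.trans ?_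
        calc 2 * L p ^ 2 * (2 * b q * κ ^ 2) + κ * |cw (L p) (c p) (lev T p (γ y + ev q)) -
              cw (L p) (c p) (lev T p (γ y + ev (T.par q)))|
            ≤ 2 * L p ^ 2 * (2 * b q * κ ^ 2) + κ * (2 * L p ^ 2 * (1 / L q)) := by
              gcongr
          _ = (2 * κ * b q + 1 / L q) * U := by rw [hU]; ring
      rw [← sq_abs]
      exact pow_le_pow_left₀ (abs_nonneg _) h1 2
    · -- F (γ y - ev p + ev par) ≤ κ * F1 par
      unfold F1
      have := hκ (γ y - ev p - ev (Y i) + ev (T.par q)) (Y i) p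
      rw [show γ y - ev p - ev (Y i) + ev (T.par q) + ev (Y i) = γ y - ev p + ev (T.par q) by abel,
        show γ y - ev p - ev (Y i) + ev (T.par q) + ev p = γ y - ev (Y i) + ev (T.par q) by abel]
        at this
      exact this
    · exact hκ _ _ _
  -- Cauchy-Schwarz for one a
  have hone : ∀ q ∈ univ.erase T.root,
      (leaf m X Y F γ i cs x a (fun y v => Kf T Y F γ i q y v * (H y q - H y (T.par q)))) ^ 2 ≤
      En m X Y F γ T i cs x q a * ((2 * κ * b q + 1 / L q) ^ 2 * U ^ 2 * (κ * zz m F γ i cs x a)) := by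
    intro q hq
    have h1 := leaf_cs (m := m) (X := X) (Y := Y) (F := F) (γ := γ) hF i cs x {a} (fun _ => 1)
      (fun y v => Kf T Y F γ i q y v) (fun y => F1 Y F γ i y q) (fun y => F1_pos hF i y q)
      (fun y => H y q - H y (T.par q))
    simp only [Finset.sum_singleton, one_mul, one_pow] at h1
    refine h1.trans ?_
    refine mul_le_mul_of_nonneg_left ?_ (En_nonneg hF T i cs x q a)
    calc csum m (fun y => F1 Y F γ i y q * (H y q - H y (T.par q)) ^ 2) cs
          (x + Pi.single i (a : ℤ))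
        ≤ csum m (fun y => ((2 * κ * b q + 1 / L q) ^ 2 * U ^ 2 * κ) * F (γ y)) cs
          (x + Pi.single i (a : ℤ)) := by
          refine csum_mono (fun y => ?_) _ _
          have h2 := hinc q hq y
          have h3 : F1 Y F γ i y q ≤ κ * F (γ y) := by
            rw [← F1_Y (Y := Y) (F := F) (γ := γ) i y]
            exact hκ _ _ _
          have h4 : 0 ≤ F1 Y F γ i y q := (F1_pos hF i y q).le
          calc F1 Y F γ i y q * (H y q - H y (T.par q)) ^ 2
              ≤ F1 Y F γ i y q * ((2 * κ * b q + 1 / L q) * U) ^ 2 :=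
                mul_le_mul_of_nonneg_left h2 h4
            _ ≤ (κ * F (γ y)) * ((2 * κ * b q + 1 / L q) * U) ^ 2 :=
                mul_le_mul_of_nonneg_right h3 (sq_nonneg _)
            _ = _ := by ring
      _ = (2 * κ * b q + 1 / L q) ^ 2 * U ^ 2 * (κ * zz m F γ i cs x a) := by
          rw [csum_smul]; unfold zz; ring
  have hz := zz_pos (m := m) (γ := γ) hF i cs x a
  have hz1 := zz_pos (m := m) (γ := γ) hF i cs x (a + 1)
  rw [div_le_iff₀ hz]
  have e1 : (rr m Y F γ T L c i cs x p (a + 1) / zz m F γ i cs x (a + 1)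
      - rr m Y F γ T L c i cs x p a / zz m F γ i cs x a) ^ 2 =
      (∑ q ∈ univ.erase T.root,
        leaf m X Y F γ i cs x a (fun y v => Kf T Y F γ i q y v * (H y q - H y (T.par q)))) ^ 2 := by
    rw [← hleaf, hlin]
    field_simp
    ring
  rw [e1]
  refine (sq_sum_le_card_mul_sum_sq).trans ?_
  have hcard : ((univ.erase T.root).card : ℝ) ≤ N := by
    rw [hN]
    exact_mod_cast Finset.card_le_univ _
  calc ((univ.erase T.root).card : ℝ) * ∑ q ∈ univ.erase T.root,
        (leaf m X Y F γ i cs x a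
          (fun y v => Kf T Y F γ i q y v * (H y q - H y (T.par q)))) ^ 2
      ≤ N * ∑ q ∈ univ.erase T.root, En m X Y F γ T i cs x q a *
          ((2 * κ * b q + 1 / L q) ^ 2 * U ^ 2 * (κ * zz m F γ i cs x a)) := by
        refine mul_le_mul hcard (Finset.sum_le_sum hone) (Finset.sum_nonneg fun _ _ => sq_nonneg _)
          (by rw [hN]; positivity)
    _ = N * κ * U ^ 2 * (∑ q ∈ univ.erase T.root,
          (2 * κ * b q + 1 / L q) ^ 2 * En m X Y F γ T i cs x q a) * zz m F γ i cs x a := by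
        rw [Finset.mul_sum, Finset.mul_sum, Finset.sum_mul]
        refine Finset.sum_congr rfl fun q _ => ?_
        ring

end Stage2

end Crest.Agent.R302.T893
end

-- ▼ part R302/MSP893E
section

/-!
R302 (helper893): stage theorem, part 3: summation over `a`.
-/

set_option autoImplicit false
set_option linter.unusedSectionVars false
set_option linter.unusedVariables false

namespace Crest.Agent.R302.T893

open Finset Lor
open Crest.Agent.R302.Tree (RTree)
open Crest.Agent.R302.Cut (cw ind dvec)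

variable {V E : Type*} [Fintype V] [DecidableEq V] [DecidableEq E]

section Stage3

variable {m : ℕ} {X Y : E → V} {F : (V → ℤ) → ℝ} {γ : (E → ℤ) → V → ℤ}

/-- conditional mean of `f` given content `a` of cell `i` -/
noncomputable def fb (m : ℕ) (F : (V → ℤ) → ℝ) (γ : (E → ℤ) → V → ℤ) (f : (E → ℤ) → ℝ) (i : E)
    (cs : List E) (x : E → ℤ) (a : ℕ) : ℝ :=
  csum m (fun y => F (γ y) * f y) cs (x + Pi.single i (a : ℤ)) / zz m F γ i cs x a

/-- weights `T_a` -/
noncomputable def Ta (m : ℕ) (F : (V → ℤ) → ℝ) (γ : (E → ℤ) → V → ℤ) (f : (E → ℤ) → ℝ) (i : E)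
    (cs : List E) (x : E → ℤ) (a : ℕ) : ℝ := OneD.T (zz m F γ i cs x) (fb m F γ f i cs x) m a

/-- stage variance -/
noncomputable def Va (m : ℕ) (F : (V → ℤ) → ℝ) (γ : (E → ℤ) → V → ℤ) (f : (E → ℤ) → ℝ) (i : E)
    (cs : List E) (x : E → ℤ) : ℝ := OneD.V (zz m F γ i cs x) (fb m F γ f i cs x) m

/-- summed energies -/
noncomputable def Xp (m : ℕ) (X Y : E → V) (F : (V → ℤ) → ℝ) (γ : (E → ℤ) → V → ℤ) (T : RTree V)
    (f : (E → ℤ) → ℝ) (i : E) (cs : List E) (x : E → ℤ) (p : V) : ℝ :=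
  ∑ a ∈ range m, Ta m F γ f i cs x a ^ 2 * En m X Y F γ T i cs x p a

/-- summed boundary energies -/
noncomputable def XpT (m : ℕ) (X Y : E → V) (F : (V → ℤ) → ℝ) (γ : (E → ℤ) → V → ℤ) (T : RTree V)
    (L c : V → ℝ) (f : (E → ℤ) → ℝ) (i : E) (cs : List E) (x : E → ℤ) (p : V) : ℝ :=
  ∑ a ∈ range m, Ta m F γ f i cs x a ^ 2 * EnT m X Y F γ T L c i cs x p a

/-- Dirichlet terms -/
noncomputable def Dp (m : ℕ) (Y : E → V) (F : (V → ℤ) → ℝ) (γ : (E → ℤ) → V → ℤ) (T : RTree V)
    (f : (E → ℤ) → ℝ) (R : V → E → ℤ) (i : E) (cs : List E) (x : E → ℤ) (p : V) : ℝ :=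
  ∑ a ∈ range m, csum m (fun y => F1 Y F γ i y p * (f (y + R p) - f (y + R (T.par p))) ^ 2) cs
    (x + Pi.single i (a : ℤ))

variable (hF : ∀ δ, 0 < F δ) (hAF : ∀ δ, AF (fun p q => F (δ + ev p + ev q)))
  (hγ : ∀ y k, γ (y + Pi.single k 1) = γ y + ev (X k) - ev (Y k))
  {κ : ℝ} (hκ1 : 1 ≤ κ) (hκ : ∀ δ p q, F (δ + ev p) ≤ κ * F (δ + ev q))
  (T : RTree V) {L c b s : V → ℝ} (hL : ∀ p, 1 ≤ L p)
  (hs0 : ∀ q, 0 ≤ s q)
  (hs : ∀ p, ∀ q ∈ T.desc p, q ≠ p → ∀ δ : V → ℤ,
    -Q (fun a b => F (δ - ev p + ev a + ev b))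
      (dvec (fun q => F (δ + ev q)) q (T.par q))
      (dvec (fun q => F (δ + ev q)) q (T.par q)) ≤ s q / F (δ + ev q))
  (hb0 : ∀ q, 0 ≤ b q)
  (hb : ∀ q, q ≠ T.root → ∀ δ : V → ℤ,
    |F (δ + ev q) - F (δ + ev (T.par q))| ≤ b q * F (δ + ev (T.par q)))

include hF in
theorem Va_nonneg (f : (E → ℤ) → ℝ) (i : E) (cs : List E) (x : E → ℤ) :
    0 ≤ Va m F γ f i cs x := OneD.V_nonneg fun a _ => zz_pos hF i cs x a

include hF in
theorem Xp_nonneg (f : (E → ℤ) → ℝ) (i : E) (cs : List E) (x : E → ℤ) (p : V) :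
    0 ≤ Xp m X Y F γ T f i cs x p :=
  Finset.sum_nonneg fun a _ => mul_nonneg (sq_nonneg _) (En_nonneg hF T i cs x p a)

include hF in
theorem EnT_nonneg (i : E) (cs : List E) (x : E → ℤ) (p : V) (a : ℕ) :
    0 ≤ EnT m X Y F γ T L c i cs x p a := by
  refine leaf_nonneg i cs x a fun y v => ?_
  split_ifs
  · exact le_rfl
  · exact div_nonneg (sq_nonneg _) (F1_pos hF i y p).le

include hF in
theorem XpT_nonneg (f : (E → ℤ) → ℝ) (i : E) (cs : List E) (x : E → ℤ) (p : V) :
    0 ≤ XpT m X Y F γ T L c f i cs x p :=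
  Finset.sum_nonneg fun a _ => mul_nonneg (sq_nonneg _) (EnT_nonneg hF T i cs x p a)

include hF in
theorem Dp_nonneg (f : (E → ℤ) → ℝ) (R : V → E → ℤ) (i : E) (cs : List E) (x : E → ℤ) (p : V) :
    0 ≤ Dp m Y F γ T f R i cs x p :=
  Finset.sum_nonneg fun a _ => csum_nonneg
    (fun y => mul_nonneg (F1_pos hF i y p).le (sq_nonneg _)) _ _

include hF hAF hγ hκ1 hκ hL hs0 hs hb0 hb in
/-- (h1) -/
theorem Xp_le (f : (E → ℤ) → ℝ) (i : E) (cs : List E) (x : E → ℤ) (p : V) :
    2 * Xp m X Y F γ T f i cs x p ≤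
      2 * κ * L p ^ 2 * Va m F γ f i cs x
      + 2 * (√(Va m F γ f i cs x) * √(Fintype.card V * κ * (2 * κ * L p ^ 2) ^ 2 *
          ∑ q ∈ univ.erase T.root, (2 * κ * b q + 1 / L q) ^ 2 * Xp m X Y F γ T f i cs x q))
      + 6 * (Fintype.card V * ∑ q ∈ (T.desc p).erase p, s q * Xp m X Y F γ T f i cs x q)
      + (2 * L p + 2) * XpT m X Y F γ T L c f i cs x p := by
  set t : ℕ → ℝ := Ta m F γ f i cs x with ht
  have hz : ∀ a, 0 < zz m F γ i cs x a := zz_pos hF i cs x
  have h1 : 2 * Xp m X Y F γ T f i cs x p ≤ ∑ a ∈ range m, t a ^ 2 *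
      (-(rr m Y F γ T L c i cs x p a) / zz m F γ i cs x a ^ 2
        + 2 * rr m Y F γ T L c i cs x p (a + 1) /
          (zz m F γ i cs x a * zz m F γ i cs x (a + 1))
        - rr m Y F γ T L c i cs x p (a + 2) / zz m F γ i cs x (a + 1) ^ 2)
      + 6 * (Fintype.card V * ∑ q ∈ (T.desc p).erase p, s q * Xp m X Y F γ T f i cs x q)
      + (2 * L p + 2) * XpT m X Y F γ T L c f i cs x p := by
    have h2 : ∀ a ∈ range m, 2 * (t a ^ 2 * En m X Y F γ T i cs x p a) ≤ t a ^ 2 *
      (-(rr m Y F γ T L c i cs x p a) / zz m F γ i cs x a ^ 2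
        + 2 * rr m Y F γ T L c i cs x p (a + 1) /
          (zz m F γ i cs x a * zz m F γ i cs x (a + 1))
        - rr m Y F γ T L c i cs x p (a + 2) / zz m F γ i cs x (a + 1) ^ 2)
      + 6 * (Fintype.card V * ∑ q ∈ (T.desc p).erase p,
          s q * (t a ^ 2 * En m X Y F γ T i cs x q a))
      + (2 * L p + 2) * (t a ^ 2 * EnT m X Y F γ T L c i cs x p a) := by
      intro a _
      have h3 := mul_le_mul_of_nonneg_left
        (En_le (m := m) (c := c) hF hAF hγ T hL hs0 hs i cs x p a) (sq_nonneg (t a))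
      have e : t a ^ 2 * (6 * (Fintype.card V * ∑ q ∈ (T.desc p).erase p,
          s q * En m X Y F γ T i cs x q a)) = 6 * (Fintype.card V * ∑ q ∈ (T.desc p).erase p,
          s q * (t a ^ 2 * En m X Y F γ T i cs x q a)) := by
        have : ∑ q ∈ (T.desc p).erase p, s q * (t a ^ 2 * En m X Y F γ T i cs x q a) =
          t a ^ 2 * ∑ q ∈ (T.desc p).erase p, s q * En m X Y F γ T i cs x q a := by
          rw [Finset.mul_sum]
          exact Finset.sum_congr rfl fun q _ => by ring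
        rw [this]; ring
      have e2 : t a ^ 2 * ((2 * L p + 2) * EnT m X Y F γ T L c i cs x p a) =
        (2 * L p + 2) * (t a ^ 2 * EnT m X Y F γ T L c i cs x p a) := by ring
      rw [mul_add, mul_add, e, e2] at h3
      linarith
    have h4 := Finset.sum_le_sum h2
    rw [Finset.sum_add_distrib, Finset.sum_add_distrib, ← Finset.mul_sum, ← Finset.mul_sum,
      ← Finset.mul_sum, ← Finset.mul_sum, Finset.sum_comm] at h4
    have e3 : ∑ q ∈ (T.desc p).erase p, ∑ a ∈ range m, s q * (t a ^ 2 * En m X Y F γ T i cs x q a) =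
        ∑ q ∈ (T.desc p).erase p, s q * Xp m X Y F γ T f i cs x q :=
      Finset.sum_congr rfl fun q _ => by rw [← Finset.mul_sum]; rfl
    rw [e3] at h4
    exact h4
  have hrU : ∀ a, rr m Y F γ T L c i cs x p a ≤ 2 * κ * L p ^ 2 * zz m F γ i cs x a := by
    intro a
    unfold rr zz
    rw [← csum_smul]
    refine csum_mono (fun y => ?_) _ _
    unfold G2
    have h5 := Cut.cw_le (L p) (c p) (lev T p (γ y - ev (Y i) + ev (Y i) + ev (Y i)))
    have h6 : F (γ y - ev (Y i) - ev p + ev (Y i) + ev (Y i)) ≤ κ * F (γ y) := by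
      have := hκ (γ y - ev p) (Y i) p
      rw [show γ y - ev (Y i) - ev p + ev (Y i) + ev (Y i) = γ y - ev p + ev (Y i) by abel]
      rwa [show γ y - ev p + ev p = γ y by abel] at this
    calc _ ≤ 2 * L p ^ 2 * (κ * F (γ y)) :=
          mul_le_mul h5 h6 (hF _).le (by positivity)
      _ = _ := by ring
  have hr0 : ∀ a, 0 ≤ rr m Y F γ T L c i cs x p a := fun a =>
    csum_nonneg (fun y => mul_nonneg (Cut.cw_pos (by linarith [hL p]) _ _).le (hF _).le) _ _
  have h7 := OneD.one_d' (F := fb m F γ f i cs x) (m := m) (z := zz m F γ i cs x)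
    (r := rr m Y F γ T L c i cs x p)
    (U := 2 * κ * L p ^ 2) (fun a _ => hz a) (fun a _ => hr0 a) (fun a _ => hrU a)
  have h8 : ∑ a ∈ range m, OneD.T (zz m F γ i cs x) (fb m F γ f i cs x) m a ^ 2 *
      (rr m Y F γ T L c i cs x p (a + 1) / zz m F γ i cs x (a + 1) -
        rr m Y F γ T L c i cs x p a / zz m F γ i cs x a) ^ 2 / zz m F γ i cs x a ≤
      Fintype.card V * κ * (2 * κ * L p ^ 2) ^ 2 *
          ∑ q ∈ univ.erase T.root, (2 * κ * b q + 1 / L q) ^ 2 * Xp m X Y F γ T f i cs x q := by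
    have h9 : ∀ a ∈ range m, OneD.T (zz m F γ i cs x) (fb m F γ f i cs x) m a ^ 2 *
      (rr m Y F γ T L c i cs x p (a + 1) / zz m F γ i cs x (a + 1) -
        rr m Y F γ T L c i cs x p a / zz m F γ i cs x a) ^ 2 / zz m F γ i cs x a ≤
      Fintype.card V * κ * (2 * κ * L p ^ 2) ^ 2 *
          ∑ q ∈ univ.erase T.root, (2 * κ * b q + 1 / L q) ^ 2 *
            (t a ^ 2 * En m X Y F γ T i cs x q a) := by
      intro a _
      rw [mul_div_assoc]
      refine (mul_le_mul_of_nonneg_left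
        (rz_incr (m := m) (c := c) (x := x) (cs := cs) (i := i) hF hγ hκ T hL hb0 hb hκ1 p a)
        (sq_nonneg _)).trans (le_of_eq ?_)
      have : ∑ q ∈ univ.erase T.root, (2 * κ * b q + 1 / L q) ^ 2 *
            (t a ^ 2 * En m X Y F γ T i cs x q a) = t a ^ 2 * ∑ q ∈ univ.erase T.root,
            (2 * κ * b q + 1 / L q) ^ 2 * En m X Y F γ T i cs x q a := by
        rw [Finset.mul_sum]
        exact Finset.sum_congr rfl fun q _ => by ring
      rw [this, ht]
      unfold Ta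
      ring
    refine (Finset.sum_le_sum h9).trans (le_of_eq ?_)
    rw [← Finset.mul_sum, Finset.sum_comm]
    congr 1
    refine Finset.sum_congr rfl fun q _ => ?_
    rw [← Finset.mul_sum]
    rfl
  have h10 := Real.sqrt_le_sqrt h8
  have h11 := mul_le_mul_of_nonneg_left h10 (Real.sqrt_nonneg (Va m F γ f i cs x))
  have h12 : ∑ a ∈ range m, t a ^ 2 *
      (-(rr m Y F γ T L c i cs x p a) / zz m F γ i cs x a ^ 2
        + 2 * rr m Y F γ T L c i cs x p (a + 1) /
          (zz m F γ i cs x a * zz m F γ i cs x (a + 1))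
        - rr m Y F γ T L c i cs x p (a + 2) / zz m F γ i cs x (a + 1) ^ 2) ≤
      2 * κ * L p ^ 2 * Va m F γ f i cs x
      + 2 * (√(Va m F γ f i cs x) * √(∑ a ∈ range m,
        OneD.T (zz m F γ i cs x) (fb m F γ f i cs x) m a ^ 2 *
      (rr m Y F γ T L c i cs x p (a + 1) / zz m F γ i cs x (a + 1) -
        rr m Y F γ T L c i cs x p a / zz m F γ i cs x a) ^ 2 / zz m F γ i cs x a)) := h7
  linarith

include hF hγ in
/-- (h4) -/
theorem Va_le (f : (E → ℤ) → ℝ) (R : V → E → ℤ) (i : E) (cs : List E) (x : E → ℤ)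
    (hRi : R (Y i) = 0) (hRi' : R (X i) = Pi.single i 1)
    (hR : ∀ k ∈ cs, R (X k) = R (Y k) + Pi.single k 1) :
    Va m F γ f i cs x ≤ ∑ p ∈ univ.erase T.root,
      √(Xp m X Y F γ T f i cs x p * Dp m Y F γ T f R i cs x p) := by
  have hz : ∀ a, 0 < zz m F γ i cs x a := zz_pos hF i cs x
  have h1 : Va m F γ f i cs x = ∑ a ∈ range m, Ta m F γ f i cs x a *
      (fb m F γ f i cs x a - fb m F γ f i cs x (a + 1)) := OneD.V_eq fun a _ => hz a
  have h2 : ∀ a, fb m F γ f i cs x a - fb m F γ f i cs x (a + 1) =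
      ∑ p ∈ univ.erase T.root, leaf m X Y F γ i cs x a
        (fun y v => Kf T Y F γ i p y v * (f (y + R p) - f (y + R (T.par p)))) := by
    intro a
    have h3 := leaf_lin (m := m) (X := X) (Y := Y) (F := F) (γ := γ) hF hγ i cs x a
      (G := fun y q => F1 Y F γ i y q * f (y + R q)) ?_
    · have e1 : csum m (fun y => F1 Y F γ i y (Y i) * f (y + R (Y i))) cs
          (x + Pi.single i (a : ℤ)) = csum m (fun y => F (γ y) * f y) cs
          (x + Pi.single i (a : ℤ)) :=
        csum_congr (fun y => by rw [F1_Y, hRi, add_zero]) _ _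
      have e2 : csum m (fun y => F1 Y F γ i y (X i) * f (y + R (X i))) cs
          (x + Pi.single i (a : ℤ)) = csum m (fun y => F (γ y) * f y) cs
          (x + Pi.single i ((a + 1 : ℕ) : ℤ)) := by
        exact csum_inv (G := fun y => F1 Y F γ i y (X i) * f (y + R (X i)))
          (G' := fun y => F (γ y) * f y) (fun y => by rw [F1_X hγ, hRi']) cs x a
      simp only [e1, e2] at h3
      have e3 : fb m F γ f i cs x a - fb m F γ f i cs x (a + 1) =
          leaf m X Y F γ i cs x a (fun y v => ∑ p, v p * (F1 Y F γ i y p * f (y + R p))) := by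
        rw [h3]
        unfold fb
        rw [div_eq_inv_mul, div_eq_inv_mul]
      rw [e3, ← leaf_sum]
      refine leaf_congr hF hγ i cs x a ?_
      intro y v hv
      have h4 : ∑ p, v p * (F1 Y F γ i y p * f (y + R p)) =
          ∑ p, (v p * F1 Y F γ i y p) * f (y + R p) :=
        Finset.sum_congr rfl fun p _ => by ring
      rw [h4, RTree.sum_mul_eq' (T := T) hv]
      rfl
    · intro k hk y
      show F1 Y F γ i y (X k) * f (y + R (X k)) =
        F1 Y F γ i (y + Pi.single k 1) (Y k) * f (y + Pi.single k 1 + R (Y k))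
      rw [F1_inv hγ, hR k hk]
      congr 2
      abel
  rw [h1]
  have h5 : ∑ a ∈ range m, Ta m F γ f i cs x a *
      (fb m F γ f i cs x a - fb m F γ f i cs x (a + 1)) =
      ∑ p ∈ univ.erase T.root, ∑ a ∈ range m, Ta m F γ f i cs x a *
        leaf m X Y F γ i cs x a
        (fun y v => Kf T Y F γ i p y v * (f (y + R p) - f (y + R (T.par p)))) := by
    rw [Finset.sum_comm]
    refine Finset.sum_congr rfl fun a _ => ?_
    rw [h2 a, Finset.mul_sum]
  rw [h5]
  refine Finset.sum_le_sum fun p _ => ?_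
  refine Real.le_sqrt_of_sq_le ?_
  exact leaf_cs hF i cs x (range m) (Ta m F γ f i cs x) (fun y v => Kf T Y F γ i p y v)
    (fun y => F1 Y F γ i y p) (fun y => F1_pos hF i y p)
    (fun y => f (y + R p) - f (y + R (T.par p)))

/-- tail functional -/
noncomputable def tl (F : (V → ℤ) → ℝ) (γ : (E → ℤ) → V → ℤ) (T : RTree V) (L c : V → ℝ)
    (p : V) (y : E → ℤ) : ℝ := if |lev T p (γ y) - c p| ≤ L p - 2 then 0 else F (γ y)

theorem tl_nonneg (hF : ∀ δ, 0 < F δ) (p : V) (y : E → ℤ) : 0 ≤ tl F γ T L c p y := by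
  unfold tl
  split_ifs
  · exact le_rfl
  · exact (hF _).le

theorem ind_bd (C : Finset V) (q : V) : 0 ≤ ind C q ∧ ind C q ≤ 1 := by
  unfold ind
  split_ifs <;> norm_num

include hF hAF hγ hκ1 hκ in
/-- crude bound of the boundary energies -/
theorem XpT_le (f : (E → ℤ) → ℝ) {A : ℝ} (hf : ∀ y, |f y| ≤ A) (i : E) (cs : List E) (x : E → ℤ)
    (p : V) :
    XpT m X Y F γ T L c f i cs x p ≤ 4 * A ^ 2 * (m + 1) ^ 2 * (1 + κ) ^ 2 * κ ^ 3 *
      ((1 + 2 * κ * (m + 1)) ^ cs.length) ^ 2 *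
      ∑ a ∈ range m, csum m (fun y => tl F γ T L c p y) cs (x + Pi.single i (a : ℤ)) := by
  have hz : ∀ a, 0 < zz m F γ i cs x a := zz_pos hF i cs x
  have hκ0 : 0 ≤ κ := by linarith
  have hlc : ∀ a : ℕ, zz m F γ i cs x a * zz m F γ i cs x (a + 2) ≤ zz m F γ i cs x (a + 1) ^ 2 := by
    intro a
    have h := csum_lc (m := m) hF hAF hγ 0 cs i (x + Pi.single i (a : ℤ))
    simp only [add_zero] at h
    rw [show x + Pi.single i (a : ℤ) + Pi.single i 1 = x + Pi.single i ((a + 1 : ℕ) : ℤ) by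
        rw [single_succ, add_assoc]] at h
    rwa [show x + Pi.single i ((a + 1 : ℕ) : ℤ) + Pi.single i 1 =
        x + Pi.single i ((a + 2 : ℕ) : ℤ) by
        rw [show a + 2 = (a + 1) + 1 from rfl, single_succ i (a + 1), add_assoc]] at h
  have hfb : ∀ a, |fb m F γ f i cs x a| ≤ A := by
    intro a
    unfold fb
    rw [abs_div, abs_of_pos (hz a), div_le_iff₀ (hz a), abs_le]
    constructor
    · rw [← neg_mul]
      unfold zz
      rw [← csum_smul]
      refine csum_mono (fun y => ?_) _ _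
      have := (abs_le.1 (hf y)).1
      nlinarith [hF (γ y)]
    · unfold zz
      rw [← csum_smul]
      refine csum_mono (fun y => ?_) _ _
      have := (abs_le.1 (hf y)).2
      nlinarith [hF (γ y)]
  have hzz : ∀ a, zz m F γ i cs x a ≤ κ * zz m F γ i cs x (a + 1) := by
    intro a
    have e1 : csum m (fun y => F1 Y F γ i y (X i)) cs (x + Pi.single i (a : ℤ)) =
        zz m F γ i cs x (a + 1) := by
      unfold zz
      exact csum_inv (G := fun y => F1 Y F γ i y (X i)) (G' := fun y => F (γ y))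
        (fun y => F1_X hγ i y) cs x a
    rw [← e1, ← csum_smul]
    unfold zz
    refine csum_mono (fun y => ?_) _ _
    rw [← F1_Y (Y := Y) (F := F) (γ := γ) i y]
    exact hκ _ _ _
  have hnv : ∀ a, nrm (vel m X Y F γ i cs x a) ≤ (1 + κ) / zz m F γ i cs x a := by
    intro a
    unfold nrm vel
    calc ∑ q, |((zz m F γ i cs x a)⁻¹ • uv (Y i) - (zz m F γ i cs x (a + 1))⁻¹ • uv (X i)) q|
        ≤ ∑ q, ((zz m F γ i cs x a)⁻¹ * uv (Y i) q + (zz m F γ i cs x (a + 1))⁻¹ * uv (X i) q) := by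
          refine Finset.sum_le_sum fun q _ => ?_
          simp only [Pi.sub_apply, Pi.smul_apply, smul_eq_mul]
          refine (abs_sub _ _).trans (le_of_eq ?_)
          have h1 : 0 ≤ uv (Y i) q := by unfold uv; split_ifs <;> norm_num
          have h2 : 0 ≤ uv (X i) q := by unfold uv; split_ifs <;> norm_num
          rw [abs_of_nonneg (mul_nonneg (inv_nonneg.2 (hz a).le) h1),
            abs_of_nonneg (mul_nonneg (inv_nonneg.2 (hz (a + 1)).le) h2)]
      _ = (zz m F γ i cs x a)⁻¹ + (zz m F γ i cs x (a + 1))⁻¹ := by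
          rw [Finset.sum_add_distrib, ← Finset.mul_sum, ← Finset.mul_sum]
          simp [uv]
      _ ≤ (1 + κ) / zz m F γ i cs x a := by
          rw [add_div, one_div]
          refine add_le_add le_rfl ?_
          rw [inv_eq_one_div, div_le_div_iff₀ (hz _) (hz _), one_mul]
          exact hzz a
  have hEnT : ∀ a, EnT m X Y F γ T L c i cs x p a ≤
      ((1 + 2 * κ * (m + 1)) ^ cs.length * ((1 + κ) / zz m F γ i cs x a)) ^ 2 *
        (κ ^ 3 * csum m (fun y => tl F γ T L c p y) cs (x + Pi.single i (a : ℤ))) := by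
    intro a
    have h1 : EnT m X Y F γ T L c i cs x p a ≤
        leaf m X Y F γ i cs x a (fun y v => nrm v ^ 2 * (κ ^ 3 * tl F γ T L c p y)) := by
      refine leaf_mono hF hγ i cs x a ?_
      intro y v hv
      have hpos1 := F1_pos (Y := Y) (γ := γ) hF i y p
      have hK : Kf T Y F γ i p y v ^ 2 / F1 Y F γ i y p ≤ nrm v ^ 2 * (κ ^ 2 * F1 Y F γ i y p) := by
        rw [div_le_iff₀ hpos1]
        have h2 : |Kf T Y F γ i p y v| ≤ nrm v * (κ * F1 Y F γ i y p) := by
          unfold Kf RTree.cut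
          refine (Finset.abs_sum_le_sum_abs _ _).trans ?_
          calc ∑ q ∈ T.desc p, |v q * F1 Y F γ i y q|
              ≤ ∑ q ∈ T.desc p, |v q| * (κ * F1 Y F γ i y p) := by
                refine Finset.sum_le_sum fun q _ => ?_
                rw [abs_mul, abs_of_pos (F1_pos hF i y q)]
                exact mul_le_mul_of_nonneg_left (hκ _ _ _) (abs_nonneg _)
            _ ≤ ∑ q, |v q| * (κ * F1 Y F γ i y p) :=
                Finset.sum_le_sum_of_subset_of_nonneg (Finset.subset_univ _) fun q _ _ =>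
                  mul_nonneg (abs_nonneg _) (mul_nonneg hκ0 hpos1.le)
            _ = nrm v * (κ * F1 Y F γ i y p) := by rw [← Finset.sum_mul]; rfl
        calc Kf T Y F γ i p y v ^ 2 = |Kf T Y F γ i p y v| ^ 2 := (sq_abs _).symm
          _ ≤ (nrm v * (κ * F1 Y F γ i y p)) ^ 2 := pow_le_pow_left₀ (abs_nonneg _) h2 2
          _ = _ := by ring
      by_cases hin : |lev T p (γ y - ev (Y i)) + 1 - c p| ≤ L p - 1
      · rw [if_pos hin]
        exact mul_nonneg (sq_nonneg _) (mul_nonneg (by positivity) (tl_nonneg T hF p y))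
      · rw [if_neg hin]
        have hout : ¬ (|lev T p (γ y) - c p| ≤ L p - 2) := by
          intro h3
          apply hin
          have h4 : lev T p (γ y) = lev T p (γ y - ev (Y i)) + ind (T.desc p) (Y i) := by
            rw [← lev_add_ev]
            congr 1
            abel
          have h5 := ind_bd (T.desc p) (Y i)
          rw [h4] at h3
          rw [abs_le] at h3 ⊢
          constructor
          · linarith [h3.1, h5.1]
          · linarith [h3.2, h5.2]
        unfold tl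
        rw [if_neg hout]
        refine hK.trans (mul_le_mul_of_nonneg_left ?_ (sq_nonneg _))
        have h6 : F1 Y F γ i y p ≤ κ * F (γ y) := by
          rw [← F1_Y (Y := Y) (F := F) (γ := γ) i y]
          exact hκ _ _ _
        calc κ ^ 2 * F1 Y F γ i y p ≤ κ ^ 2 * (κ * F (γ y)) :=
              mul_le_mul_of_nonneg_left h6 (by positivity)
          _ = κ ^ 3 * F (γ y) := by ring
    refine h1.trans ?_
    have h7 := en_crude (m := m) (X := X) (Y := Y) (F := F1 Y F γ i) (κ := κ)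
      (fun y q => F1_pos hF i y q)
      (fun y q q' => hκ _ _ _) (fun k y => F1_inv hγ i k y)
      (fun cs k x => by
        have h := csum_lc (m := m) hF hAF hγ (- ev (Y i) + ev (Y k)) cs k x
        have e : ∀ y, F (γ y + (-ev (Y i) + ev (Y k))) = F1 Y F γ i y (Y k) := fun y => by
          unfold F1
          congr 1
          abel
        simpa only [e] using h)
      (G := fun y => κ ^ 3 * tl F γ T L c p y)
      (fun y => mul_nonneg (by positivity) (tl_nonneg T hF p y)) cs (x + Pi.single i (a : ℤ))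
      (vel m X Y F γ i cs x a) (bal_vel hF hγ i cs x a)
    unfold leaf
    refine h7.trans ?_
    rw [csum_smul]
    refine mul_le_mul_of_nonneg_right ?_ (mul_nonneg (by positivity)
      (csum_nonneg (fun y => tl_nonneg T hF p y) _ _))
    refine pow_le_pow_left₀ (mul_nonneg (by positivity) (nrm_nonneg _)) ?_ 2
    exact mul_le_mul_of_nonneg_left (hnv a) (by positivity)
  unfold XpT
  rw [Finset.mul_sum]
  refine Finset.sum_le_sum fun a ha => ?_
  have hT : Ta m F γ f i cs x a ^ 2 ≤ 4 * A ^ 2 * (m + 1) ^ 2 * zz m F γ i cs x a ^ 2 :=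
    OneD.T_sq_le (fun a _ => hz a) (fun a _ => hlc a) (fun a _ => hfb a)
      (Finset.mem_range.1 ha).le
  refine (mul_le_mul hT (hEnT a) (EnT_nonneg hF T i cs x p a) (by positivity)).trans (le_of_eq ?_)
  have := (hz a).ne'
  field_simp

end Stage3

end Crest.Agent.R302.T893
end

-- ▼ part R302/Clo550
section

/-!
R302 (helper550): the CLOSURE in the exact form asked for by helper893 (#7732).
-/

set_option autoImplicit false

namespace Crest.Agent.R302.Close

open Finset

/-- **CLOSURE** (helper893's form). -/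
theorem clo {V : Type*} [Fintype V] (P : Finset V) (below : V → Finset V)
    (X L s B D Tl : V → ℝ) (V0 kap PP : ℝ)
    (hX : ∀ p, 0 ≤ X p) (hL : ∀ p, 1 ≤ L p) (hs : ∀ p, 0 ≤ s p) (hD : ∀ p, 0 ≤ D p)
    (hTl : ∀ p, 0 ≤ Tl p) (hV0 : 0 ≤ V0) (hkap : 1 ≤ kap) (hPP : 0 ≤ PP)
    (hbelow : ∀ p ∈ P, below p ⊆ P)
    (h1 : ∀ p ∈ P, 2 * X p ≤ 2 * kap * L p ^ 2 * V0
      + 2 * (Real.sqrt V0 * Real.sqrt (Fintype.card V * kap * (2 * kap * L p ^ 2) ^ 2
          * ∑ q ∈ P, B q ^ 2 * X q))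
      + 6 * (Fintype.card V * ∑ q ∈ below p, s q * X q) + (2 * L p + 2) * Tl p)
    (h2 : ∀ p ∈ P, 6 * (Fintype.card V * ∑ q ∈ below p, s q * L q ^ 2) ≤ L p ^ 2)
    (h3 : ∑ q ∈ P, B q ^ 2 * L q ^ 2 ≤ PP)
    (h4 : V0 ≤ ∑ p ∈ P, Real.sqrt (X p * D p)) :
    V0 ≤ (Fintype.card V * (4 * kap + 16 * Fintype.card V * kap ^ 3 * PP))
        * (∑ p ∈ P, L p ^ 2 * D p) + 2 * ∑ p ∈ P, Tl p / L p := by
  classical
  have hN0 : (0 : ℝ) ≤ (Fintype.card V : ℝ) := by positivity
  have hcard : (P.card : ℝ) ≤ Fintype.card V := by exact_mod_cast card_le_univ P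
  generalize hN : (Fintype.card V : ℝ) = N at *
  have hL0 : ∀ p, 0 < L p := fun p => lt_of_lt_of_le one_pos (hL p)
  have hτ0 : 0 ≤ ∑ p ∈ P, Tl p / L p := sum_nonneg fun p _ => div_nonneg (hTl p) (hL0 p).le
  have hW0 : 0 ≤ ∑ p ∈ P, L p ^ 2 * D p :=
    sum_nonneg fun p _ => mul_nonneg (sq_nonneg _) (hD p)
  rcases P.eq_empty_or_nonempty with he | hne
  · rw [he, sum_empty] at h4
    have : 0 ≤ (N * (4 * kap + 16 * N * kap ^ 3 * PP)) * (∑ p ∈ P, L p ^ 2 * D p) := by
      positivity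
    linarith
  set τ := ∑ p ∈ P, Tl p / L p with hτ
  set W := ∑ p ∈ P, L p ^ 2 * D p with hW
  obtain ⟨p, hpP, hp⟩ := exists_max_image P (fun p => X p / L p ^ 2) hne
  set x := X p / L p ^ 2 with hx
  have hmax : ∀ q ∈ P, X q ≤ L q ^ 2 * x := by
    intro q hq
    have := hp q hq
    rw [div_le_iff₀ (pow_pos (hL0 q) 2)] at this
    linarith
  have hx0 : 0 ≤ x := div_nonneg (hX p) (by positivity)
  have hLp : 0 < L p ^ 2 := pow_pos (hL0 p) 2
  have hXp : X p = L p ^ 2 * x := by
    rw [hx, mul_div_cancel₀ _ hLp.ne']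
  have hsum1 : ∑ q ∈ P, B q ^ 2 * X q ≤ PP * x := by
    calc ∑ q ∈ P, B q ^ 2 * X q ≤ ∑ q ∈ P, (B q ^ 2 * L q ^ 2) * x := by
          refine sum_le_sum fun q hq => ?_
          have := mul_le_mul_of_nonneg_left (hmax q hq) (sq_nonneg (B q))
          linarith
      _ = (∑ q ∈ P, B q ^ 2 * L q ^ 2) * x := by rw [sum_mul]
      _ ≤ PP * x := mul_le_mul_of_nonneg_right h3 hx0
  have hsum2 : 6 * (N * ∑ q ∈ below p, s q * X q) ≤ L p ^ 2 * x := by
    have h5 : ∑ q ∈ below p, s q * X q ≤ (∑ q ∈ below p, s q * L q ^ 2) * x := by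
      rw [sum_mul]
      refine sum_le_sum fun q hq => ?_
      have := mul_le_mul_of_nonneg_left (hmax q (hbelow p hpP hq)) (hs q)
      linarith
    have h6 := mul_le_mul_of_nonneg_left h5 hN0
    have h7 := mul_le_mul_of_nonneg_right (h2 p hpP) hx0
    linarith
  have hroot : 2 * (Real.sqrt V0 * Real.sqrt (N * kap * (2 * kap * L p ^ 2) ^ 2
      * ∑ q ∈ P, B q ^ 2 * X q)) ≤ L p ^ 2 * (x / 2 + 8 * N * kap ^ 3 * PP * V0) := by
    have h6 : N * kap * (2 * kap * L p ^ 2) ^ 2 * ∑ q ∈ P, B q ^ 2 * X q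
        ≤ N * kap * (2 * kap * L p ^ 2) ^ 2 * (PP * x) :=
      mul_le_mul_of_nonneg_left hsum1 (by positivity)
    have h7 : Real.sqrt V0 * Real.sqrt (N * kap * (2 * kap * L p ^ 2) ^ 2
        * ∑ q ∈ P, B q ^ 2 * X q)
        ≤ Real.sqrt (V0 * (N * kap * (2 * kap * L p ^ 2) ^ 2 * (PP * x))) := by
      rw [← Real.sqrt_mul hV0]
      exact Real.sqrt_le_sqrt (mul_le_mul_of_nonneg_left h6 hV0)
    have h8 : Real.sqrt (V0 * (N * kap * (2 * kap * L p ^ 2) ^ 2 * (PP * x)))
        ≤ L p ^ 2 * (x / 4 + 4 * N * kap ^ 3 * PP * V0) := by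
      refine Real.sqrt_le_iff.2 ⟨by positivity, ?_⟩
      have h9 : 0 ≤ (x / 4 - 4 * N * kap ^ 3 * PP * V0) ^ 2 := sq_nonneg _
      have h10 : 4 * N * kap ^ 3 * PP * V0 * x ≤ (x / 4 + 4 * N * kap ^ 3 * PP * V0) ^ 2 := by
        nlinarith
      have h11 := mul_le_mul_of_nonneg_left h10 (by positivity : (0:ℝ) ≤ L p ^ 4)
      calc V0 * (N * kap * (2 * kap * L p ^ 2) ^ 2 * (PP * x))
          = L p ^ 4 * (4 * N * kap ^ 3 * PP * V0 * x) := by ring
        _ ≤ L p ^ 4 * (x / 4 + 4 * N * kap ^ 3 * PP * V0) ^ 2 := h11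
        _ = (L p ^ 2 * (x / 4 + 4 * N * kap ^ 3 * PP * V0)) ^ 2 := by ring
    nlinarith
  have htail : (2 * L p + 2) * Tl p ≤ L p ^ 2 * (4 * τ) := by
    have h9 : Tl p / L p ≤ τ :=
      single_le_sum (f := fun p => Tl p / L p) (fun q _ => div_nonneg (hTl q) (hL0 q).le) hpP
    have h10 : Tl p ≤ τ * L p := by rwa [div_le_iff₀ (hL0 p)] at h9
    have h11 : 2 * L p + 2 ≤ 4 * L p := by linarith [hL p]
    calc (2 * L p + 2) * Tl p ≤ (4 * L p) * Tl p := mul_le_mul_of_nonneg_right h11 (hTl p)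
      _ ≤ (4 * L p) * (τ * L p) := mul_le_mul_of_nonneg_left h10 (by linarith [hL0 p])
      _ = L p ^ 2 * (4 * τ) := by ring
  have hfin := h1 p hpP
  rw [hXp] at hfin
  have h12 : L p ^ 2 * (2 * x) ≤ L p ^ 2 * (2 * kap * V0
      + (x / 2 + 8 * N * kap ^ 3 * PP * V0) + x + 4 * τ) := by
    calc L p ^ 2 * (2 * x) = 2 * (L p ^ 2 * x) := by ring
      _ ≤ _ := hfin
      _ ≤ 2 * kap * L p ^ 2 * V0 + L p ^ 2 * (x / 2 + 8 * N * kap ^ 3 * PP * V0) + L p ^ 2 * x
          + L p ^ 2 * (4 * τ) := by linarith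
      _ = _ := by ring
  have h13 := le_of_mul_le_mul_left h12 hLp
  have h14 : x ≤ (4 * kap + 16 * N * kap ^ 3 * PP) * V0 + 8 * τ := by linarith
  set K := 4 * kap + 16 * N * kap ^ 3 * PP with hK
  have hK4 : 4 ≤ K := by
    have : 0 ≤ 16 * N * kap ^ 3 * PP := by positivity
    linarith
  have hK0 : 0 < K := by linarith
  -- the last step
  set Z := ∑ q ∈ P, L q * Real.sqrt (D q) with hZ
  have hZ2 : Z ^ 2 ≤ N * W := by
    refine (sq_sum_le_card_mul_sum_sq (s := P) (f := fun q => L q * Real.sqrt (D q))).trans ?_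
    have e : ∑ q ∈ P, (L q * Real.sqrt (D q)) ^ 2 = W := by
      rw [hW]
      refine sum_congr rfl fun q _ => ?_
      rw [mul_pow, Real.sq_sqrt (hD q)]
    rw [e]
    exact mul_le_mul_of_nonneg_right hcard hW0
  have h15 : V0 ≤ Real.sqrt (K * V0 + 8 * τ) * Z := by
    refine h4.trans ?_
    rw [hZ, mul_sum]
    refine sum_le_sum fun q hq => ?_
    rw [Real.sqrt_mul (hX q)]
    have h2 : Real.sqrt (X q) ≤ L q * Real.sqrt (K * V0 + 8 * τ) := by
      have h16 : X q ≤ L q ^ 2 * (K * V0 + 8 * τ) :=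
        (hmax q hq).trans (mul_le_mul_of_nonneg_left h14 (sq_nonneg _))
      refine (Real.sqrt_le_sqrt h16).trans ?_
      rw [Real.sqrt_mul (sq_nonneg _), Real.sqrt_sq (hL0 q).le]
    calc Real.sqrt (X q) * Real.sqrt (D q)
        ≤ (L q * Real.sqrt (K * V0 + 8 * τ)) * Real.sqrt (D q) :=
          mul_le_mul_of_nonneg_right h2 (Real.sqrt_nonneg _)
      _ = Real.sqrt (K * V0 + 8 * τ) * (L q * Real.sqrt (D q)) := by ring
  have hKv : 0 ≤ K * V0 + 8 * τ := by positivity
  have h3' : Real.sqrt (K * V0 + 8 * τ) * Z ≤ (K * V0 + 8 * τ) / (2 * K) + K * Z ^ 2 / 2 := by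
    have h4' : Real.sqrt (K * V0 + 8 * τ) ^ 2 = K * V0 + 8 * τ := Real.sq_sqrt hKv
    set t := Real.sqrt (K * V0 + 8 * τ)
    rw [← h4']
    have h5 : 0 ≤ (t - K * Z) ^ 2 / (2 * K) := by positivity
    have h6 : (t - K * Z) ^ 2 / (2 * K) = t ^ 2 / (2 * K) + K * Z ^ 2 / 2 - t * Z := by
      field_simp; ring
    linarith
  have h7 : (K * V0 + 8 * τ) / (2 * K) = V0 / 2 + 4 * τ / K := by field_simp; ring
  have h8 : K * Z ^ 2 ≤ K * (N * W) := mul_le_mul_of_nonneg_left hZ2 hK0.le
  have h9 : 4 * τ / K ≤ τ := by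
    rw [div_le_iff₀ hK0]; nlinarith
  have h10 : V0 ≤ K * (N * W) + 2 * τ := by linarith
  calc V0 ≤ K * (N * W) + 2 * τ := h10
    _ = N * K * W + 2 * τ := by ring

end Crest.Agent.R302.Close
end

-- ▼ part R302/MSP893F
section

/-!
R302 (helper893): THE MULTI-SCALE POINCARE INEQUALITY.
-/

set_option autoImplicit false
set_option linter.unusedSectionVars false
set_option linter.unusedVariables false

namespace Crest.Agent.R302.T893

open Finset Lor
open Crest.Agent.R302.Tree (RTree)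
open Crest.Agent.R302.Cut (cw ind dvec)

variable {V E : Type*} [Fintype V] [DecidableEq V] [DecidableEq E]

/-- the constant of the energy part -/
noncomputable def C1 (N : ℕ) (κ PP : ℝ) : ℝ := N * (4 * κ + 16 * N * κ ^ 3 * PP)

/-- the constant of the tail part -/
noncomputable def C2 (m n : ℕ) (κ : ℝ) : ℝ :=
  8 * (m + 1) ^ 2 * (1 + κ) ^ 2 * κ ^ 3 * ((1 + 2 * κ * (m + 1)) ^ n) ^ 2

theorem C1_nonneg {N : ℕ} {κ PP : ℝ} (hκ : 1 ≤ κ) (hPP : 0 ≤ PP) : 0 ≤ C1 N κ PP := by
  unfold C1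
  have : 0 ≤ κ := by linarith
  positivity

theorem C2_nonneg {m n : ℕ} {κ : ℝ} (hκ : 1 ≤ κ) : 0 ≤ C2 m n κ := by
  unfold C2
  have : 0 ≤ κ := by linarith
  positivity

theorem csum_sum {ι : Type*} (t : Finset ι) (m : ℕ) (G : ι → (E → ℤ) → ℝ) (cs : List E)
    (x : E → ℤ) : csum m (fun y => ∑ j ∈ t, G j y) cs x = ∑ j ∈ t, csum m (G j) cs x := by
  induction cs generalizing x with
  | nil => rfl
  | cons k cs ih =>
    simp only [csum_cons]
    rw [Finset.sum_comm]
    exact Finset.sum_congr rfl fun s _ => ih _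

section Final

variable {m : ℕ} {X Y : E → V} {F : (V → ℤ) → ℝ} {γ : (E → ℤ) → V → ℤ}

variable (hF : ∀ δ, 0 < F δ) (hAF : ∀ δ, AF (fun p q => F (δ + ev p + ev q)))
  (hγ : ∀ y k, γ (y + Pi.single k 1) = γ y + ev (X k) - ev (Y k))
  {κ PP : ℝ} (hκ1 : 1 ≤ κ) (hκ : ∀ δ p q, F (δ + ev p) ≤ κ * F (δ + ev q))
  (T : RTree V) {L c b s : V → ℝ} (hL : ∀ p, 1 ≤ L p)
  (hs0 : ∀ q, 0 ≤ s q)
  (hs : ∀ p, ∀ q ∈ T.desc p, q ≠ p → ∀ δ : V → ℤ,
    -Q (fun a b => F (δ - ev p + ev a + ev b))
      (dvec (fun q => F (δ + ev q)) q (T.par q))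
      (dvec (fun q => F (δ + ev q)) q (T.par q)) ≤ s q / F (δ + ev q))
  (hb0 : ∀ q, 0 ≤ b q)
  (hb : ∀ q, q ≠ T.root → ∀ δ : V → ℤ,
    |F (δ + ev q) - F (δ + ev (T.par q))| ≤ b q * F (δ + ev (T.par q)))
  (hPP : ∑ q ∈ univ.erase T.root, (2 * κ * b q + 1 / L q) ^ 2 * L q ^ 2 ≤ PP)
  (hsL : ∀ p, p ≠ T.root →
    6 * (Fintype.card V * ∑ q ∈ (T.desc p).erase p, s q * L q ^ 2) ≤ L p ^ 2)

include hF hAF hγ hκ1 hκ hL hs0 hs hb0 hb hPP hsL in
/-- stage theorem -/
theorem stage (f : (E → ℤ) → ℝ) {A : ℝ} (hf : ∀ y, |f y| ≤ A) (R : V → E → ℤ) (i : E)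
    (cs : List E) (n : ℕ) (hn : cs.length ≤ n) (x : E → ℤ)
    (hRi : R (Y i) = 0) (hR : ∀ k ∈ i :: cs, R (X k) = R (Y k) + Pi.single k 1) :
    Va m F γ f i cs x ≤ ∑ a ∈ range (m + 1), csum m (fun y =>
      C1 (Fintype.card V) κ PP * (∑ p ∈ univ.erase T.root,
        L p ^ 2 * (F1 Y F γ i y p * (f (y + R p) - f (y + R (T.par p))) ^ 2))
      + C2 m n κ * A ^ 2 * ∑ p ∈ univ.erase T.root, tl F γ T L c p y) cs
        (x + Pi.single i (a : ℤ)) := by
  have hPP0 : 0 ≤ PP := le_trans (Finset.sum_nonneg fun q _ => by positivity) hPP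
  have hκ0 : 0 ≤ κ := by linarith
  have hA : 0 ≤ A := (abs_nonneg _).trans (hf 0)
  have h1 := Close.clo (univ.erase T.root) (fun p => (T.desc p).erase p)
    (fun p => Xp m X Y F γ T f i cs x p) L s (fun q => 2 * κ * b q + 1 / L q)
    (fun p => Dp m Y F γ T f R i cs x p) (fun p => XpT m X Y F γ T L c f i cs x p)
    (Va m F γ f i cs x) κ PP (fun p => Xp_nonneg hF T f i cs x p) hL hs0
    (fun p => Dp_nonneg hF T f R i cs x p) (fun p => XpT_nonneg hF T f i cs x p)
    (Va_nonneg hF f i cs x) hκ1 hPP0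
    (fun p hp q hq => by
      rw [Finset.mem_erase] at hq ⊢
      exact ⟨RTree.mem_desc_ne_root hq.2 hq.1, Finset.mem_univ _⟩)
    (fun p hp => Xp_le hF hAF hγ hκ1 hκ T hL hs0 hs hb0 hb f i cs x p)
    (fun p hp => hsL p (Finset.mem_erase.1 hp).1) hPP
    (Va_le hF hγ T f R i cs x hRi
      (by rw [hR i List.mem_cons_self, hRi, zero_add])
      (fun k hk => hR k (List.mem_cons_of_mem _ hk)))
  refine h1.trans ?_
  -- the tail part
  have h2 : ∀ p ∈ univ.erase T.root, 2 * (XpT m X Y F γ T L c f i cs x p / L p) ≤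
      C2 m n κ * A ^ 2 * ∑ a ∈ range m,
        csum m (fun y => tl F γ T L c p y) cs (x + Pi.single i (a : ℤ)) := by
    intro p _
    have h3 := XpT_le (m := m) (X := X) (Y := Y) (L := L) (c := c) hF hAF hγ hκ1 hκ T f hf i cs x p
    have h4 : XpT m X Y F γ T L c f i cs x p / L p ≤ XpT m X Y F γ T L c f i cs x p :=
      div_le_self (XpT_nonneg hF T f i cs x p) (hL p)
    have h5 : 0 ≤ ∑ a ∈ range m,
        csum m (fun y => tl F γ T L c p y) cs (x + Pi.single i (a : ℤ)) :=
      Finset.sum_nonneg fun a _ => csum_nonneg (fun y => tl_nonneg T hF p y) _ _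
    have h6 : ((1 + 2 * κ * ((m : ℝ) + 1)) ^ cs.length) ^ 2 ≤
        ((1 + 2 * κ * ((m : ℝ) + 1)) ^ n) ^ 2 := by
      refine pow_le_pow_left₀ (by positivity) (pow_le_pow_right₀ ?_ hn) 2
      have : 0 ≤ 2 * κ * ((m : ℝ) + 1) := by positivity
      linarith
    calc 2 * (XpT m X Y F γ T L c f i cs x p / L p)
        ≤ 2 * (4 * A ^ 2 * (m + 1) ^ 2 * (1 + κ) ^ 2 * κ ^ 3 *
            ((1 + 2 * κ * (m + 1)) ^ cs.length) ^ 2 * ∑ a ∈ range m,
            csum m (fun y => tl F γ T L c p y) cs (x + Pi.single i (a : ℤ))) := by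
          linarith
      _ ≤ 2 * (4 * A ^ 2 * (m + 1) ^ 2 * (1 + κ) ^ 2 * κ ^ 3 *
            ((1 + 2 * κ * (m + 1)) ^ n) ^ 2 * ∑ a ∈ range m,
            csum m (fun y => tl F γ T L c p y) cs (x + Pi.single i (a : ℤ))) := by
          refine mul_le_mul_of_nonneg_left ?_ (by norm_num)
          refine mul_le_mul_of_nonneg_right ?_ h5
          exact mul_le_mul_of_nonneg_left h6 (by positivity)
      _ = _ := by unfold C2; ring
  rw [Finset.mul_sum (a := (2 : ℝ))]
  refine (add_le_add_right (Finset.sum_le_sum h2) _).trans ?_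
  -- collect
  have hstep : ∀ a ∈ range m,
      C1 (Fintype.card V) κ PP * (∑ p ∈ univ.erase T.root, L p ^ 2 *
        csum m (fun y => F1 Y F γ i y p * (f (y + R p) - f (y + R (T.par p))) ^ 2) cs
          (x + Pi.single i (a : ℤ)))
      + C2 m n κ * A ^ 2 * ∑ p ∈ univ.erase T.root,
        csum m (fun y => tl F γ T L c p y) cs (x + Pi.single i (a : ℤ)) =
      csum m (fun y =>
      C1 (Fintype.card V) κ PP * (∑ p ∈ univ.erase T.root,
        L p ^ 2 * (F1 Y F γ i y p * (f (y + R p) - f (y + R (T.par p))) ^ 2))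
      + C2 m n κ * A ^ 2 * ∑ p ∈ univ.erase T.root, tl F γ T L c p y) cs
        (x + Pi.single i (a : ℤ)) := by
    intro a _
    rw [csum_add, csum_smul, csum_smul]
    congr 2
    · rw [csum_sum]
      refine Finset.sum_congr rfl fun p _ => ?_
      rw [csum_smul]
    · rw [csum_sum]
  have hnn : ∀ a, 0 ≤ csum m (fun y =>
      C1 (Fintype.card V) κ PP * (∑ p ∈ univ.erase T.root,
        L p ^ 2 * (F1 Y F γ i y p * (f (y + R p) - f (y + R (T.par p))) ^ 2))
      + C2 m n κ * A ^ 2 * ∑ p ∈ univ.erase T.root, tl F γ T L c p y) cs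
        (x + Pi.single i (a : ℤ)) := by
    intro a
    refine csum_nonneg (fun y => ?_) _ _
    refine add_nonneg (mul_nonneg (C1_nonneg hκ1 hPP0) (Finset.sum_nonneg fun p _ =>
      mul_nonneg (sq_nonneg _) (mul_nonneg (F1_pos hF i y p).le (sq_nonneg _))))
      (mul_nonneg (mul_nonneg (C2_nonneg hκ1) (sq_nonneg _))
        (Finset.sum_nonneg fun p _ => tl_nonneg T hF p y))
  rw [Finset.sum_range_succ]
  have h7 : ∑ a ∈ range m, csum m (fun y =>
      C1 (Fintype.card V) κ PP * (∑ p ∈ univ.erase T.root,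
        L p ^ 2 * (F1 Y F γ i y p * (f (y + R p) - f (y + R (T.par p))) ^ 2))
      + C2 m n κ * A ^ 2 * ∑ p ∈ univ.erase T.root, tl F γ T L c p y) cs
        (x + Pi.single i (a : ℤ)) =
      Fintype.card V * (4 * κ + 16 * Fintype.card V * κ ^ 3 * PP) *
        ∑ p ∈ univ.erase T.root, L p ^ 2 * Dp m Y F γ T f R i cs x p
      + ∑ p ∈ univ.erase T.root, C2 m n κ * A ^ 2 * ∑ a ∈ range m,
        csum m (fun y => tl F γ T L c p y) cs (x + Pi.single i (a : ℤ)) := by
    rw [← Finset.sum_congr rfl hstep, Finset.sum_add_distrib, ← Finset.mul_sum, ← Finset.mul_sum,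
      Finset.sum_comm, ← Finset.mul_sum, Finset.sum_comm (s := range m)]
    congr 1
    unfold C1 Dp
    congr 1
    refine Finset.sum_congr rfl fun p _ => ?_
    rw [Finset.mul_sum]
  rw [h7]
  have := hnn m
  linarith

include hF hAF hγ hκ1 hκ hL hs0 hs hb0 hb hPP hsL in
/-- **MULTI-SCALE POINCARE INEQUALITY** on a box of side `m`. -/
theorem msp [Fintype E] (order : List E) (hnd : order.Nodup) (hall : ∀ e, e ∈ order)
    (R : E → V → E → ℤ) (hR0 : ∀ i, R i (Y i) = 0)
    (hR : ∀ i cs, (i :: cs) <:+ order → ∀ k ∈ i :: cs, R i (X k) = R i (Y k) + Pi.single k 1)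
    (f : (E → ℤ) → ℝ) {A : ℝ} (hf : ∀ y, |f y| ≤ A) (x : E → ℤ) (B : Finset (E → ℤ))
    (hB : B = Fintype.piFinset fun e => Icc (x e) (x e + m)) :
    ∑ y ∈ B, F (γ y) * (f y - (∑ y ∈ B, F (γ y) * f y) / ∑ y ∈ B, F (γ y)) ^ 2 ≤
      C1 (Fintype.card V) κ PP * ∑ i, ∑ p ∈ univ.erase T.root, L p ^ 2 *
        ∑ y ∈ B, F (γ y - ev (Y i) + ev p) * (f (y + R i p) - f (y + R i (T.par p))) ^ 2
      + Fintype.card E * (C2 m (Fintype.card E) κ * A ^ 2 *
        ∑ p ∈ univ.erase T.root, ∑ y ∈ B, tl F γ T L c p y) := by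
  have h := Mart.martingale_box (m := m) (w := fun y => F (γ y)) (f := f) (fun y => hF _)
    (fun i y => C1 (Fintype.card V) κ PP * (∑ p ∈ univ.erase T.root,
        L p ^ 2 * (F1 Y F γ i y p * (f (y + R i p) - f (y + R i (T.par p))) ^ 2))
      + C2 m (Fintype.card E) κ * A ^ 2 * ∑ p ∈ univ.erase T.root, tl F γ T L c p y)
    order hnd hall ?_ x B hB
  · refine h.trans (le_of_eq ?_)
    rw [Finset.mul_sum]
    have e1 : (Fintype.card E : ℝ) * (C2 m (Fintype.card E) κ * A ^ 2 *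
        ∑ p ∈ univ.erase T.root, ∑ y ∈ B, tl F γ T L c p y) =
        ∑ _i : E, (C2 m (Fintype.card E) κ * A ^ 2 *
        ∑ p ∈ univ.erase T.root, ∑ y ∈ B, tl F γ T L c p y) := by
      rw [Finset.sum_const, Finset.card_univ, nsmul_eq_mul]
    rw [e1, ← Finset.sum_add_distrib]
    refine Finset.sum_congr rfl fun i _ => ?_
    rw [Finset.sum_add_distrib, ← Finset.mul_sum, ← Finset.mul_sum]
    congr 2
    · rw [Finset.sum_comm]
      refine Finset.sum_congr rfl fun p _ => ?_
      rw [← Finset.mul_sum]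
      rfl
    · rw [Finset.sum_comm]
  · intro i cs hcs x
    have hlen : cs.length ≤ Fintype.card E := by
      have h1 := hcs.sublist.length_le
      have h2 : order.length ≤ Fintype.card E := hnd.length_le_card
      simp only [List.length_cons] at h1
      omega
    exact stage hF hAF hγ hκ1 hκ T hL hs0 hs hb0 hb hPP hsL f hf (R i) i cs (Fintype.card E)
      hlen x (hR0 i) (hR i cs hcs)

end Final

end Crest.Agent.R302.T893
end

-- ▼ part R302/MSP893G
section

/-!
R302 (helper893): the multi-scale Poincare inequality in terms of the moves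
`c_{i,p} = R_i p - R_i (par p)`, the slopes of the weight along the moves, with helper725's
repair maps plugged in.
-/

set_option autoImplicit false
set_option linter.unusedSectionVars false
set_option linter.unusedVariables false

namespace Crest.Agent.R302.T893

open Finset Lor
open Crest.Agent.R302.Tree (RTree)
open Crest.Agent.R302.Cut (cw ind dvec)

variable {V E : Type*} [Fintype V] [DecidableEq V] [DecidableEq E]

/-- exchange along tree edges with integer multiplicities -/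
def xch (T : RTree V) (mu : V → ℤ) : V → ℤ := fun v =>
  ∑ q, mu q * (ev q v - ev (T.par q) v)

theorem xch_add (T : RTree V) (mu nu : V → ℤ) : xch T (mu + nu) = xch T mu + xch T nu := by
  ext v
  simp only [xch, Pi.add_apply, add_mul, Finset.sum_add_distrib]

theorem xch_single (T : RTree V) (q : V) (t : ℤ) :
    xch T (Pi.single q t) = t • (ev q - ev (T.par q)) := by
  ext v
  simp only [xch, Pi.smul_apply, Pi.sub_apply, smul_eq_mul]
  rw [Finset.sum_eq_single q]
  · rw [Pi.single_eq_same]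
  · intro a _ ha
    rw [Pi.single_eq_of_ne ha, zero_mul]
  · intro h
    exact absurd (Finset.mem_univ _) h

section Route

variable {F : (V → ℤ) → ℝ} (hF : ∀ δ, 0 < F δ) (T : RTree V) {β : V → ℝ}
  (hβ1 : ∀ q, 1 ≤ β q)
  (hup : ∀ q, q ≠ T.root → ∀ δ, F (δ + ev q) ≤ β q * F (δ + ev (T.par q)))
  (hdn : ∀ q, q ≠ T.root → ∀ δ, F (δ + ev (T.par q)) ≤ β q * F (δ + ev q))

include hF hβ1 hup hdn in
theorem step_le (q : V) (hq : q ≠ T.root) (t : ℤ) (δ : V → ℤ) :
    F (δ + t • (ev q - ev (T.par q))) ≤ β q ^ t.natAbs * F δ := by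
  have h0 : 0 ≤ β q := by linarith [hβ1 q]
  have key : ∀ (n : ℕ) (δ : V → ℤ), F (δ + n • (ev q - ev (T.par q))) ≤ β q ^ n * F δ ∧
      F (δ - n • (ev q - ev (T.par q))) ≤ β q ^ n * F δ := by
    intro n
    induction n with
    | zero => intro δ; simp
    | succ n ih =>
      intro δ
      obtain ⟨h1, h2⟩ := ih δ
      constructor
      · have := hup q hq (δ + n • (ev q - ev (T.par q)) - ev (T.par q))
        rw [show δ + n • (ev q - ev (T.par q)) - ev (T.par q) + ev q =
            δ + (n + 1) • (ev q - ev (T.par q)) by rw [add_smul, one_smul]; abel,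
          show δ + n • (ev q - ev (T.par q)) - ev (T.par q) + ev (T.par q) =
            δ + n • (ev q - ev (T.par q)) by abel] at this
        calc _ ≤ β q * F (δ + n • (ev q - ev (T.par q))) := this
          _ ≤ β q * (β q ^ n * F δ) := mul_le_mul_of_nonneg_left h1 h0
          _ = β q ^ (n + 1) * F δ := by ring
      · have := hdn q hq (δ - n • (ev q - ev (T.par q)) - ev q)
        rw [show δ - n • (ev q - ev (T.par q)) - ev q + ev (T.par q) =
            δ - (n + 1) • (ev q - ev (T.par q)) by rw [add_smul, one_smul]; abel,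
          show δ - n • (ev q - ev (T.par q)) - ev q + ev q =
            δ - n • (ev q - ev (T.par q)) by abel] at this
        calc _ ≤ β q * F (δ - n • (ev q - ev (T.par q))) := this
          _ ≤ β q * (β q ^ n * F δ) := mul_le_mul_of_nonneg_left h2 h0
          _ = β q ^ (n + 1) * F δ := by ring
  rcases Int.natAbs_eq t with h | h
  · have := (key t.natAbs δ).1
    rw [← natCast_zsmul, ← h] at this
    exact this
  · have := (key t.natAbs δ).2
    rw [← natCast_zsmul, sub_eq_add_neg, ← neg_zsmul, ← h] at this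
    exact this

include hF hβ1 hup hdn in
/-- the weight along a route -/
theorem route_le (mu : V → ℤ) (hmu : mu T.root = 0) (δ : V → ℤ) :
    F (δ + xch T mu) ≤ (∏ q, β q ^ (mu q).natAbs) * F δ := by
  have key : ∀ (S : Finset V), F (δ + xch T (fun q => if q ∈ S then mu q else 0)) ≤
      (∏ q ∈ S, β q ^ (mu q).natAbs) * F δ := by
    intro S
    induction S using Finset.induction_on with
    | empty =>
      have : xch T (fun q => if q ∈ (∅ : Finset V) then mu q else 0) = 0 := by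
        ext v; simp [xch]
      rw [this, add_zero, Finset.prod_empty, one_mul]
    | insert a S ha ih =>
      have e : (fun q => if q ∈ insert a S then mu q else 0) =
          (fun q => if q ∈ S then mu q else 0) + Pi.single a (mu a) := by
        ext q
        simp only [Pi.add_apply, Finset.mem_insert]
        by_cases hqa : q = a
        · subst hqa
          simp [ha]
        · simp [hqa]
      rw [e, xch_add, xch_single, ← add_assoc, Finset.prod_insert ha]
      have hpos : 0 ≤ β a ^ (mu a).natAbs := pow_nonneg (by linarith [hβ1 a]) _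
      by_cases har : a = T.root
      · subst har
        rw [hmu]
        simp only [zero_smul, add_zero, Int.natAbs_zero, pow_zero, one_mul]
        exact ih
      · calc _ ≤ β a ^ (mu a).natAbs *
              F (δ + xch T (fun q => if q ∈ S then mu q else 0)) :=
            step_le hF T hβ1 hup hdn a har _ _
          _ ≤ β a ^ (mu a).natAbs * ((∏ q ∈ S, β q ^ (mu q).natAbs) * F δ) :=
            mul_le_mul_of_nonneg_left ih hpos
          _ = _ := by ring
  have := key Finset.univ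
  simpa using this

end Route

/-- the displacement of the tokens caused by a change `c` of the contents -/
def disp [Fintype E] (X Y : E → V) (c : E → ℤ) : V → ℤ := fun v =>
  ∑ k, c k * (ev (X k) v - ev (Y k) v)

section Gam

variable [Fintype E] {X Y : E → V} {γ : (E → ℤ) → V → ℤ}
  (hγ : ∀ y k, γ (y + Pi.single k 1) = γ y + ev (X k) - ev (Y k))

include hγ in
theorem gam_single (y : E → ℤ) (k : E) (t : ℤ) :
    γ (y + Pi.single k t) = γ y + t • (ev (X k) - ev (Y k)) := by
  have key : ∀ (n : ℕ) (y : E → ℤ), γ (y + Pi.single k (n : ℤ)) = γ y + n • (ev (X k) - ev (Y k)) := by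
    intro n
    induction n with
    | zero => intro y; simp
    | succ n ih =>
      intro y
      rw [single_succ, ← add_assoc, hγ, ih, add_smul, one_smul]
      abel
  rcases Int.natAbs_eq t with h | h
  · rw [h, key, natCast_zsmul]
  · have h1 := key t.natAbs (y + Pi.single k t)
    rw [add_assoc, ← Pi.single_add, show t + (t.natAbs : ℤ) = 0 by omega, Pi.single_zero,
      add_zero] at h1
    rw [h1, ← natCast_zsmul]
    have h2 : t • (ev (X k) - ev (Y k)) = - ((t.natAbs : ℤ) • (ev (X k) - ev (Y k))) := by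
      conv_lhs => rw [h]
      rw [neg_smul]
    rw [h2]
    abel

include hγ in
theorem gam_add (y c : E → ℤ) : γ (y + c) = γ y + disp X Y c := by
  classical
  have key : ∀ (S : Finset E), γ (y + fun k => if k ∈ S then c k else 0) =
      γ y + disp X Y (fun k => if k ∈ S then c k else 0) := by
    intro S
    induction S using Finset.induction_on with
    | empty =>
      have e1 : (fun k => if k ∈ (∅ : Finset E) then c k else 0) = 0 := by
        ext k; simp
      have e2 : disp X Y (0 : E → ℤ) = 0 := by ext v; simp [disp]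
      rw [e1, e2, add_zero, add_zero]
    | insert a S ha ih =>
      have e : (fun k => if k ∈ insert a S then c k else 0) =
          (fun k => if k ∈ S then c k else 0) + Pi.single a (c a) := by
        ext k
        simp only [Pi.add_apply, Finset.mem_insert]
        by_cases hka : k = a
        · subst hka
          simp [ha]
        · simp [hka]
      rw [e, ← add_assoc, gam_single hγ, ih, add_assoc]
      congr 1
      ext v
      simp only [disp, Pi.add_apply, Pi.smul_apply, Pi.sub_apply, smul_eq_mul, add_mul,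
        Finset.sum_add_distrib]
      congr 1
      rw [Finset.sum_eq_single a]
      · rw [Pi.single_eq_same]
      · intro b _ hb
        rw [Pi.single_eq_of_ne hb, zero_mul]
      · intro h
        exact absurd (Finset.mem_univ _) h
  have := key Finset.univ
  simpa using this

end Gam

section Main

variable [Fintype E] {m : ℕ} {X Y : E → V} {F : (V → ℤ) → ℝ} {γ : (E → ℤ) → V → ℤ}

variable (hF : ∀ δ, 0 < F δ)
  (hγ : ∀ y k, γ (y + Pi.single k 1) = γ y + ev (X k) - ev (Y k))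
  (T : RTree V) {β : V → ℝ}
  (hβ1 : ∀ q, 1 ≤ β q)
  (hup : ∀ q, q ≠ T.root → ∀ δ, F (δ + ev q) ≤ β q * F (δ + ev (T.par q)))
  (hdn : ∀ q, q ≠ T.root → ∀ δ, F (δ + ev (T.par q)) ≤ β q * F (δ + ev q))

include hF hγ hβ1 hup hdn in
/-- the weight at the repaired configuration -/
theorem F1_le_repaired (i : E) (p : V) (R : E → ℤ) (mu : V → ℤ) (hmu : mu T.root = 0)
    (hr : ∀ v, ev p v - ev (Y i) v = disp X Y R v + xch T mu v) (y : E → ℤ) :
    F (γ y - ev (Y i) + ev p) ≤ (∏ q, β q ^ (mu q).natAbs) * F (γ (y + R)) := by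
  have e : γ y - ev (Y i) + ev p = γ (y + R) + xch T mu := by
    rw [gam_add hγ]
    ext v
    have := hr v
    simp only [Pi.add_apply, Pi.sub_apply]
    linarith
  rw [e]
  exact route_le hF T hβ1 hup hdn mu hmu _

include hF hγ hβ1 hup hdn in
/-- slope of the weight along a vector with route `lam` -/
theorem slope_le (c : E → ℤ) (lam : V → ℤ) (hlam : lam T.root = 0)
    (hr : ∀ v, disp X Y c v = xch T lam v) (s : ℤ) (y : E → ℤ) :
    F (γ (y + s • c)) ≤ (∏ q, β q ^ (lam q).natAbs) ^ s.natAbs * F (γ y) := by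
  have e : γ (y + s • c) = γ y + xch T (s • lam) := by
    rw [gam_add hγ]
    congr 1
    ext v
    have h1 : disp X Y (s • c) v = s * disp X Y c v := by
      simp only [disp, Pi.smul_apply, smul_eq_mul, Finset.mul_sum, mul_assoc]
    have h2 : xch T (s • lam) v = s * xch T lam v := by
      simp only [xch, Pi.smul_apply, smul_eq_mul, Finset.mul_sum, mul_assoc]
    rw [h1, h2, hr]
  rw [e]
  refine (route_le hF T hβ1 hup hdn (s • lam) (by simp [hlam]) _).trans (le_of_eq ?_)
  congr 1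
  rw [← Finset.prod_pow]
  refine Finset.prod_congr rfl fun q _ => ?_
  rw [← pow_mul, Pi.smul_apply, smul_eq_mul, Int.natAbs_mul, mul_comm]

end Main

/-- a real identity for all `φ` gives the integer vector identity -/
theorem route_int [Fintype E] {X Y : E → V} (T : RTree V) (p v₀ : V) (c : E → ℤ) (mu : V → ℤ)
    (h : ∀ φ : V → ℝ, φ p - φ v₀ = ∑ k, (c k : ℝ) * (φ (X k) - φ (Y k)) +
      ∑ q, (mu q : ℝ) * (φ q - φ (T.par q))) (v : V) :
    ev p v - ev v₀ v = disp X Y c v + xch T mu v := by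
  have h1 := h (fun a => ((ev a v : ℤ) : ℝ))
  have h2 : ((ev p v - ev v₀ v : ℤ) : ℝ) = ((disp X Y c v + xch T mu v : ℤ) : ℝ) := by
    unfold disp xch
    push_cast
    exact h1
  exact_mod_cast h2

end Crest.Agent.R302.T893
end

-- ▼ part R302/MSP893H

/-!
R302 (helper893): final form of the multi-scale Poincare inequality in terms of moves.
-/

set_option autoImplicit false
set_option linter.unusedSectionVars false
set_option linter.unusedVariables false

namespace Crest.Agent.R302.T893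

open Finset Lor
open Crest.Agent.R302.Tree (RTree)
open Crest.Agent.R302.Cut (cw ind dvec)

variable {V E : Type*} [Fintype V] [DecidableEq V] [Fintype E] [DecidableEq E]

/-- a system of repair maps for the processing order `order` -/
structure Rep (T : RTree V) (X Y : E → V) (b : V → ℝ) (order : List E)
    (R : E → V → E → ℤ) : Prop where
  base : ∀ i, R i (Y i) = 0
  cell : ∀ i cs, (i :: cs) <:+ order → ∀ k ∈ i :: cs, R i (X k) = R i (Y k) + Pi.single k 1
  bd : ∀ i p e, |R i p e| ≤ 1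
  route : ∀ i p, ∃ mu : V → ℤ, (∀ q, |mu q| ≤ 1) ∧ mu T.root = 0 ∧
    ∑ q ∈ univ.filter (fun q => T.par q = T.root), |mu q| ≤ 2 ∧
    ∀ v, ev p v - ev (Y i) v = disp X Y (R i p) v + xch T mu v
  edge : ∀ i p, p ≠ T.root → R i p = R i (T.par p) ∨
    ∃ lam : V → ℤ, (∀ q, |lam q| ≤ 1) ∧ (∀ q, lam q ≠ 0 → q ≠ T.root ∧ b q ≤ b p) ∧
      ∀ v, disp X Y (R i p - R i (T.par p)) v = xch T lam v


/-- bound of the route products: at most two thin edges, every fat edge at most once -/
theorem prod_route_le (T : RTree V) {β : V → ℝ} (hβ1 : ∀ q, 1 ≤ β q) {κt K3 : ℝ}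
    (hthin : ∀ q, T.par q = T.root → β q ≤ κt) (hκt : 1 ≤ κt)
    (hfat : ∏ q ∈ univ.filter (fun q => T.par q ≠ T.root), β q ≤ K3)
    (mu : V → ℤ) (h1 : ∀ q, |mu q| ≤ 1)
    (h2 : ∑ q ∈ univ.filter (fun q => T.par q = T.root), |mu q| ≤ 2) :
    ∏ q, β q ^ (mu q).natAbs ≤ K3 * κt ^ 2 := by
  have hn1 : ∀ q, (mu q).natAbs ≤ 1 := by
    intro q
    have := h1 q
    rw [← Int.natCast_natAbs] at this
    exact_mod_cast this
  rw [← Finset.prod_filter_mul_prod_filter_not univ (fun q => T.par q = T.root), mul_comm]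
  have hK3 : 0 ≤ K3 := le_trans (Finset.prod_nonneg fun q _ => by linarith [hβ1 q]) hfat
  refine mul_le_mul ?_ ?_ (Finset.prod_nonneg fun q _ => pow_nonneg (by linarith [hβ1 q]) _) hK3
  · refine le_trans (Finset.prod_le_prod (fun q _ => pow_nonneg (by linarith [hβ1 q]) _)
      fun q _ => ?_) hfat
    calc β q ^ (mu q).natAbs ≤ β q ^ 1 := pow_le_pow_right₀ (hβ1 q) (hn1 q)
      _ = β q := pow_one _
  · calc ∏ q ∈ univ.filter (fun q => T.par q = T.root), β q ^ (mu q).natAbs
        ≤ ∏ q ∈ univ.filter (fun q => T.par q = T.root), κt ^ (mu q).natAbs := by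
          refine Finset.prod_le_prod (fun q _ => pow_nonneg (by linarith [hβ1 q]) _) fun q hq => ?_
          exact pow_le_pow_left₀ (by linarith [hβ1 q]) (hthin q (Finset.mem_filter.1 hq).2) _
      _ = κt ^ (∑ q ∈ univ.filter (fun q => T.par q = T.root), (mu q).natAbs) := by
          rw [Finset.prod_pow_eq_pow_sum]
      _ ≤ κt ^ 2 := by
          refine pow_le_pow_right₀ hκt ?_
          have : ((∑ q ∈ univ.filter (fun q => T.par q = T.root), (mu q).natAbs : ℕ) : ℤ) ≤ 2 := by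
            push_cast
            simpa using h2
          exact_mod_cast this

/-- **Final form**: energies along the moves `c_{i,p}` on the enlarged box. -/
theorem msp_moves {m : ℕ} {X Y : E → V} {F : (V → ℤ) → ℝ} {γ : (E → ℤ) → V → ℤ}
    (hF : ∀ δ, 0 < F δ) (hAF : ∀ δ, AF (fun p q => F (δ + ev p + ev q)))
    (hγ : ∀ y k, γ (y + Pi.single k 1) = γ y + ev (X k) - ev (Y k))
    {κ PP : ℝ} (hκ1 : 1 ≤ κ) (hκ : ∀ δ p q, F (δ + ev p) ≤ κ * F (δ + ev q))
    (T : RTree V) {L c b s β : V → ℝ} (hL : ∀ p, 1 ≤ L p)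
    (hs0 : ∀ q, 0 ≤ s q)
    (hs : ∀ p, ∀ q ∈ T.desc p, q ≠ p → ∀ δ : V → ℤ,
      -Q (fun a b => F (δ - ev p + ev a + ev b))
        (dvec (fun q => F (δ + ev q)) q (T.par q))
        (dvec (fun q => F (δ + ev q)) q (T.par q)) ≤ s q / F (δ + ev q))
    (hb0 : ∀ q, 0 ≤ b q)
    (hb : ∀ q, q ≠ T.root → ∀ δ : V → ℤ,
      |F (δ + ev q) - F (δ + ev (T.par q))| ≤ b q * F (δ + ev (T.par q)))
    (hPP : ∑ q ∈ univ.erase T.root, (2 * κ * b q + 1 / L q) ^ 2 * L q ^ 2 ≤ PP)
    (hsL : ∀ p, p ≠ T.root →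
      6 * (Fintype.card V * ∑ q ∈ (T.desc p).erase p, s q * L q ^ 2) ≤ L p ^ 2)
    (hβ1 : ∀ q, 1 ≤ β q)
    (hup : ∀ q, q ≠ T.root → ∀ δ, F (δ + ev q) ≤ β q * F (δ + ev (T.par q)))
    (hdn : ∀ q, q ≠ T.root → ∀ δ, F (δ + ev (T.par q)) ≤ β q * F (δ + ev q))
    {κt K3 : ℝ} (hthin : ∀ q, T.par q = T.root → β q ≤ κt) (hκt : 1 ≤ κt)
    (hfat : ∏ q ∈ univ.filter (fun q => T.par q ≠ T.root), β q ≤ K3)
    (order : List E) (hnd : order.Nodup) (hall : ∀ e, e ∈ order)
    (R : E → V → E → ℤ) (hRep : ∃ b' : V → ℝ, Rep T X Y b' order R)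
    (f : (E → ℤ) → ℝ) {A : ℝ} (hf : ∀ y, |f y| ≤ A) (x : E → ℤ) (B Bp : Finset (E → ℤ))
    (hB : B = Fintype.piFinset fun e => Icc (x e) (x e + m))
    (hBp : Bp = Fintype.piFinset fun e => Icc (x e - 1) (x e + m + 1)) :
    ∑ y ∈ B, F (γ y) * (f y - (∑ y ∈ B, F (γ y) * f y) / ∑ y ∈ B, F (γ y)) ^ 2 ≤
      ∑ i, ∑ p ∈ univ.erase T.root, C1 (Fintype.card V) κ PP * (κ * (K3 * κt ^ 2)) * L p ^ 2 *
        ∑ y ∈ Bp, F (γ y) * (f (y + (R i p - R i (T.par p))) - f y) ^ 2
      + Fintype.card E * (C2 m (Fintype.card E) κ * A ^ 2 *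
        ∑ p ∈ univ.erase T.root, ∑ y ∈ B, tl F γ T L c p y) := by
  obtain ⟨b', hRep⟩ := hRep
  refine (msp hF hAF hγ hκ1 hκ T hL hs0 hs hb0 hb hPP hsL order hnd hall R hRep.base hRep.cell
    f hf x B hB (c := c)).trans ?_
  refine add_le_add_left ?_ _
  rw [Finset.mul_sum]
  refine Finset.sum_le_sum fun i _ => ?_
  rw [Finset.mul_sum]
  refine Finset.sum_le_sum fun p _ => ?_
  have hPP0 : 0 ≤ PP := le_trans (Finset.sum_nonneg fun q _ => by positivity) hPP
  have hC : 0 ≤ C1 (Fintype.card V) κ PP := C1_nonneg hκ1 hPP0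
  have hκ0 : 0 ≤ κ := by linarith
  have key : ∑ y ∈ B, F (γ y - ev (Y i) + ev p) * (f (y + R i p) - f (y + R i (T.par p))) ^ 2 ≤
      κ * (K3 * κt ^ 2) * ∑ y ∈ Bp, F (γ y) * (f (y + (R i p - R i (T.par p))) - f y) ^ 2 := by
    obtain ⟨mu, m1, m2, m3, m4⟩ := hRep.route i (T.par p)
    have hprod := prod_route_le T hβ1 hthin hκt hfat mu m1 m3
    have h1 : ∀ y ∈ B, F (γ y - ev (Y i) + ev p) *
        (f (y + R i p) - f (y + R i (T.par p))) ^ 2 ≤ κ * (K3 * κt ^ 2) *
        (F (γ (y + R i (T.par p))) * (f (y + R i (T.par p) + (R i p - R i (T.par p)))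
          - f (y + R i (T.par p))) ^ 2) := by
      intro y _
      have h2 := F1_le_repaired (Y := Y) hF hγ T hβ1 hup hdn i (T.par p) (R i (T.par p)) mu m2 m4 y
      have h3 : F (γ y - ev (Y i) + ev p) ≤
          κ * (K3 * κt ^ 2) * F (γ (y + R i (T.par p))) := by
        calc F (γ y - ev (Y i) + ev p) ≤ κ * F (γ y - ev (Y i) + ev (T.par p)) := hκ _ _ _
          _ ≤ κ * ((∏ q, β q ^ (mu q).natAbs) * F (γ (y + R i (T.par p)))) :=
            mul_le_mul_of_nonneg_left h2 hκ0
          _ ≤ κ * ((K3 * κt ^ 2) * F (γ (y + R i (T.par p)))) :=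
            mul_le_mul_of_nonneg_left (mul_le_mul_of_nonneg_right hprod (hF _).le) hκ0
          _ = _ := by ring
      have e : y + R i (T.par p) + (R i p - R i (T.par p)) = y + R i p := by abel
      rw [e]
      calc _ ≤ κ * (K3 * κt ^ 2) * F (γ (y + R i (T.par p))) *
            (f (y + R i p) - f (y + R i (T.par p))) ^ 2 :=
            mul_le_mul_of_nonneg_right h3 (sq_nonneg _)
        _ = _ := by ring
    refine (Finset.sum_le_sum h1).trans ?_
    rw [← Finset.mul_sum]
    have hK3 : 0 ≤ K3 := le_trans (Finset.prod_nonneg fun q _ => by linarith [hβ1 q]) hfat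
    refine mul_le_mul_of_nonneg_left ?_ (by positivity)
    rw [← Finset.sum_image (f := fun z => F (γ z) * (f (z + (R i p - R i (T.par p))) - f z) ^ 2)
      (g := fun y => y + R i (T.par p)) (s := B)]
    · refine Finset.sum_le_sum_of_subset_of_nonneg ?_ fun z _ _ =>
        mul_nonneg (hF _).le (sq_nonneg _)
      intro z hz
      obtain ⟨y, hy, rfl⟩ := Finset.mem_image.1 hz
      rw [hB, Fintype.mem_piFinset] at hy
      rw [hBp, Fintype.mem_piFinset]
      intro e
      have h5 := Finset.mem_Icc.1 (hy e)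
      have h6 := abs_le.1 (hRep.bd i (T.par p) e)
      rw [Finset.mem_Icc, Pi.add_apply]
      constructor <;> linarith [h5.1, h5.2, h6.1, h6.2]
    · intro a _ b _ hab
      exact add_right_cancel hab
  have h7 : 0 ≤ C1 (Fintype.card V) κ PP * L p ^ 2 := by positivity
  calc C1 (Fintype.card V) κ PP * (L p ^ 2 *
        ∑ y ∈ B, F (γ y - ev (Y i) + ev p) * (f (y + R i p) - f (y + R i (T.par p))) ^ 2)
      = C1 (Fintype.card V) κ PP * L p ^ 2 *
        ∑ y ∈ B, F (γ y - ev (Y i) + ev p) * (f (y + R i p) - f (y + R i (T.par p))) ^ 2 := by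
        ring
    _ ≤ C1 (Fintype.card V) κ PP * L p ^ 2 * (κ * (K3 * κt ^ 2) *
        ∑ y ∈ Bp, F (γ y) * (f (y + (R i p - R i (T.par p))) - f y) ^ 2) :=
        mul_le_mul_of_nonneg_left key h7
    _ = _ := by ring

end Crest.Agent.R302.T893
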