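import Crest.Agent.R309.PTSolve
import Crest.Agent.Lib.PT.ListFns2
import Crest.Agent.Lib.PT.ArithMore
import Crest.Agent.Lib.PT.ArithInt
import Crest.Agent.R302.Repair725
import Crest.Agent.R302.TreeNN725
import Crest.Agent.R302.Inst532A
import Crest.Agent.R302.MSP893H
import Crest.Agent.R302.EDM6

-- ▼ part R302/GeoProg725
section

set_option autoImplicit false

namespace Crest.Agent.R302.GeoProg

open Crest.Agent.R302.Repair

/-! ### Naturality of the Kruskal run -/

theorem run_map {V ι V' ι' : Type*} [DecidableEq V] [DecidableEq ι] [DecidableEq V']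
    [DecidableEq ι'] (code : V → V') (hcode : Function.Injective code) (κ : ι → ι')
    (hκ : Function.Injective κ) (a b : ι → V) (a' b' : ι' → V')
    (ha : ∀ j, a' (κ j) = code (a j)) (hb : ∀ j, b' (κ j) = code (b j)) (L : List ι) :
    (∀ v, (run a' b' (L.map κ)).comp (code v) = code ((run a b L).comp v)) ∧
    (∀ v j, (run a' b' (L.map κ)).P (code v) (κ j) = (run a b L).P v j) := by
  induction L using List.reverseRecOn with
  | nil => simp [run_nil, init]
  | append_singleton L q ih =>
    obtain ⟨h1, h2⟩ := ih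
    rw [List.map_append, List.map_singleton, run_append, run_append]
    have hq : ((run a' b' (L.map κ)).comp (a' (κ q)) = (run a' b' (L.map κ)).comp (b' (κ q))) ↔
        (run a b L).comp (a q) = (run a b L).comp (b q) := by
      rw [ha, hb, h1, h1, hcode.eq_iff]
    unfold step
    by_cases hc : (run a b L).comp (a q) = (run a b L).comp (b q)
    · rw [if_pos hc, if_pos (hq.2 hc)]
      exact ⟨h1, h2⟩
    · rw [if_neg hc, if_neg (fun h => hc (hq.1 h))]
      dsimp only
      constructor
      · intro v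
        rw [ha, hb, h1, h1, h1]
        by_cases hv : (run a b L).comp v = (run a b L).comp (a q)
        · rw [if_pos hv, if_pos (by rw [hv])]
        · rw [if_neg hv, if_neg (fun h => hv (hcode h))]
      · intro v j
        rw [ha, hb, h1, h1, h2, h2, h2]
        by_cases hv : (run a b L).comp v = (run a b L).comp (a q)
        · rw [if_pos hv, if_pos (by rw [hv])]
          by_cases hj : j = q
          · rw [if_pos hj, if_pos (by rw [hj])]
          · rw [if_neg hj, if_neg (fun h => hj (hκ h))]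
        · rw [if_neg hv, if_neg (fun h => hv (hcode h))]

/-! ### The run on lists -/

/-- clamp to `[-1, 1]` -/
def clamp (z : ℤ) : ℤ := max (-1) (min 1 z)

theorem clamp_eq {z : ℤ} (h : z = 0 ∨ z = 1 ∨ z = -1) : clamp z = z := by
  rcases h with h | h | h <;> subst h <;> rfl

theorem clamp_natAbs (z : ℤ) : (clamp z).natAbs ≤ 1 := by
  unfold clamp; omega

/-- One step of the list-coded Kruskal run; a label is `(a, b, k)`: its two ends and its real
coordinate (`k ≥ n` for a hidden edge). -/
def kstep (N n : ℕ) (st : List ℕ × List (List ℤ)) (q : ℕ × ℕ × ℕ) : List ℕ × List (List ℤ) :=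
  if st.1.getD q.1 0 = st.1.getD q.2.1 0 then st else
  ((List.range N).map (fun w => min N
      (if st.1.getD w 0 = st.1.getD q.1 0 then st.1.getD q.2.1 0 else st.1.getD w 0)),
   (List.range N).map (fun w => (List.range n).map (fun j => clamp
      (if st.1.getD w 0 = st.1.getD q.1 0 then
        (st.2.getD w []).getD j 0 - (st.2.getD q.1 []).getD j 0 + (if j = q.2.2 then 1 else 0)
          + (st.2.getD q.2.1 []).getD j 0
      else (st.2.getD w []).getD j 0))))

/-- the initial state -/
def kinit (N n : ℕ) : List ℕ × List (List ℤ) :=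
  (List.range N, (List.range N).map (fun _ => (List.range n).map (fun _ => (0:ℤ))))

/-- the list-coded run -/
def krun (N n : ℕ) (L : List (ℕ × ℕ × ℕ)) : List ℕ × List (List ℤ) :=
  L.foldl (kstep N n) (kinit N n)

theorem getD_map_range {α : Type*} (N : ℕ) (f : ℕ → α) (d : α) {w : ℕ} (hw : w < N) :
    ((List.range N).map f).getD w d = f w := by
  rw [List.getD_eq_getElem?_getD, List.getElem?_map, List.getElem?_range hw]
  rfl

/-- The list state represents the abstract state on `V = ℕ`, labels `ℕ ⊕ ℕ`. -/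
structure Rep (N n : ℕ) (st : List ℕ × List (List ℤ)) (S : St ℕ (ℕ ⊕ ℕ)) : Prop where
  comp : ∀ w, w < N → st.1.getD w 0 = S.comp w
  lt : ∀ w, w < N → S.comp w < N
  pot : ∀ w, w < N → ∀ j, j < n → (st.2.getD w []).getD j 0 = S.P w (Sum.inl j)

/-- code of a label -/
def tri (n : ℕ) (par : ℕ → ℕ) : ℕ ⊕ ℕ → ℕ × ℕ × ℕ
  | Sum.inl k => (k, n + k, k)
  | Sum.inr p => (p, par p, n)

/-- first cell vertex / second cell vertex -/
def cX : ℕ → ℕ := fun k => k
def cY (n : ℕ) : ℕ → ℕ := fun k => n + k

theorem tri_fst (n : ℕ) (par : ℕ → ℕ) (q : ℕ ⊕ ℕ) : (tri n par q).1 = ea cX q := by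
  cases q <;> rfl

theorem tri_snd (n : ℕ) (par : ℕ → ℕ) (q : ℕ ⊕ ℕ) : (tri n par q).2.1 = eb (cY n) par q := by
  cases q <;> rfl

theorem tri_idx (n : ℕ) (par : ℕ → ℕ) (q : ℕ ⊕ ℕ) {j : ℕ} (hj : j < n) :
    (j = (tri n par q).2.2) ↔ (Sum.inl j = q) := by
  cases q with
  | inl k => simp [tri]
  | inr p => simp only [tri]; constructor
             · intro h; omega
             · intro h; simp at h

theorem rep_init (N n : ℕ) : Rep N n (kinit N n) (init : St ℕ (ℕ ⊕ ℕ)) := by
  constructor
  · intro w hw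
    have := getD_map_range N (fun w => w) 0 hw
    simpa [kinit, init] using this
  · intro w hw; exact hw
  · intro w hw j hj
    unfold kinit
    dsimp only
    rw [getD_map_range N _ _ hw, getD_map_range n _ _ hj]
    rfl

theorem rep_step {N n : ℕ} {par : ℕ → ℕ} {st : List ℕ × List (List ℤ)} {S : St ℕ (ℕ ⊕ ℕ)}
    (h : Rep N n st S) {q : ℕ ⊕ ℕ} (ha : ea cX q < N) (hb : eb (cY n) par q < N)
    (hinv : ∀ w j, (step (ea cX) (eb (cY n) par) S q).P w j = 0 ∨
      (step (ea cX) (eb (cY n) par) S q).P w j = 1 ∨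
      (step (ea cX) (eb (cY n) par) S q).P w j = -1) :
    Rep N n (kstep N n st (tri n par q)) (step (ea cX) (eb (cY n) par) S q) := by
  unfold kstep
  rw [tri_fst, tri_snd, h.comp _ ha, h.comp _ hb]
  unfold step at hinv ⊢
  by_cases hc : S.comp (ea cX q) = S.comp (eb (cY n) par q)
  · rw [if_pos hc, if_pos hc]; exact h
  · rw [if_neg hc] at hinv
    rw [if_neg hc, if_neg hc]
    dsimp only at hinv
    constructor
    · intro w hw
      dsimp only
      rw [getD_map_range N _ _ hw, h.comp _ hw]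
      apply min_eq_right
      split_ifs
      · exact (h.lt _ hb).le
      · exact (h.lt _ hw).le
    · intro w hw
      dsimp only
      split_ifs
      · exact h.lt _ hb
      · exact h.lt _ hw
    · intro w hw j hj
      dsimp only
      rw [getD_map_range N _ _ hw, getD_map_range n _ _ hj, h.comp _ hw, h.pot _ ha _ hj,
        h.pot _ hb _ hj, h.pot _ hw _ hj]
      have e : (if j = (tri n par q).2.2 then (1:ℤ) else 0) =
          (if (Sum.inl j : ℕ ⊕ ℕ) = q then 1 else 0) := by
        by_cases h1 : j = (tri n par q).2.2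
        · rw [if_pos h1, if_pos ((tri_idx n par q hj).1 h1)]
        · rw [if_neg h1, if_neg (fun h2 => h1 ((tri_idx n par q hj).2 h2))]
      rw [e]
      exact clamp_eq (hinv w (Sum.inl j))

theorem P_cases {V ι : Type*} [DecidableEq V] [DecidableEq ι] {a b : ι → V} {L : List ι}
    {st : St V ι} (h : Inv a b L st) (w : V) (j : ι) :
    st.P w j = 0 ∨ st.P w j = 1 ∨ st.P w j = -1 := by
  have := h.cases w (st.comp w) (h.rep w).symm j
  rw [h.P0 w j, sub_zero] at this
  exact this

/-- **Correctness of the list-coded run.** -/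
theorem rep_run {N n : ℕ} {par : ℕ → ℕ} (L : List (ℕ ⊕ ℕ)) (hL : L.Nodup)
    (ha : ∀ q ∈ L, ea cX q < N) (hb : ∀ q ∈ L, eb (cY n) par q < N) :
    Rep N n (krun N n (L.map (tri n par))) (run (ea cX) (eb (cY n) par) L) := by
  induction L using List.reverseRecOn with
  | nil => exact rep_init N n
  | append_singleton L q ih =>
    have h1 := ih hL.of_append_left (fun q' hq' => ha q' (by simp [hq']))
      (fun q' hq' => hb q' (by simp [hq']))
    have h2 : krun N n ((L ++ [q]).map (tri n par)) =
        kstep N n (krun N n (L.map (tri n par))) (tri n par q) := by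
      unfold krun
      rw [List.map_append, List.foldl_append]
      rfl
    rw [h2, run_append]
    refine rep_step h1 (ha q (by simp)) (hb q (by simp)) ?_
    intro w j
    have h3 := inv_run (ea cX) (eb (cY n) par) (L ++ [q]) hL
    rw [run_append] at h3
    exact P_cases h3 w j

/-! ### Polynomial time -/

open Crest.Agent.Lib.PT Crest.Agent.R309.PTX Crest.Agent.Lib.PT.Arith

section ptf

variable {γ : Type} [PTCode γ]


theorem sz_clamp (z : ℤ) : sz (clamp z) ≤ 4 := by
  rw [sz_int]
  have := Nat.size_le_size (clamp_natAbs z)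
  simp at this
  omega

/-- size bound of the states of the run -/
def kB (N n : ℕ) : ℕ := 2 * (N * (2 * N + 1)) + 1 + N * (2 * (n * 9) + 1)

theorem sz_kpair (N n : ℕ) (f : ℕ → ℕ) (g : ℕ → ℕ → ℤ) (hf : ∀ w, w < N → f w ≤ N)
    (hg : ∀ w j, sz (g w j) ≤ 4) :
    sz ((List.range N).map f, (List.range N).map (fun w => (List.range n).map (g w)))
      ≤ kB N n := by
  rw [sz_prod]
  dsimp only
  have h1 : sz ((List.range N).map f) ≤ N * (2 * N + 1) := by
    have := sz_list_le (l := (List.range N).map f) (m := N) (by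
      intro a ha
      obtain ⟨w, hw, rfl⟩ := List.mem_map.1 ha
      exact (sz_nat_le _).trans (hf w (List.mem_range.1 hw)))
    simpa using this
  have h2 : sz ((List.range N).map (fun w => (List.range n).map (g w))) ≤ N * (2 * (n * 9) + 1) := by
    have := sz_list_le (l := (List.range N).map (fun w => (List.range n).map (g w)))
      (m := n * 9) (by
      intro a ha
      obtain ⟨w, _, rfl⟩ := List.mem_map.1 ha
      have := sz_list_le (l := (List.range n).map (g w)) (m := 4) (by
        intro b hb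
        obtain ⟨j, _, rfl⟩ := List.mem_map.1 hb
        exact hg w j)
      simpa using this)
    simpa using this
  unfold kB
  omega

theorem ptf_kstep {N n : γ → ℕ} (hN : PTU N) (hn : PTU n) :
    PTF (fun p : γ × (List ℕ × List (List ℤ)) × (ℕ × ℕ × ℕ) =>
      kstep (N p.1) (n p.1) p.2.1 p.2.2) := by
  unfold kstep clamp
  pt_solve

theorem ptf_kinit {N n : γ → ℕ} (hN : PTU N) (hn : PTU n) :
    PTF (fun c => kinit (N c) (n c)) := by
  unfold kinit
  pt_solve

theorem ptf_krun {N n : γ → ℕ} {L : γ → List (ℕ × ℕ × ℕ)} (hN : PTU N) (hn : PTU n)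
    (hL : PTF L) : PTF (fun c => krun (N c) (n c) (L c)) := by
  unfold krun
  refine PTF.foldl_bdd hL (ptf_kstep hN hn) (ptf_kinit hN hn)
    (G := fun c => kB (N c) (n c)) ?_ ?_ ?_
  · unfold kB
    have h1 := hN.pb
    have h2 := hn.pb
    fun_prop
  · intro c b q _ hb
    unfold kstep
    split_ifs
    · exact hb
    · exact sz_kpair _ _ _ _ (fun w _ => min_le_left _ _) (fun w j => sz_clamp _)
  · intro c
    unfold kinit
    have h := sz_kpair (N c) (n c) (fun w => w) (fun _ _ => 0) (fun w hw => hw.le)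
      (fun _ _ => by rw [sz_int]; simp)
    rw [List.map_id'] at h
    exact h

end ptf

end Crest.Agent.R302.GeoProg
private theorem rz_6270b92fdd : type_of% @_root_.Crest.Agent.R302.GeoProg.tri.eq_1 := @_root_.Crest.Agent.R302.GeoProg.tri.eq_1 -- L98
end

-- ▼ part R302/GeoProg725B
section

set_option autoImplicit false

namespace Crest.Agent.R302.GeoProg

open Crest.Agent.R302.Repair Crest.Agent.R302.TreeNN
open Crest.Agent.Lib.PT Crest.Agent.R309.PTX Crest.Agent.Lib.PT.Arith

/-! ### Nearest earlier neighbours on lists -/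

/-- list version of `TreeNN.upd`; `n` codes `none` -/
def updL (row : List ℤ) (w₁ : ℤ) (a n : ℕ) (o b : ℕ) : ℕ :=
  if b < a then
    (if o = n then (if w₁ ≤ row.getD b 0 then b else n)
     else if row.getD o 0 < row.getD b 0 then b else o)
  else o

/-- nearest earlier neighbour of `a` (or `n`) -/
def parL1 (n : ℕ) (w₁ : ℤ) (M : List (List ℤ)) (a : ℕ) : ℕ :=
  (List.range n).foldl (updL (M.getD a []) w₁ a n) n

/-- the parent list -/
def parL (n : ℕ) (w₁ : ℤ) (M : List (List ℤ)) : List ℕ :=
  (List.range n).map (parL1 n w₁ M)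

/-- code of an optional element of `Fin n` -/
def ocode {n : ℕ} : Option (Fin n) → ℕ
  | none => n
  | some b => b

theorem ocode_eq_n {n : ℕ} (o : Option (Fin n)) : ocode o = n ↔ o = none := by
  cases o with
  | none => simp [ocode]
  | some b => simp only [ocode]; constructor
              · intro h; have := b.2; omega
              · intro h; simp at h

theorem updL_eq {n : ℕ} {M : List (List ℤ)} {m : Fin n → Fin n → ℤ}
    (hM : ∀ a b : Fin n, (M.getD a []).getD b 0 = m a b) (w₁ : ℤ) (a : Fin n)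
    (o : Option (Fin n)) (b : Fin n) :
    updL (M.getD a []) w₁ a n (ocode o) b = ocode (upd m w₁ a o b) := by
  unfold updL upd
  by_cases h1 : b < a
  · rw [if_pos h1, if_pos (show (b:ℕ) < a from h1)]
    cases o with
    | none =>
      rw [if_pos (by simp [ocode])]
      dsimp only
      rw [hM a b]
      split_ifs <;> rfl
    | some b' =>
      have h2 : ¬ ocode (some b') = n := by
        rw [ocode_eq_n]; simp
      rw [if_neg h2]
      have h3 : (M.getD a []).getD (ocode (some b')) 0 = m a b' := hM a b'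
      by_cases h4 : m a b' < m a b
      · rw [if_pos (by rw [h3, hM a b]; exact h4)]
        dsimp only
        rw [if_pos h4]; rfl
      · rw [if_neg (by rw [h3, hM a b]; exact h4)]
        dsimp only
        rw [if_neg h4]
  · rw [if_neg h1, if_neg (show ¬ (b:ℕ) < a from h1)]

theorem parL1_eq {n : ℕ} {M : List (List ℤ)} {m : Fin n → Fin n → ℤ}
    (hM : ∀ a b : Fin n, (M.getD a []).getD b 0 = m a b) (w₁ : ℤ) (a : Fin n) :
    parL1 n w₁ M a = ocode (best m w₁ (List.finRange n) a) := by
  unfold parL1 best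
  have key : ∀ (l : List (Fin n)) (o : Option (Fin n)),
      (l.map (fun b : Fin n => (b : ℕ))).foldl (updL (M.getD a []) w₁ a n) (ocode o) =
        ocode (l.foldl (upd m w₁ a) o) := by
    intro l
    induction l with
    | nil => intro o; rfl
    | cons b l ih =>
      intro o
      rw [List.map_cons, List.foldl_cons, List.foldl_cons, updL_eq hM w₁ a o b]
      exact ih _
  have h := key (List.finRange n) none
  rw [← h]
  congr 1
  exact List.map_coe_finRange_eq_range.symm

theorem parL_getD {n : ℕ} {M : List (List ℤ)} {m : Fin n → Fin n → ℤ}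
    (hM : ∀ a b : Fin n, (M.getD a []).getD b 0 = m a b) (w₁ : ℤ) (a : Fin n) (d : ℕ) :
    (parL n w₁ M).getD a d = ocode (best m w₁ (List.finRange n) a) := by
  unfold parL
  rw [getD_map_range n _ d a.2, parL1_eq hM]

/-! ### Parents and keys of nodes -/

/-- parent of a node -/
def parN (n : ℕ) (p₁ p₂ : List ℕ) (v : ℕ) : ℕ :=
  if v < n then (if p₁.getD v n = n then 2 * n else p₁.getD v n)
  else if v < 2 * n then (if p₂.getD (v - n) n = n then 2 * n else n + p₂.getD (v - n) n)
  else 2 * n

/-- key (weight of the link above the node; `w₁ - 1` for thin links) -/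
def keyN (n : ℕ) (w₁ : ℤ) (M₁ M₂ : List (List ℤ)) (p₁ p₂ : List ℕ) (v : ℕ) : ℤ :=
  if v < n then (if p₁.getD v n = n then w₁ - 1 else (M₁.getD v []).getD (p₁.getD v n) 0)
  else (if p₂.getD (v - n) n = n then w₁ - 1
    else (M₂.getD (v - n) []).getD (p₂.getD (v - n) n) 0)

/-! ### Sorting by decreasing key -/

/-- insertion -/
def insK (key : ℕ → ℤ) (l : List ℕ) (x : ℕ) : List ℕ :=
  l.filter (fun y => decide (key x ≤ key y)) ++ x :: l.filter (fun y => decide (key y < key x))

/-- insertion sort by decreasing key -/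
def sortK (key : ℕ → ℤ) (l : List ℕ) : List ℕ := l.foldl (insK key) []

theorem filter_split_perm {α : Type*} (p : α → Bool) (l : List α) :
    (l.filter p ++ l.filter (fun y => !p y)).Perm l := by
  induction l with
  | nil => simp
  | cons a l ih =>
    by_cases h : p a
    · simp only [List.filter_cons, h, if_true, Bool.not_true, Bool.false_eq_true, if_false,
        List.cons_append]
      exact ih.cons a
    · simp only [List.filter_cons, h, Bool.not_false, if_true, Bool.false_eq_true, if_false]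
      exact (List.perm_middle).trans (ih.cons a)

theorem insK_perm (key : ℕ → ℤ) (l : List ℕ) (x : ℕ) : (insK key l x).Perm (x :: l) := by
  unfold insK
  refine List.perm_middle.trans (List.Perm.cons x ?_)
  have h := filter_split_perm (fun y => decide (key x ≤ key y)) l
  have e : (fun y => decide (key y < key x)) = (fun y => !decide (key x ≤ key y)) := by
    funext y
    by_cases h1 : key x ≤ key y
    · simp [h1, not_lt.2 h1]
    · simp [h1, not_le.1 h1]
  rw [e]; exact h

theorem sortK_perm (key : ℕ → ℤ) (l : List ℕ) : (sortK key l).Perm l := by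
  induction l using List.reverseRecOn with
  | nil => exact List.Perm.refl _
  | append_singleton l x ih =>
    have e : sortK key (l ++ [x]) = insK key (sortK key l) x := by
      unfold sortK; rw [List.foldl_append]; rfl
    rw [e]
    exact (insK_perm key _ x).trans ((ih.cons x).trans (List.perm_append_singleton x l).symm)

theorem sortK_sorted (key : ℕ → ℤ) (l : List ℕ) :
    (sortK key l).Pairwise (fun x y => key y ≤ key x) := by
  induction l using List.reverseRecOn with
  | nil => exact List.Pairwise.nil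
  | append_singleton l x ih =>
    have e : sortK key (l ++ [x]) = insK key (sortK key l) x := by
      unfold sortK; rw [List.foldl_append]; rfl
    rw [e]
    unfold insK
    rw [List.pairwise_append]
    refine ⟨ih.filter _, ?_, ?_⟩
    · rw [List.pairwise_cons]
      refine ⟨?_, ih.filter _⟩
      intro y hy
      have := (List.mem_filter.1 hy).2
      have h2 : key y < key x := by simpa using this
      exact h2.le
    · intro y hy z hz
      have hy' : key x ≤ key y := by simpa using (List.mem_filter.1 hy).2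
      rcases List.mem_cons.1 hz with rfl | hz
      · exact hy'
      · have hz' : key z < key x := by simpa using (List.mem_filter.1 hz).2
        exact hz'.le.trans hy'

/-! ### Stage potentials and moves -/

/-- the labels of stage `i`: cells `i, …, n-1`, then the hidden edges `H` -/
def labL (n : ℕ) (par : ℕ → ℕ) (H : List ℕ) (i : ℕ) : List (ℕ × ℕ × ℕ) :=
  ((List.range n).drop i).map (fun k => (k, n + k, k)) ++ H.map (fun p => (p, par p, n))

theorem labL_eq (n : ℕ) (par : ℕ → ℕ) (H : List ℕ) (i : ℕ) :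
    labL n par H i = (elist ((List.range n).drop i) H).map (tri n par) := by
  unfold labL elist
  rw [List.map_append, List.map_map, List.map_map]
  rfl

/-- the potentials of stage `i` -/
def potL (n : ℕ) (par : ℕ → ℕ) (H : List ℕ) (i : ℕ) : List (List ℤ) :=
  (krun (2 * n + 1) n (labL n par H i)).2

/-- **Correctness of the stage potentials** (abstract forest on `V = ℕ`). -/
theorem potL_eq {n : ℕ} {par : ℕ → ℕ} {H : List ℕ} (hH : H.Nodup) (hlt : ∀ p ∈ H, p < 2 * n + 1)
    (hpar : ∀ p ∈ H, par p < 2 * n + 1) (i : ℕ) {w j : ℕ} (hw : w < 2 * n + 1) (hj : j < n) :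
    ((potL n par H i).getD w []).getD j 0 =
      (forest cX (cY n) par ((List.range n).drop i) H).P w (Sum.inl j) := by
  unfold potL
  rw [labL_eq]
  have hS : ((List.range n).drop i).Nodup := (List.nodup_range).sublist (List.drop_sublist _ _)
  have h := rep_run (N := 2 * n + 1) (n := n) (par := par) (elist ((List.range n).drop i) H)
    (elist_nodup hS hH) ?_ ?_
  · exact h.pot w hw j hj
  · intro q hq
    unfold elist at hq
    rcases List.mem_append.1 hq with h1 | h1
    · obtain ⟨k, hk, rfl⟩ := List.mem_map.1 h1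
      have := List.mem_range.1 (List.mem_of_mem_drop hk)
      simp only [ea, cX]; omega
    · obtain ⟨p, hp, rfl⟩ := List.mem_map.1 h1
      simp only [ea]; exact hlt p hp
  · intro q hq
    unfold elist at hq
    rcases List.mem_append.1 hq with h1 | h1
    · obtain ⟨k, hk, rfl⟩ := List.mem_map.1 h1
      have := List.mem_range.1 (List.mem_of_mem_drop hk)
      simp only [eb, cY]; omega
    · obtain ⟨p, hp, rfl⟩ := List.mem_map.1 h1
      simp only [eb]; exact hpar p hp

/-- Transport to an arbitrary vertex type. -/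
theorem forest_map {V E : Type*} [DecidableEq V] [DecidableEq E] (code : V → ℕ)
    (hcode : Function.Injective code) (κ : E → ℕ) (hκ : Function.Injective κ) (n : ℕ)
    (X Y : E → V) (par : V → V) (parc : ℕ → ℕ) (hX : ∀ e, code (X e) = κ e)
    (hY : ∀ e, code (Y e) = n + κ e) (hpar : ∀ v, parc (code v) = code (par v))
    (S : List E) (H : List V) (v : V) (e : E) :
    (forest cX (cY n) parc (S.map κ) (H.map code)).P (code v) (Sum.inl (κ e)) =
      (forest X Y par S H).P v (Sum.inl e) := by
  have h := (run_map code hcode (Sum.map κ code) (hκ.sumMap hcode) (ea X) (eb Y par)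
    (ea cX) (eb (cY n) parc) ?_ ?_ (elist S H)).2 v (Sum.inl e)
  · have e1 : (elist S H).map (Sum.map κ code) = elist (S.map κ) (H.map code) := by
      unfold elist
      rw [List.map_append, List.map_map, List.map_map, List.map_map, List.map_map]
      rfl
    rw [e1] at h
    exact h
  · intro j
    cases j with
    | inl k => simp only [Sum.map_inl, ea, cX]; exact (hX k).symm
    | inr p => simp only [Sum.map_inr, ea]
  · intro j
    cases j with
    | inl k => simp only [Sum.map_inl, eb, cY]; exact (hY k).symm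
    | inr p => simp only [Sum.map_inr, eb]; exact hpar p

/-- jump of the potentials of stage `i` along the hidden edge `p` -/
def moveL (n : ℕ) (par : ℕ → ℕ) (pot : List (List ℤ)) (p : ℕ) : List ℤ :=
  (List.range n).map (fun j => (pot.getD p []).getD j 0 - (pot.getD (par p) []).getD j 0)

/-- the table of all moves: stage `i < n`, node `p < 2n` (index `i * 2n + p`), with the key of
`p`; thin nodes have key `w₁ - 1` -/
def movesL (n : ℕ) (par : ℕ → ℕ) (key : ℕ → ℤ) (H : List ℕ) : List (List ℤ × ℤ) :=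
  (List.range n).flatMap (fun i =>
    (fun pot : List (List ℤ) => (List.range (2 * n)).map (fun p => (moveL n par pot p, key p)))
      (potL n par H i))

/-! ### Polynomial time -/

section ptf

variable {γ : Type} [PTCode γ]

theorem ptf_updL {n : γ → ℕ} (hn : PTU n) :
    PTF (fun p : (γ × List ℤ × ℤ × ℕ) × ℕ × ℕ =>
      updL p.1.2.1 p.1.2.2.1 p.1.2.2.2 (n p.1.1) p.2.1 p.2.2) := by
  unfold updL
  pt_solve

theorem ptf_parL1 {n : γ → ℕ} {w₁ : γ → ℤ} {M : γ → List (List ℤ)} {a : γ → ℕ} (hn : PTU n)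
    (hw : PTF w₁) (hM : PTF M) (ha : PTF a) :
    PTF (fun c => parL1 (n c) (w₁ c) (M c) (a c)) := by
  unfold parL1
  refine PTF.foldl_bdd (PTF.range hn) ?_ hn.toPTF (G := fun c => n c) hn.pb ?_ ?_
  · exact PTF.comp (g := fun p : (γ × List ℤ × ℤ × ℕ) × ℕ × ℕ =>
      updL p.1.2.1 p.1.2.2.1 p.1.2.2.2 (n p.1.1) p.2.1 p.2.2)
      (f := fun p : γ × ℕ × ℕ => ((p.1, ((M p.1).getD (a p.1) [], w₁ p.1, a p.1)), p.2))
      (ptf_updL hn) (by pt_solve)
  · intro c b x hx hb
    have hx' : sz x ≤ n c := (sz_nat_le x).trans (List.mem_range.1 hx).le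
    unfold updL
    split_ifs
    · exact hx'
    · exact sz_nat_le _
    · exact hx'
    · exact hb
    · exact hb
  · intro c; exact sz_nat_le _

theorem ptf_parL {n : γ → ℕ} {w₁ : γ → ℤ} {M : γ → List (List ℤ)} (hn : PTU n)
    (hw : PTF w₁) (hM : PTF M) : PTF (fun c => parL (n c) (w₁ c) (M c)) := by
  unfold parL
  refine PTF.map (PTF.range hn) ?_
  exact ptf_parL1 (γ := γ × ℕ) (n := fun p => n p.1) (w₁ := fun p => w₁ p.1)
    (M := fun p => M p.1) (a := fun p => p.2) (by fun_prop) (by fun_prop) (by fun_prop)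
    (by fun_prop)

theorem ptf_parN {n : γ → ℕ} {p₁ p₂ : γ → List ℕ} {v : γ → ℕ} (hn : PTU n) (h₁ : PTF p₁)
    (h₂ : PTF p₂) (hv : PTF v) : PTF (fun c => parN (n c) (p₁ c) (p₂ c) (v c)) := by
  unfold parN
  pt_solve

theorem ptf_keyN {n : γ → ℕ} {w₁ : γ → ℤ} {M₁ M₂ : γ → List (List ℤ)} {p₁ p₂ : γ → List ℕ}
    {v : γ → ℕ} (hn : PTU n) (hw : PTF w₁) (hM₁ : PTF M₁) (hM₂ : PTF M₂) (h₁ : PTF p₁)
    (h₂ : PTF p₂) (hv : PTF v) :
    PTF (fun c => keyN (n c) (w₁ c) (M₁ c) (M₂ c) (p₁ c) (p₂ c) (v c)) := by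
  unfold keyN
  pt_solve

theorem ptf_sortK {key : γ → ℕ → ℤ} {l : γ → List ℕ} (hk : PTF₂ key) (hl : PTF l) :
    PTF (fun c => sortK (key c) (l c)) := by
  unfold sortK
  refine PTF.foldl_add hl ?_ (PTF.const []) (G := fun c => 2 * sz (l c) + 1) (by fun_prop) ?_
  · unfold insK
    have h1 : PTF (fun p : (γ × List ℕ × ℕ) × ℕ => key p.1.1 p.1.2.2) :=
      PTF.comp (g := fun p : γ × ℕ => key p.1 p.2)
        (f := fun p : (γ × List ℕ × ℕ) × ℕ => (p.1.1, p.1.2.2)) hk (by fun_prop)
    have h2 : PTF (fun p : (γ × List ℕ × ℕ) × ℕ => key p.1.1 p.2) :=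
      PTF.comp (g := fun p : γ × ℕ => key p.1 p.2)
        (f := fun p : (γ × List ℕ × ℕ) × ℕ => (p.1.1, p.2)) hk (by fun_prop)
    refine PTF.append (PTF.filter (by fun_prop) ?_) (PTF.listCons (by fun_prop)
      (PTF.filter (by fun_prop) ?_))
    · exact PTPred.toPTF (PTPred.intLe h1 h2)
    · exact PTPred.toPTF (PTPred.intLt h2 h1)
  · intro c b a ha
    have h1 : sz a ≤ sz (l c) := sz_mem_le ha
    have h2 : sz (insK (key c) b a) = 2 * sz a + 1 + sz b := by
      unfold insK
      rw [sz_append, sz_cons]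
      have h3 : ∀ b : List ℕ, sz (b.filter (fun y => decide (key c a ≤ key c y))) +
          sz (b.filter (fun y => decide (key c y < key c a))) = sz b := by
        intro b
        induction b with
        | nil => simp
        | cons x b ih =>
          rw [List.filter_cons, List.filter_cons]
          by_cases h : key c a ≤ key c x
          · rw [if_pos (by simpa using h), if_neg (by simpa using h), sz_cons, sz_cons]
            omega
          · rw [if_neg (by simpa using h), if_pos (by simpa using h), sz_cons, sz_cons]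
            omega
      have := h3 b
      omega
    omega

theorem ptf_potL {n i : γ → ℕ} {par : γ → ℕ → ℕ} {H : γ → List ℕ} (hn : PTU n)
    (hp : PTF₂ par) (hH : PTF H) (hi : PTF i) :
    PTF (fun c => potL (n c) (par c) (H c) (i c)) := by
  unfold potL
  have hn2 : PTU (fun c => 2 * n c + 1) := by fun_prop
  have hlab : PTF (fun c => labL (n c) (par c) (H c) (i c)) := by
    unfold labL
    refine PTF.append ?_ ?_
    · pt_solve
    · refine PTF.map hH ?_
      refine PTF.prodMk (by fun_prop) (PTF.prodMk ?_ (by pt_solve))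
      exact hp
  exact PTF.comp (g := fun q : List ℕ × List (List ℤ) => q.2) (by fun_prop)
    (ptf_krun hn2 hn hlab)

theorem ptf_movesL {n : γ → ℕ} {par : γ → ℕ → ℕ} {key : γ → ℕ → ℤ} {H : γ → List ℕ}
    (hn : PTU n) (hp : PTF₂ par) (hk : PTF₂ key) (hH : PTF H) :
    PTF (fun c => movesL (n c) (par c) (key c) (H c)) := by
  unfold movesL
  refine PTF.flatMap (PTF.range hn) ?_
  have h1 : PTF (fun p : (γ × ℕ) => potL (n p.1) (par p.1) (H p.1) p.2) :=
    ptf_potL (γ := γ × ℕ) (n := fun p => n p.1) (par := fun p => par p.1) (H := fun p => H p.1)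
      (i := fun p => p.2) (by fun_prop)
      (PTF.comp (g := fun p : γ × ℕ => par p.1 p.2) (f := fun p : (γ × ℕ) × ℕ => (p.1.1, p.2)) hp
        (by fun_prop)) (by fun_prop) (by fun_prop)
  have h2 : PTF (fun q : (γ × ℕ) × List (List ℤ) =>
      (List.range (2 * n q.1.1)).map (fun p => (moveL (n q.1.1) (par q.1.1) q.2 p, key q.1.1 p))) := by
    refine PTF.map (PTF.range (by fun_prop)) (PTF.prodMk ?_ ?_)
    · unfold moveL
      have h3 : PTF (fun q : ((γ × ℕ) × List (List ℤ)) × ℕ => par q.1.1.1 q.2) :=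
        PTF.comp (g := fun p : γ × ℕ => par p.1 p.2)
          (f := fun q : ((γ × ℕ) × List (List ℤ)) × ℕ => (q.1.1.1, q.2)) hp (by fun_prop)
      have h4 : PTF (fun q : (((γ × ℕ) × List (List ℤ)) × ℕ) × ℕ => par q.1.1.1.1 q.1.2) :=
        PTF.comp (g := fun q : ((γ × ℕ) × List (List ℤ)) × ℕ => par q.1.1.1 q.2)
          (f := fun q : (((γ × ℕ) × List (List ℤ)) × ℕ) × ℕ => q.1) h3 (by fun_prop)
      pt_solve
    · exact PTF.comp (g := fun p : γ × ℕ => key p.1 p.2)
        (f := fun q : ((γ × ℕ) × List (List ℤ)) × ℕ => (q.1.1.1, q.2)) hk (by fun_prop)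
  exact PTF.comp (g := fun q : (γ × ℕ) × List (List ℤ) =>
      (List.range (2 * n q.1.1)).map (fun p => (moveL (n q.1.1) (par q.1.1) q.2 p, key q.1.1 p)))
    (f := fun p : γ × ℕ => (p, potL (n p.1) (par p.1) (H p.1) p.2)) h2 (by fun_prop)

end ptf

/-! ### The geometry as one function of the two matrices -/

/-- the two parent lists, the sorted hidden edges and the table of moves -/
def geoL (n : ℕ) (w₁ : ℤ) (M₁ M₂ : List (List ℤ)) :
    List ℕ × List ℕ × List ℕ × List (List ℤ × ℤ) :=
  (fun p₁ p₂ : List ℕ =>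
    (fun H : List ℕ =>
      (p₁, p₂, H, movesL n (parN n p₁ p₂) (keyN n w₁ M₁ M₂ p₁ p₂) H))
      (sortK (keyN n w₁ M₁ M₂ p₁ p₂) (List.range (2 * n))))
    (parL n w₁ M₁) (parL n w₁ M₂)

theorem ptf_geoL {γ : Type} [PTCode γ] {n : γ → ℕ} {w₁ : γ → ℤ} {M₁ M₂ : γ → List (List ℤ)}
    (hn : PTU n) (hw : PTF w₁) (h₁ : PTF M₁) (h₂ : PTF M₂) :
    PTF (fun c => geoL (n c) (w₁ c) (M₁ c) (M₂ c)) := by
  unfold geoL
  have hp₁ := ptf_parL hn hw h₁
  have hp₂ := ptf_parL hn hw h₂
  have hp₁' : PTF (fun p : γ × ℕ => parL (n p.1) (w₁ p.1) (M₁ p.1)) :=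
    PTF.comp (g := fun c => parL (n c) (w₁ c) (M₁ c)) (f := fun p : γ × ℕ => p.1) hp₁ (by fun_prop)
  have hp₂' : PTF (fun p : γ × ℕ => parL (n p.1) (w₁ p.1) (M₂ p.1)) :=
    PTF.comp (g := fun c => parL (n c) (w₁ c) (M₂ c)) (f := fun p : γ × ℕ => p.1) hp₂ (by fun_prop)
  have hpar : PTF (fun p : γ × ℕ =>
      parN (n p.1) (parL (n p.1) (w₁ p.1) (M₁ p.1)) (parL (n p.1) (w₁ p.1) (M₂ p.1)) p.2) :=
    ptf_parN (γ := γ × ℕ) (n := fun p => n p.1) (by fun_prop) hp₁' hp₂' (by fun_prop)
  have hkey : PTF (fun p : γ × ℕ =>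
      keyN (n p.1) (w₁ p.1) (M₁ p.1) (M₂ p.1) (parL (n p.1) (w₁ p.1) (M₁ p.1))
        (parL (n p.1) (w₁ p.1) (M₂ p.1)) p.2) :=
    ptf_keyN (γ := γ × ℕ) (n := fun p => n p.1) (by fun_prop) (by fun_prop) (by fun_prop)
      (by fun_prop) hp₁' hp₂' (by fun_prop)
  have hH : PTF (fun c => sortK (keyN (n c) (w₁ c) (M₁ c) (M₂ c) (parL (n c) (w₁ c) (M₁ c))
      (parL (n c) (w₁ c) (M₂ c))) (List.range (2 * n c))) :=
    ptf_sortK (key := fun c v => keyN (n c) (w₁ c) (M₁ c) (M₂ c) (parL (n c) (w₁ c) (M₁ c))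
      (parL (n c) (w₁ c) (M₂ c)) v) hkey (PTF.range (by fun_prop))
  exact hp₁.prodMk (hp₂.prodMk (hH.prodMk (ptf_movesL hn hpar hkey hH)))

end Crest.Agent.R302.GeoProg
private theorem rz_1b32a6ec25 : type_of% @_root_.Crest.Agent.R302.GeoProg.ocode.eq_1 := @_root_.Crest.Agent.R302.GeoProg.ocode.eq_1 -- L32
end

-- ▼ part R302/GeoSpec725
section

set_option autoImplicit false

namespace Crest.Agent.R302.GeoSpec

open Finset Crest.Agent.R302.Facet Crest.Agent.R302.TreeNN Crest.Agent.R302.GeoProg
open Crest.Agent.R302.Repair Crest.Agent.R302.Inst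

/-! ### Repair maps as a predicate -/

/-- The properties of a repair map (see `Repair.repair'`). -/
structure IsRepair {V E : Type*} [Fintype V] [Fintype E] [DecidableEq V] [DecidableEq E]
    (X Y : E → V) (par : V → V) (root : V) (b : V → ℝ) (T : E → Prop) (v₀ : V)
    (R : V → E → ℤ) : Prop where
  base : ∀ j, R v₀ j = 0
  cell : ∀ k, T k → ∀ j, R (X k) j - R (Y k) j = if j = k then 1 else 0
  cases : ∀ p j, R p j = 0 ∨ R p j = 1 ∨ R p j = -1
  sub_cases : ∀ p q j, R p j - R q j = 0 ∨ R p j - R q j = 1 ∨ R p j - R q j = -1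
  support : ∀ p j, ¬ T j → R p j = 0
  edge : ∀ p, p ≠ root → (∀ j, R p j = R (par p) j) ∨
    ∃ lam : V → ℤ, (∀ q, lam q = 0 ∨ lam q = 1 ∨ lam q = -1) ∧
      (∀ q, lam q ≠ 0 → q ≠ root ∧ q ≠ p ∧ b q ≤ b p) ∧
      ∀ φ : V → ℝ, φ p - φ (par p) =
        ∑ k, ((R p k - R (par p) k : ℤ) : ℝ) * (φ (X k) - φ (Y k)) +
        ∑ q, (lam q : ℝ) * (φ q - φ (par q))
  route : ∀ p, ∃ mu : V → ℤ, (∀ q, mu q = 0 ∨ mu q = 1 ∨ mu q = -1) ∧ mu root = 0 ∧
    ∑ q ∈ Finset.univ.filter (fun q => par q = root), |mu q| ≤ 2 ∧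
    ∀ φ : V → ℝ, φ p - φ v₀ = ∑ k, (R p k : ℝ) * (φ (X k) - φ (Y k)) +
      ∑ q, (mu q : ℝ) * (φ q - φ (par q))

/-- The concrete repair map of a sorted complete list of hidden edges is a repair map. -/
theorem isRepair_rep {V E : Type*} [Fintype V] [Fintype E] [DecidableEq V] [DecidableEq E]
    {X Y : E → V} {par : V → V} (hX : Function.Injective X) (hXY : ∀ e e', X e ≠ Y e') {root : V}
    (hroot : ∀ p, ∃ m : ℕ, par^[m] p = root) {b : V → ℝ} {S : List E} (hS : S.Nodup)
    {H : List V} (hH : H.Nodup) (hmem : ∀ p, p ∈ H ↔ p ≠ root)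
    (hsort : H.Pairwise (fun p q => b p ≤ b q)) (v₀ : V) :
    IsRepair X Y par root b (fun k => k ∈ S) v₀ (rep X Y par S H v₀) := by
  have hc := comp_eq X Y par S H hS hH root hroot (fun p hp => (hmem p).2 hp)
  constructor
  · intro j; unfold rep; ring
  · intro k hk j
    exact rep_cell X Y par S H hS hH hX hXY v₀ hk j
  · intro p j
    exact rep_cases X Y par S H hS hH (hc _ _) j
  · intro p q j
    exact rep_sub_cases X Y par S H hS hH (hc _ _) j
  · intro p j hj
    exact rep_support X Y par S H hS hH hj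
  · intro p hp
    have hpH := (hmem p).2 hp
    obtain ⟨H₁, H₂, hHH⟩ := List.append_of_mem hpH
    have hnd := hH
    rw [hHH] at hnd
    rcases rep_edge X Y par S H₁ H₂ p hS hnd with h | h
    · left
      rw [← hHH] at h
      exact h v₀
    · right
      rw [← hHH] at h
      refine ⟨hid X Y par S H p, hid_cases X Y par S H hS hH hpH, ?_, ?_⟩
      · intro q hq
        have hq1 := h q hq
        have hqH : q ∈ H := by rw [hHH]; simp [hq1]
        refine ⟨(hmem q).1 hqH, ?_, ?_⟩
        · rintro rfl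
          exact (List.nodup_append.1 hnd).2.2 q hq1 q (by simp) rfl
        · rw [hHH, List.pairwise_append] at hsort
          exact hsort.2.2 q hq1 p (by simp)
      · intro φ
        have := rep_bd X Y par S H hS hH φ hpH v₀
        simp only [zsmul_eq_mul] at this
        exact this
  · intro p
    refine ⟨Repair.route X Y par S H v₀ p, route_cases X Y par S H hS hH (hc _ _),
      route_support X Y par S H hS hH (fun h => (hmem root).1 h rfl),
      route_root X Y par S H hS hH (hc _ _) root, ?_⟩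
    intro φ
    have := route_bd X Y par S H φ (hc p v₀)
    simp only [zsmul_eq_mul] at this
    exact this

/-! ### The forest of a nearest-earlier-neighbour map -/

section forest

variable {n : ℕ}

/-- the forest of the nearest earlier neighbours -/
def nnForest (m : Fin n → Fin n → ℤ) (w₁ : ℤ) : MP3.Forest (Fin n) where
  par := best m w₁ (List.finRange n)
  dep := fun a => a
  dep_lt := fun a b h => (nn_best m w₁ _ (fun a => List.mem_finRange a)).lt a b h

theorem nn_nnForest (m : Fin n → Fin n → ℤ) (w₁ : ℤ) : NN m w₁ (nnForest m w₁).par :=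
  nn_best m w₁ _ (fun a => List.mem_finRange a)

theorem D_iff_le (T : MP3.Forest (Fin n)) (a c : Fin n) : D T.par a c ↔ T.Le c a := by
  constructor
  · intro h
    induction h with
    | refl => exact MP3.Forest.Le.refl T a
    | step q b hq _ ih => exact (MP3.Forest.Le.of_par hq).trans ih
  · intro h
    induction h using Relation.ReflTransGen.head_induction_on with
    | refl => exact D.refl
    | head hx _ ih => exact D.step _ _ hx ih

theorem filter_D (T : MP3.Forest (Fin n)) (a : Fin n) [DecidablePred (fun q => D T.par a q)] :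
    univ.filter (fun q => D T.par a q) = T.sub a := by
  ext c
  rw [mem_filter, MP3.Forest.mem_sub, D_iff_le]
  simp

/-- **Block sums (side 1)** in the names of `Inst`. -/
theorem bs_diff₁ {r₁ r₂ : Finset (Fin n) → ℤ} {R : ℤ} (hr₁ : SubM r₁ R)
    {P : Finset (Fin n → ℤ)} (hP : ∀ x, x ∈ P ↔ MemJ r₁ R x ∧ MemJ r₂ R x) {C : ℕ} (hC : 1 ≤ C)
    {c : Fin n → ℤ} (hcP : c ∈ P) (hc : IsCenter r₁ r₂ P C c) {w₁ : ℤ} (hw : 0 ≤ w₁)
    {x : Fin n → ℤ} (hx : x ∈ P) (a : Fin n) :
    |bs (nnForest (mcap r₁ c) w₁) x a - bs (nnForest (mcap r₁ c) w₁) c a|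
      ≤ 2 * (n : ℤ) ^ 3 * (C * (wt (mcap r₁ c) w₁ (nnForest (mcap r₁ c) w₁).par a + 1)) := by
  classical
  have h := tree_diff₁ hr₁ hP hC hcP hc hw (nn_nnForest (mcap r₁ c) w₁) hx a
  rw [filter_D, Fintype.card_fin] at h
  exact h

/-- **Block sums (side 2)** in the names of `Inst`. -/
theorem bs_diff₂ {r₁ r₂ : Finset (Fin n) → ℤ} {R : ℤ} (hr₂ : SubM r₂ R)
    {P : Finset (Fin n → ℤ)} (hP : ∀ x, x ∈ P ↔ MemJ r₁ R x ∧ MemJ r₂ R x) {C : ℕ} (hC : 1 ≤ C)
    {c : Fin n → ℤ} (hcP : c ∈ P) (hc : IsCenter r₁ r₂ P C c) {w₁ : ℤ} (hw : 0 ≤ w₁)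
    {x : Fin n → ℤ} (hx : x ∈ P) (a : Fin n) :
    |bs (nnForest (mcap r₂ c) w₁) x a - bs (nnForest (mcap r₂ c) w₁) c a|
      ≤ 2 * (n : ℤ) ^ 3 * (C * (wt (mcap r₂ c) w₁ (nnForest (mcap r₂ c) w₁).par a + 1)) := by
  classical
  have h := tree_diff₂ hr₂ hP hC hcP hc hw (nn_nnForest (mcap r₂ c) w₁) hx a
  rw [filter_D, Fintype.card_fin] at h
  exact h

end forest

/-! ### Codes of tokens -/

section code

variable {n : ℕ}

/-- code of a token -/
def tcode (v : Tok (Fin n)) : ℕ :=
  match v with
  | none => 2 * n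
  | some (Sum.inl e) => e
  | some (Sum.inr e) => n + e

/-- decoding -/
def tdec (n p : ℕ) : Tok (Fin n) :=
  if h : p < n then some (Sum.inl ⟨p, h⟩)
  else if h' : p - n < n then some (Sum.inr ⟨p - n, h'⟩) else none

theorem tdec_tcode (v : Tok (Fin n)) : tdec n (tcode v) = v := by
  rcases v with _ | e | e
  · unfold tcode tdec
    dsimp only
    rw [dif_neg (by omega), dif_neg (by omega)]
  · unfold tcode tdec
    dsimp only
    rw [dif_pos e.2]
  · unfold tcode tdec
    dsimp only
    have h : n + (e : ℕ) - n = e := by omega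
    rw [dif_neg (by omega), dif_pos (by rw [h]; exact e.2)]
    simp only [h]

theorem tcode_inj : Function.Injective (tcode (n := n)) :=
  Function.LeftInverse.injective tdec_tcode

theorem tcode_tdec {p : ℕ} (hp : p < 2 * n) : tcode (tdec n p) = p := by
  unfold tdec
  by_cases h : p < n
  · rw [dif_pos h]; rfl
  · rw [dif_neg h, dif_pos (by omega)]
    unfold tcode
    dsimp only
    omega

theorem tdec_ne_none {p : ℕ} (hp : p < 2 * n) : tdec n p ≠ none := by
  intro h
  have := tcode_tdec hp
  rw [h] at this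
  unfold tcode at this
  dsimp only at this
  omega

theorem tcode_lt {v : Tok (Fin n)} (hv : v ≠ none) : tcode v < 2 * n := by
  rcases v with _ | e | e
  · exact absurd rfl hv
  · unfold tcode; dsimp only; omega
  · unfold tcode; dsimp only; omega

theorem tcode_lt' (v : Tok (Fin n)) : tcode v < 2 * n + 1 := by
  by_cases h : v = none
  · subst h; unfold tcode; dsimp only; omega
  · have := tcode_lt h; omega

end code

/-! ### The trees and repair maps of two capacity matrices -/

section geo

variable {n : ℕ} (m₁ m₂ : Fin n → Fin n → ℤ) (w₁ : ℤ)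

/-- key of a token: weight of the fat link above it, `w₁ - 1` for thin links -/
def keyV (v : Tok (Fin n)) : ℤ :=
  match v with
  | none => w₁ - 1
  | some (Sum.inl a) => match (nnForest m₁ w₁).par a with
    | none => w₁ - 1
    | some b => m₁ a b
  | some (Sum.inr a) => match (nnForest m₂ w₁).par a with
    | none => w₁ - 1
    | some b => m₂ a b

/-- parent map of the token tree -/
def parV : Tok (Fin n) → Tok (Fin n) := (tree (nnForest m₁ w₁) (nnForest m₂ w₁)).par

variable {m₁ m₂} {M₁ M₂ : List (List ℤ)}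

theorem parN_tcode (h₁ : ∀ a b : Fin n, (M₁.getD a []).getD b 0 = m₁ a b)
    (h₂ : ∀ a b : Fin n, (M₂.getD a []).getD b 0 = m₂ a b) (v : Tok (Fin n)) :
    parN n (parL n w₁ M₁) (parL n w₁ M₂) (tcode v) = tcode (parV m₁ m₂ w₁ v) := by
  rcases v with _ | a | a
  · unfold parN tcode parV tree
    dsimp only
    rw [if_neg (by omega), if_neg (by omega)]
  · have e : parV m₁ m₂ w₁ (some (Sum.inl a)) =
        ((nnForest m₁ w₁).par a).map Sum.inl := rfl
    have e2 : tcode (some (Sum.inl a) : Tok (Fin n)) = (a : ℕ) := rfl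
    rw [e, e2]
    unfold parN
    rw [if_pos a.2, parL_getD h₁]
    change (if ocode ((nnForest m₁ w₁).par a) = n then 2 * n else ocode ((nnForest m₁ w₁).par a))
      = _
    cases h : (nnForest m₁ w₁).par a with
    | none => rw [if_pos ((ocode_eq_n _).2 rfl)]; rfl
    | some b =>
      rw [if_neg (by rw [ocode_eq_n]; simp)]
      rfl
  · have e : parV m₁ m₂ w₁ (some (Sum.inr a)) =
        ((nnForest m₂ w₁).par a).map Sum.inr := rfl
    have e2 : tcode (some (Sum.inr a) : Tok (Fin n)) = n + (a : ℕ) := rfl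
    rw [e, e2]
    unfold parN
    have e3 : n + (a : ℕ) - n = a := by omega
    rw [if_neg (by omega), if_pos (by omega), e3, parL_getD h₂]
    change (if ocode ((nnForest m₂ w₁).par a) = n then 2 * n
      else n + ocode ((nnForest m₂ w₁).par a)) = _
    cases h : (nnForest m₂ w₁).par a with
    | none => rw [if_pos ((ocode_eq_n _).2 rfl)]; rfl
    | some b =>
      rw [if_neg (by rw [ocode_eq_n]; simp)]
      rfl

theorem keyN_tcode (h₁ : ∀ a b : Fin n, (M₁.getD a []).getD b 0 = m₁ a b)
    (h₂ : ∀ a b : Fin n, (M₂.getD a []).getD b 0 = m₂ a b) {v : Tok (Fin n)} (hv : v ≠ none) :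
    keyN n w₁ M₁ M₂ (parL n w₁ M₁) (parL n w₁ M₂) (tcode v) = keyV m₁ m₂ w₁ v := by
  rcases v with _ | a | a
  · exact absurd rfl hv
  · have e2 : tcode (some (Sum.inl a) : Tok (Fin n)) = (a : ℕ) := rfl
    rw [e2]
    unfold keyN keyV
    rw [if_pos a.2, parL_getD h₁]
    change (if ocode ((nnForest m₁ w₁).par a) = n then w₁ - 1
      else (M₁.getD a []).getD (ocode ((nnForest m₁ w₁).par a)) 0) = _
    dsimp only
    cases h : (nnForest m₁ w₁).par a with
    | none => rw [if_pos ((ocode_eq_n _).2 rfl)]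
    | some b =>
      rw [if_neg (by rw [ocode_eq_n]; simp)]
      exact h₁ a b
  · have e2 : tcode (some (Sum.inr a) : Tok (Fin n)) = n + (a : ℕ) := rfl
    have e3 : n + (a : ℕ) - n = a := by omega
    rw [e2]
    unfold keyN keyV
    rw [if_neg (by omega), e3, parL_getD h₂]
    change (if ocode ((nnForest m₂ w₁).par a) = n then w₁ - 1
      else (M₂.getD a []).getD (ocode ((nnForest m₂ w₁).par a)) 0) = _
    dsimp only
    cases h : (nnForest m₂ w₁).par a with
    | none => rw [if_pos ((ocode_eq_n _).2 rfl)]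
    | some b =>
      rw [if_neg (by rw [ocode_eq_n]; simp)]
      exact h₂ a b

variable (m₁ m₂)

/-- the sorted hidden nodes (codes) -/
def hidN (n : ℕ) (w₁ : ℤ) (M₁ M₂ : List (List ℤ)) : List ℕ :=
  sortK (keyN n w₁ M₁ M₂ (parL n w₁ M₁) (parL n w₁ M₂)) (List.range (2 * n))

theorem mem_hidN {p : ℕ} : p ∈ hidN n w₁ M₁ M₂ ↔ p < 2 * n := by
  unfold hidN
  rw [(sortK_perm _ _).mem_iff, List.mem_range]

theorem hidN_nodup : (hidN n w₁ M₁ M₂).Nodup :=
  (sortK_perm _ _).nodup_iff.2 List.nodup_range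

variable (M₁ M₂)

/-- the sorted hidden tokens -/
def hidV : List (Tok (Fin n)) := (hidN n w₁ M₁ M₂).map (tdec n)

variable {M₁ M₂}

theorem hidV_map : (hidV (n := n) w₁ M₁ M₂).map tcode = hidN n w₁ M₁ M₂ := by
  unfold hidV
  rw [List.map_map]
  conv_rhs => rw [← List.map_id (hidN n w₁ M₁ M₂)]
  apply List.map_congr_left
  intro p hp
  exact tcode_tdec ((mem_hidN w₁).1 hp)

theorem mem_hidV {v : Tok (Fin n)} : v ∈ hidV (n := n) w₁ M₁ M₂ ↔ v ≠ none := by
  unfold hidV
  rw [List.mem_map]
  constructor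
  · rintro ⟨p, hp, rfl⟩
    exact tdec_ne_none ((mem_hidN w₁).1 hp)
  · intro hv
    exact ⟨tcode v, (mem_hidN w₁).2 (tcode_lt hv), tdec_tcode v⟩

theorem hidV_nodup : (hidV (n := n) w₁ M₁ M₂).Nodup := by
  have h : ((hidV (n := n) w₁ M₁ M₂).map tcode).Nodup := by
    rw [hidV_map]; exact hidN_nodup w₁
  exact List.Nodup.of_map _ h

variable {m₁ m₂}

theorem hidV_sorted (h₁ : ∀ a b : Fin n, (M₁.getD a []).getD b 0 = m₁ a b)
    (h₂ : ∀ a b : Fin n, (M₂.getD a []).getD b 0 = m₂ a b) :
    (hidV (n := n) w₁ M₁ M₂).Pairwise (fun p q => keyV m₁ m₂ w₁ q ≤ keyV m₁ m₂ w₁ p) := by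
  have h : ((hidV (n := n) w₁ M₁ M₂).map tcode).Pairwise (fun x y =>
      keyN n w₁ M₁ M₂ (parL n w₁ M₁) (parL n w₁ M₂) y ≤
      keyN n w₁ M₁ M₂ (parL n w₁ M₁) (parL n w₁ M₂) x) := by
    rw [hidV_map]; exact sortK_sorted _ _
  rw [List.pairwise_map] at h
  refine h.imp_of_mem ?_
  intro p q hp hq hpq
  rwa [keyN_tcode w₁ h₁ h₂ ((mem_hidV w₁).1 hp), keyN_tcode w₁ h₁ h₂ ((mem_hidV w₁).1 hq)] at hpq

variable (m₁ m₂) (M₁ M₂)

/-- the stage cells -/
def stageS (n i : ℕ) : List (Fin n) := (List.finRange n).drop i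

/-- **the repair map of stage `i`** computed by the program -/
def Rst (i : Fin n) (v : Tok (Fin n)) (k : Fin n) : ℤ :=
  rep tX tY (parV m₁ m₂ w₁) (stageS n i) (hidV w₁ M₁ M₂) (tY i) v k

theorem mem_stageS {i k : Fin n} : k ∈ stageS n i ↔ i ≤ k := by
  unfold stageS
  rw [List.mem_drop_iff_getElem]
  constructor
  · rintro ⟨j, hj, h⟩
    have hj' : i.val + j < (List.finRange n).length := by omega
    have : (List.finRange n)[i.val + j] = k := by
      rw [← h]
    rw [← this]
    have h2 : ((List.finRange n)[i.val + j]).val = i.val + j := by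
      simp
    exact Fin.mk_le_of_le_val (by rw [h2]; omega)
  · intro h
    have h1 : i.val ≤ k.val := h
    refine ⟨k.val - i.val, ?_, ?_⟩
    · rw [List.length_finRange]; omega
    · apply Fin.ext
      simp
      omega

theorem stageS_nodup (i : ℕ) : (stageS n i).Nodup :=
  (List.nodup_finRange n).sublist (List.drop_sublist _ _)

theorem tX_inj : Function.Injective (tX : Fin n → Tok (Fin n)) := by
  intro a b h
  simpa [tX] using h

theorem tX_ne_tY (a b : Fin n) : (tX a : Tok (Fin n)) ≠ tY b := by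
  simp [tX, tY]

theorem parV_root (v : Tok (Fin n)) : ∃ k : ℕ, (parV m₁ m₂ w₁)^[k] v = none := by
  have T := tree (nnForest m₁ w₁) (nnForest m₂ w₁)
  have key : ∀ (N : ℕ) (v : Tok (Fin n)), (tree (nnForest m₁ w₁) (nnForest m₂ w₁)).dep v ≤ N →
      ∃ k : ℕ, (parV m₁ m₂ w₁)^[k] v = none := by
    intro N
    induction N with
    | zero =>
      intro v hv
      by_cases h : v = none
      · exact ⟨0, h⟩
      · have := (tree (nnForest m₁ w₁) (nnForest m₂ w₁)).dep_lt v h
        omega
    | succ N ih =>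
      intro v hv
      by_cases h : v = none
      · exact ⟨0, h⟩
      · have h1 := (tree (nnForest m₁ w₁) (nnForest m₂ w₁)).dep_lt v h
        obtain ⟨k, hk⟩ := ih (parV m₁ m₂ w₁ v) (by unfold parV; omega)
        exact ⟨k + 1, by rw [Function.iterate_succ_apply]; exact hk⟩
  exact key _ v le_rfl

variable {m₁ m₂} {M₁ M₂}

/-- **The program's repair map is a repair map** for every slope function `b` which is antitone in
the keys. -/
theorem isRepair_Rst (h₁ : ∀ a b : Fin n, (M₁.getD a []).getD b 0 = m₁ a b)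
    (h₂ : ∀ a b : Fin n, (M₂.getD a []).getD b 0 = m₂ a b) {b : Tok (Fin n) → ℝ}
    (hb : ∀ p q : Tok (Fin n), p ≠ none → q ≠ none → keyV m₁ m₂ w₁ q ≤ keyV m₁ m₂ w₁ p →
      b p ≤ b q) (i : Fin n) :
    IsRepair tX tY (tree (nnForest m₁ w₁) (nnForest m₂ w₁)).par none b (fun k => i ≤ k) (tY i)
      (Rst m₁ m₂ w₁ M₁ M₂ i) := by
  have h := isRepair_rep (X := (tX : Fin n → Tok (Fin n))) (Y := tY) (par := parV m₁ m₂ w₁)
    tX_inj tX_ne_tY (parV_root m₁ m₂ w₁) (b := b) (stageS_nodup (n := n) i)
    (hidV_nodup (n := n) w₁ (M₁ := M₁) (M₂ := M₂)) (fun p => mem_hidV w₁) ?_ (tY i)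
  · have e : (fun k => k ∈ stageS n i) = (fun k => i ≤ k) := by
      funext k; exact propext mem_stageS
    rw [e] at h
    exact h
  · refine (hidV_sorted w₁ h₁ h₂).imp_of_mem ?_
    intro p q hp hq hpq
    exact hb p q ((mem_hidV w₁).1 hp) ((mem_hidV w₁).1 hq) hpq

/-- The program's potentials. -/
theorem potL_Rst (h₁ : ∀ a b : Fin n, (M₁.getD a []).getD b 0 = m₁ a b)
    (h₂ : ∀ a b : Fin n, (M₂.getD a []).getD b 0 = m₂ a b) (i : ℕ) (v : Tok (Fin n))
    (k : Fin n) :
    ((potL n (parN n (parL n w₁ M₁) (parL n w₁ M₂)) (hidN n w₁ M₁ M₂) i).getD (tcode v) []).getD k 0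
      = (forest tX tY (parV m₁ m₂ w₁) (stageS n i) (hidV w₁ M₁ M₂)).P v (Sum.inl k) := by
  have hpar := parN_tcode (n := n) w₁ h₁ h₂
  rw [potL_eq (hidN_nodup w₁) (fun p hp => by have := (mem_hidN w₁).1 hp; omega)
    (fun p hp => ?_) i (tcode_lt' v) k.2]
  · have h := forest_map (V := Tok (Fin n)) (E := Fin n) tcode tcode_inj (fun e => (e : ℕ))
      Fin.val_injective n tX tY (parV m₁ m₂ w₁) (parN n (parL n w₁ M₁) (parL n w₁ M₂))
      (fun e => rfl) (fun e => rfl) hpar (stageS n i) (hidV w₁ M₁ M₂) v k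
    rw [hidV_map] at h
    have e : (stageS n i).map (fun e : Fin n => (e : ℕ)) = (List.range n).drop i := by
      unfold stageS
      rw [List.map_drop, List.map_coe_finRange_eq_range]
    rw [e] at h
    exact h
  · have h3 := hpar (tdec n p)
    rw [tcode_tdec ((mem_hidN w₁).1 hp)] at h3
    rw [h3]
    exact tcode_lt' _

/-- **The table of moves**: entry `i * 2n + p` is the jump of the repair map of stage `i` along the
hidden edge of the node `p`, with its key. -/
theorem movesL_getD (h₁ : ∀ a b : Fin n, (M₁.getD a []).getD b 0 = m₁ a b)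
    (h₂ : ∀ a b : Fin n, (M₂.getD a []).getD b 0 = m₂ a b) (i : Fin n) {p : ℕ} (hp : p < 2 * n)
    (d : List ℤ × ℤ) :
    (movesL n (parN n (parL n w₁ M₁) (parL n w₁ M₂))
      (keyN n w₁ M₁ M₂ (parL n w₁ M₁) (parL n w₁ M₂)) (hidN n w₁ M₁ M₂)).getD (i * (2 * n) + p) d
      = (List.ofFn (fun k => Rst m₁ m₂ w₁ M₁ M₂ i (tdec n p) k -
          Rst m₁ m₂ w₁ M₁ M₂ i ((tree (nnForest m₁ w₁) (nnForest m₂ w₁)).par (tdec n p)) k),
        keyV m₁ m₂ w₁ (tdec n p)) := by
  have hflat : ∀ (f : ℕ → List (List ℤ × ℤ)) (K : ℕ), (∀ i, (f i).length = K) →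
      ∀ (N i p : ℕ), i < N → p < K →
      ((List.range N).flatMap f).getD (i * K + p) d = (f i).getD p d := by
    intro f K hf N
    induction N with
    | zero => intro i p hi; omega
    | succ N ih =>
      intro i p hi hp
      rw [List.range_succ, List.flatMap_append, List.flatMap_singleton]
      have hlen : ((List.range N).flatMap f).length = N * K := by
        rw [List.length_flatMap]
        simp [hf]
      by_cases hiN : i < N
      · rw [List.getD_append _ _ _ _ (by rw [hlen]; nlinarith), ih i p hiN hp]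
      · have : i = N := by omega
        subst this
        rw [List.getD_append_right _ _ _ _ (by rw [hlen]; omega), hlen]
        congr 1
        omega
  unfold movesL
  rw [hflat _ (2 * n) (by intro i; simp) n i p i.2 hp]
  dsimp only
  rw [getD_map_range (2 * n) _ d hp]
  have hcode : p = tcode (tdec n p) := (tcode_tdec hp).symm
  apply Prod.ext
  · dsimp only
    unfold moveL
    apply List.ext_getElem
    · simp
    · intro j hj1 hj2
      have hj : j < n := by simpa using hj1
      simp only [List.getElem_map, List.getElem_range, List.getElem_ofFn]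
      have e1 := potL_Rst (n := n) w₁ h₁ h₂ i (tdec n p) ⟨j, hj⟩
      have e2 := potL_Rst (n := n) w₁ h₁ h₂ i (parV m₁ m₂ w₁ (tdec n p)) ⟨j, hj⟩
      rw [← parN_tcode w₁ h₁ h₂, tcode_tdec hp] at e2
      rw [tcode_tdec hp] at e1
      dsimp only at e1 e2
      rw [e1, e2]
      unfold Rst rep
      rw [sub_sub_sub_cancel_right]
      rfl
  · dsimp only
    have := keyN_tcode (n := n) w₁ h₁ h₂ (tdec_ne_none hp)
    rw [tcode_tdec hp] at this
    exact this

end geo

end Crest.Agent.R302.GeoSpec
end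

-- ▼ part R302/GeoSpec725B

set_option autoImplicit false

namespace Crest.Agent.R302.GeoSpec

open Finset Crest.Agent.R302.Facet Crest.Agent.R302.TreeNN Crest.Agent.R302.GeoProg
open Crest.Agent.R302.Repair Crest.Agent.R302.Inst

/-- A family of repair maps is a `T893.Rep`. -/
theorem rep893_of_isRepair {V E : Type*} [Fintype V] [DecidableEq V] [Fintype E] [DecidableEq E]
    (T : Tree.RTree V) {X Y : E → V} (b : V → ℝ) (order : List E) (R : E → V → E → ℤ)
    (Q : E → E → Prop)
    (hQ : ∀ i cs, (i :: cs) <:+ order → ∀ k ∈ i :: cs, Q i k)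
    (h : ∀ i, IsRepair X Y T.par T.root b (Q i) (Y i) (R i)) : T893.Rep T X Y b order R := by
  refine ⟨?_, ?_, ?_, ?_, ?_⟩
  · intro i; ext j; exact (h i).base j
  · intro i cs hcs k hk
    ext j
    have := (h i).cell k (hQ i cs hcs k hk) j
    rw [Pi.add_apply, Pi.single_apply]
    linarith
  · intro i p e
    rcases (h i).cases p e with h | h | h <;> rw [h] <;> norm_num
  · intro i p
    obtain ⟨mu, m1, m2, m3, m4⟩ := (h i).route p
    refine ⟨mu, ?_, m2, m3, T893.route_int T p (Y i) (R i p) mu m4⟩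
    intro q
    rcases m1 q with h | h | h <;> rw [h] <;> norm_num
  · intro i p hp
    rcases (h i).edge p hp with h' | ⟨lam, l1, l2, l3⟩
    · left; ext j; exact h' j
    · right
      refine ⟨Pi.single p 1 - lam, ?_, ?_, ?_⟩
      · intro q
        rw [Pi.sub_apply]
        by_cases hq : q = p
        · subst hq
          have : lam q = 0 := by
            by_contra hne
            exact (l2 q hne).2.1 rfl
          rw [this, Pi.single_eq_same]
          norm_num
        · rw [Pi.single_eq_of_ne hq]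
          rcases l1 q with h | h | h <;> rw [h] <;> norm_num
      · intro q hq
        by_cases hqp : q = p
        · subst hqp; exact ⟨hp, le_rfl⟩
        · rw [Pi.sub_apply, Pi.single_eq_of_ne hqp, zero_sub, neg_ne_zero] at hq
          exact ⟨(l2 q hq).1, (l2 q hq).2.2⟩
      · intro v
        have h8 := T893.route_int (X := X) (Y := Y) T p (T.par p) (R i p - R i (T.par p)) lam
          (fun φ => by simpa using l3 φ) v
        have h9 : T893.xch T (Pi.single p 1 - lam) v
            = (Lor.ev p v - Lor.ev (T.par p) v) - T893.xch T lam v := by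
          unfold T893.xch
          simp only [Pi.sub_apply, sub_mul, Finset.sum_sub_distrib]
          congr 1
          rw [Finset.sum_eq_single p]
          · rw [Pi.single_eq_same, one_mul]
          · intro q _ hq
            rw [Pi.single_eq_of_ne hq, zero_mul]
          · intro hp'; exact absurd (Finset.mem_univ p) hp'
        rw [h9, h8]
        ring

theorem le_of_suffix_finRange {n : ℕ} (i : Fin n) (cs : List (Fin n))
    (h : (i :: cs) <:+ List.finRange n) : ∀ k ∈ i :: cs, i ≤ k := by
  have h1 : (List.finRange n).Pairwise (· < ·) := List.pairwise_lt_finRange n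
  have h2 : (i :: cs).Pairwise (· < ·) := h1.sublist h.sublist
  intro k hk
  rcases List.mem_cons.1 hk with rfl | hk
  · exact le_rfl
  · exact ((List.pairwise_cons.1 h2).1 k hk).le

section geo

variable {n : ℕ} {m₁ m₂ : Fin n → Fin n → ℤ} (w₁ : ℤ) {M₁ M₂ : List (List ℤ)}

/-- **The program's repair maps are a `T893.Rep`** (order `finRange n`), for every slope function
antitone in the keys. -/
theorem rep893_Rst (h₁ : ∀ a b : Fin n, (M₁.getD a []).getD b 0 = m₁ a b)
    (h₂ : ∀ a b : Fin n, (M₂.getD a []).getD b 0 = m₂ a b) {b : Tok (Fin n) → ℝ}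
    (hb : ∀ p q : Tok (Fin n), p ≠ none → q ≠ none → keyV m₁ m₂ w₁ q ≤ keyV m₁ m₂ w₁ p →
      b p ≤ b q) :
    T893.Rep (tree (nnForest m₁ w₁) (nnForest m₂ w₁)) tX tY b (List.finRange n)
      (Rst m₁ m₂ w₁ M₁ M₂) :=
  rep893_of_isRepair _ b _ _ (fun i k => i ≤ k) (fun i cs h => le_of_suffix_finRange i cs h)
    (fun i => isRepair_Rst w₁ h₁ h₂ hb i)

end geo

/-! ### The capacity matrix at a point of a box instance -/

open Crest.Agent.R302.EDM Crest.Agent.R302.ORAM Crest.Agent.Lib.PT

/-- the matrix of symmetrised capacities -/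
def matBL (n K : ℕ) (r : List Bool → ℤ) (lo hi x : List ℤ) : List (List ℤ) :=
  (List.range n).map (fun a => (List.range n).map (fun b =>
    if a = b then 0 else min (capBL n K r lo hi x a b) (capBL n K r lo hi x b a)))

theorem matBL_getD {n : ℕ} {r : List Bool → ℤ} {ρ : Finset (Fin n) → ℤ} (h : RepL n r ρ) {K : ℕ}
    {R : ℤ} (hr : SubM ρ R) (hK : ∀ A, |ρ A| ≤ K) {lo hi x : List ℤ}
    (hx : MemJ ρ R (vecL n x))
    (hbox : ∀ i, vecL n lo i ≤ vecL n x i ∧ vecL n x i ≤ vecL n hi i) (a b : Fin n) :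
    ((matBL n K r lo hi x).getD a []).getD b 0 =
      mcap (boxR (vecL n lo) (vecL n hi) ρ) (vecL n x) a b := by
  unfold matBL
  rw [getD_map_range n _ _ a.2, getD_map_range n _ _ b.2]
  by_cases hab : a = b
  · subst hab
    rw [if_pos rfl]
    unfold mcap cap
    have : ¬ (sep a a).Nonempty := by
      rintro ⟨A, hA⟩
      rw [mem_sep] at hA
      exact hA.2 hA.1
    rw [dif_neg this, min_self]
  · rw [if_neg (fun h => hab (Fin.ext h)), capBL_eq h hr hK hx hbox hab,
      capBL_eq h hr hK hx hbox (Ne.symm hab)]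
    rfl

section optf

variable {γ : Type} [PTCode γ] {N K : Inst → γ → ℕ} {r : Inst → γ → List Bool → ℤ}
  {x lo hi : Inst → γ → List ℤ}

theorem matBL_optf (hn : OPTU N) (hK : OPTF K)
    (hr : OPTF (fun I (p : γ × List Bool) => r I p.1 p.2)) (hlo : OPTF lo) (hhi : OPTF hi)
    (hx : OPTF x) :
    OPTF (fun I c => matBL (N I c) (K I c) (r I c) (lo I c) (hi I c) (x I c)) := by
  unfold matBL
  have key : ∀ (u v : Inst → ((γ × ℕ) × ℕ) → ℕ), OPTF u → OPTF v →
      OPTF (fun I (p : (γ × ℕ) × ℕ) => capBL (N I p.1.1) (K I p.1.1) (r I p.1.1) (lo I p.1.1)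
        (hi I p.1.1) (x I p.1.1) (u I p) (v I p)) := by
    intro u v hu hv
    have f : OPTF (fun (_ : Inst) (p : (γ × ℕ) × ℕ) => p.1.1) := OPTF.of_ptf (by fun_prop)
    have g : OPTF (fun (_ : Inst) (p : ((γ × ℕ) × ℕ) × List Bool) => (p.1.1.1, p.2)) :=
      OPTF.of_ptf (by fun_prop)
    refine capBL_optf (γ := (γ × ℕ) × ℕ) (N := fun I p => N I p.1.1) (K := fun I p => K I p.1.1)
      (r := fun I p => r I p.1.1) (lo := fun I p => lo I p.1.1) (hi := fun I p => hi I p.1.1)
      (x := fun I p => x I p.1.1) ?_ ?_ ?_ ?_ ?_ ?_ hu hv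
    · exact hn.comp f
    · exact hK.comp f
    · exact hr.comp g
    · exact hlo.comp f
    · exact hhi.comp f
    · exact hx.comp f
  have h1 := key (fun _ p => p.1.2) (fun _ p => p.2) (OPTF.of_ptf (by fun_prop))
    (OPTF.of_ptf (by fun_prop))
  have h2 := key (fun _ p => p.2) (fun _ p => p.1.2) (OPTF.of_ptf (by fun_prop))
    (OPTF.of_ptf (by fun_prop))
  have hn' : OPTU (fun I (p : γ × ℕ) => N I p.1) := hn.comp (OPTF.of_ptf (by fun_prop))
  opt_solve

end optf

end Crest.Agent.R302.GeoSpec
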