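import Crest.Agent.R302.Stage536
import Crest.Agent.R302.Step223A
import Crest.Agent.R302.Ff838
import Crest.Agent.R302.GeoSpec725B
import Crest.Agent.R302.Ann425F

-- ▼ part R302/StageL725
section

set_option autoImplicit false

namespace Crest.Agent.R302.StageL

open Finset Crest.Agent.R302.Inst Crest.Agent.R302.Stage Crest.Agent.R302.GeoProg
open Crest.Agent.R302.Step (axL axSt bsL loadL inflL zL lnkL gagL uL inBoxSt)
open Crest.Agent.R302.EDM

variable {n : ℕ}

/-! ### lists of functions on `Fin n` -/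

theorem getD_ofFn {α : Type*} (G : Fin n → α) (d : α) (i : Fin n) :
    (List.ofFn G).getD i d = G i := by
  rw [List.getD_eq_getElem _ _ (by simp), List.getElem_ofFn]

theorem map_range_ofFn {α : Type*} (f : ℕ → α) :
    (List.range n).map f = List.ofFn (fun i : Fin n => f i) := by
  apply List.ext_getElem
  · simp
  · intro i h1 h2; simp


theorem ofFn_ext {α : Type*} {f g : Fin n → α} (h : ∀ i, f i = g i) : List.ofFn f = List.ofFn g :=
  congrArg List.ofFn (funext h)

/-- `p` codes the parent map of `T` (`n` codes a root) -/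
def CPar (p : List ℕ) (T : MP3.Forest (Fin n)) : Prop := ∀ a : Fin n, p.getD a n = ocode (T.par a)

/-- `s` codes the descendant relation of `T` -/
def CSub (s : List (List Bool)) (T : MP3.Forest (Fin n)) : Prop :=
  ∀ a b : Fin n, (s.getD a []).getD b false = true ↔ b ∈ T.sub a

/-- block contents, extended by `0` -/
def ext (T : MP3.Forest (Fin n)) (β : {a : Fin n // T.par a = none} → ℤ) (a : Fin n) : ℤ :=
  if h : T.par a = none then β ⟨a, h⟩ else 0

variable {p : List ℕ} {s : List (List Bool)} {T : MP3.Forest (Fin n)}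

theorem CPar.root (h : CPar p T) (a : Fin n) : p.getD a n = n ↔ T.par a = none := by
  rw [h a, ocode_eq_n]

theorem CPar.some_iff (h : CPar p T) (a b : Fin n) : p.getD a n = b ↔ T.par a = some b := by
  rw [h a]
  cases hp : T.par a with
  | none =>
    simp only [ocode]
    constructor
    · intro h'; have := b.2; omega
    · intro h'; simp at h'
  | some c =>
    simp only [ocode, Option.some.injEq]
    constructor
    · intro h'; exact Fin.ext h'
    · intro h'; rw [h']

theorem ext_root (β : {a : Fin n // T.par a = none} → ℤ) (r : {a : Fin n // T.par a = none}) :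
    ext T β r = β r := by
  unfold ext; rw [dif_pos r.2]

theorem ext_injective : Function.Injective (ext T) := by
  intro β β' h
  funext r
  rw [← ext_root β r, ← ext_root β' r, h]

theorem ext_zero : ext T (0 : {a : Fin n // T.par a = none} → ℤ) = 0 := by
  funext a; unfold ext; split_ifs <;> rfl


/-! ### the functions of `Step223A` -/









/-! ### coding of the states -/

/-- code of a state -/
def enc (D : SD (Fin n)) (σ : Stage.St D) : Step.St :=
  (List.ofFn σ.1, List.ofFn (ext D.S₁.T σ.2.1), List.ofFn (ext D.S₂.T σ.2.2))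

theorem enc_injective (D : SD (Fin n)) : Function.Injective (enc D) := by
  intro σ τ h
  unfold enc at h
  rw [Prod.mk.injEq, Prod.mk.injEq, List.ofFn_inj, List.ofFn_inj, List.ofFn_inj] at h
  exact Prod.ext h.1 (Prod.ext (ext_injective h.2.1) (ext_injective h.2.2))


/-! ### the box -/







/-! ### the exponent -/



end Crest.Agent.R302.StageL
end

-- ▼ part R302/StageL725B

set_option autoImplicit false

namespace Crest.Agent.R302.StageL

open Finset Crest.Agent.R302.Inst Crest.Agent.R302.Stage Crest.Agent.R302.GeoProg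
open Crest.Agent.R302.GeoSpec Crest.Agent.R302.TreeNN
open Crest.Agent.R302.EDM Crest.Agent.Lib.PT Crest.Agent.R309.PTX Crest.Agent.Lib.PT.Arith

variable {n : ℕ}

/-! ### descendants -/

/-- is `a` reached from `b` by at most `n - 1` parent steps -/
def ancL (n : ℕ) (p : List ℕ) (a b : ℕ) : Bool :=
  ((List.range n).foldl (fun s _ => (p.getD s.1 n, s.2 || decide (s.1 = a))) (b, false)).2

/-- the rows of the descendant relation: `((subL n p).getD a []).getD b false`: `b` is below `a` -/
def subL (n : ℕ) (p : List ℕ) : List (List Bool) :=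
  (List.range n).map fun a => (List.range n).map fun b => ancL n p a b

theorem ancL_iff (n : ℕ) (p : List ℕ) (a b : ℕ) :
    ancL n p a b = true ↔ ∃ k, k < n ∧ (fun x => p.getD x n)^[k] b = a := by
  unfold ancL
  have key : ∀ N : ℕ, (List.range N).foldl
      (fun (s : ℕ × Bool) (_ : ℕ) => (p.getD s.1 n, s.2 || decide (s.1 = a))) (b, false) =
      ((fun x => p.getD x n)^[N] b, decide (∃ k, k < N ∧ (fun x => p.getD x n)^[k] b = a)) := by
    intro N
    induction N with
    | zero => simp
    | succ N ih =>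
      rw [List.range_succ, List.foldl_append, ih]
      simp only [List.foldl_cons, List.foldl_nil]
      refine Prod.ext ?_ ?_
      · dsimp only
        rw [Function.iterate_succ_apply']
      · dsimp only
        rw [← Bool.decide_or, decide_eq_decide]
        constructor
        · rintro (⟨k, hk, h⟩ | h)
          · exact ⟨k, by omega, h⟩
          · exact ⟨N, by omega, h⟩
        · rintro ⟨k, hk, h⟩
          rcases Nat.lt_succ_iff_lt_or_eq.1 hk with h' | h'
          · exact Or.inl ⟨k, h', h⟩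
          · subst h'; exact Or.inr h
  rw [key]
  simp

theorem iter_n {p : List ℕ} (hl : p.length ≤ n) (k : ℕ) : (fun x => p.getD x n)^[k] n = n := by
  induction k with
  | zero => rfl
  | succ k ih =>
    rw [Function.iterate_succ_apply]
    have : p.getD n n = n := List.getD_eq_default _ _ hl
    rw [this, ih]

/-- the rows `subL` code the descendant relation -/
theorem cSub_subL {p : List ℕ} {T : MP3.Forest (Fin n)} (hp : CPar p T) (hl : p.length ≤ n)
    (hT : ∀ a b : Fin n, T.par a = some b → b < a) : CSub (subL n p) T := by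
  intro a b
  unfold subL
  rw [getD_map_range n _ _ a.2, getD_map_range n _ _ b.2, ancL_iff, MP3.Forest.mem_sub]
  constructor
  · rintro ⟨k, -, hk⟩
    induction k generalizing b with
    | zero =>
      have : b = a := Fin.ext (by simpa using hk)
      rw [this]; exact MP3.Forest.Le.refl T a
    | succ k ih =>
      rw [Function.iterate_succ_apply] at hk
      cases hb : T.par b with
      | none =>
        have : p.getD b n = n := (hp.root b).2 hb
        rw [this, iter_n hl] at hk
        have := a.2; omega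
      | some c =>
        have : p.getD b n = c := (hp.some_iff b c).2 hb
        rw [this] at hk
        exact (MP3.Forest.Le.of_par hb).trans (ih c hk)
  · intro h
    suffices h' : ∃ k, k + (a : ℕ) ≤ b ∧ (fun x => p.getD x n)^[k] b = a by
      obtain ⟨k, hk, h2⟩ := h'
      exact ⟨k, by have := b.2; omega, h2⟩
    induction h using Relation.ReflTransGen.head_induction_on with
    | refl => exact ⟨0, by omega, rfl⟩
    | @head x y hx _ ih =>
      obtain ⟨k, hk, h2⟩ := ih
      have h3 : (y : ℕ) < x := hT x y hx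
      refine ⟨k + 1, by omega, ?_⟩
      rw [Function.iterate_succ_apply]
      have : p.getD x n = y := (hp.some_iff x y).2 hx
      rw [this, h2]

theorem cPar_parL {M : List (List ℤ)} {m : Fin n → Fin n → ℤ}
    (hM : ∀ a b : Fin n, (M.getD a []).getD b 0 = m a b) (w₁ : ℤ) :
    CPar (parL n w₁ M) (nnForest m w₁) := fun a => parL_getD hM w₁ a n

theorem length_parL (w₁ : ℤ) (M : List (List ℤ)) : (parL n w₁ M).length = n := by
  simp [parL]

theorem nnForest_lt (m : Fin n → Fin n → ℤ) (w₁ : ℤ) (a b : Fin n)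
    (h : (nnForest m w₁).par a = some b) : b < a := (nn_nnForest m w₁).lt a b h

theorem cSub_nn {M : List (List ℤ)} {m : Fin n → Fin n → ℤ}
    (hM : ∀ a b : Fin n, (M.getD a []).getD b 0 = m a b) (w₁ : ℤ) :
    CSub (subL n (parL n w₁ M)) (nnForest m w₁) :=
  cSub_subL (cPar_parL hM w₁) (length_parL w₁ M).le (nnForest_lt m w₁)

/-! ### exponents -/

/-- the exponent of a key relative to the divisor `d`: `2 ^ lgE * d ≤ key < 2 ^ (lgE + 1) * d` -/
def lgE (d : ℕ) (key : ℤ) : ℕ := (key.toNat / d).size - 1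

/-- length exponent of a move (`0` for thin keys) -/
def elE (w₁ : ℤ) (d : ℕ) (key : ℤ) : ℕ := if key < w₁ then 0 else lgE d key

theorem lgE_le {d : ℕ} (hd : 0 < d) {key : ℤ} (h : (d : ℤ) ≤ key) : 2 ^ lgE d key * (d : ℤ) ≤ key := by
  have h0 : (0 : ℤ) ≤ key := le_trans (by positivity) h
  obtain ⟨k, rfl⟩ := Int.eq_ofNat_of_zero_le h0
  have h' : d ≤ k := by exact_mod_cast h
  unfold lgE
  rw [Int.toNat_natCast]
  have h1 : 1 ≤ k / d := (Nat.one_le_div_iff hd).2 h'
  have h2 : 0 < (k / d).size := Nat.size_pos.2 h1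
  have h3 : 2 ^ ((k / d).size - 1) ≤ k / d := by
    by_contra h4
    have := Nat.size_le.2 (not_le.1 h4)
    omega
  have h4 : 2 ^ ((k / d).size - 1) * d ≤ k :=
    (Nat.mul_le_mul_right _ h3).trans (Nat.div_mul_le_self _ _)
  exact_mod_cast h4

theorem lt_lgE {d : ℕ} (hd : 0 < d) {key : ℤ} (h : (d : ℤ) ≤ key) :
    key < 2 ^ (lgE d key + 1) * (d : ℤ) := by
  have h0 : (0 : ℤ) ≤ key := le_trans (by positivity) h
  obtain ⟨k, rfl⟩ := Int.eq_ofNat_of_zero_le h0
  have h' : d ≤ k := by exact_mod_cast h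
  unfold lgE
  rw [Int.toNat_natCast]
  have h1 : 1 ≤ k / d := (Nat.one_le_div_iff hd).2 h'
  have h2 : 0 < (k / d).size := Nat.size_pos.2 h1
  have h3 : k / d < 2 ^ ((k / d).size - 1 + 1) := by
    rw [Nat.sub_add_cancel h2]; exact Nat.lt_size_self _
  have h4 : k < 2 ^ ((k / d).size - 1 + 1) * d := (Nat.div_lt_iff_lt_mul hd).1 h3
  exact_mod_cast h4

theorem lgE_mono (d : ℕ) {key key' : ℤ} (h : key ≤ key') : lgE d key ≤ lgE d key' := by
  unfold lgE
  exact Nat.sub_le_sub_right (Nat.size_le_size (Nat.div_le_div_right (Int.toNat_le_toNat h))) _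


/-- slack exponents of a forest (mathematical side): `0` at the roots -/
def kV (dk : ℕ) (T : MP3.Forest (Fin n)) (m : Fin n → Fin n → ℤ) (a : Fin n) : ℕ :=
  match T.par a with
  | none => 0
  | some b => lgE dk (m a b)

/-- slack exponents (list side) -/
def ksL (n dk : ℕ) (M : List (List ℤ)) (p : List ℕ) : List ℕ :=
  (List.range n).map fun a =>
    if p.getD a n = n then 0 else lgE dk ((M.getD a []).getD (p.getD a n) 0)

theorem ksL_eq {dk : ℕ} {M : List (List ℤ)} {m : Fin n → Fin n → ℤ}
    (hM : ∀ a b : Fin n, (M.getD a []).getD b 0 = m a b) {p : List ℕ} {T : MP3.Forest (Fin n)}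
    (hp : CPar p T) : ksL n dk M p = List.ofFn (kV dk T m) := by
  unfold ksL
  rw [map_range_ofFn]
  refine ofFn_ext fun a => ?_
  unfold kV
  cases h : T.par a with
  | none => rw [if_pos ((hp.root a).2 h)]
  | some b =>
    have h2 : p.getD a n = b := (hp.some_iff a b).2 h
    rw [if_neg (fun h' => by rw [(hp.root a).1 h'] at h; simp at h), h2, hM]

/-! ### roots and pairs of roots -/

/-- the roots in increasing order -/
def rootsV (T : MP3.Forest (Fin n)) : List {a : Fin n // T.par a = none} :=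
  (List.finRange n).filterMap fun a => if h : T.par a = none then some ⟨a, h⟩ else none

/-- all ordered pairs of different roots (first component = outer loop) -/
def pairsV (T : MP3.Forest (Fin n)) :
    List ({a : Fin n // T.par a = none} × {a : Fin n // T.par a = none}) :=
  (rootsV T).flatMap fun r => ((rootsV T).filter fun r' => decide (r'.1 ≠ r.1)).map fun r' => (r, r')

theorem mem_rootsV (T : MP3.Forest (Fin n)) (r : {a : Fin n // T.par a = none}) :
    r ∈ rootsV T := by
  unfold rootsV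
  rw [List.mem_filterMap]
  exact ⟨r.1, List.mem_finRange _, by rw [dif_pos r.2]⟩

theorem mem_pairsV (T : MP3.Forest (Fin n)) (r r' : {a : Fin n // T.par a = none}) :
    (r, r') ∈ pairsV T ↔ r ≠ r' := by
  unfold pairsV
  rw [List.mem_flatMap]
  constructor
  · rintro ⟨q, -, h⟩
    rw [List.mem_map] at h
    obtain ⟨q', h1, h2⟩ := h
    rw [List.mem_filter] at h1
    have h3 := h1.2
    simp only [decide_eq_true_eq] at h3
    rw [Prod.mk.injEq] at h2
    rw [← h2.1, ← h2.2]
    intro h4
    exact h3 (by rw [h4])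
  · intro h
    refine ⟨r, mem_rootsV T r, List.mem_map.2 ⟨r', List.mem_filter.2 ⟨mem_rootsV T r', ?_⟩, rfl⟩⟩
    simp only [decide_eq_true_eq]
    intro h4
    exact h (Subtype.ext h4.symm)

/-- the roots on lists -/
def rootsL (n : ℕ) (p : List ℕ) : List ℕ := (List.range n).filter fun a => decide (p.getD a n = n)

/-- ordered pairs of different roots on lists -/
def pairsL (n : ℕ) (p : List ℕ) : List (ℕ × ℕ) :=
  (rootsL n p).flatMap fun r => ((rootsL n p).filter fun r' => decide (r' ≠ r)).map fun r' => (r, r')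

theorem rootsL_eq {p : List ℕ} {T : MP3.Forest (Fin n)} (hp : CPar p T) :
    rootsL n p = (rootsV T).map fun r => (r.1 : ℕ) := by
  unfold rootsL rootsV
  rw [← List.map_coe_finRange_eq_range, List.filter_map, List.map_filterMap]
  have key : ∀ l : List (Fin n), (l.filter ((fun a : ℕ => decide (p.getD a n = n)) ∘ fun a : Fin n => (a : ℕ))).map
      (fun a : Fin n => (a : ℕ)) = l.filterMap (fun a => ((if h : T.par a = none then
        some (⟨a, h⟩ : {a : Fin n // T.par a = none}) else none)).map fun r => (r.1 : ℕ)) := by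
    intro l
    induction l with
    | nil => rfl
    | cons a l ih =>
      rw [List.filter_cons, List.filterMap_cons]
      by_cases h : T.par a = none
      · rw [if_pos (by simp only [Function.comp]; exact decide_eq_true ((hp.root a).2 h)),
          List.map_cons, ih, dif_pos h]
        rfl
      · rw [if_neg (by
          simp only [Function.comp, decide_eq_true_eq]
          exact fun h' => h ((hp.root a).1 h')), ih, dif_neg h]
        rfl
  exact key _

theorem pairsL_eq {p : List ℕ} {T : MP3.Forest (Fin n)} (hp : CPar p T) :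
    pairsL n p = (pairsV T).map fun q => ((q.1.1 : ℕ), (q.2.1 : ℕ)) := by
  unfold pairsL pairsV
  rw [rootsL_eq hp, List.flatMap_map, List.map_flatMap]
  congr 1
  funext r
  rw [List.filter_map, List.map_map, List.map_map]
  congr 1
  apply List.filter_congr
  intro r' _
  simp only [Function.comp, decide_eq_decide]
  exact not_congr Fin.val_inj

/-! ### the directions -/

/-- the zero list -/
def zeroL (n : ℕ) : List ℤ := List.replicate n 0

/-- the list of `1_r - 1_r'` -/
def dL (n r r' : ℕ) : List ℤ :=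
  (List.range n).map fun j => (if j = r then 1 else 0) - (if j = r' then 1 else 0)

theorem zeroL_eq : zeroL n = List.ofFn (0 : Fin n → ℤ) := by
  unfold zeroL
  apply List.ext_getElem
  · simp
  · intro i h1 h2; simp

theorem dL_eq {T : MP3.Forest (Fin n)} (r r' : {a : Fin n // T.par a = none}) :
    dL n r.1 r'.1 = List.ofFn (ext T (Pi.single r 1 - Pi.single r' 1)) := by
  unfold dL
  rw [map_range_ofFn]
  refine ofFn_ext fun j => ?_
  unfold ext
  by_cases h : T.par j = none
  · rw [dif_pos h, Pi.sub_apply, Pi.single_apply, Pi.single_apply]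
    have e1 : ∀ q : {a : Fin n // T.par a = none}, ((j : ℕ) = (q.1 : ℕ)) ↔ (⟨j, h⟩ : {a : Fin n // T.par a = none}) = q := by
      intro q
      constructor
      · intro h'; exact Subtype.ext (Fin.ext h')
      · intro h'; rw [← h']
    simp only [e1]
  · rw [dif_neg h, if_neg, if_neg, sub_zero]
    · intro h'; apply h; rw [show j = r'.1 from Fin.ext h']; exact r'.2
    · intro h'; apply h; rw [show j = r.1 from Fin.ext h']; exact r.2

/-- the list of the directions from the table of the moves -/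
def csL (n : ℕ) (mv : List (List ℤ × ℕ)) (p₁ p₂ : List ℕ) : List (Step.St × ℕ) :=
  mv.map (fun q => ((q.1, zeroL n, zeroL n), q.2)) ++
    ((pairsL n p₁).map (fun q => ((zeroL n, dL n q.1 q.2, zeroL n), 0)) ++
      (pairsL n p₂).map (fun q => ((zeroL n, zeroL n, dL n q.1 q.2), 0)))

/-- **the directions of `csL` are the images of the directions of `D`** -/
theorem csL_eq {D : SD (Fin n)} {p₁ p₂ : List ℕ} (hp₁ : CPar p₁ D.S₁.T) (hp₂ : CPar p₂ D.S₂.T)
    (h₁ : D.lk₁ = pairsV D.S₁.T) (h₂ : D.lk₂ = pairsV D.S₂.T) :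
    csL n (D.mv.map fun q => (List.ofFn q.1, q.2)) p₁ p₂ = D.cs.map fun q => (enc D q.1, q.2) := by
  unfold csL SD.cs
  rw [h₁, h₂, pairsL_eq hp₁, pairsL_eq hp₂, List.map_append, List.map_append, List.map_map,
    List.map_map, List.map_map, List.map_map, List.map_map, List.map_map]
  congr 1
  · apply List.map_congr_left
    intro q _
    simp only [Function.comp, enc, ext_zero, ← zeroL_eq]
  · congr 1
    · apply List.map_congr_left
      intro q _
      simp only [Function.comp, enc, ext_zero, ← zeroL_eq, ← dL_eq]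
    · apply List.map_congr_left
      intro q _
      simp only [Function.comp, enc, ext_zero, ← zeroL_eq, ← dL_eq]

/-! ### the moves -/

section moves

variable (m₁ m₂ : Fin n → Fin n → ℤ) (w₁ : ℤ) (M₁ M₂ : List (List ℤ))

/-- the move `c_{i,p}` -/
def mvc (i : Fin n) (p : ℕ) (k : Fin n) : ℤ :=
  Rst m₁ m₂ w₁ M₁ M₂ i (tdec n p) k -
    Rst m₁ m₂ w₁ M₁ M₂ i ((tree (nnForest m₁ w₁) (nnForest m₂ w₁)).par (tdec n p)) k

/-- **the moves of the stage** (mathematical side), index `i * 2n + p` -/
def mvV (el : ℤ → ℕ) : List ((Fin n → ℤ) × ℕ) :=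
  (List.finRange n).flatMap fun i => (List.range (2 * n)).map fun p =>
    (mvc m₁ m₂ w₁ M₁ M₂ i p, el (keyV m₁ m₂ w₁ (tdec n p)))

variable {m₁ m₂ M₁ M₂}

theorem flatMap_range_ofFn {α : Type*} (f : ℕ → List α) :
    (List.range n).flatMap f = (List.finRange n).flatMap fun i : Fin n => f i := by
  rw [← List.map_coe_finRange_eq_range, List.flatMap_map]

/-- the table of moves is the list of `mvV` -/
theorem movesL_map_eq (h₁ : ∀ a b : Fin n, (M₁.getD a []).getD b 0 = m₁ a b)
    (h₂ : ∀ a b : Fin n, (M₂.getD a []).getD b 0 = m₂ a b) (el : ℤ → ℕ) :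
    (movesL n (parN n (parL n w₁ M₁) (parL n w₁ M₂))
      (keyN n w₁ M₁ M₂ (parL n w₁ M₁) (parL n w₁ M₂)) (hidN n w₁ M₁ M₂)).map
        (fun q => (q.1, el q.2)) =
      (mvV m₁ m₂ w₁ M₁ M₂ el).map fun q => (List.ofFn q.1, q.2) := by
  have hlen1 : (movesL n (parN n (parL n w₁ M₁) (parL n w₁ M₂))
      (keyN n w₁ M₁ M₂ (parL n w₁ M₁) (parL n w₁ M₂)) (hidN n w₁ M₁ M₂)).length = n * (2 * n) := by
    unfold movesL
    rw [List.length_flatMap]
    simp
  have hlen2 : (mvV m₁ m₂ w₁ M₁ M₂ el).length = n * (2 * n) := by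
    unfold mvV
    rw [List.length_flatMap]
    simp
  apply List.ext_getElem
  · rw [List.length_map, List.length_map, hlen1, hlen2]
  · intro k hk1 hk2
    rw [List.length_map, hlen1] at hk1
    have hn : 0 < 2 * n := by
      rcases Nat.eq_zero_or_pos (2 * n) with h | h
      · rw [h] at hk1; omega
      · exact h
    have hi : k / (2 * n) < n := (Nat.div_lt_iff_lt_mul hn).2 hk1
    have hp : k % (2 * n) < 2 * n := Nat.mod_lt _ hn
    have hk : k / (2 * n) * (2 * n) + k % (2 * n) = k := Nat.div_add_mod' _ _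
    have e1 := movesL_getD (n := n) w₁ h₁ h₂ ⟨k / (2 * n), hi⟩ hp ([], 0)
    dsimp only at e1
    rw [hk, List.getD_eq_getElem _ _ (by rw [hlen1]; exact hk1)] at e1
    rw [List.getElem_map, e1, List.getElem_map]
    have hflat : ∀ (f : ℕ → List ((Fin n → ℤ) × ℕ)) (K : ℕ), (∀ i, (f i).length = K) →
        ∀ (N i p : ℕ) (d : (Fin n → ℤ) × ℕ), i < N → p < K →
        ((List.range N).flatMap f).getD (i * K + p) d = (f i).getD p d := by
      intro f K hf N
      induction N with
      | zero => intro i p _ hi; omega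
      | succ N ih =>
        intro i p d hi hp
        rw [List.range_succ, List.flatMap_append, List.flatMap_singleton]
        have hlen : ((List.range N).flatMap f).length = N * K := by
          rw [List.length_flatMap]
          simp [hf]
        by_cases hiN : i < N
        · rw [List.getD_append _ _ _ _ (by rw [hlen]; nlinarith), ih i p d hiN hp]
        · have : i = N := by omega
          subst this
          rw [List.getD_append_right _ _ _ _ (by rw [hlen]; omega), hlen]
          congr 1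
          omega
    have e2 : mvV m₁ m₂ w₁ M₁ M₂ el = (List.range n).flatMap fun i =>
        (List.range (2 * n)).map fun p =>
          if h : i < n then (mvc m₁ m₂ w₁ M₁ M₂ ⟨i, h⟩ p, el (keyV m₁ m₂ w₁ (tdec n p)))
            else (0, 0) := by
      rw [flatMap_range_ofFn]
      unfold mvV
      congr 1
      funext i
      congr 1
      funext p
      rw [dif_pos i.2]
    have e3 : (mvV m₁ m₂ w₁ M₁ M₂ el)[k]'(by rw [hlen2]; exact hk1) =
        (mvc m₁ m₂ w₁ M₁ M₂ ⟨k / (2 * n), hi⟩ (k % (2 * n)),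
          el (keyV m₁ m₂ w₁ (tdec n (k % (2 * n))))) := by
      rw [← List.getD_eq_getElem _ (0, 0)]
      rw [e2]
      conv_lhs => rw [← hk]
      rw [hflat _ (2 * n) (by intro i; simp) n _ _ _ hi hp, getD_map_range (2 * n) _ _ hp,
        dif_pos hi]
    rw [e3]
    rfl

end moves

/-! ### the stage record -/

/-- parents, descendant rows, slack exponents, directions -/
abbrev Env : Type :=
  (List ℕ × List ℕ) × (List (List Bool) × List (List Bool)) × (List ℕ × List ℕ) ×
    List (Step.St × ℕ)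

/-- **the list-coded stage record** -/
def envL (n : ℕ) (w₁ : ℤ) (dk dl : ℕ) (M₁ M₂ : List (List ℤ)) : Env :=
  (fun G : List ℕ × List ℕ × List ℕ × List (List ℤ × ℤ) =>
    ((G.1, G.2.1), (subL n G.1, subL n G.2.1), (ksL n dk M₁ G.1, ksL n dk M₂ G.2.1),
      csL n (G.2.2.2.map fun q => (q.1, elE w₁ dl q.2)) G.1 G.2.1))
    (geoL n w₁ M₁ M₂)

section spec

variable {m₁ m₂ : Fin n → Fin n → ℤ} (w₁ : ℤ) {M₁ M₂ : List (List ℤ)} (dk dl : ℕ)






theorem envL_ks₁ (h₁ : ∀ a b : Fin n, (M₁.getD a []).getD b 0 = m₁ a b) :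
    (envL n w₁ dk dl M₁ M₂).2.2.1.1 = List.ofFn (kV dk (nnForest m₁ w₁) m₁) :=
  ksL_eq h₁ (cPar_parL h₁ w₁)

theorem envL_ks₂ (h₂ : ∀ a b : Fin n, (M₂.getD a []).getD b 0 = m₂ a b) :
    (envL n w₁ dk dl M₁ M₂).2.2.1.2 = List.ofFn (kV dk (nnForest m₂ w₁) m₂) :=
  ksL_eq h₂ (cPar_parL h₂ w₁)

/-- **the directions of the record are the images of the directions of `D`** -/
theorem envL_cs (h₁ : ∀ a b : Fin n, (M₁.getD a []).getD b 0 = m₁ a b)
    (h₂ : ∀ a b : Fin n, (M₂.getD a []).getD b 0 = m₂ a b) {D : SD (Fin n)}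
    (hT₁ : D.S₁.T = nnForest m₁ w₁) (hT₂ : D.S₂.T = nnForest m₂ w₁)
    (hmv : D.mv = mvV m₁ m₂ w₁ M₁ M₂ (elE w₁ dl))
    (hl₁ : D.lk₁ = pairsV D.S₁.T) (hl₂ : D.lk₂ = pairsV D.S₂.T) :
    (envL n w₁ dk dl M₁ M₂).2.2.2 = D.cs.map fun q => (enc D q.1, q.2) := by
  rw [← csL_eq (p₁ := parL n w₁ M₁) (p₂ := parL n w₁ M₂) (by rw [hT₁]; exact cPar_parL h₁ w₁)
    (by rw [hT₂]; exact cPar_parL h₂ w₁) hl₁ hl₂, hmv, ← movesL_map_eq w₁ h₁ h₂]
  rfl

end spec

/-! ### Polynomial time -/

section ptf

variable {γ : Type} [PTCode γ]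

theorem sz_getD_nat (p : List ℕ) (i d : ℕ) : sz (p.getD i d) ≤ sz p + sz d := by
  by_cases h : i < p.length
  · rw [List.getD_eq_getElem _ _ h]
    have := sz_mem_le (List.getElem_mem h)
    omega
  · rw [List.getD_eq_default _ _ (by omega)]
    omega

theorem ptf_ancL {n : γ → ℕ} {p : γ → List ℕ} {a b : γ → ℕ} (hn : PTU n) (hp : PTF p)
    (ha : PTF a) (hb : PTF b) : PTF (fun c => ancL (n c) (p c) (a c) (b c)) := by
  unfold ancL
  have hn' : PTF n := hn.toPTF
  have h0 : PTF (fun q : γ × (ℕ × Bool) × ℕ =>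
      ((p q.1).getD q.2.1.1 (n q.1), q.2.1.2 || decide (q.2.1.1 = a q.1))) := by
    refine PTF.prodMk (by pt_solve) (PTF.or (by fun_prop) (PTPred.toPTF ?_))
    exact PTPred.natEq (by fun_prop) (by fun_prop)
  have h1 : PTF (fun c => (List.range (n c)).foldl
      (fun (s : ℕ × Bool) (_ : ℕ) => ((p c).getD s.1 (n c), s.2 || decide (s.1 = a c)))
        (b c, false)) := by
    refine PTF.foldl_bdd (f := fun (c : γ) (s : ℕ × Bool) (_ : ℕ) =>
      ((p c).getD s.1 (n c), s.2 || decide (s.1 = a c))) (b := fun c => (b c, false))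
      (PTF.range hn) h0 (by fun_prop)
      (G := fun c => 2 * (sz (p c) + sz (n c) + sz (b c)) + 1 + sz false + sz true)
      (by fun_prop) ?_ ?_
    · intro c s x _ _
      rw [sz_prod]
      dsimp only
      have h2 := sz_getD_nat (p c) s.1 (n c)
      have h3 : ∀ t : Bool, sz t ≤ sz false + sz true := by
        intro t; cases t <;> omega
      have h4 := h3 (s.2 || decide (s.1 = a c))
      omega
    · intro c
      rw [sz_prod]
      dsimp only
      omega
  exact PTF.comp (g := fun q : ℕ × Bool => q.2) (by fun_prop) h1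

theorem ptf_subL {n : γ → ℕ} {p : γ → List ℕ} (hn : PTU n) (hp : PTF p) :
    PTF (fun c => subL (n c) (p c)) := by
  unfold subL
  refine PTF.map (PTF.range hn) (PTF.map (PTF.range (by fun_prop)) ?_)
  exact ptf_ancL (γ := (γ × ℕ) × ℕ) (n := fun q => n q.1.1) (p := fun q => p q.1.1)
    (a := fun q => q.1.2) (b := fun q => q.2) (by fun_prop) (by fun_prop) (by fun_prop)
    (by fun_prop)

theorem ptf_lgE {d : γ → ℕ} {key : γ → ℤ} (hd : PTF d) (hk : PTF key) :
    PTF (fun c => lgE (d c) (key c)) := by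
  unfold lgE
  pt_solve


theorem ptf_elE {d : γ → ℕ} {w₁ key : γ → ℤ} (hw : PTF w₁) (hd : PTF d)
    (hk : PTF key) : PTF (fun c => elE (w₁ c) (d c) (key c)) := by
  unfold elE
  have h1 := ptf_lgE hd hk
  pt_solve

theorem ptf_ksL {n dk : γ → ℕ} {M : γ → List (List ℤ)} {p : γ → List ℕ} (hn : PTU n)
    (hl : PTF dk) (hM : PTF M) (hp : PTF p) :
    PTF (fun c => ksL (n c) (dk c) (M c) (p c)) := by
  unfold ksL
  refine PTF.map (PTF.range hn) ?_
  have h1 : PTF (fun q : γ × ℕ => lgE (dk q.1)
      (((M q.1).getD q.2 []).getD ((p q.1).getD q.2 (n q.1)) 0)) :=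
    ptf_lgE (by fun_prop) (by pt_solve)
  pt_solve

theorem ptf_rootsL {n : γ → ℕ} {p : γ → List ℕ} (hn : PTU n) (hp : PTF p) :
    PTF (fun c => rootsL (n c) (p c)) := by
  unfold rootsL
  pt_solve

theorem ptf_pairsL {n : γ → ℕ} {p : γ → List ℕ} (hn : PTU n) (hp : PTF p) :
    PTF (fun c => pairsL (n c) (p c)) := by
  unfold pairsL
  have h1 := ptf_rootsL hn hp
  have h2 : PTF (fun q : γ × ℕ => rootsL (n q.1) (p q.1)) :=
    PTF.comp (g := fun c => rootsL (n c) (p c)) (f := fun q : γ × ℕ => q.1) h1 (by fun_prop)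
  have h3 : PTF (fun q : γ × ℕ => (rootsL (n q.1) (p q.1)).filter fun r' => decide (r' ≠ q.2)) := by
    refine PTF.filter h2 ?_
    pt_solve
  refine PTF.flatMap h1 (PTF.map h3 ?_)
  pt_solve

theorem ptf_zeroL {n : γ → ℕ} (hn : PTU n) : PTF (fun c => zeroL (n c)) := by
  unfold zeroL
  pt_solve

theorem ptf_dL {n r r' : γ → ℕ} (hn : PTU n) (hr : PTF r) (hr' : PTF r') :
    PTF (fun c => dL (n c) (r c) (r' c)) := by
  unfold dL
  pt_solve

theorem ptf_csL {n : γ → ℕ} {mv : γ → List (List ℤ × ℕ)} {p₁ p₂ : γ → List ℕ} (hn : PTU n)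
    (hm : PTF mv) (h₁ : PTF p₁) (h₂ : PTF p₂) :
    PTF (fun c => csL (n c) (mv c) (p₁ c) (p₂ c)) := by
  unfold csL
  have hp₁ := ptf_pairsL hn h₁
  have hp₂ := ptf_pairsL hn h₂
  have z1 : PTF (fun q : γ × (List ℤ × ℕ) => zeroL (n q.1)) := ptf_zeroL (by fun_prop)
  have z2 : PTF (fun q : γ × (ℕ × ℕ) => zeroL (n q.1)) := ptf_zeroL (by fun_prop)
  have d1 : PTF (fun q : γ × (ℕ × ℕ) => dL (n q.1) q.2.1 q.2.2) :=
    ptf_dL (by fun_prop) (by fun_prop) (by fun_prop)
  refine PTF.append (PTF.map hm ?_) (PTF.append (PTF.map hp₁ ?_) (PTF.map hp₂ ?_))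
  · exact ((PTF.fst.comp PTF.snd).prodMk (z1.prodMk z1)).prodMk (by fun_prop)
  · exact (z2.prodMk (d1.prodMk z2)).prodMk (by fun_prop)
  · exact (z2.prodMk (z2.prodMk d1)).prodMk (by fun_prop)

/-- **the stage record is computable in polynomial time** from the two matrices -/
theorem ptf_envL {n dk dl : γ → ℕ} {w₁ : γ → ℤ} {M₁ M₂ : γ → List (List ℤ)} (hn : PTU n)
    (hw : PTF w₁) (hl : PTF dk) (ho : PTF dl) (h₁ : PTF M₁) (h₂ : PTF M₂) :
    PTF (fun c => envL (n c) (w₁ c) (dk c) (dl c) (M₁ c) (M₂ c)) := by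
  have hg := ptf_geoL hn hw h₁ h₂
  have h3 : PTF (fun q : γ × (List ℕ × List ℕ × List ℕ × List (List ℤ × ℤ)) =>
      (((q.2.1, q.2.2.1), (subL (n q.1) q.2.1, subL (n q.1) q.2.2.1),
        (ksL (n q.1) (dk q.1) (M₁ q.1) q.2.1, ksL (n q.1) (dk q.1) (M₂ q.1) q.2.2.1),
        csL (n q.1) (q.2.2.2.2.map fun r => (r.1, elE (w₁ q.1) (dl q.1) r.2))
          q.2.1 q.2.2.1) : Env)) := by
    have a1 : PTF (fun q : γ × (List ℕ × List ℕ × List ℕ × List (List ℤ × ℤ)) =>
        subL (n q.1) q.2.1) := ptf_subL (by fun_prop) (by fun_prop)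
    have a2 : PTF (fun q : γ × (List ℕ × List ℕ × List ℕ × List (List ℤ × ℤ)) =>
        subL (n q.1) q.2.2.1) := ptf_subL (by fun_prop) (by fun_prop)
    have a3 : PTF (fun q : γ × (List ℕ × List ℕ × List ℕ × List (List ℤ × ℤ)) =>
        ksL (n q.1) (dk q.1) (M₁ q.1) q.2.1) :=
      ptf_ksL (by fun_prop) (by fun_prop) (by fun_prop) (by fun_prop)
    have a4 : PTF (fun q : γ × (List ℕ × List ℕ × List ℕ × List (List ℤ × ℤ)) =>
        ksL (n q.1) (dk q.1) (M₂ q.1) q.2.2.1) :=
      ptf_ksL (by fun_prop) (by fun_prop) (by fun_prop) (by fun_prop)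
    have a5 : PTF (fun q : γ × (List ℕ × List ℕ × List ℕ × List (List ℤ × ℤ)) =>
        q.2.2.2.2.map fun r => (r.1, elE (w₁ q.1) (dl q.1) r.2)) := by
      refine PTF.map (by fun_prop) (PTF.prodMk (by fun_prop) ?_)
      exact ptf_elE (by fun_prop) (by fun_prop) (by fun_prop)
    have a6 := ptf_csL (γ := γ × (List ℕ × List ℕ × List ℕ × List (List ℤ × ℤ)))
      (n := fun q => n q.1) (p₁ := fun q => q.2.1) (p₂ := fun q => q.2.2.1) (by fun_prop) a5
      (by fun_prop) (by fun_prop)
    exact (PTF.prodMk (by fun_prop) (by fun_prop)).prodMk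
      ((a1.prodMk a2).prodMk ((a3.prodMk a4).prodMk a6))
  exact PTF.comp (g := fun q : γ × (List ℕ × List ℕ × List ℕ × List (List ℤ × ℤ)) =>
      (((q.2.1, q.2.2.1), (subL (n q.1) q.2.1, subL (n q.1) q.2.2.1),
        (ksL (n q.1) (dk q.1) (M₁ q.1) q.2.1, ksL (n q.1) (dk q.1) (M₂ q.1) q.2.2.1),
        csL (n q.1) (q.2.2.2.2.map fun r => (r.1, elE (w₁ q.1) (dl q.1) r.2))
          q.2.1 q.2.2.1) : Env))
    (f := fun c => (c, geoL (n c) (w₁ c) (M₁ c) (M₂ c))) h3 (by fun_prop)

end ptf

end Crest.Agent.R302.StageL
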