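import Crest.Agent.R302.Mix497A

/-!
# R302, block MIX (helper497), part B: the one-particle theorem

A program step `f` implementing a reversible kernel with a Poincaré inequality with defect, started from a particle
whose law is dominated by the stationary law up to a small mass.
-/

set_option autoImplicit false
open Finset

namespace Crest.Agent.R302.Mix

open Crest.Agent.R309.MC Crest.Agent.R309.Tape Crest.Agent.R302.Loop

variable {α : Type*} [Fintype α]

/-- the error term -/
theorem sqrt_err_le {c e H η m : ℝ} (hc0 : 0 < c) (hc1 : c ≤ 1) (hm : 0 < m) (hη : 0 ≤ η)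
    {t L : ℕ} (hL : H ≤ η ^ 2 * 2 ^ L) (ht : (L : ℝ) ≤ c * t)
    (he : 2 * e * H ^ 2 ≤ c * m * η ^ 2) :
    Real.sqrt ((1 - c) ^ t * (2 * H) + e / (c * m) * (2 * H) ^ 2) / 2 ≤ η := by
  have h1 : (1 - c) ^ t * 2 ^ L ≤ 1 := by
    have h2 : (1 - c) ^ t ≤ Real.exp (-(c * t)) := by
      have := Real.one_sub_le_exp_neg c
      calc (1 - c) ^ t ≤ (Real.exp (-c)) ^ t := pow_le_pow_left₀ (by linarith) this t
        _ = Real.exp (-(c * t)) := by rw [← Real.exp_nat_mul]; ring_nf
    have h3 : (2 : ℝ) ^ L ≤ Real.exp L := by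
      have : (2 : ℝ) ≤ Real.exp 1 := by
        have := Real.add_one_le_exp (1 : ℝ); linarith
      calc (2 : ℝ) ^ L ≤ (Real.exp 1) ^ L := pow_le_pow_left₀ (by norm_num) this L
        _ = Real.exp L := by rw [← Real.exp_nat_mul]; ring_nf
    calc (1 - c) ^ t * 2 ^ L ≤ Real.exp (-(c * t)) * Real.exp L :=
          mul_le_mul h2 h3 (by positivity) (Real.exp_nonneg _)
      _ = Real.exp (-(c * t) + L) := (Real.exp_add _ _).symm
      _ ≤ 1 := Real.exp_le_one_iff.2 (by linarith)
  have h0 : 0 ≤ (1 - c) ^ t := pow_nonneg (by linarith) t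
  have h4 : (1 - c) ^ t * (2 * H) ≤ 2 * η ^ 2 := by
    calc (1 - c) ^ t * (2 * H) ≤ (1 - c) ^ t * (2 * (η ^ 2 * 2 ^ L)) := by gcongr
      _ = 2 * η ^ 2 * ((1 - c) ^ t * 2 ^ L) := by ring
      _ ≤ 2 * η ^ 2 * 1 := by gcongr
      _ = 2 * η ^ 2 := by ring
  have h5 : e / (c * m) * (2 * H) ^ 2 ≤ 2 * η ^ 2 := by
    rw [div_mul_eq_mul_div, div_le_iff₀ (by positivity)]
    nlinarith
  have h6 : Real.sqrt ((1 - c) ^ t * (2 * H) + e / (c * m) * (2 * H) ^ 2) ≤ 2 * η := by
    rw [show 2 * η = Real.sqrt ((2 * η) ^ 2) by rw [Real.sqrt_sq (by positivity)]]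
    apply Real.sqrt_le_sqrt
    nlinarith
  linarith

section Stat

variable {S : Type*} [DecidableEq S]

/-- the stationary law as a law on program states -/
noncomputable def stat (w : α → ℝ) (hw : ∀ x, 0 ≤ w x) (hm : 0 < mass w) (enc : α → S) : Law S where
  supp := univ.image enc
  wt s := ∑ x ∈ univ.filter (fun x => enc x = s), w x / mass w
  nonneg := fun s _ => sum_nonneg fun x _ => div_nonneg (hw x) hm.le
  sum_eq := by
    rw [sum_image_fiber_eq]
    rw [← sum_div]
    exact div_self hm.ne'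
where
  sum_image_fiber_eq : ∑ s ∈ univ.image enc, ∑ x ∈ univ.filter (fun x => enc x = s), w x / mass w =
      ∑ x, w x / mass w :=
    sum_fiberwise_of_maps_to (fun x _ => mem_image_of_mem enc (mem_univ x)) _

theorem stat_E (w : α → ℝ) (hw : ∀ x, 0 ≤ w x) (hm : 0 < mass w) (enc : α → S) (φ : S → ℝ) :
    (stat w hw hm enc).E φ = ∑ x, w x / mass w * φ (enc x) := by
  unfold Law.E stat
  simp only
  rw [← sum_fiberwise_of_maps_to (s := univ) (t := univ.image enc) (g := enc)
    (fun x _ => mem_image_of_mem enc (mem_univ x))]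
  refine sum_congr rfl fun s _ => ?_
  rw [sum_mul]
  refine sum_congr rfl fun x hx => ?_
  rw [(mem_filter.mp hx).2]

end Stat

/-- law of the start as a function on the chain states -/
def startLaw {S' : Type*} [DecidableEq α] (μ : Law S') (st : S' → α) (a : α) : ℝ :=
  ∑ x ∈ μ.supp.filter (fun x => st x = a), μ.wt x

theorem startLaw_sum_mul {S' : Type*} [DecidableEq α] (μ : Law S') (st : S' → α) (g : α → ℝ) :
    ∑ a, startLaw μ st a * g a = μ.E (fun x => g (st x)) := by
  unfold startLaw Law.E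
  rw [← sum_fiberwise (s := μ.supp) (g := st)]
  refine sum_congr rfl fun a _ => ?_
  rw [sum_mul]
  exact sum_congr rfl fun x hx => by rw [← (mem_filter.mp hx).2]

theorem startLaw_nonneg {S' : Type*} [DecidableEq α] (μ : Law S') (st : S' → α) (a : α) :
    0 ≤ startLaw μ st a :=
  sum_nonneg fun x hx => μ.nonneg x (mem_filter.mp hx).1

theorem startLaw_sum {S' : Type*} [DecidableEq α] (μ : Law S') (st : S' → α) :
    ∑ a, startLaw μ st a = 1 := by
  have := startLaw_sum_mul μ st (fun _ => 1)
  simp only [mul_one] at this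
  rw [this, μ.E_const]

theorem law_eq_sum_pt [DecidableEq α] {S' : Type*} (K : α → α → ℝ) (μ : Law S') (st : S' → α) (t : ℕ)
    (g : α → ℝ) :
    ∑ y, law K (startLaw μ st) t y * g y = μ.E (fun x => ∑ y, law K (pt (st x)) t y * g y) := by
  have h1 : ∀ y, law K (startLaw μ st) t y = ∑ a, startLaw μ st a * law K (pt a) t y :=
    fun y => law_linear K (startLaw μ st) t y
  simp only [h1]
  rw [← startLaw_sum_mul μ st (fun a => ∑ y, law K (pt a) t y * g y)]
  simp only [mul_sum, sum_mul]
  rw [sum_comm]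
  exact sum_congr rfl fun a _ => sum_congr rfl fun y _ => by ring


/-- conditioning on a likely event: if `π(perfect) ≥ 1 - δ` and the conditional law on perfect states is
pointwise within `1 ± κ` of a target up to mass, then the output law is close to the target. -/
theorem output_close {S T : Type*} (π : Law S) (ν : Law T) (out : S → Option T) (δ : ℝ)
    (h : ∀ φ : T → ℝ, (∀ x, 0 ≤ φ x ∧ φ x ≤ 1) →
      |π.E (fun y => (out y).elim 0 φ) - ν.E φ| ≤ δ)
    (φ : T → ℝ) (hφ : ∀ x, 0 ≤ φ x ∧ φ x ≤ 1) (d : T) :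
    |π.E (fun y => φ ((out y).getD d)) - ν.E φ| ≤ 2 * δ := by
  have h1 := h φ hφ
  have h2 := h (fun _ => 1) (fun _ => ⟨by norm_num, le_rfl⟩)
  rw [ν.E_const] at h2
  have h3 : |π.E (fun y => φ ((out y).getD d)) - π.E (fun y => (out y).elim 0 φ)| ≤ δ := by
    rw [← π.E_sub]
    refine (π.abs_E_le _).trans ?_
    have h4 : π.E (fun y => |φ ((out y).getD d) - (out y).elim 0 φ|) ≤
        π.E (fun y => 1 - (out y).elim 0 (fun _ => (1 : ℝ))) := by
      refine π.E_mono fun y _ => ?_
      cases out y with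
      | none => simp only [Option.getD_none, Option.elim_none, sub_zero]
                rw [abs_of_nonneg (hφ d).1]; exact (hφ d).2
      | some x => simp
    refine h4.trans ?_
    rw [π.E_sub, π.E_const]
    have := (abs_le.mp h2).1
    linarith
  have h4 := abs_sub_le (π.E (fun y => φ ((out y).getD d))) (π.E (fun y => (out y).elim 0 φ)) (ν.E φ)
  linarith

end Crest.Agent.R302.Mix
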