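import Crest.Agent.R302.Step223A
import Crest.Agent.R302.Mix497B
import Crest.Agent.R302.Stage536
import Crest.Agent.R302.Ff838
import Crest.Agent.R302.Slack166

-- ▼ part R302/Step223B
section

/-!
# R302, block STEP (helper223), part B: the law of the chain step

* `ImplE` : a tape step implements a kernel up to an error; `ImplE.avg_runSteps`, `one_particle_approx`.
* `implE_cstep` : `cstep` with an approximately known acceptance probability.
* `pr_zeros`, `pr_coinL` : exact acceptance probability of `coinL` as a product.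
* `mvL_enc` : the list proposal is `latM (ivec ..)` for a coded group.
-/

set_option autoImplicit false
set_option maxHeartbeats 400000
set_option linter.unusedSectionVars false

namespace Crest.Agent.R302.Step

open Finset Crest.Agent.R309.MC Crest.Agent.R309.Tape Crest.Agent.Lib.PT.Arith
open Crest.Agent.R302.LatChain Crest.Agent.R302.Mix Crest.Agent.R302.Loop

/-! ### approximate implementation -/

section implE

variable {α : Type*} [Fintype α] {S : Type*}

/-- `f` implements `K` up to `ε` on `[0,1]`-valued test functions -/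
def ImplE (f : S → List Bool → S) (r : ℕ) (enc : α → S) (K : α → α → ℝ) (ε : ℝ) : Prop :=
  (∀ x l, ∃ y, f (enc x) l = enc y) ∧
    ∀ φ : S → ℝ, (∀ s, 0 ≤ φ s ∧ φ s ≤ 1) → ∀ x,
      |markov f r φ (enc x) - ∑ y, K x y * φ (enc y)| ≤ ε

theorem law_pt_succ_apply [DecidableEq α] (K : α → α → ℝ) (x : α) (T : ℕ) (ψ : α → ℝ) :
    ∑ y, law K (pt x) (T + 1) y * ψ y = ∑ z, K x z * ∑ y, law K (pt z) T y * ψ y := by
  have h1 : ∀ y, law K (pt x) (T + 1) y = ∑ z, K x z * law K (pt z) T y := by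
    intro y
    rw [law_succ' K (pt x) T, law_linear K (push K (pt x)) T y, push_pt K x]
  simp only [h1, sum_mul, mul_sum]
  rw [sum_comm]
  exact sum_congr rfl fun z _ => sum_congr rfl fun y _ => by ring

theorem law_apply_mem01 [DecidableEq α] {K : α → α → ℝ} (hK : IsKer K) (x : α) (T : ℕ) (ψ : α → ℝ)
    (hψ : ∀ y, 0 ≤ ψ y ∧ ψ y ≤ 1) :
    0 ≤ ∑ y, law K (pt x) T y * ψ y ∧ ∑ y, law K (pt x) T y * ψ y ≤ 1 := by
  have hp : ∀ y, 0 ≤ (pt x : α → ℝ) y := fun y => by unfold pt; split_ifs <;> norm_num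
  have h0 := law_nonneg hK hp T
  have h1 := law_sum hK (pt x : α → ℝ) T
  have h2 : ∑ y, (pt x : α → ℝ) y = 1 := by simp [pt]
  refine ⟨sum_nonneg fun y _ => mul_nonneg (h0 y) (hψ y).1, ?_⟩
  calc ∑ y, law K (pt x) T y * ψ y ≤ ∑ y, law K (pt x) T y * 1 :=
        sum_le_sum fun y _ => mul_le_mul_of_nonneg_left (hψ y).2 (h0 y)
    _ = 1 := by rw [← sum_mul, mul_one, h1, h2]

/-- **T-fold run of an approximate implementation** -/
theorem ImplE.avg_runSteps [DecidableEq α] {f : S → List Bool → S} {r : ℕ} {enc : α → S}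
    {K : α → α → ℝ} {ε : ℝ} (h : ImplE f r enc K ε) (hK : IsKer K)
    (henc : Function.Injective enc) (T : ℕ) :
    ∀ (x : α) (φ : S → ℝ), (∀ s, 0 ≤ φ s ∧ φ s ≤ 1) →
    |avg (T * r) (fun l => φ (runSteps f r T (enc x) l)) -
      ∑ y, law K (pt x) T y * φ (enc y)| ≤ T * ε := by
  classical
  induction T with
  | zero =>
    intro x φ _
    have : ∑ y, law K (pt x) 0 y * φ (enc y) = φ (enc x) := by
      simp [law, pt]
    simp [this, runSteps]
  | succ T ih =>
    intro x φ hφ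
    set ψ : α → ℝ := fun z => ∑ y, law K (pt z) T y * φ (enc y) with hψ
    have hψ01 : ∀ z, 0 ≤ ψ z ∧ ψ z ≤ 1 := fun z =>
      law_apply_mem01 hK z T (fun y => φ (enc y)) fun y => hφ _
    let Ψ : S → ℝ := fun s => if hs : ∃ z, enc z = s then ψ hs.choose else 0
    have hΨ : ∀ z, Ψ (enc z) = ψ z := by
      intro z
      have hs : ∃ z', enc z' = enc z := ⟨z, rfl⟩
      simp only [Ψ, dif_pos hs]
      rw [henc hs.choose_spec]
    have hΨ01 : ∀ s, 0 ≤ Ψ s ∧ Ψ s ≤ 1 := by
      intro s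
      by_cases hs : ∃ z, enc z = s
      · simp only [Ψ, dif_pos hs]; exact hψ01 _
      · simp only [Ψ, dif_neg hs]; norm_num
    have key : avg ((T + 1) * r) (fun l => φ (runSteps f r (T + 1) (enc x) l)) =
        avg r (fun l => avg (T * r) (fun l' => φ (runSteps f r T (f (enc x) l) l'))) := by
      rw [show (T + 1) * r = r + T * r by ring]
      simp only [runSteps]
      rw [avg_take_drop r (T * r) (fun l l' => φ (runSteps f r T (f (enc x) l) l'))]
    rw [key, law_pt_succ_apply]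
    have h1 := h.2 Ψ hΨ01 x
    simp only [hΨ] at h1
    have h2 : |avg r (fun l => avg (T * r) (fun l' => φ (runSteps f r T (f (enc x) l) l')))
        - markov f r Ψ (enc x)| ≤ T * ε := by
      unfold markov
      rw [← avg_sub]
      refine (abs_avg_le _ _).trans ?_
      refine avg_le_const fun l _ => ?_
      obtain ⟨z, hz⟩ := h.1 x l
      rw [hz, hΨ]
      exact ih z φ hφ
    have h3 := abs_sub_le (avg r (fun l => avg (T * r) (fun l' => φ (runSteps f r T (f (enc x) l) l'))))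
      (markov f r Ψ (enc x)) (∑ z, K x z * ψ z)
    push_cast
    linarith


theorem sum_prop_le_one (q : ℕ) (M : α → ℕ → Option α) (x : α) [DecidableEq α] :
    ∑ y, prop q M x y ≤ 1 := by
  have h := sum_prop_mul q M x (fun _ => (1 : ℝ))
  simp only [mul_one] at h
  rw [h, div_le_one (by positivity)]
  calc ∑ i ∈ range (2 ^ q), (M x i).elim 0 (fun _ => (1 : ℝ))
      ≤ ∑ i ∈ range (2 ^ q), (1 : ℝ) := by
        refine sum_le_sum fun i _ => ?_
        cases M x i <;> simp
    _ = 2 ^ q := by simp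

theorem prop_nonneg' (q : ℕ) (M : α → ℕ → Option α) [DecidableEq α] (x y : α) :
    0 ≤ prop q M x y := by unfold prop; positivity

theorem exists_of_prop_ne {q : ℕ} {M : α → ℕ → Option α} [DecidableEq α] {x y : α}
    (h : prop q M x y ≠ 0) : ∃ i < 2 ^ q, M x i = some y := by
  by_contra hcon
  push Not at hcon
  apply h
  unfold prop
  have : (range (2 ^ q)).filter (fun i => M x i = some y) = ∅ := by
    rw [filter_eq_empty_iff]
    intro i hi
    exact hcon i (mem_range.1 hi)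
  rw [this]
  simp

/-- **`cstep` with an approximately known acceptance probability.** -/
theorem implE_cstep [DecidableEq α] {q m : ℕ} {mv : S → ℕ → Option S}
    {coin : S → S → List Bool → Bool} {enc : α → S} {M : α → ℕ → Option α} {a : α → α → ℝ} {ε : ℝ}
    (hε : 0 ≤ ε) (hmv : ∀ x i, mv (enc x) i = (M x i).map enc)
    (ha : ∀ x y, ∀ i < 2 ^ q, M x i = some y →
      |pr m (fun l => coin (enc x) (enc y) l = true) - a x y| ≤ ε) :
    ImplE (cstep q mv coin) (q + m) enc (metro (prop q M) a) ε := by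
  constructor
  · intro x l
    unfold cstep
    rw [hmv]
    cases M x (msb (l.take q)) with
    | none => exact ⟨x, rfl⟩
    | some y =>
      simp only [Option.map_some]
      by_cases hc : coin (enc x) (enc y) (l.drop q) = true
      · exact ⟨y, by rw [if_pos hc]⟩
      · exact ⟨x, by rw [if_neg hc]⟩
  · intro φ hφ x
    have hI := impl_cstep (q := q) (m := m) (mv := mv) (coin := coin) (enc := enc) (M := M)
      (a := fun x y => pr m (fun l => coin (enc x) (enc y) l = true))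
      (fun x i _ => hmv x i) (fun _ _ _ _ _ => rfl)
    rw [hI φ x, metro_apply_sum _ _ x (fun y => φ (enc y)),
      metro_apply_sum _ _ x (fun y => φ (enc y)), add_sub_add_left_eq_sub, ← sum_sub_distrib]
    refine (abs_sum_le_sum_abs _ _).trans ?_
    calc ∑ y, |prop q M x y * (pr m (fun l => coin (enc x) (enc y) l = true) *
            (φ (enc y) - φ (enc x))) - prop q M x y * (a x y * (φ (enc y) - φ (enc x)))|
        ≤ ∑ y, prop q M x y * ε := by
          refine sum_le_sum fun y _ => ?_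
          by_cases h0 : prop q M x y = 0
          · simp [h0]
          · obtain ⟨i, hi, hM⟩ := exists_of_prop_ne h0
            have h1 := ha x y i hi hM
            rw [← mul_sub, ← sub_mul, abs_mul, abs_of_nonneg (prop_nonneg' q M x y), abs_mul]
            refine mul_le_mul_of_nonneg_left ?_ (prop_nonneg' q M x y)
            have h2 : |φ (enc y) - φ (enc x)| ≤ 1 := by
              rw [abs_le]
              constructor <;> linarith [(hφ (enc y)).1, (hφ (enc y)).2, (hφ (enc x)).1,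
                (hφ (enc x)).2]
            calc |pr m (fun l => coin (enc x) (enc y) l = true) - a x y| *
                  |φ (enc y) - φ (enc x)| ≤ ε * 1 :=
                  mul_le_mul h1 h2 (abs_nonneg _) hε
              _ = ε := mul_one ε
      _ = (∑ y, prop q M x y) * ε := by rw [sum_mul]
      _ ≤ 1 * ε := mul_le_mul_of_nonneg_right (sum_prop_le_one q M x) hε
      _ = ε := one_mul ε

end implE

/-! ### exact probabilities -/

theorem ind_and (p q : Prop) : ind (p ∧ q) = ind p * ind q := by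
  by_cases hp : p
  · by_cases hq : q
    · rw [ind_of ⟨hp, hq⟩, ind_of hp, ind_of hq]; ring
    · rw [ind_of_not (fun h => hq h.2), ind_of_not hq]; ring
  · rw [ind_of_not (fun h => hp h.1), ind_of_not hp]; ring

/-- the first `k` of `m` bits vanish with probability `2 ^ (-k)` -/
theorem pr_zeros (m k : ℕ) (h : k ≤ m) : pr m (fun l => zerosL k l = true) = (1 / 2 : ℝ) ^ k := by
  induction k generalizing m with
  | zero => rw [pr_eq_one (fun l _ => by simp [zerosL])]; simp
  | succ k ih =>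
    obtain ⟨m, rfl⟩ : ∃ m', m = m' + 1 := ⟨m - 1, by omega⟩
    unfold pr
    rw [avg_succ]
    have h1 : avg m (fun l => ind (zerosL (k + 1) (false :: l) = true)) = (1 / 2 : ℝ) ^ k := by
      rw [← ih m (by omega)]
      unfold pr
      refine avg_congr fun l _ => ?_
      simp [zerosL]
    have h2 : avg m (fun l => ind (zerosL (k + 1) (true :: l) = true)) = 0 := by
      rw [← avg_const m (0 : ℝ)]
      refine avg_congr fun l _ => ?_
      rw [ind_of_not]
      simp [zerosL]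
    rw [h1, h2, pow_succ]
    ring

/-- success probability of `coin2` -/
noncomputable def c2 (m k : ℕ) : ℝ := if k ≤ m then (1 / 2) ^ k else 0

theorem c2_nonneg (m k : ℕ) : 0 ≤ c2 m k := by unfold c2; split_ifs <;> positivity

theorem c2_le_one (m k : ℕ) : c2 m k ≤ 1 := by
  unfold c2
  split_ifs
  · exact pow_le_one₀ (by norm_num) (by norm_num)
  · norm_num

theorem pr_coin2 (m k : ℕ) : pr m (fun l => coin2 m k l = true) = c2 m k := by
  unfold coin2 c2
  by_cases h : k ≤ m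
  · rw [if_pos h, ← pr_zeros m k h]
    exact pr_congr fun l _ => by simp [h]
  · rw [if_neg h]
    exact pr_eq_zero fun l _ => by simp [h]

/-- the ratio factor: reversible Metropolis factor for the exponent `u`, cut at `kmax` -/
noncomputable def rho (kmax : ℕ) (u v : ℤ) : ℝ :=
  if (v - u).natAbs ≤ kmax then (1 / 2) ^ (v - u).toNat else 0






/-- acceptance factor of side 2 -/
noncomputable def A2 (B₂ : ℕ) (z₂ : St → List ℤ → List ℤ) (D₂ : List Bool → List ℤ)
    (mem₂ : List ℤ → Bool) (s : St) : ℝ :=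
  avg B₂ (fun l => ind (mem₂ (z₂ s (D₂ l)) = true))



theorem A2_mem (B₂ : ℕ) (z₂ : St → List ℤ → List ℤ) (D₂ : List Bool → List ℤ)
    (mem₂ : List ℤ → Bool) (s : St) :
    0 ≤ A2 B₂ z₂ D₂ mem₂ s ∧ A2 B₂ z₂ D₂ mem₂ s ≤ 1 := by
  unfold A2
  constructor
  · exact avg_nonneg fun l _ => ind_nonneg _
  · exact avg_le_const fun l _ => ind_le_one _


/-! ### the proposal -/

section proposal

variable {G : Type*} [AddCommGroup G] [DecidableEq G]

/-- **The list proposal is the lattice proposal.** -/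
theorem mvL_enc {n a b : ℕ} {B : Finset G} {cs : List (G × ℕ)} {cs' : List (St × ℕ)}
    {inB : St → Bool} {enc : G → St}
    (hax : ∀ (g d : G) (k : ℤ), axSt n (enc g) k (enc d) = enc (g + k • d))
    (hcs : cs' = cs.map fun p => (enc p.1, p.2)) (hB : ∀ g : G, inB (enc g) = true ↔ g ∈ B)
    (x : B) (i : ℕ) :
    mvL n a b cs' inB (enc x.1) i = (latM B (ivec a b cs) x i).map (fun y => enc y.1) := by
  subst hcs
  unfold mvL latM ivec
  by_cases hi : i < 2 ^ (a + b + 1)
  swap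
  · rw [if_neg hi, if_neg hi]; rfl
  rw [if_pos hi, if_pos hi, List.head?_drop, List.getElem?_map]
  cases hc : cs[i / 2 / 2 ^ b]? with
  | none => rfl
  | some p =>
    simp only [Option.map_some, Option.bind_some]
    have hlen : i / 2 % 2 ^ b % 2 ^ (min p.2 b) = i / 2 % 2 ^ b % 2 ^ p.2 := by
      rcases le_total p.2 b with h | h
      · rw [min_eq_left h]
      · rw [min_eq_right h, Nat.mod_mod]
        have : i / 2 % 2 ^ b < 2 ^ b := Nat.mod_lt _ (by positivity)
        rw [Nat.mod_eq_of_lt (this.trans_le (Nat.pow_le_pow_right (by norm_num) h))]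
    have hk : lenI b p.2 i • p.1 = (if i % 2 = 0 then (i / 2 % 2 ^ b % 2 ^ p.2 + 1) • p.1
        else -((i / 2 % 2 ^ b % 2 ^ p.2 + 1) • p.1)) := by
      unfold lenI
      rw [hlen]
      split_ifs
      · rw [natCast_zsmul]
      · rw [neg_smul, natCast_zsmul]
    rw [hax, hk]
    set g := x.1 + (if i % 2 = 0 then (i / 2 % 2 ^ b % 2 ^ p.2 + 1) • p.1
        else -((i / 2 % 2 ^ b % 2 ^ p.2 + 1) • p.1)) with hg
    unfold guardSt
    by_cases hgB : g ∈ B
    · rw [if_pos ((hB g).2 hgB), dif_pos hgB]; rfl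
    · rw [if_neg (fun h => hgB ((hB g).1 h)), dif_neg hgB]; rfl

end proposal

end Crest.Agent.R302.Step
end

-- ▼ part R302/Step223C

/-!
# R302, block STEP (helper223), part C: the list program is the chain `Kch` of an `SD (Fin n)`

* `coinM` : ratio coin `2 ^ (-(ΔE)^+)` (cut at `kmax` bits), two fresh slack tests.
* `Prm`, `Code D P w mem₁ mem₂` : the list-coded stage data and what they have to satisfy.
* `enc D` : coding of the states; `stepL` : the step.
* `impl_stepL`, `run_stepL` : one step / `T` steps of `D.Kch` up to `2n / 2^N + 2^(-kmax)` per step.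
-/

set_option autoImplicit false
set_option maxHeartbeats 400000
set_option linter.unusedSectionVars false

namespace Crest.Agent.R302.Step

open Finset Crest.Agent.R309.MC Crest.Agent.R309.Tape Crest.Agent.Lib.PT.Arith
open Crest.Agent.R302.LatChain Crest.Agent.R302.Loop Crest.Agent.R302.Inst
open Crest.Agent.R302.Stage Crest.Agent.R302.EDM Crest.Agent.R302.Slk

/-! ### the acceptance test -/

/-- ratio coin (`kmax` bits), slacks of side 1 (`B₁` bits), slacks of side 2 (`B₂` bits) -/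
def coinM (kmax B₁ : ℕ) (u : St → ℤ) (z₁ z₂ : St → List ℤ → List ℤ)
    (D₁ D₂ : List Bool → List ℤ) (mem₁ mem₂ : List ℤ → Bool) (s s' : St) (l : List Bool) : Bool :=
  coin2 kmax (u s' - u s).toNat (l.take kmax) &&
    (mem₁ (z₁ s' (D₁ ((l.drop kmax).take B₁))) && mem₂ (z₂ s' (D₂ ((l.drop kmax).drop B₁))))

/-- **exact acceptance probability** -/
theorem pr_coinM (kmax B₁ B₂ : ℕ) (u : St → ℤ) (z₁ z₂ : St → List ℤ → List ℤ)
    (D₁ D₂ : List Bool → List ℤ) (mem₁ mem₂ : List ℤ → Bool) (s s' : St) :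
    pr (kmax + (B₁ + B₂)) (fun l => coinM kmax B₁ u z₁ z₂ D₁ D₂ mem₁ mem₂ s s' l = true) =
    c2 kmax (u s' - u s).toNat * (A2 B₁ z₁ D₁ mem₁ s' * A2 B₂ z₂ D₂ mem₂ s') := by
  let F : List Bool → List Bool → ℝ := fun l0 l' =>
    ind (coin2 kmax (u s' - u s).toNat l0 = true) *
      (ind (mem₁ (z₁ s' (D₁ (l'.take B₁))) = true) * ind (mem₂ (z₂ s' (D₂ (l'.drop B₁))) = true))
  have h0 : pr (kmax + (B₁ + B₂))
      (fun l => coinM kmax B₁ u z₁ z₂ D₁ D₂ mem₁ mem₂ s s' l = true) =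
      avg (kmax + (B₁ + B₂)) (fun l => F (l.take kmax) (l.drop kmax)) := by
    unfold pr
    refine avg_congr fun l _ => ?_
    simp only [F, ← ind_and]
    congr 1
    simp only [coinM, Bool.and_eq_true]
  rw [h0, avg_take_drop kmax (B₁ + B₂) F]
  have h1 : ∀ l0 : List Bool, avg (B₁ + B₂) (fun l' => F l0 l') =
      ind (coin2 kmax (u s' - u s).toNat l0 = true) *
        (A2 B₁ z₁ D₁ mem₁ s' * A2 B₂ z₂ D₂ mem₂ s') := by
    intro l0
    simp only [F]
    rw [avg_mul_left]
    congr 1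
    rw [avg_take_drop B₁ B₂ (fun l l' => ind (mem₁ (z₁ s' (D₁ l)) = true) *
      ind (mem₂ (z₂ s' (D₂ l')) = true))]
    simp only [avg_mul_left, avg_mul_right]
    rfl
  simp only [h1, avg_mul_right]
  congr 1
  exact pr_coin2 _ _

theorem c2_err (m k : ℕ) : |c2 m k - (1 / 2 : ℝ) ^ k| ≤ (1 / 2) ^ m := by
  unfold c2
  split_ifs with h
  · simp
  · rw [zero_sub, abs_neg, abs_of_nonneg (by positivity)]
    exact pow_le_pow_of_le_one (by norm_num) (by norm_num) (by omega)

/-- error form -/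
theorem pr_coinM_err {kmax B₁ B₂ : ℕ} {u : St → ℤ} {z₁ z₂ : St → List ℤ → List ℤ}
    {D₁ D₂ : List Bool → List ℤ} {mem₁ mem₂ : List ℤ → Bool} (s : St) {s' : St}
    {f₁ f₂ δ₁ δ₂ : ℝ} (h₁ : |A2 B₁ z₁ D₁ mem₁ s' - f₁| ≤ δ₁)
    (h₂ : |A2 B₂ z₂ D₂ mem₂ s' - f₂| ≤ δ₂) (hf1 : |f₁| ≤ 1) (hf2 : |f₂| ≤ 1) :
    |pr (kmax + (B₁ + B₂)) (fun l => coinM kmax B₁ u z₁ z₂ D₁ D₂ mem₁ mem₂ s s' l = true) -
      (1 / 2 : ℝ) ^ (u s' - u s).toNat * (f₁ * f₂)| ≤ (1 / 2) ^ kmax + (δ₁ + δ₂) := by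
  rw [pr_coinM]
  set k := (u s' - u s).toNat with hk
  have h3 := A2_mem B₂ z₂ D₂ mem₂ s'
  have h4 : |A2 B₁ z₁ D₁ mem₁ s' * A2 B₂ z₂ D₂ mem₂ s' - f₁ * f₂| ≤ δ₁ + δ₂ := by
    have e : A2 B₁ z₁ D₁ mem₁ s' * A2 B₂ z₂ D₂ mem₂ s' - f₁ * f₂ =
        (A2 B₁ z₁ D₁ mem₁ s' - f₁) * A2 B₂ z₂ D₂ mem₂ s' +
          f₁ * (A2 B₂ z₂ D₂ mem₂ s' - f₂) := by ring
    rw [e]
    refine (abs_add_le _ _).trans (add_le_add ?_ ?_)
    · rw [abs_mul, abs_of_nonneg h3.1]
      calc |A2 B₁ z₁ D₁ mem₁ s' - f₁| * A2 B₂ z₂ D₂ mem₂ s'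
          ≤ |A2 B₁ z₁ D₁ mem₁ s' - f₁| * 1 :=
            mul_le_mul_of_nonneg_left h3.2 (abs_nonneg _)
        _ ≤ δ₁ := by rw [mul_one]; exact h₁
    · rw [abs_mul]
      calc |f₁| * |A2 B₂ z₂ D₂ mem₂ s' - f₂| ≤ 1 * |A2 B₂ z₂ D₂ mem₂ s' - f₂| :=
            mul_le_mul_of_nonneg_right hf1 (abs_nonneg _)
        _ ≤ δ₂ := by rw [one_mul]; exact h₂
  have e2 : c2 kmax k * (A2 B₁ z₁ D₁ mem₁ s' * A2 B₂ z₂ D₂ mem₂ s') -
      (1 / 2 : ℝ) ^ k * (f₁ * f₂) =
      c2 kmax k * (A2 B₁ z₁ D₁ mem₁ s' * A2 B₂ z₂ D₂ mem₂ s' - f₁ * f₂) +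
        (c2 kmax k - (1 / 2 : ℝ) ^ k) * (f₁ * f₂) := by ring
  rw [e2]
  have h5 : |f₁ * f₂| ≤ 1 := by
    rw [abs_mul]
    exact mul_le_one₀ hf1 (abs_nonneg _) hf2
  refine (abs_add_le _ _).trans ?_
  rw [abs_mul, abs_mul, abs_of_nonneg (c2_nonneg _ _)]
  have h6 := c2_err kmax k
  have h7 : c2 kmax k * |A2 B₁ z₁ D₁ mem₁ s' * A2 B₂ z₂ D₂ mem₂ s' - f₁ * f₂| ≤ δ₁ + δ₂ := by
    calc _ ≤ 1 * |A2 B₁ z₁ D₁ mem₁ s' * A2 B₂ z₂ D₂ mem₂ s' - f₁ * f₂| :=
          mul_le_mul_of_nonneg_right (c2_le_one _ _) (abs_nonneg _)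
      _ ≤ _ := by rw [one_mul]; exact h4
  have h8 : |c2 kmax k - (1 / 2 : ℝ) ^ k| * |f₁ * f₂| ≤ (1 / 2) ^ kmax := by
    calc _ ≤ |c2 kmax k - (1 / 2 : ℝ) ^ k| * 1 := mul_le_mul_of_nonneg_left h5 (abs_nonneg _)
      _ ≤ _ := by rw [mul_one]; exact h6
  linarith

/-! ### the slack kernels -/

theorem kapR_eq' (k : ℕ) (t : ℤ) : Stage.kapR k t = Slk.kapR k t := by
  rw [Slk.kapR_eq]
  unfold Stage.kapR Slk.qk
  simp only [one_div, inv_pow]

/-! ### coding -/

variable {n : ℕ}

/-- code of a block vector -/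
noncomputable def encB (S : Side (Fin n)) (β : S.Blk → ℤ) : List ℤ :=
  List.ofFn fun a => if h : S.T.par a = none then β ⟨a, h⟩ else 0

/-- code of a state -/
noncomputable def enc (D : SD (Fin n)) (σ : Stage.St D) : St :=
  (List.ofFn σ.1, encB D.S₁ σ.2.1, encB D.S₂ σ.2.2)

theorem getD_ofFn {α : Type*} (f : Fin n → α) (d : α) (a : Fin n) :
    (List.ofFn f).getD a d = f a := by
  rw [List.getD_eq_getElem _ _ (by simp)]
  simp

theorem encB_injective (S : Side (Fin n)) : Function.Injective (encB S) := by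
  intro β β' h
  have h1 := List.ofFn_injective h
  funext r
  have h2 := congrFun h1 r.1
  simpa [dif_pos r.2] using h2

theorem enc_injective (D : SD (Fin n)) : Function.Injective (enc D) := by
  rintro ⟨x, β₁, β₂⟩ ⟨x', β₁', β₂'⟩ h
  unfold enc at h
  simp only [Prod.mk.injEq] at h
  obtain ⟨h1, h2, h3⟩ := h
  rw [List.ofFn_injective h1, encB_injective _ h2, encB_injective _ h3]

theorem map_range_eq_ofFn {α : Type*} (f : ℕ → α) (g : Fin n → α) (h : ∀ a : Fin n, f a = g a) :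
    (List.range n).map f = List.ofFn g := by
  apply List.ext_getElem
  · simp
  · intro i h1 h2
    simp only [List.getElem_map, List.getElem_range, List.getElem_ofFn]
    exact h ⟨i, by simpa using h1⟩

theorem sum_map_range (f : ℕ → ℤ) (g : Fin n → ℤ) (h : ∀ a : Fin n, f a = g a) :
    ((List.range n).map f).sum = ∑ a, g a := by
  rw [map_range_eq_ofFn f g h, List.sum_ofFn]

theorem axL_ofFn (x d : Fin n → ℤ) (k : ℤ) :
    axL n (List.ofFn x) k (List.ofFn d) = List.ofFn (x + k • d) := by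
  unfold axL
  refine map_range_eq_ofFn _ _ fun a => ?_
  rw [getD_ofFn, getD_ofFn]
  simp

theorem axL_encB (S : Side (Fin n)) (β d : S.Blk → ℤ) (k : ℤ) :
    axL n (encB S β) k (encB S d) = encB S (β + k • d) := by
  unfold encB
  rw [axL_ofFn]
  congr 1
  funext a
  by_cases h : S.T.par a = none
  · simp [h]
  · simp [h]

theorem axSt_enc (D : SD (Fin n)) (σ d : Stage.St D) (k : ℤ) :
    axSt n (enc D σ) k (enc D d) = enc D (σ + k • d) := by
  unfold axSt enc
  simp only [axL_ofFn, axL_encB]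
  rfl

/-! ### one side -/

/-- the tables of one side -/
structure CodeS (S : Side (Fin n)) (par : List ℕ) (sub : List (List Bool)) (ks : List ℕ)
    (mem : List ℤ → Bool) : Prop where
  par : ∀ a : Fin n, par.getD a n = (S.T.par a).elim n (fun b => (b : ℕ))
  sub : ∀ a b : Fin n, (sub.getD a []).getD b false = true ↔ b ∈ S.T.sub a
  len : ks.length = n
  thin : ∀ a : Fin n, S.T.par a = none → ks.getD a 0 = 0
  fat : ∀ a : Fin n, S.T.par a ≠ none → ∀ t, S.κ a t = Stage.kapR (ks.getD a 0) t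
  g : ∀ z, S.g z = 1
  mem : ∀ z : Fin n → ℤ, mem (List.ofFn z) = true ↔ z ∈ S.J

section side

variable {S : Side (Fin n)} {par : List ℕ} {sub : List (List Bool)} {ks : List ℕ}
  {mem : List ℤ → Bool}

theorem CodeS.par_iff (h : CodeS S par sub ks mem) (a : Fin n) :
    par.getD a n = n ↔ S.T.par a = none := by
  rw [h.par a]
  cases hp : S.T.par a with
  | none => simp
  | some b =>
    simp only [Option.elim_some, reduceCtorEq, iff_false]
    exact b.2.ne

theorem CodeS.par_iff' (h : CodeS S par sub ks mem) (a b : Fin n) :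
    par.getD a n = b ↔ S.T.par a = some b := by
  rw [h.par a]
  cases hp : S.T.par a with
  | none =>
    simp only [Option.elim_none, reduceCtorEq, iff_false]
    exact b.2.ne'
  | some c =>
    simp only [Option.elim_some, Option.some.injEq]
    exact ⟨fun e => Fin.ext e, fun e => by rw [e]⟩

theorem CodeS.bsL (h : CodeS S par sub ks mem) (x : Fin n → ℤ) (a : Fin n) :
    bsL n sub (List.ofFn x) a = bs S.T x a := by
  unfold Step.bsL bs
  rw [sum_map_range _ (fun b => if b ∈ S.T.sub a then x b else 0)]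
  · rw [Finset.sum_ite_mem, Finset.univ_inter]
  · intro b
    rw [getD_ofFn]
    by_cases hb : b ∈ S.T.sub a
    · rw [if_pos hb, if_pos ((h.sub a b).2 hb)]
    · rw [if_neg hb, if_neg (fun e => hb ((h.sub a b).1 e))]

theorem getD_encB (β : S.Blk → ℤ) (a : Fin n) :
    (encB S β).getD a 0 = if h : S.T.par a = none then β ⟨a, h⟩ else 0 := getD_ofFn _ _ _

theorem CodeS.loadL (h : CodeS S par sub ks mem) (x : Fin n → ℤ) (β : S.Blk → ℤ) :
    loadL n par sub (List.ofFn x) (encB S β) = List.ofFn (S.load x β) := by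
  unfold Step.loadL
  refine map_range_eq_ofFn _ _ fun a => ?_
  unfold Side.load
  rw [getD_ofFn, h.bsL, getD_encB]
  by_cases hp : S.T.par a = none
  · rw [if_pos ((h.par_iff a).2 hp), dif_pos hp, dif_pos hp]
  · rw [if_neg (fun e => hp ((h.par_iff a).1 e)), dif_neg hp]

theorem CodeS.zL (h : CodeS S par sub ks mem) (x : Fin n → ℤ) (β : S.Blk → ℤ) (t : List ℤ) :
    zL n par sub (List.ofFn x) (encB S β) t =
      List.ofFn (zpt S.T (S.load x β) (fun a => t.getD a 0)) := by
  unfold Step.zL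
  refine map_range_eq_ofFn _ _ fun b => ?_
  rw [h.loadL, getD_ofFn, zpt_apply]
  congr 1
  · congr 1
    by_cases hp : S.T.par b = none
    · rw [if_pos ((h.par_iff b).2 hp), if_pos hp]
    · rw [if_neg (fun e => hp ((h.par_iff b).1 e)), if_neg hp]
  · unfold inflL
    refine sum_map_range _ _ fun a => ?_
    by_cases hp : S.T.par a = some b
    · rw [if_pos ((h.par_iff' a b).2 hp), if_pos hp]
    · rw [if_neg (fun e => hp ((h.par_iff' a b).1 e)), if_neg hp]

theorem sum_blk {M : Type*} [AddCommMonoid M] (S : Side (Fin n)) (f : S.Blk → M) :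
    ∑ r : S.Blk, f r = ∑ a : Fin n, if h : S.T.par a = none then f ⟨a, h⟩ else 0 := by
  classical
  have h1 := Finset.sum_subtype (F := (inferInstance : Fintype S.Blk))
    (univ.filter fun a : Fin n => S.T.par a = none)
    (p := fun a : Fin n => S.T.par a = none) (fun a => by simp)
    (fun a => if h : S.T.par a = none then f ⟨a, h⟩ else 0)
  have h2 : ∑ r : S.Blk, f r = ∑ r : S.Blk, (fun a : Fin n => if h : S.T.par a = none then f ⟨a, h⟩ else 0) r.1 := by
    refine Finset.sum_congr rfl fun r _ => ?_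
    simp only [dif_pos r.2]
  rw [h2, ← h1, Finset.sum_filter]
  refine Finset.sum_congr rfl fun a _ => ?_
  by_cases h : S.T.par a = none
  · rw [if_pos h]
  · rw [if_neg h, dif_neg h]

theorem CodeS.lnkL (h : CodeS S par sub ks mem) (x : Fin n → ℤ) (β : S.Blk → ℤ) :
    lnkL n par sub (List.ofFn x) (encB S β) = ∑ r, |β r - bs S.T x r| := by
  unfold Step.lnkL
  rw [sum_blk]
  refine sum_map_range _ _ fun a => ?_
  rw [h.bsL, getD_encB]
  by_cases hp : S.T.par a = none
  · rw [if_pos ((h.par_iff a).2 hp), dif_pos hp, dif_pos hp, Int.natCast_natAbs]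
  · rw [if_neg (fun e => hp ((h.par_iff a).1 e)), dif_neg hp]

theorem CodeS.gagL (h : CodeS S par sub ks mem) {g : List ℤ} {ell : Fin n → ℤ}
    (hg : ∀ a : Fin n, S.T.par a = none → ell a = g.getD a 0) (β : S.Blk → ℤ) :
    gagL n par g (encB S β) = ∑ r : S.Blk, ell r * β r := by
  unfold Step.gagL
  rw [sum_blk]
  refine sum_map_range _ _ fun a => ?_
  rw [getD_encB]
  by_cases hp : S.T.par a = none
  · rw [if_pos ((h.par_iff a).2 hp), dif_pos hp, dif_pos hp, hg a hp]
  · rw [if_neg (fun e => hp ((h.par_iff a).1 e)), dif_neg hp]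

/-- **the fresh slack test of one side** -/
theorem CodeS.test (h : CodeS S par sub ks mem) {N B : ℕ} (hB : ∀ k ∈ ks, slkLen k N ≤ B)
    (z : St → List ℤ → List ℤ) (s : St) (x : Fin n → ℤ) (β : S.Blk → ℤ)
    (hz : ∀ t, z s t = Step.zL n par sub (List.ofFn x) (encB S β) t) :
    |A2 (n * B) z (slks N B ks) mem s - S.ff x β| ≤ n * (1 / 2 ^ N) := by
  classical
  obtain ⟨kf, rfl⟩ : ∃ kf : Fin n → ℕ, ks = List.ofFn kf := by
    refine ⟨fun i => ks[(i : ℕ)]'(by rw [h.len]; exact i.2), ?_⟩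
    apply List.ext_getElem
    · simp [h.len]
    · intro i h1 h2
      simp
  have hB' : ∀ a, slkLen (kf a) N ≤ B := fun a => hB _ ((List.mem_ofFn' _ _).2 ⟨a, rfl⟩)
  have hthin : ∀ a : Fin n, S.T.par a = none → kf a = 0 := fun a ha => by
    have := h.thin a ha
    rwa [getD_ofFn] at this
  set Tt : List Bool → Fin n → ℤ := fun l a => (slks N B (List.ofFn kf) l).getD a 0 with hTt
  have hTeq : ∀ l v, slks N B (List.ofFn kf) l = List.ofFn v ↔ Tt l = v := by
    intro l v
    constructor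
    · intro e
      funext a
      simp only [hTt, e, getD_ofFn]
    · intro e
      apply List.ext_getElem
      · simp
      · intro i h1 h2
        have h3 := congrFun e ⟨i, by simpa using h1⟩
        simp only [hTt] at h3
        rw [List.getD_eq_getElem _ _ h1] at h3
        rw [h3, List.getElem_ofFn]
  have hT0 : ∀ l : List Bool, ∀ a, S.T.par a = none → Tt l a = 0 := by
    intro l a ha
    simp only [hTt]
    rw [getD_slks _ _ _ _ (by simp)]
    rw [getD_ofFn, hthin a ha, Nat.zero_min, slk_zero]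
  have hlaw : ∀ V : Finset (Fin n → ℤ),
      ∑ v ∈ V, |pr (n * B) (fun l => Tt l = v) - S.slw v| ≤ n * (1 / 2 ^ N) := by
    intro V
    refine le_trans (le_of_eq (Finset.sum_congr rfl fun v _ => ?_)) (slks_law_l1 kf hB' V)
    congr 2
    · exact pr_congr fun l _ => (hTeq l v).symm
    · unfold Side.slw
      refine Finset.prod_congr rfl fun a _ => ?_
      by_cases ha : S.T.par a = none
      · rw [if_pos ha, hthin a ha, Slk.kapR_zero]
      · rw [if_neg ha, h.fat a ha, kapR_eq', getD_ofFn]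
  have key := ff_error S x β (n * B) Tt (fun z => by rw [h.g]; exact zero_le_one)
    (fun z => by rw [h.g]) hT0 hlaw
  refine le_trans (le_of_eq ?_) key
  congr 2
  unfold A2
  refine avg_congr fun l _ => ?_
  rw [hz, h.zL]
  have e : (fun a : Fin n => (slks N B (List.ofFn kf) l).getD a 0) = Tt l := rfl
  rw [e]
  by_cases hm : zpt S.T (S.load x β) (Tt l) ∈ S.J
  · rw [if_pos hm, ind_of ((h.mem _).2 hm), h.g]
  · rw [if_neg hm, ind_of_not (fun e => hm ((h.mem _).1 e))]

end side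

/-! ### the step of a list-coded stage -/

/-- the explicit exponent including the stage weight -/
def uwL (n : ℕ) (par₁ par₂ : List ℕ) (sub₁ sub₂ : List (List Bool)) (m : ℕ) (g : List ℤ)
    (w : List ℤ → ℤ) (s : St) : ℤ :=
  uL n par₁ par₂ sub₁ sub₂ m g s + w s.2.1

/-- list-coded stage data -/
structure Prm where
  par₁ : List ℕ
  par₂ : List ℕ
  sub₁ : List (List Bool)
  sub₂ : List (List Bool)
  ks₁ : List ℕ
  ks₂ : List ℕ
  /-- a link costs `2 ^ (-a)` -/
  a : ℕ
  /-- exponents of the gauge, one for each element -/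
  g : List ℤ
  /-- centre of the window -/
  c : List ℤ
  M : ℕ
  Lb : ℕ
  cs : List (St × ℕ)
  qa : ℕ
  qb : ℕ

/-- lower corner of the window -/
def bxLo (n : ℕ) (c : List ℤ) (M Lb : ℕ) : St :=
  ((List.range n).map fun j => c.getD j 0 - M, (List.range n).map fun _ => -(Lb : ℤ),
    (List.range n).map fun _ => -(Lb : ℤ))

/-- upper corner of the window -/
def bxHi (n : ℕ) (c : List ℤ) (M Lb : ℕ) : St :=
  ((List.range n).map fun j => c.getD j 0 + M, (List.range n).map fun _ => (Lb : ℤ),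
    (List.range n).map fun _ => (Lb : ℤ))

/-- bits per step -/
def stepBits (n : ℕ) (P : Prm) (kmax B : ℕ) : ℕ := (P.qa + P.qb + 2) + (kmax + (n * B + n * B))

/-- **one step of the chain as a list program** -/
def stepL (n : ℕ) (P : Prm) (w : List ℤ → ℤ) (mem₁ mem₂ : List ℤ → Bool) (kmax N B : ℕ) :
    St → List Bool → St :=
  cstep (P.qa + P.qb + 2)
    (mvL n P.qa P.qb P.cs (inBoxSt n (bxLo n P.c P.M P.Lb) (bxHi n P.c P.M P.Lb)))
    (coinM kmax (n * B) (uwL n P.par₁ P.par₂ P.sub₁ P.sub₂ P.a P.g w)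
      (fun s t => zL n P.par₁ P.sub₁ s.1 s.2.1 t) (fun s t => zL n P.par₂ P.sub₂ s.1 s.2.2 t)
      (slks N B P.ks₁) (slks N B P.ks₂) mem₁ mem₂)

/-- the list-coded data represent `D` -/
structure Code (D : SD (Fin n)) (P : Prm) (w : List ℤ → ℤ) (mem₁ mem₂ : List ℤ → Bool) :
    Prop where
  s₁ : CodeS D.S₁ P.par₁ P.sub₁ P.ks₁ mem₁
  s₂ : CodeS D.S₂ P.par₂ P.sub₂ P.ks₂ mem₂
  w : ∀ β, w (encB D.S₁ β) = D.w β
  a : P.a = D.a
  ell₁ : ∀ e : Fin n, D.S₁.T.par e = none → D.ell e = P.g.getD e 0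
  ell₂ : ∀ e : Fin n, D.S₂.T.par e = none → D.ell e = P.g.getD e 0
  c : ∀ e : Fin n, P.c.getD e 0 = D.c e
  M : P.M = D.M
  Lb : P.Lb = D.Lb
  cs : P.cs = D.cs.map fun p => (enc D p.1, p.2)
  qa : P.qa = D.qa
  qb : P.qb = D.qb

section main

variable {D : SD (Fin n)} {P : Prm} {w : List ℤ → ℤ} {mem₁ mem₂ : List ℤ → Bool}

theorem Code.uw (h : Code D P w mem₁ mem₂) (σ : Stage.St D) :
    uwL n P.par₁ P.par₂ P.sub₁ P.sub₂ P.a P.g w (enc D σ) = -D.ex σ := by
  unfold uwL uL SD.ex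
  have e1 : (enc D σ).1 = List.ofFn σ.1 := rfl
  have e2 : (enc D σ).2.1 = encB D.S₁ σ.2.1 := rfl
  have e3 : (enc D σ).2.2 = encB D.S₂ σ.2.2 := rfl
  rw [e1, e2, e3, h.s₁.lnkL, h.s₂.lnkL, h.s₁.gagL h.ell₁, h.s₂.gagL h.ell₂, h.w, h.a]
  ring

theorem Code.inBox (h : Code D P w mem₁ mem₂) (σ : Stage.St D) :
    inBoxSt n (bxLo n P.c P.M P.Lb) (bxHi n P.c P.M P.Lb) (enc D σ) = true ↔ σ ∈ D.bx := by
  have hr : ∀ (f : ℕ → ℤ) (j : Fin n), ((List.range n).map f).getD j 0 = f j := by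
    intro f j
    rw [List.getD_eq_getElem _ _ (by simp)]
    simp
  have hb : ∀ (S : Side (Fin n)) (β : S.Blk → ℤ),
      inBoxL n ((List.range n).map fun _ => -(P.Lb : ℤ)) ((List.range n).map fun _ => (P.Lb : ℤ))
        (encB S β) = true ↔ β ∈ Fintype.piFinset fun _ => Icc (-(D.Lb : ℤ)) D.Lb := by
    intro S β
    rw [inBoxL_iff, Fintype.mem_piFinset]
    constructor
    · intro H r
      have := H r.1
      unfold vecL at this
      rw [hr, hr, getD_encB, dif_pos r.2, h.Lb] at this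
      exact Finset.mem_Icc.2 this
    · intro H j
      unfold vecL
      rw [hr, hr, getD_encB, h.Lb]
      by_cases hp : S.T.par j = none
      · rw [dif_pos hp]
        exact Finset.mem_Icc.1 (H ⟨j, hp⟩)
      · rw [dif_neg hp]
        constructor <;> omega
  unfold inBoxSt SD.bx
  rw [Bool.and_eq_true, Bool.and_eq_true, Finset.mem_product, Finset.mem_product]
  have e1 : (enc D σ).1 = List.ofFn σ.1 := rfl
  have e2 : (enc D σ).2.1 = encB D.S₁ σ.2.1 := rfl
  have e3 : (enc D σ).2.2 = encB D.S₂ σ.2.2 := rfl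
  rw [e1, e2, e3]
  unfold bxLo bxHi
  simp only
  rw [hb, hb]
  refine and_congr ?_ Iff.rfl
  rw [inBoxL_iff, Fintype.mem_piFinset]
  refine forall_congr' fun e => ?_
  unfold vecL
  rw [hr, hr, getD_ofFn, h.c, h.M, Finset.mem_Icc]

theorem min_one_zpow (u v : ℤ) :
    min 1 ((2 : ℝ) ^ (v - u)) = (1 / 2 : ℝ) ^ (-v - -u).toNat := by
  have e : (1 / 2 : ℝ) ^ (-v - -u).toNat = (2 : ℝ) ^ (-((-v - -u).toNat : ℤ)) := by
    rw [one_div, inv_pow, zpow_neg, zpow_natCast]
  rw [e]
  rcases le_total u v with h | h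
  · rw [min_eq_left (one_le_zpow₀ (by norm_num) (by omega))]
    rw [show (-((-v - -u).toNat : ℤ)) = 0 by omega, zpow_zero]
  · rw [min_eq_right (zpow_le_one_of_nonpos₀ (by norm_num) (by omega))]
    congr 1
    omega

/-- **one step implements `Kch`** up to `2^(-kmax) + 2n / 2^N` -/
theorem Code.impl (h : Code D P w mem₁ mem₂) (hD : D.OK) {kmax N B : ℕ}
    (hB₁ : ∀ k ∈ P.ks₁, slkLen k N ≤ B) (hB₂ : ∀ k ∈ P.ks₂, slkLen k N ≤ B) :
    ImplE (stepL n P w mem₁ mem₂ kmax N B) (stepBits n P kmax B)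
      (fun σ : D.bx => enc D σ.1) D.Kch
      ((1 / 2) ^ kmax + (n * (1 / 2 ^ N) + n * (1 / 2 ^ N))) := by
  unfold stepL stepBits SD.Kch
  rw [← h.qa, ← h.qb]
  refine implE_cstep (by positivity) (fun x i => ?_) (fun x y i _ _ => ?_)
  · have := mvL_enc (n := n) (a := P.qa) (b := P.qb) (B := D.bx) (cs := D.cs) (cs' := P.cs)
      (inB := inBoxSt n (bxLo n P.c P.M P.Lb) (bxHi n P.c P.M P.Lb)) (enc := enc D)
      (fun g d k => axSt_enc D g d k) h.cs (fun g => h.inBox g) x i
    rw [this]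
    unfold SD.move
    rw [← h.qa, ← h.qb]
  · have hf₁ := Side.ff_nonneg' hD.κ₁ (fun z => by rw [hD.g₁]; exact zero_le_one) y.1.1 y.1.2.1
    have hf₂ := Side.ff_nonneg' hD.κ₂ (fun z => by rw [hD.g₂]; exact zero_le_one) y.1.1 y.1.2.2
    have key := pr_coinM_err (kmax := kmax) (B₁ := n * B) (B₂ := n * B)
      (u := uwL n P.par₁ P.par₂ P.sub₁ P.sub₂ P.a P.g w)
      (z₁ := fun s t => zL n P.par₁ P.sub₁ s.1 s.2.1 t)
      (z₂ := fun s t => zL n P.par₂ P.sub₂ s.1 s.2.2 t)
      (D₁ := slks N B P.ks₁) (D₂ := slks N B P.ks₂) (mem₁ := mem₁) (mem₂ := mem₂) (enc D x.1)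
      (s' := enc D y.1)
      (h.s₁.test hB₁ (fun s t => zL n P.par₁ P.sub₁ s.1 s.2.1 t) (enc D y.1) y.1.1 y.1.2.1
        (fun t => rfl))
      (h.s₂.test hB₂ (fun s t => zL n P.par₂ P.sub₂ s.1 s.2.2 t) (enc D y.1) y.1.1 y.1.2.2
        (fun t => rfl))
      (by rw [abs_of_nonneg hf₁]; exact hD.f₁ _ _) (by rw [abs_of_nonneg hf₂]; exact hD.f₂ _ _)
    rw [h.uw, h.uw] at key
    unfold SD.acc SD.FG
    rw [min_one_zpow]
    exact key

/-- **`T` steps** -/
theorem Code.run (h : Code D P w mem₁ mem₂) (hD : D.OK) {kmax N B : ℕ}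
    (hB₁ : ∀ k ∈ P.ks₁, slkLen k N ≤ B) (hB₂ : ∀ k ∈ P.ks₂, slkLen k N ≤ B) (T : ℕ) (x : D.bx)
    (φ : St → ℝ) (hφ : ∀ s, 0 ≤ φ s ∧ φ s ≤ 1) :
    |avg (T * stepBits n P kmax B)
        (fun l => φ (runSteps (stepL n P w mem₁ mem₂ kmax N B) (stepBits n P kmax B) T
          (enc D x.1) l)) -
      ∑ y : D.bx, law D.Kch (pt x) T y * φ (enc D y.1)| ≤
      T * ((1 / 2) ^ kmax + (n * (1 / 2 ^ N) + n * (1 / 2 ^ N))) := by
  refine (h.impl hD hB₁ hB₂).avg_runSteps ?_ ?_ T x φ hφ
  · exact metro_isKer (isProp_lat _ _ _ _) (fun _ _ => SD.acc_nonneg hD _ _) (fun _ _ => SD.acc_le_one hD _ _)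
  · intro a b hab
    exact Subtype.ext (enc_injective D hab)

end main

end Crest.Agent.R302.Step
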