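import Crest.Agent.R302.OPTSolve
import Crest.Agent.R302.Loop272B
import Crest.Agent.R302.Loop272C
import Crest.Agent.R302.Top497B
import Crest.Agent.R302.Smp272
import Crest.Agent.R302.Slack166
import Crest.Agent.R302.Step223C
import Crest.Agent.R302.StageL725B
import Crest.Agent.R302.EDM6

-- ▼ part R302/LoopOPT675
section

/-!
# R302: the outer loop as an `OPTF` function (helper675)

* `OPTF.runSteps`, `OPTF.runSteps_inv`, `OPTF.runSteps_add`, `OPTF.runSteps_guard`;
* `OPTF.mapRun`, `OPTF.stage`, `loop_optf` : helper272's loop is `OPTF` if the particle move and the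
  gauge update are, with uniform size bounds;
* `newGaugeL`: the gauge update on lists.
-/

set_option autoImplicit false
set_option linter.dupNamespace false
set_option linter.unusedSectionVars false

namespace Crest.Agent.R302.ORAM

open Crest.Agent.Lib.PT Crest.Agent.R309.Tape Crest.Agent.R309.PTX

variable {α β γ δ σ : Type} [PTCode α] [PTCode β] [PTCode γ] [PTCode δ] [PTCode σ]

/-- `runSteps` is `OPTF` if the sizes of all intermediate states are bounded -/
theorem OPTF.runSteps {f : Inst → γ → σ → List Bool → σ} {r k : Inst → γ → ℕ} {s : Inst → γ → σ}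
    {t : Inst → γ → List Bool}
    (hf : OPTF (fun I (p : γ × σ × List Bool) => f I p.1 p.2.1 p.2.2)) (hr : OPTF r) (hk : OPTU k)
    (hs : OPTF s) (ht : OPTF t) {B : Inst → γ → ℕ} (hB : OPB B)
    (hb : ∀ I c, ∀ i ≤ k I c, sz (R309.Tape.runSteps (f I c) (r I c) i (s I c) (t I c)) ≤ B I c) :
    OPTF (fun I c => R309.Tape.runSteps (f I c) (r I c) (k I c) (s I c) (t I c)) := by
  have hr1 : OPTF (fun I (q : γ × σ × List Bool) => r I q.1) :=
    OPTF.comp (g := r) hr (OPTF.fst OPTF.id)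
  have hl1 : OPTF (fun (_ : Inst) (q : γ × σ × List Bool) => q.2.2) :=
    OPTF.snd (OPTF.snd OPTF.id)
  have hstep : OPTF (fun I (p : γ × σ × List Bool) =>
      (f I p.1 p.2.1 (p.2.2.take (r I p.1)), p.2.2.drop (r I p.1))) := by
    refine OPTF.prodMk ?_ (OPTF.drop hr1 hl1)
    exact OPTF.comp (g := fun I (p : γ × σ × List Bool) => f I p.1 p.2.1 p.2.2)
      (f := fun I (q : γ × σ × List Bool) => (q.1, q.2.1, q.2.2.take (r I q.1))) hf
      (OPTF.prodMk (OPTF.fst OPTF.id) (OPTF.prodMk (OPTF.fst (OPTF.snd OPTF.id))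
        (OPTF.take hr1 hl1)))
  have hBd : OPB (fun I c => 2 * B I c + 1 + sz (t I c)) :=
    (((OPB.const 2).mul hB).add (OPB.const 1)).add ht.bound
  have h := OPTF.iterate (n := k)
    (f := fun I (c : γ) (p : σ × List Bool) => (f I c p.1 (p.2.take (r I c)), p.2.drop (r I c)))
    (a := fun I c => (s I c, t I c)) hk hstep (OPTF.prodMk hs ht)
    (B := fun I c => 2 * B I c + 1 + sz (t I c)) hBd (fun I c i hi => by
      have e := runSteps_eq_iterate (f I c) (r I c) i (s I c) (t I c)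
      rw [e]
      simp only [sz_prod]
      have h1 := hb I c i hi
      have h2 := sz_drop_le (t I c) (i * r I c)
      omega)
  refine (OPTF.fst h).of_eq fun I c => ?_
  have e := runSteps_eq_iterate (f I c) (r I c) (k I c) (s I c) (t I c)
  rw [e]



/-! ### `mapRun` -/

theorem mapRun_eq_zipWith {S Ω : Type*} (f : S → List Bool → Ω) (ρ : ℕ) (xs : List S)
    (l : List Bool) :
    Loop.mapRun f ρ xs l = List.zipWith f xs
      ((List.range xs.length).map fun i => (l.drop (i * ρ)).take ρ) := by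
  induction xs generalizing l with
  | nil => rfl
  | cons x xs ih =>
    rw [Loop.mapRun, ih, List.length_cons, List.range_succ_eq_map]
    simp only [List.map_cons, List.map_map, List.zipWith_cons_cons, zero_mul, List.drop_zero]
    congr 2
    refine List.map_congr_left fun i _ => ?_
    simp only [Function.comp_apply, List.drop_drop]
    congr 2
    rw [Nat.succ_mul]
    omega

theorem OPTF.mapRun {f : Inst → γ → α → List Bool → β} {ρ : Inst → γ → ℕ}
    {xs : Inst → γ → List α} {l : Inst → γ → List Bool}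
    (hf : OPTF (fun I (p : γ × α × List Bool) => f I p.1 p.2.1 p.2.2)) (hρ : OPTF ρ)
    (hxs : OPTF xs) (hl : OPTF l) :
    OPTF (fun I c => Loop.mapRun (f I c) (ρ I c) (xs I c) (l I c)) := by
  have h1 : OPTF (fun I c => (List.range (xs I c).length).map
      fun i => ((l I c).drop (i * ρ I c)).take (ρ I c)) := by
    refine OPTF.map (OPTF.range (OPTU.length hxs)) ?_
    have hρ' : OPTF (fun I (p : γ × ℕ) => ρ I p.1) := OPTF.comp (g := ρ) hρ (OPTF.fst OPTF.id)
    have hl' : OPTF (fun I (p : γ × ℕ) => l I p.1) := OPTF.comp (g := l) hl (OPTF.fst OPTF.id)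
    exact OPTF.take hρ' (OPTF.drop (OPTF.natMul (OPTF.snd OPTF.id) hρ') hl')
  exact (OPTF.zipWith hxs h1 hf).of_eq fun I c => (mapRun_eq_zipWith _ _ _ _).symm

/-! ### the stage and the loop -/

section loop

variable {S G : Type} [PTCode S] [PTCode G] {A : Inst → γ → Loop.Sys S G}

/-- `stage` without pattern matching -/
theorem stage_eq {S G : Type*} (A : Loop.Sys S G) (s : ℕ × G × List S) (l : List Bool) :
    Loop.stage A s l = match s.2.2 with
      | [] => (s.1 + 1, s.2.1, [])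
      | c :: rest =>
        (s.1 + 1, A.gup s.1 c s.2.1 (rest.take A.K) (l.take A.ρ1),
          Loop.mapRun (A.run s.1 c (A.gup s.1 c s.2.1 (rest.take A.K) (l.take A.ρ1))) A.ρ
            (rest.drop A.K) (l.drop A.ρ1)) := rfl

theorem OPTF.stage
    (hrun : OPTF (fun I (p : γ × ℕ × S × G × S × List Bool) =>
      (A I p.1).run p.2.1 p.2.2.1 p.2.2.2.1 p.2.2.2.2.1 p.2.2.2.2.2))
    (hgup : OPTF (fun I (p : γ × ℕ × S × G × List S × List Bool) =>
      (A I p.1).gup p.2.1 p.2.2.1 p.2.2.2.1 p.2.2.2.2.1 p.2.2.2.2.2))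
    (hρ : OPTF (fun I c => (A I c).ρ)) (hρ1 : OPTF (fun I c => (A I c).ρ1))
    (hK : OPTF (fun I c => (A I c).K)) :
    OPTF (fun I (p : γ × (ℕ × G × List S) × List Bool) => Loop.stage (A I p.1) p.2.1 p.2.2) := by
  let Γ := γ × (ℕ × G × List S) × List Bool
  -- parameters after splitting the population
  have hc : ∀ {δ : Type} [PTCode δ] {f : Inst → γ → δ}, OPTF f →
      OPTF (fun I (q : Γ × S × List S) => f I q.1.1) := fun hf =>
    OPTF.comp hf (OPTF.fst (OPTF.fst OPTF.id))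
  have ht : OPTF (fun (_ : Inst) (q : Γ × S × List S) => q.1.2.1.1) :=
    OPTF.fst (OPTF.fst (OPTF.snd (OPTF.fst OPTF.id)))
  have hg : OPTF (fun (_ : Inst) (q : Γ × S × List S) => q.1.2.1.2.1) :=
    OPTF.fst (OPTF.snd (OPTF.fst (OPTF.snd (OPTF.fst OPTF.id))))
  have hl : OPTF (fun (_ : Inst) (q : Γ × S × List S) => q.1.2.2) :=
    OPTF.snd (OPTF.snd (OPTF.fst OPTF.id))
  have hx : OPTF (fun (_ : Inst) (q : Γ × S × List S) => q.2.1) := OPTF.fst (OPTF.snd OPTF.id)
  have hrest : OPTF (fun (_ : Inst) (q : Γ × S × List S) => q.2.2) :=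
    OPTF.snd (OPTF.snd OPTF.id)
  have hcc : OPTF (fun (_ : Inst) (q : Γ × S × List S) => q.1.1) := hc OPTF.id
  have hgup' : OPTF (fun I (q : Γ × S × List S) =>
      (A I q.1.1).gup q.1.2.1.1 q.2.1 q.1.2.1.2.1 (q.2.2.take (A I q.1.1).K)
        (q.1.2.2.take (A I q.1.1).ρ1)) :=
    OPTF.comp (g := fun I (p : γ × ℕ × S × G × List S × List Bool) =>
      (A I p.1).gup p.2.1 p.2.2.1 p.2.2.2.1 p.2.2.2.2.1 p.2.2.2.2.2)
      (f := fun I (q : Γ × S × List S) => (q.1.1, q.1.2.1.1, q.2.1, q.1.2.1.2.1,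
        q.2.2.take (A I q.1.1).K, q.1.2.2.take (A I q.1.1).ρ1)) hgup
      (hcc.prodMk (ht.prodMk (hx.prodMk (hg.prodMk ((OPTF.take (hc hK) hrest).prodMk
        (OPTF.take (hc hρ1) hl))))))
  have hmap : OPTF (fun I (q : Γ × S × List S) =>
      Loop.mapRun ((A I q.1.1).run q.1.2.1.1 q.2.1 ((A I q.1.1).gup q.1.2.1.1 q.2.1 q.1.2.1.2.1
        (q.2.2.take (A I q.1.1).K) (q.1.2.2.take (A I q.1.1).ρ1))) (A I q.1.1).ρ
        (q.2.2.drop (A I q.1.1).K) (q.1.2.2.drop (A I q.1.1).ρ1)) := by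
    refine OPTF.mapRun (f := fun I (q : Γ × S × List S) => (A I q.1.1).run q.1.2.1.1 q.2.1
      ((A I q.1.1).gup q.1.2.1.1 q.2.1 q.1.2.1.2.1
        (q.2.2.take (A I q.1.1).K) (q.1.2.2.take (A I q.1.1).ρ1))) ?_ (hc hρ)
      (OPTF.drop (hc hK) hrest) (OPTF.drop (hc hρ1) hl)
    refine OPTF.comp (g := fun I (p : γ × ℕ × S × G × S × List Bool) =>
      (A I p.1).run p.2.1 p.2.2.1 p.2.2.2.1 p.2.2.2.2.1 p.2.2.2.2.2)
      (f := fun I (q : (Γ × S × List S) × S × List Bool) =>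
        (q.1.1.1, q.1.1.2.1.1, q.1.2.1, (A I q.1.1.1).gup q.1.1.2.1.1 q.1.2.1 q.1.1.2.1.2.1
          (q.1.2.2.take (A I q.1.1.1).K) (q.1.1.2.2.take (A I q.1.1.1).ρ1), q.2.1, q.2.2)) hrun ?_
    have h1 : ∀ {δ : Type} [PTCode δ] {f : Inst → Γ × S × List S → δ}, OPTF f →
        OPTF (fun I (q : (Γ × S × List S) × S × List Bool) => f I q.1) := fun hf =>
      OPTF.comp hf (OPTF.fst OPTF.id)
    exact (h1 hcc).prodMk ((h1 ht).prodMk ((h1 hx).prodMk ((h1 hgup').prodMk
      ((OPTF.fst (OPTF.snd OPTF.id)).prodMk (OPTF.snd (OPTF.snd OPTF.id))))))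
  have hst : OPTF (fun (_ : Inst) (p : Γ) => p.2.1.2.2) :=
    OPTF.snd (OPTF.snd (OPTF.fst (OPTF.snd OPTF.id)))
  have ht0 : OPTF (fun (_ : Inst) (q : Γ) => q.2.1.1) :=
    OPTF.fst (OPTF.fst (OPTF.snd OPTF.id))
  have hg0 : OPTF (fun (_ : Inst) (q : Γ) => q.2.1.2.1) :=
    OPTF.fst (OPTF.snd (OPTF.fst (OPTF.snd OPTF.id)))
  have key := OPTF.listCasesOn (s := fun (_ : Inst) (p : Γ) => p.2.1.2.2)
    (f := fun (_ : Inst) (p : Γ) => (p.2.1.1 + 1, p.2.1.2.1, ([] : List S)))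
    (g := fun I (p : Γ) (c : S) (rest : List S) =>
      (p.2.1.1 + 1, (A I p.1).gup p.2.1.1 c p.2.1.2.1 (rest.take (A I p.1).K)
        (p.2.2.take (A I p.1).ρ1),
        Loop.mapRun ((A I p.1).run p.2.1.1 c ((A I p.1).gup p.2.1.1 c p.2.1.2.1
          (rest.take (A I p.1).K) (p.2.2.take (A I p.1).ρ1))) (A I p.1).ρ
          (rest.drop (A I p.1).K) (p.2.2.drop (A I p.1).ρ1)))
    hst
    ((OPTF.natAdd ht0 (OPTF.const 1)).prodMk (hg0.prodMk (OPTF.const [])))
    ((OPTF.natAdd ht (OPTF.const 1)).prodMk (hgup'.prodMk hmap))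
  exact key.of_eq fun I p => by
    rw [stage_eq]
    rcases p.2.1.2.2 with _ | ⟨c, rest⟩ <;> rfl

theorem mem_mapRun {S Ω : Type*} {f : S → List Bool → Ω} {ρ : ℕ} {xs : List S} {l : List Bool}
    {y : Ω} (h : y ∈ Loop.mapRun f ρ xs l) : ∃ x ∈ xs, ∃ l', y = f x l' := by
  induction xs generalizing l with
  | nil => simp [Loop.mapRun] at h
  | cons x xs ih =>
    rw [Loop.mapRun, List.mem_cons] at h
    rcases h with h | h
    · exact ⟨x, by simp, _, h⟩
    · obtain ⟨x', hx', l', h'⟩ := ih h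
      exact ⟨x', by simp [hx'], l', h'⟩

/-- the state invariant used for the size bound -/
def StInv (M0 B N G0 BG : ℕ) (i : ℕ) (s : ℕ × G × List S) : Prop :=
  s.1 = i ∧ sz s.2.1 ≤ G0 + i * BG ∧ s.2.2.length ≤ N ∧ ∀ x ∈ s.2.2, sz x ≤ M0 + i * B

theorem StInv.stage {A : Loop.Sys S G} {M0 B N G0 BG i : ℕ} {s : ℕ × G × List S}
    (h : StInv M0 B N G0 BG i s)
    (hrunB : ∀ t x g y l, sz (A.run t x g y l) ≤ sz y + B)
    (hgupB : ∀ t x g ys l, ys.length ≤ A.K → sz (A.gup t x g ys l) ≤ sz g + BG) (l : List Bool) :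
    StInv M0 B N G0 BG (i + 1) (Loop.stage A s l) := by
  obtain ⟨h1, h2, h3, h4⟩ := h
  have e1 : (i + 1) * BG = i * BG + BG := by ring
  have e2 : (i + 1) * B = i * B + B := by ring
  rw [stage_eq]
  rcases hs : s.2.2 with _ | ⟨c, rest⟩
  · refine ⟨by simp [h1], ?_, by simp, by simp⟩
    simp only
    omega
  · rw [hs] at h3 h4
    refine ⟨by simp [h1], ?_, ?_, ?_⟩
    · simp only
      have := hgupB s.1 c s.2.1 (rest.take A.K) (l.take A.ρ1) (List.length_take_le _ _)
      omega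
    · simp only [Loop.length_mapRun, List.length_drop]
      simp only [List.length_cons] at h3
      omega
    · intro y hy
      simp only at hy
      obtain ⟨x, hx, l', rfl⟩ := mem_mapRun hy
      have h5 := h4 x (List.mem_cons_of_mem _ (List.mem_of_mem_drop hx))
      have h6 := hrunB s.1 c (A.gup s.1 c s.2.1 (rest.take A.K) (l.take A.ρ1)) x l'
      omega

theorem StInv.runSteps {A : Loop.Sys S G} {M0 B N G0 BG i : ℕ} {s : ℕ × G × List S}
    (h : StInv M0 B N G0 BG i s)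
    (hrunB : ∀ t x g y l, sz (A.run t x g y l) ≤ sz y + B)
    (hgupB : ∀ t x g ys l, ys.length ≤ A.K → sz (A.gup t x g ys l) ≤ sz g + BG)
    (r k : ℕ) (l : List Bool) :
    StInv M0 B N G0 BG (i + k) (R309.Tape.runSteps (Loop.stage A) r k s l) := by
  induction k with
  | zero => exact h
  | succ k ih =>
    rw [runSteps_succ']
    exact ih.stage hrunB hgupB _

theorem StInv.sz_le {M0 B N G0 BG i T : ℕ} {s : ℕ × G × List S} (h : StInv M0 B N G0 BG i s)
    (hi : i ≤ T) :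
    sz s ≤ 2 * T + 1 + (2 * (G0 + T * BG) + 1 + N * (2 * (M0 + T * B) + 1)) := by
  obtain ⟨h1, h2, h3, h4⟩ := h
  have e1 : sz s = 2 * sz s.1 + 1 + (2 * sz s.2.1 + 1 + sz s.2.2) := by
    rw [sz_prod, sz_prod]
  have h9 : i * B ≤ T * B := Nat.mul_le_mul_right _ hi
  have h5 := sz_list_le (m := M0 + T * B) (fun x hx => (h4 x hx).trans (by omega))
  have h6 : sz s.1 ≤ T := (sz_nat_le _).trans (by omega)
  have h7 : i * BG ≤ T * BG := Nat.mul_le_mul_right _ hi
  have h8 : s.2.2.length * (2 * (M0 + T * B) + 1) ≤ N * (2 * (M0 + T * B) + 1) :=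
    Nat.mul_le_mul_right _ h3
  omega

/-- the population size -/
theorem OPTU.popSize (hK : OPTU (fun I c => (A I c).K)) (m : ℕ) {T : Inst → γ → ℕ}
    (hT : OPTU T) : OPTU (fun I c => Loop.popSize (A I c) m (T I c)) :=
  (OPTU.add (OPTU.const m) (OPTU.mul hT (OPTU.add (OPTU.const 1) hK))).of_eq fun I c => by
    rw [Loop.popSize_eq]

/-- **the loop is `OPTF`** -/
theorem OPTF.loop
    (hrun : OPTF (fun I (p : γ × ℕ × S × G × S × List Bool) =>
      (A I p.1).run p.2.1 p.2.2.1 p.2.2.2.1 p.2.2.2.2.1 p.2.2.2.2.2))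
    (hgup : OPTF (fun I (p : γ × ℕ × S × G × List S × List Bool) =>
      (A I p.1).gup p.2.1 p.2.2.1 p.2.2.2.1 p.2.2.2.2.1 p.2.2.2.2.2))
    (hρ : OPTF (fun I c => (A I c).ρ)) (hρ1 : OPTF (fun I c => (A I c).ρ1))
    (hK : OPTU (fun I c => (A I c).K))
    {B BG : Inst → γ → ℕ} (hB : OPB B) (hBG : OPB BG)
    (hrunB : ∀ I c t x g y l, sz ((A I c).run t x g y l) ≤ sz y + B I c)
    (hgupB : ∀ I c t x g ys l, ys.length ≤ (A I c).K →
      sz ((A I c).gup t x g ys l) ≤ sz g + BG I c)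
    {T r : Inst → γ → ℕ} (hT : OPTU T) (hr : OPTF r) {x0 : Inst → γ → S} (hx0 : OPTF x0)
    {g0 : Inst → γ → G} (hg0 : OPTF g0) {N : Inst → γ → ℕ} (hN : OPTU N)
    {t : Inst → γ → List Bool} (ht : OPTF t) :
    OPTF (fun I c => R309.Tape.runSteps (Loop.stage (A I c)) (r I c) (T I c)
      (0, g0 I c, List.replicate (N I c) (x0 I c)) (t I c)) := by
  have h0 : OPTF (fun I c => ((0 : ℕ), g0 I c, List.replicate (N I c) (x0 I c))) :=
    (OPTF.const 0).prodMk (hg0.prodMk (OPTF.replicate hN hx0))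
  refine OPTF.runSteps (f := fun I c => Loop.stage (A I c))
    (OPTF.stage hrun hgup hρ hρ1 hK.toOPTF) hr hT h0 ht
    (B := fun I c => 2 * T I c + 1 + (2 * (sz (g0 I c) + T I c * BG I c) + 1
      + N I c * (2 * (sz (x0 I c) + T I c * B I c) + 1))) ?_ ?_
  · exact (((OPB.const 2).mul hT.opb).add (OPB.const 1)).add
      ((((OPB.const 2).mul (hg0.bound.add (hT.opb.mul hBG))).add (OPB.const 1)).add
        (hN.opb.mul (((OPB.const 2).mul (hx0.bound.add (hT.opb.mul hB))).add (OPB.const 1))))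
  · intro I c i hi
    have hinit : StInv (sz (x0 I c)) (B I c) (N I c) (sz (g0 I c)) (BG I c) 0
        ((0 : ℕ), g0 I c, List.replicate (N I c) (x0 I c)) := by
      refine ⟨rfl, by simp, by simp, ?_⟩
      intro x hx
      simp only at hx
      rw [List.eq_of_mem_replicate hx]
      omega
    have h := hinit.runSteps (A := A I c) (hrunB I c) (hgupB I c) (r I c) i (t I c)
    rw [zero_add] at h
    exact h.sz_le hi


end loop

/-! ### the gauge update on lists -/

/-- maximum of a list of naturals -/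
def maxL (l : List ℕ) : ℕ := l.foldl max 0

theorem foldl_max_eq (l : List ℕ) (a : ℕ) : l.foldl max a = max a (maxL l) := by
  unfold maxL
  induction l generalizing a with
  | nil => simp
  | cons b l ih => rw [List.foldl_cons, List.foldl_cons, ih, ih (max 0 b)]; simp [max_assoc]

@[simp] theorem maxL_nil : maxL [] = 0 := rfl

theorem maxL_cons (a : ℕ) (l : List ℕ) : maxL (a :: l) = max a (maxL l) := by
  rw [maxL, List.foldl_cons, foldl_max_eq]; simp


theorem maxL_le {l : List ℕ} {B : ℕ} (h : ∀ a ∈ l, a ≤ B) : maxL l ≤ B := by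
  induction l with
  | nil => simp
  | cons b l ih =>
    rw [maxL_cons]
    exact max_le (h b (by simp)) (ih fun a ha => h a (by simp [ha]))

theorem ptf_maxL : PTF maxL := by
  refine PTF.foldl_bdd (γ := List ℕ) (l := fun l => l) (f := fun _ b a => max b a)
    (b := fun _ => 0) (by fun_prop) (by pt_solve) (by fun_prop) (G := fun l => sz l)
    (by fun_prop) ?_ ?_
  · intro c b a ha hb
    rcases max_choice b a with h | h <;> rw [h]
    · exact hb
    · exact sz_mem_le ha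
  · intro c; simp [sz_nat]

theorem OPTF.maxL {l : Inst → γ → List ℕ} (hl : OPTF l) : OPTF (fun I c => maxL (l I c)) :=
  OPTF.post ptf_maxL hl

theorem clog_two_eq (x : ℕ) : Nat.clog 2 x = (x - 1).size := by
  apply le_antisymm
  · rw [Nat.clog_le_iff_le_pow (by norm_num)]
    have := Nat.lt_size_self (x - 1)
    omega
  · rw [Nat.size_le]
    have := Nat.le_pow_clog (b := 2) (by norm_num) x
    have h2 : 0 < 2 ^ Nat.clog 2 x := by positivity
    omega

theorem OPTU.clog {x : Inst → γ → ℕ} (hx : OPTF x) : OPTU (fun I c => Nat.clog 2 (x I c)) :=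
  (OPTF.natSize (OPTF.natSub hx (OPTF.const 1))).of_eq fun I c => by
    rw [clog_two_eq]

theorem OPTU.countP {P : Inst → γ → α → Bool} {l : Inst → γ → List α}
    (hP : OPTF (fun I (p : γ × α) => P I p.1 p.2)) (hl : OPTF l) :
    OPTU (fun I c => (l I c).countP (P I c)) :=
  (OPTU.length (OPTF.filter hl hP)).of_eq fun I c => by
    rw [List.countP_eq_length_filter]

/-- the increment of the gauge on lists -/
def incL (n D : ℕ) (c : ℕ → ℕ → ℕ) (v : ℕ) : ℕ :=
  maxL ((List.range n).map fun u => Nat.clog 2 ((c u v + (4 * D - 1)) / (4 * D)))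

/-- the gauge update on lists; `ev u v y` is the event for the pair `(u, v)` -/
def newGaugeL {Ω : Type*} (n m K : ℕ) (ev : ℕ → ℕ → Ω → Bool) (g : List ℤ) (ys : List Ω) :
    List ℤ :=
  (List.range n).map fun v => g.getD v 0 + (incL n (K / 2 ^ m) (fun u v => ys.countP (ev u v)) v : ℕ)




theorem incL_le {n D K : ℕ} {c : ℕ → ℕ → ℕ} (h : ∀ u v, c u v ≤ K) (v : ℕ) :
    incL n D c v ≤ K + 1 := by
  refine maxL_le fun a ha => ?_
  obtain ⟨u, _, rfl⟩ := List.mem_map.1 ha
  apply Nat.clog_le_of_le_pow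
  have h1 : K + 1 ≤ 2 ^ (K + 1) := Nat.lt_two_pow_self.le
  rcases Nat.eq_zero_or_pos D with hD | hD
  · subst hD; simp
  · have h2 : (c u v + (4 * D - 1)) / (4 * D) ≤ K + 1 := by
      apply Nat.div_le_of_le_mul
      have h3 := h u v
      have h4 : K ≤ 4 * D * K := Nat.le_mul_of_pos_left _ (by omega)
      have h5 : 4 * D * (K + 1) = 4 * D * K + 4 * D := by ring
      omega
    omega

theorem size_add_le (a b : ℕ) : (a + b).size ≤ a.size + b.size := by
  rcases Nat.eq_zero_or_pos a with rfl | ha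
  · simp
  rcases Nat.eq_zero_or_pos b with rfl | hb
  · simp
  rw [Nat.size_le]
  have h1 := Nat.lt_size_self a
  have h2 := Nat.lt_size_self b
  have h3 : 1 ≤ a.size := Nat.size_pos.2 ha
  have h4 : 1 ≤ b.size := Nat.size_pos.2 hb
  have h5 : 2 ≤ 2 ^ a.size := by
    calc 2 = 2 ^ 1 := rfl
      _ ≤ 2 ^ a.size := Nat.pow_le_pow_right (by norm_num) h3
  have h6 : 2 ≤ 2 ^ b.size := by
    calc 2 = 2 ^ 1 := rfl
      _ ≤ 2 ^ b.size := Nat.pow_le_pow_right (by norm_num) h4
  rw [pow_add]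
  nlinarith

theorem sz_int_add_le (z : ℤ) (k : ℕ) : sz (z + k) ≤ sz z + k := by
  rw [sz_int, sz_int]
  have h1 : (z + k).natAbs ≤ z.natAbs + k := by
    have := Int.natAbs_add_le z k
    simpa using this
  have h2 := Nat.size_le_size h1
  have h3 := size_add_le z.natAbs k
  have h4 : k.size ≤ k := by
    rw [Nat.size_le]; exact Nat.lt_two_pow_self
  omega



/-- the gauge update is `OPTF` -/
theorem OPTF.newGaugeL {n m K : Inst → γ → ℕ} {ev : Inst → γ → ℕ → ℕ → α → Bool}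
    {g : Inst → γ → List ℤ} {ys : Inst → γ → List α} (hn : OPTU n) (hm : OPTU m) (hK : OPTF K)
    (hev : OPTF (fun I (p : γ × ℕ × ℕ × α) => ev I p.1 p.2.1 p.2.2.1 p.2.2.2)) (hg : OPTF g)
    (hys : OPTF ys) :
    OPTF (fun I c => newGaugeL (n I c) (m I c) (K I c) (ev I c) (g I c) (ys I c)) := by
  have c1 : ∀ {δ : Type} [PTCode δ] {f : Inst → γ → δ}, OPTF f →
      OPTF (fun I (q : γ × ℕ) => f I q.1) := fun hf => OPTF.comp hf (OPTF.fst OPTF.id)
  have c2 : ∀ {δ : Type} [PTCode δ] {f : Inst → γ → δ}, OPTF f →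
      OPTF (fun I (q : (γ × ℕ) × ℕ) => f I q.1.1) := fun hf =>
    OPTF.comp hf (OPTF.fst (OPTF.fst OPTF.id))
  have n1 : OPTU (fun I (q : γ × ℕ) => n I q.1) := OPTU.comp hn (OPTF.fst OPTF.id)
  have hD : OPTF (fun I c => K I c / 2 ^ m I c) := OPTF.natDiv hK (OPTF.natTwoPow hm)
  have hcnt : OPTU (fun I (q : (γ × ℕ) × ℕ) => (ys I q.1.1).countP (ev I q.1.1 q.2 q.1.2)) := by
    refine OPTU.countP (P := fun I (q : (γ × ℕ) × ℕ) y => ev I q.1.1 q.2 q.1.2 y) ?_ (c2 hys)
    refine OPTF.comp (g := fun I (p : γ × ℕ × ℕ × α) => ev I p.1 p.2.1 p.2.2.1 p.2.2.2)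
      (f := fun _ (q : ((γ × ℕ) × ℕ) × α) => (q.1.1.1, q.1.2, q.1.1.2, q.2)) hev ?_
    exact OPTF.of_ptf (by pt_solve)
  have hinc : OPTF (fun I (q : γ × ℕ) =>
      incL (n I q.1) (K I q.1 / 2 ^ m I q.1) (fun u v => (ys I q.1).countP (ev I q.1 u v)) q.2) := by
    unfold incL
    refine OPTF.maxL (OPTF.map (OPTF.range n1) ?_)
    refine (OPTU.clog (OPTF.natDiv (OPTF.natAdd hcnt.toOPTF (OPTF.natSub
      (OPTF.natMul (OPTF.const 4) (c2 hD)) (OPTF.const 1))) (OPTF.natMul (OPTF.const 4) (c2 hD)))).toOPTF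
  unfold ORAM.newGaugeL
  refine OPTF.map (OPTF.range hn) ?_
  exact OPTF.intAdd (OPTF.getD (c1 hg) (OPTF.snd OPTF.id) (OPTF.const 0)) (OPTF.intNatCast hinc)

end Crest.Agent.R302.ORAM
end

-- ▼ part R302/LoopOPT675B
section

/-!
# R302: the outer loop as an `OPTF` function, part B (helper675)

* `OPTF.loop_inv` : the loop with general invariants;
* closure of helper272's list coded gauge update `Loop.newGaugeL`.
-/

set_option autoImplicit false
set_option linter.dupNamespace false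
set_option linter.unusedSectionVars false

namespace Crest.Agent.R302.ORAM

open Crest.Agent.Lib.PT Crest.Agent.R309.Tape Crest.Agent.R309.PTX

variable {α β γ δ σ : Type} [PTCode α] [PTCode β] [PTCode γ] [PTCode δ] [PTCode σ]

section loop

variable {S G : Type} [PTCode S] [PTCode G]

/-- the state invariant -/
def StInv' (InvG : ℕ → G → Prop) (InvS : ℕ → S → Prop) (N : ℕ) (i : ℕ) (s : ℕ × G × List S) :
    Prop :=
  s.1 = i ∧ InvG i s.2.1 ∧ s.2.2.length ≤ N ∧ ∀ x ∈ s.2.2, InvS i x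

theorem StInv'.stage {A : Loop.Sys S G} {InvG : ℕ → G → Prop} {InvS : ℕ → S → Prop} {N i : ℕ}
    {s : ℕ × G × List S} (h : StInv' InvG InvS N i s)
    (hG0 : ∀ i g, InvG i g → InvG (i + 1) g)
    (hG : ∀ i x g ys l, InvG i g → InvS i x → (∀ y ∈ ys, InvS i y) → ys.length ≤ A.K →
      InvG (i + 1) (A.gup i x g ys l))
    (hS : ∀ i x g y l, InvG (i + 1) g → InvS i x → InvS i y → InvS (i + 1) (A.run i x g y l))
    (l : List Bool) : StInv' InvG InvS N (i + 1) (Loop.stage A s l) := by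
  obtain ⟨h1, h2, h3, h4⟩ := h
  rw [stage_eq]
  rcases hs : s.2.2 with _ | ⟨c, rest⟩
  · exact ⟨by simp [h1], hG0 _ _ h2, by simp, by simp⟩
  · rw [hs] at h3 h4
    have hc : InvS i c := h4 c (by simp)
    have hr : ∀ y ∈ rest, InvS i y := fun y hy => h4 y (by simp [hy])
    have hg : InvG (i + 1) (A.gup s.1 c s.2.1 (rest.take A.K) (l.take A.ρ1)) := by
      rw [h1]
      exact hG i c s.2.1 _ _ h2 hc (fun y hy => hr y (List.mem_of_mem_take hy))
        (List.length_take_le _ _)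
    refine ⟨by simp [h1], hg, ?_, ?_⟩
    · simp only [Loop.length_mapRun, List.length_drop]
      simp only [List.length_cons] at h3
      omega
    · intro y hy
      simp only at hy
      obtain ⟨x, hx, l', rfl⟩ := mem_mapRun hy
      rw [h1] at hg ⊢
      exact hS i c _ x l' hg hc (hr x (List.mem_of_mem_drop hx))

theorem StInv'.runSteps {A : Loop.Sys S G} {InvG : ℕ → G → Prop} {InvS : ℕ → S → Prop} {N i : ℕ}
    {s : ℕ × G × List S} (h : StInv' InvG InvS N i s)
    (hG0 : ∀ i g, InvG i g → InvG (i + 1) g)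
    (hG : ∀ i x g ys l, InvG i g → InvS i x → (∀ y ∈ ys, InvS i y) → ys.length ≤ A.K →
      InvG (i + 1) (A.gup i x g ys l))
    (hS : ∀ i x g y l, InvG (i + 1) g → InvS i x → InvS i y → InvS (i + 1) (A.run i x g y l))
    (r k : ℕ) (l : List Bool) :
    StInv' InvG InvS N (i + k) (R309.Tape.runSteps (Loop.stage A) r k s l) := by
  induction k with
  | zero => exact h
  | succ k ih =>
    rw [runSteps_succ']
    exact ih.stage hG0 hG hS _

/-- **the loop is `OPTF`**, version with invariants -/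
theorem OPTF.loop_inv {A : Inst → γ → Loop.Sys S G}
    (hrun : OPTF (fun I (p : γ × ℕ × S × G × S × List Bool) =>
      (A I p.1).run p.2.1 p.2.2.1 p.2.2.2.1 p.2.2.2.2.1 p.2.2.2.2.2))
    (hgup : OPTF (fun I (p : γ × ℕ × S × G × List S × List Bool) =>
      (A I p.1).gup p.2.1 p.2.2.1 p.2.2.2.1 p.2.2.2.2.1 p.2.2.2.2.2))
    (hρ : OPTF (fun I c => (A I c).ρ)) (hρ1 : OPTF (fun I c => (A I c).ρ1))
    (hK : OPTF (fun I c => (A I c).K))
    (InvG : Inst → γ → ℕ → G → Prop) (InvS : Inst → γ → ℕ → S → Prop)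
    (hG0 : ∀ I c i g, InvG I c i g → InvG I c (i + 1) g)
    (hG : ∀ I c i x g ys l, InvG I c i g → InvS I c i x → (∀ y ∈ ys, InvS I c i y) →
      ys.length ≤ (A I c).K → InvG I c (i + 1) ((A I c).gup i x g ys l))
    (hS : ∀ I c i x g y l, InvG I c (i + 1) g → InvS I c i x → InvS I c i y →
      InvS I c (i + 1) ((A I c).run i x g y l))
    {T r : Inst → γ → ℕ} (hT : OPTU T) (hr : OPTF r) {x0 : Inst → γ → S} (hx0 : OPTF x0)
    {g0 : Inst → γ → G} (hg0 : OPTF g0) {N : Inst → γ → ℕ} (hN : OPTU N)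
    {t : Inst → γ → List Bool} (ht : OPTF t)
    (h0G : ∀ I c, InvG I c 0 (g0 I c)) (h0S : ∀ I c, InvS I c 0 (x0 I c))
    {BS BG : Inst → γ → ℕ} (hBS : OPB BS) (hBG : OPB BG)
    (hszG : ∀ I c i g, i ≤ T I c → InvG I c i g → sz g ≤ BG I c)
    (hszS : ∀ I c i x, i ≤ T I c → InvS I c i x → sz x ≤ BS I c) :
    OPTF (fun I c => R309.Tape.runSteps (Loop.stage (A I c)) (r I c) (T I c)
      (0, g0 I c, List.replicate (N I c) (x0 I c)) (t I c)) := by
  have h0 : OPTF (fun I c => ((0 : ℕ), g0 I c, List.replicate (N I c) (x0 I c))) :=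
    (OPTF.const 0).prodMk (hg0.prodMk (OPTF.replicate hN hx0))
  refine OPTF.runSteps (f := fun I c => Loop.stage (A I c))
    (OPTF.stage hrun hgup hρ hρ1 hK) hr hT h0 ht
    (B := fun I c => 2 * T I c + 1 + (2 * BG I c + 1 + N I c * (2 * BS I c + 1))) ?_ ?_
  · exact (((OPB.const 2).mul hT.opb).add (OPB.const 1)).add
      ((((OPB.const 2).mul hBG).add (OPB.const 1)).add
        (hN.opb.mul (((OPB.const 2).mul hBS).add (OPB.const 1))))
  · intro I c i hi
    have hinit : StInv' (InvG I c) (InvS I c) (N I c) 0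
        ((0 : ℕ), g0 I c, List.replicate (N I c) (x0 I c)) := by
      refine ⟨rfl, h0G I c, by simp, ?_⟩
      intro x hx
      simp only at hx
      rw [List.eq_of_mem_replicate hx]
      exact h0S I c
    have h := hinit.runSteps (A := A I c) (hG0 I c) (hG I c) (hS I c) (r I c) i (t I c)
    rw [zero_add] at h
    obtain ⟨h1, h2, h3, h4⟩ := h
    set s := R309.Tape.runSteps (Loop.stage (A I c)) (r I c) i
      (0, g0 I c, List.replicate (N I c) (x0 I c)) (t I c) with hs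
    have e1 : sz s = 2 * sz s.1 + 1 + (2 * sz s.2.1 + 1 + sz s.2.2) := by
      rw [sz_prod, sz_prod]
    have h5 := sz_list_le (m := BS I c) (fun x hx => hszS I c i x hi (h4 x hx))
    have h6 : sz s.1 ≤ T I c := (sz_nat_le _).trans (by omega)
    have h7 := hszG I c i _ hi h2
    have h8 : s.2.2.length * (2 * BS I c + 1) ≤ N I c * (2 * BS I c + 1) :=
      Nat.mul_le_mul_right _ h3
    omega

/-- the sampler, version with invariants -/
theorem OPTF.loop_sampler_inv {A : Inst → γ → Loop.Sys S G}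
    (hrun : OPTF (fun I (p : γ × ℕ × S × G × S × List Bool) =>
      (A I p.1).run p.2.1 p.2.2.1 p.2.2.2.1 p.2.2.2.2.1 p.2.2.2.2.2))
    (hgup : OPTF (fun I (p : γ × ℕ × S × G × List S × List Bool) =>
      (A I p.1).gup p.2.1 p.2.2.1 p.2.2.2.1 p.2.2.2.2.1 p.2.2.2.2.2))
    (hρ : OPTF (fun I c => (A I c).ρ)) (hρ1 : OPTF (fun I c => (A I c).ρ1))
    (hK : OPTU (fun I c => (A I c).K))
    (InvG : Inst → γ → ℕ → G → Prop) (InvS : Inst → γ → ℕ → S → Prop)
    (hG0 : ∀ I c i g, InvG I c i g → InvG I c (i + 1) g)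
    (hG : ∀ I c i x g ys l, InvG I c i g → InvS I c i x → (∀ y ∈ ys, InvS I c i y) →
      ys.length ≤ (A I c).K → InvG I c (i + 1) ((A I c).gup i x g ys l))
    (hS : ∀ I c i x g y l, InvG I c (i + 1) g → InvS I c i x → InvS I c i y →
      InvS I c (i + 1) ((A I c).run i x g y l))
    {T r : Inst → γ → ℕ} (hT : OPTU T) (hr : OPTF r) {x0 d : Inst → γ → S} (hx0 : OPTF x0)
    (hd : OPTF d) {g0 : Inst → γ → G} (hg0 : OPTF g0)
    {t : Inst → γ → List Bool} (ht : OPTF t)
    (h0G : ∀ I c, InvG I c 0 (g0 I c)) (h0S : ∀ I c, InvS I c 0 (x0 I c))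
    {BS BG : Inst → γ → ℕ} (hBS : OPB BS) (hBG : OPB BG)
    (hszG : ∀ I c i g, i ≤ T I c → InvG I c i g → sz g ≤ BG I c)
    (hszS : ∀ I c i x, i ≤ T I c → InvS I c i x → sz x ≤ BS I c) :
    OPTF (fun I c => (R309.Tape.runSteps (Loop.stage (A I c)) (r I c) (T I c)
      (0, g0 I c, List.replicate (Loop.popSize (A I c) 1 (T I c)) (x0 I c)) (t I c)).2.2.headD
        (d I c)) := by
  have h := OPTF.loop_inv hrun hgup hρ hρ1 hK.toOPTF InvG InvS hG0 hG hS hT hr hx0 hg0
    (OPTU.popSize hK 1 hT) ht h0G h0S hBS hBG hszG hszS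
  refine (OPTF.optionGetD (OPTF.head? (OPTF.snd (OPTF.snd h))) hd).of_eq fun I c => ?_
  rw [List.headD_eq_head?_getD]

end loop

/-! ### the gauge update -/

theorem lmax_eq_maxL (l : List ℕ) : Loop.lmax l = maxL l := rfl

/-- the entries of the gauge grow by at most `k` in size per stage -/
def GInv (n M0 k len0 : ℕ) (i : ℕ) (g : List ℤ) : Prop :=
  g.length ≤ max n len0 ∧ ∀ z ∈ g, sz z ≤ M0 + i * k

theorem GInv.succ {n M0 k len0 i : ℕ} {g : List ℤ} (h : GInv n M0 k len0 i g) :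
    GInv n M0 k len0 (i + 1) g := by
  refine ⟨h.1, fun z hz => (h.2 z hz).trans ?_⟩
  have : (i + 1) * k = i * k + k := by ring
  omega

theorem GInv.init (n k : ℕ) (g : List ℤ) : GInv n (sz g + 3) k g.length 0 g :=
  ⟨le_max_right _ _, fun z hz => (sz_mem_le hz).trans (by omega)⟩

theorem GInv.sz_le {n M0 k len0 i T : ℕ} {g : List ℤ} (h : GInv n M0 k len0 i g) (hi : i ≤ T) :
    sz g ≤ (n + len0) * (2 * (M0 + T * k) + 1) := by
  have h1 : i * k ≤ T * k := Nat.mul_le_mul_right _ hi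
  have h2 := sz_list_le (m := M0 + T * k) (fun x hx => (h.2 x hx).trans (by omega))
  have h3 : g.length ≤ n + len0 := h.1.trans (max_le (by omega) (by omega))
  exact h2.trans (Nat.mul_le_mul_right _ h3)

theorem loop_incL_le {n D K : ℕ} {c : ℕ → ℕ} (h : ∀ u, c u ≤ K) : Loop.incL n D c ≤ K + 1 :=
  incL_le (n := n) (D := D) (c := fun u _ => c u) (fun u _ => h u) 0

theorem GInv.newGaugeL {Ω : Type*} {n m K M0 len0 i : ℕ} (hM : 3 ≤ M0) {rep : ℕ → ℕ}
    {ev : ℕ → ℕ → Ω → Bool} {g : List ℤ} {ys : List Ω} (h : GInv n M0 (K + 1) len0 i g)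
    (hys : ys.length ≤ K) :
    GInv n M0 (K + 1) len0 (i + 1) (Loop.newGaugeL n m K rep ev g ys) := by
  refine ⟨by simp [Loop.newGaugeL], fun z hz => ?_⟩
  rw [Loop.newGaugeL, List.mem_map] at hz
  obtain ⟨v, _, rfl⟩ := hz
  have h1 : sz (g.getD (rep v) 0) ≤ M0 + i * (K + 1) := by
    rw [List.getD_eq_getElem?_getD]
    rcases hh : g[rep v]? with _ | a
    · rw [Option.getD_none]
      have : sz (0 : ℤ) = 3 := by simp [sz_int]
      omega
    · exact h.2 a (List.mem_of_getElem? hh)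
  have h2 := sz_int_add_le (g.getD (rep v) 0)
    (Loop.incL n (K / 2 ^ m) fun u => Loop.cnt (ev (rep u) (rep v)) ys)
  have h3 : Loop.incL n (K / 2 ^ m) (fun u => Loop.cnt (ev (rep u) (rep v)) ys) ≤ K + 1 :=
    loop_incL_le fun u => (List.countP_le_length).trans hys
  have h4 : (i + 1) * (K + 1) = i * (K + 1) + (K + 1) := by ring
  omega

/-- helper272's gauge update is `OPTF` -/
theorem OPTF.loopNewGaugeL {n m K : Inst → γ → ℕ} {rep : Inst → γ → ℕ → ℕ}
    {ev : Inst → γ → ℕ → ℕ → α → Bool} {g : Inst → γ → List ℤ} {ys : Inst → γ → List α}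
    (hn : OPTU n) (hm : OPTU m) (hK : OPTF K)
    (hrep : OPTF (fun I (p : γ × ℕ) => rep I p.1 p.2))
    (hev : OPTF (fun I (p : γ × ℕ × ℕ × α) => ev I p.1 p.2.1 p.2.2.1 p.2.2.2)) (hg : OPTF g)
    (hys : OPTF ys) :
    OPTF (fun I c =>
      Loop.newGaugeL (n I c) (m I c) (K I c) (rep I c) (ev I c) (g I c) (ys I c)) := by
  have c1 : ∀ {δ : Type} [PTCode δ] {f : Inst → γ → δ}, OPTF f →
      OPTF (fun I (q : γ × ℕ) => f I q.1) := fun hf => OPTF.comp hf (OPTF.fst OPTF.id)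
  have c2 : ∀ {δ : Type} [PTCode δ] {f : Inst → γ → δ}, OPTF f →
      OPTF (fun I (q : (γ × ℕ) × ℕ) => f I q.1.1) := fun hf =>
    OPTF.comp hf (OPTF.fst (OPTF.fst OPTF.id))
  have n1 : OPTU (fun I (q : γ × ℕ) => n I q.1) := OPTU.comp hn (OPTF.fst OPTF.id)
  have hD : OPTF (fun I c => K I c / 2 ^ m I c) := OPTF.natDiv hK (OPTF.natTwoPow hm)
  have hcnt : OPTU (fun I (q : (γ × ℕ) × ℕ) =>
      Loop.cnt (ev I q.1.1 (rep I q.1.1 q.2) (rep I q.1.1 q.1.2)) (ys I q.1.1)) := by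
    refine OPTU.countP (P := fun I (q : (γ × ℕ) × ℕ) y =>
      ev I q.1.1 (rep I q.1.1 q.2) (rep I q.1.1 q.1.2) y) ?_ (c2 hys)
    refine OPTF.comp (g := fun I (p : γ × ℕ × ℕ × α) => ev I p.1 p.2.1 p.2.2.1 p.2.2.2)
      (f := fun I (q : ((γ × ℕ) × ℕ) × α) =>
        (q.1.1.1, rep I q.1.1.1 q.1.2, rep I q.1.1.1 q.1.1.2, q.2)) hev ?_
    refine OPTF.prodMk (OPTF.of_ptf (by pt_solve)) (OPTF.prodMk ?_ (OPTF.prodMk ?_ ?_))
    · exact OPTF.comp (g := fun I (p : γ × ℕ) => rep I p.1 p.2)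
        (f := fun _ (q : ((γ × ℕ) × ℕ) × α) => (q.1.1.1, q.1.2)) hrep (OPTF.of_ptf (by pt_solve))
    · exact OPTF.comp (g := fun I (p : γ × ℕ) => rep I p.1 p.2)
        (f := fun _ (q : ((γ × ℕ) × ℕ) × α) => (q.1.1.1, q.1.1.2)) hrep (OPTF.of_ptf (by pt_solve))
    · exact OPTF.of_ptf (by pt_solve)
  have hinc : OPTF (fun I (q : γ × ℕ) => Loop.incL (n I q.1) (K I q.1 / 2 ^ m I q.1)
      (fun u => Loop.cnt (ev I q.1 (rep I q.1 u) (rep I q.1 q.2)) (ys I q.1))) := by
    unfold Loop.incL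
    simp only [lmax_eq_maxL]
    refine OPTF.maxL (OPTF.map (OPTF.range n1) ?_)
    refine (OPTU.clog (OPTF.natDiv (OPTF.natAdd hcnt.toOPTF (OPTF.natSub
      (OPTF.natMul (OPTF.const 4) (c2 hD)) (OPTF.const 1))) (OPTF.natMul (OPTF.const 4) (c2 hD)))).toOPTF
  unfold Loop.newGaugeL
  refine OPTF.map (OPTF.range hn) ?_
  exact OPTF.intAdd (OPTF.getD (c1 hg) hrep (OPTF.const 0)) (OPTF.intNatCast hinc)

/-! ### the chain -/

section chain

variable {S Ω : Type} [PTCode S] [PTCode Ω] {C : Inst → γ → Loop.Chain S Ω} {n : Inst → γ → ℕ}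

theorem OPTF.chain_run
    (hM : OPTF (fun I (p : γ × ℕ × List ℤ × S × List Bool) =>
      (C I p.1).runM p.2.1 p.2.2.1 p.2.2.2.1 p.2.2.2.2))
    (hout : OPTF (fun I (p : γ × ℕ × Ω) => (C I p.1).out p.2.1 p.2.2)) :
    OPTF (fun I (p : γ × ℕ × S × List ℤ × S × List Bool) =>
      ((C I p.1).sys (n I p.1)).run p.2.1 p.2.2.1 p.2.2.2.1 p.2.2.2.2.1 p.2.2.2.2.2) := by
  have h1 : OPTF (fun I (p : γ × ℕ × S × List ℤ × S × List Bool) =>
      (C I p.1).runM p.2.1 p.2.2.2.1 p.2.2.2.2.1 p.2.2.2.2.2) :=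
    OPTF.comp (g := fun I (p : γ × ℕ × List ℤ × S × List Bool) =>
      (C I p.1).runM p.2.1 p.2.2.1 p.2.2.2.1 p.2.2.2.2)
      (f := fun _ (p : γ × ℕ × S × List ℤ × S × List Bool) =>
        (p.1, p.2.1, p.2.2.2.1, p.2.2.2.2.1, p.2.2.2.2.2)) hM (OPTF.of_ptf (by pt_solve))
  have h2 : OPTF (fun I (p : γ × ℕ × S × List ℤ × S × List Bool) =>
      (C I p.1).out p.2.1 ((C I p.1).runM p.2.1 p.2.2.2.1 p.2.2.2.2.1 p.2.2.2.2.2)) :=
    OPTF.comp (g := fun I (p : γ × ℕ × Ω) => (C I p.1).out p.2.1 p.2.2)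
      (f := fun I (p : γ × ℕ × S × List ℤ × S × List Bool) =>
        (p.1, p.2.1, (C I p.1).runM p.2.1 p.2.2.2.1 p.2.2.2.2.1 p.2.2.2.2.2)) hout
      ((OPTF.of_ptf (by pt_solve)).prodMk ((OPTF.of_ptf (by pt_solve)).prodMk h1))
  exact OPTF.optionGetD h2 (OPTF.of_ptf (by pt_solve))

/-- the argument type of the gauge update -/
local notation "Γ" => γ × ℕ × S × List ℤ × List S × List Bool

theorem OPTF.chain_gup (hn : OPTU n)
    (hE : OPTF (fun I (p : γ × ℕ × List ℤ × S × List Bool) =>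
      (C I p.1).runE p.2.1 p.2.2.1 p.2.2.2.1 p.2.2.2.2))
    (hev : OPTF (fun I (p : γ × ℕ × ℕ × ℕ × Ω) =>
      (C I p.1).ev p.2.1 p.2.2.1 p.2.2.2.1 p.2.2.2.2))
    (hrep : OPTF (fun I (p : γ × ℕ × ℕ) => (C I p.1).rep p.2.1 p.2.2))
    (hρE : OPTF (fun I c => (C I c).ρE)) (hm : OPTU (fun I c => (C I c).m))
    (hK : OPTF (fun I c => (C I c).D * 2 ^ (C I c).m)) :
    OPTF (fun I (p : γ × ℕ × S × List ℤ × List S × List Bool) =>
      ((C I p.1).sys (n I p.1)).gup p.2.1 p.2.2.1 p.2.2.2.1 p.2.2.2.2.1 p.2.2.2.2.2) := by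
  have hc : ∀ {δ : Type} [PTCode δ] {f : Inst → γ → δ}, OPTF f →
      OPTF (fun I (q : Γ) => f I q.1) := fun hf => OPTF.comp hf (OPTF.of_ptf (by pt_solve))
  have hn' : OPTU (fun I (q : Γ) => n I q.1) := OPTU.comp hn (OPTF.of_ptf (by pt_solve))
  have hm' : OPTU (fun I (q : Γ) => (C I q.1).m) := by
    have := OPTU.comp (n := fun I c => (C I c).m) (f := fun (_ : Inst) (q : Γ) => q.1) hm
      (OPTF.of_ptf (by pt_solve))
    exact this
  have hmap : OPTF (fun I (q : Γ) => Loop.mapRun ((C I q.1).runE q.2.1 q.2.2.2.1) (C I q.1).ρE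
      q.2.2.2.2.1 q.2.2.2.2.2) := by
    refine OPTF.mapRun (f := fun I (q : Γ) => (C I q.1).runE q.2.1 q.2.2.2.1) ?_ (hc hρE)
      (OPTF.of_ptf (by pt_solve)) (OPTF.of_ptf (by pt_solve))
    exact OPTF.comp (g := fun I (p : γ × ℕ × List ℤ × S × List Bool) =>
      (C I p.1).runE p.2.1 p.2.2.1 p.2.2.2.1 p.2.2.2.2)
      (f := fun _ (q : (Γ) × S × List Bool) => (q.1.1, q.1.2.1, q.1.2.2.2.1, q.2.1, q.2.2)) hE
      (OPTF.of_ptf (by pt_solve))
  refine OPTF.loopNewGaugeL (n := fun I (q : Γ) => n I q.1) (m := fun I q => (C I q.1).m)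
    (K := fun I q => (C I q.1).D * 2 ^ (C I q.1).m) (rep := fun I q => (C I q.1).rep q.2.1)
    (ev := fun I q => (C I q.1).ev q.2.1) (g := fun _ q => q.2.2.2.1)
    (ys := fun I q => Loop.mapRun ((C I q.1).runE q.2.1 q.2.2.2.1) (C I q.1).ρE
      q.2.2.2.2.1 q.2.2.2.2.2) hn' hm' (hc hK) ?_ ?_ (OPTF.of_ptf (by pt_solve)) hmap
  · exact OPTF.comp (g := fun I (p : γ × ℕ × ℕ) => (C I p.1).rep p.2.1 p.2.2)
      (f := fun _ (q : (Γ) × ℕ) => (q.1.1, q.1.2.1, q.2)) hrep (OPTF.of_ptf (by pt_solve))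
  · exact OPTF.comp (g := fun I (p : γ × ℕ × ℕ × ℕ × Ω) =>
      (C I p.1).ev p.2.1 p.2.2.1 p.2.2.2.1 p.2.2.2.2)
      (f := fun _ (q : (Γ) × ℕ × ℕ × Ω) => (q.1.1, q.1.2.1, q.2.1, q.2.2.1, q.2.2.2)) hev
      (OPTF.of_ptf (by pt_solve))

/-- **helper272's sampler `Loop.chain_sampler` is `OPTF`** -/
theorem OPTF.chain_sampler (hn : OPTU n)
    (hE : OPTF (fun I (p : γ × ℕ × List ℤ × S × List Bool) =>
      (C I p.1).runE p.2.1 p.2.2.1 p.2.2.2.1 p.2.2.2.2))
    (hM : OPTF (fun I (p : γ × ℕ × List ℤ × S × List Bool) =>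
      (C I p.1).runM p.2.1 p.2.2.1 p.2.2.2.1 p.2.2.2.2))
    (hout : OPTF (fun I (p : γ × ℕ × Ω) => (C I p.1).out p.2.1 p.2.2))
    (hev : OPTF (fun I (p : γ × ℕ × ℕ × ℕ × Ω) =>
      (C I p.1).ev p.2.1 p.2.2.1 p.2.2.2.1 p.2.2.2.2))
    (hrep : OPTF (fun I (p : γ × ℕ × ℕ) => (C I p.1).rep p.2.1 p.2.2))
    (hρE : OPTF (fun I c => (C I c).ρE)) (hρM : OPTF (fun I c => (C I c).ρM))
    (hm : OPTU (fun I c => (C I c).m)) (hK : OPTU (fun I c => (C I c).D * 2 ^ (C I c).m))
    (InvS : Inst → γ → ℕ → S → Prop)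
    (hS : ∀ I c i g x y l, InvS I c i x → InvS I c i y →
      InvS I c (i + 1) (((C I c).out i ((C I c).runM i g y l)).getD x))
    {T r : Inst → γ → ℕ} (hT : OPTU T) (hr : OPTF r) {x0 d : Inst → γ → S} (hx0 : OPTF x0)
    (hd : OPTF d) {g0 : Inst → γ → List ℤ} (hg0 : OPTF g0)
    {t : Inst → γ → List Bool} (ht : OPTF t)
    (h0S : ∀ I c, InvS I c 0 (x0 I c)) {BS : Inst → γ → ℕ} (hBS : OPB BS)
    (hszS : ∀ I c i x, i ≤ T I c → InvS I c i x → sz x ≤ BS I c) :
    OPTF (fun I c => (R309.Tape.runSteps (Loop.stage ((C I c).sys (n I c))) (r I c) (T I c)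
      (0, g0 I c, List.replicate (Loop.popSize ((C I c).sys (n I c)) 1 (T I c)) (x0 I c))
        (t I c)).2.2.headD (d I c)) := by
  refine OPTF.loop_sampler_inv (A := fun I c => (C I c).sys (n I c)) (OPTF.chain_run hM hout)
    (OPTF.chain_gup hn hE hev hrep hρE hm hK.toOPTF) hρM (OPTF.natMul hK.toOPTF hρE) hK
    (fun I c => GInv (n I c) (sz (g0 I c) + 3) ((C I c).D * 2 ^ (C I c).m + 1) (g0 I c).length)
    InvS (fun I c i g h => h.succ) ?_ (fun I c i x g y l _ hx hy => hS I c i g x y l hx hy)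
    hT hr hx0 hd hg0 ht (fun I c => GInv.init _ _ _) h0S hBS
    (BG := fun I c => (n I c + (g0 I c).length) * (2 * ((sz (g0 I c) + 3) +
      T I c * ((C I c).D * 2 ^ (C I c).m + 1)) + 1)) ?_ (fun I c i g hi h => h.sz_le hi) hszS
  · intro I c i x g ys l hg _ _ hys
    exact hg.newGaugeL (by omega) (by rw [Loop.length_mapRun]; exact hys)
  · exact (hn.opb.add (OPTU.length hg0).opb).mul ((((OPB.const 2).mul
      ((hg0.bound.add (OPB.const 3)).add (hT.opb.mul (hK.opb.add (OPB.const 1)))))).add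
        (OPB.const 1))

end chain

end Crest.Agent.R302.ORAM
end

-- ▼ part R302/Top497C
section

/-!
# R302, block TOP (helper497), part C: the estimator is polynomial time relative to the oracle
-/

set_option autoImplicit false
set_option linter.dupNamespace false

namespace Crest.Agent.R302.Top

open Crest.Polymatroid Crest.Agent.R302.Facet Crest.Agent.R302.EDM Crest.Agent.R302.ORAM
open Crest.Agent.R309.Tape Crest.Agent.R309.Count632 Crest.Agent.Lib.PT Crest.Agent.R309.PTX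

/-- relative computability of the sampler -/
def RelSmp (smp : Smp) : Prop :=
  ∀ Q : Inst → Bool → List Bool → ℕ, OPTF (fun I (p : Bool × List Bool) => Q I p.1 p.2) →
    OPTF (fun I (p : SIn × List Bool) => smp (Q I) p.1 p.2)

/-! ### parameters -/

theorem ptu_cn : PTU cn := by unfold cn; fun_prop
theorem ptf_cR : PTF cR := by unfold cR; fun_prop
theorem ptu_cE : PTU cE := by unfold cE; fun_prop
theorem ptu_cJ : PTU cJ := by
  have h1 := ptu_cn
  have h2 : PTU (fun c => (cR c).size) := PTF.natSizeUn ptf_cR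
  unfold cJ; fun_prop
theorem ptu_cK : PTU cK := by
  have h1 := ptu_cJ
  have h2 := ptu_cE
  unfold cK; fun_prop
theorem ptu_cm : PTU cm := by
  have h1 := ptu_cJ
  have h2 := ptu_cE
  unfold cm; fun_prop
theorem ptu_cM : PTU cM := by
  have h2 : PTU (fun c : CIn => (c.2.2.2.1.den).size) := PTF.natSizeUn (PTF.ratDen (by fun_prop))
  unfold cM; fun_prop
theorem ptu_cS : PTU cS := by
  have h1 := ptu_cn
  have h2 : PTU (fun c => (cR c).size) := PTF.natSizeUn ptf_cR
  unfold cS; fun_prop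
theorem ptu_cI : PTU cI := by
  have h1 := ptu_cn
  have h2 : PTU (fun c => (cR c).size) := PTF.natSizeUn ptf_cR
  have h3 := ptu_cm
  have h4 := ptu_cS
  unfold cI; fun_prop
theorem ptu_cr (q : Polynomial ℕ) : PTU (cr q) := PTU.eval q ptu_cI

/-- **the number of bits** -/
theorem ptu_N (q : Polynomial ℕ) : PTU (N q) := by
  have h1 := ptu_cM
  have h2 := ptu_cJ
  have h3 := ptu_cK
  have h4 := ptu_cr q
  unfold N; fun_prop

theorem ptf_s0 : PTF s0 := by
  unfold s0
  exact PTF.prodMk (PTF.replicate ptu_cn (PTF.const 0))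
    (PTF.replicate ptu_cn (PTF.intNatCast ptf_cR))

/-! ### the bisection functions -/

theorem ptf_pos : PTF (fun p : CIn × Bx => pos? (cn p.1) p.2) := by
  have h1 := ptu_cn
  unfold pos?
  pt_solve

theorem ptf_pj : PTF (fun p : CIn × Bx => pj (cn p.1) p.2) := by
  have h1 := ptf_pos
  unfold pj
  exact PTF.optionGetD h1 (PTF.const 0)

theorem ptf_mid : PTF (fun p : CIn × Bx => mid (cn p.1) p.2) := by
  have h1 := ptf_pj
  have h2 : PTF (fun p : CIn × Bx => p.2.1.getD (pj (cn p.1) p.2) 0) :=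
    ptf_getD' h1 (by fun_prop) (by fun_prop)
  have h3 : PTF (fun p : CIn × Bx => p.2.2.getD (pj (cn p.1) p.2) 0) :=
    ptf_getD' h1 (by fun_prop) (by fun_prop)
  unfold mid
  pt_solve

theorem ptf_fin : PTF (fun p : CIn × Bx => finB (cn p.1) p.2) := by
  have h1 := ptf_pos
  unfold finB
  exact PTF.not (PTF.isSome h1)

theorem ptf_lo : PTF (fun p : CIn × Bx => loS (cn p.1) p.2) := by
  unfold loS
  exact PTF.prodMk (by fun_prop) (ptf_set' (by fun_prop) ptf_pj ptf_mid)

theorem ptf_hi : PTF (fun p : CIn × Bx => hiS (cn p.1) p.2) := by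
  have h := ptf_mid
  unfold hiS
  refine PTF.prodMk (ptf_set' (by fun_prop) ptf_pj ?_) (by fun_prop)
  exact PTF.intAdd h (PTF.const 1)

theorem ptf_sin : PTF (fun p : CIn × Bx => sin p.1 p.2) := by
  have h1 := ptu_cn
  have h2 := ptf_cR
  have h3 := ptu_cm
  unfold sin
  refine PTF.prodMk ?_ (PTF.prodMk (PTF.comp h2 PTF.fst) (PTF.prodMk ?_ (PTF.prodMk ?_ ?_)))
  · exact PTU.comp h1 PTF.fst
  · exact PTU.comp h3 PTF.fst
  · fun_prop
  · fun_prop

section rel

variable {smp : Smp} {slen : SIn → ℕ} {q : Polynomial ℕ} {Q : Inst → Bool → List Bool → ℕ}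

theorem optf_coin (hsmp : RelSmp smp) (hlen : PTU slen)
    (hQ : OPTF (fun I (p : Bool × List Bool) => Q I p.1 p.2)) :
    OPTF (fun I (p : (CIn × Bx) × List Bool) => coin smp slen (Q I) p.1.1 p.1.2 p.2) := by
  unfold coin
  have h1 := hsmp Q hQ
  have h2 : PTF (fun p : (CIn × Bx) × List Bool => (sin p.1.1 p.1.2, p.2.take (slen (sin p.1.1 p.1.2)))) := by
    have h3 : PTF (fun p : (CIn × Bx) × List Bool => sin p.1.1 p.1.2) :=
      PTF.comp (g := fun p : CIn × Bx => sin p.1 p.2) ptf_sin PTF.fst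
    refine PTF.prodMk h3 (ptf_take' (PTU.toPTF (PTU.comp hlen h3)) PTF.snd)
  have h4 : OPTF (fun I (p : (CIn × Bx) × List Bool) =>
      smp (Q I) (sin p.1.1 p.1.2) (p.2.take (slen (sin p.1.1 p.1.2)))) :=
    OPTF.pre (g := fun I (p : SIn × List Bool) => smp (Q I) p.1 p.2)
      (f := fun p : (CIn × Bx) × List Bool => (sin p.1.1 p.1.2, p.2.take (slen (sin p.1.1 p.1.2))))
      h1 h2
  have h5 : OPTF (fun (_ : Inst) (p : (CIn × Bx) × List Bool) => pj (cn p.1.1) p.1.2) :=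
    OPTF.of_ptf (PTF.comp (g := fun p : CIn × Bx => pj (cn p.1) p.2) ptf_pj PTF.fst)
  have h6 : OPTF (fun (_ : Inst) (p : (CIn × Bx) × List Bool) => mid (cn p.1.1) p.1.2) :=
    OPTF.of_ptf (PTF.comp (g := fun p : CIn × Bx => mid (cn p.1) p.2) ptf_mid PTF.fst)
  exact OPTP.toOPTF (OPTP.intLe (OPTF.getD h4 h5 (OPTF.const 0)) h6)

theorem optf_leaf (hQ : OPTF (fun I (p : Bool × List Bool) => Q I p.1 p.2)) :
    OPTF (fun I (p : CIn × Bx) => leaf (Q I) p.1 p.2) := by
  unfold leaf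
  have hn : OPTU (fun (_ : Inst) (p : CIn × Bx) => cn p.1) := OPTU.of_ptu (PTU.comp ptu_cn PTF.fst)
  have hR : OPTF (fun (_ : Inst) (p : CIn × Bx) => cR p.1) := OPTF.of_ptf (PTF.comp ptf_cR PTF.fst)
  have hq (b : Bool) : OPTF (fun I (p : (CIn × Bx) × List Bool) => ((Q I b p.2 : ℕ) : ℤ)) := by
    refine OPTF.intNatCast ?_
    exact OPTF.pre (g := fun I (p : Bool × List Bool) => Q I p.1 p.2)
      (f := fun p : (CIn × Bx) × List Bool => (b, p.2)) hQ (by fun_prop)
  exact feasBL_optf (n := fun _ (p : CIn × Bx) => cn p.1) (K := fun _ (p : CIn × Bx) => cR p.1)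
    (r₁ := fun I _ l => ((Q I false l : ℕ) : ℤ)) (r₂ := fun I _ l => ((Q I true l : ℕ) : ℤ))
    (R := fun _ (p : CIn × Bx) => (cR p.1 : ℤ)) (lo := fun _ (p : CIn × Bx) => p.2.1)
    (hi := fun _ (p : CIn × Bx) => p.2.2) hn hR (hq false) (hq true) (OPTF.intNatCast hR)
    (OPTF.of_ptf (by fun_prop)) (OPTF.of_ptf (by fun_prop))

theorem optf_round (hsmp : RelSmp smp) (hlen : PTU slen)
    (hQ : OPTF (fun I (p : Bool × List Bool) => Q I p.1 p.2)) :
    OPTF (fun I (p : CIn × (Bx × ℕ × ℕ) × List Bool) =>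
      round (coin smp slen (Q I) p.1) (loS (cn p.1)) (hiS (cn p.1)) (finB (cn p.1)) (cr q p.1)
        (cK p.1) p.2.1 p.2.2) := by
  unfold Crest.Agent.R309.Count632.round
  have hK : PTU (fun p : CIn × (Bx × ℕ × ℕ) × List Bool => cK p.1) := PTU.comp ptu_cK PTF.fst
  have hr : PTU (fun p : CIn × (Bx × ℕ × ℕ) × List Bool => cr q p.1) := PTU.comp (ptu_cr q) PTF.fst
  have hb : PTF (fun p : CIn × (Bx × ℕ × ℕ) × List Bool => blocks (cr q p.1) (cK p.1) p.2.2) :=
    ptf_blocks (PTU.toPTF hr) hK (by fun_prop)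
  have hc : OPTU (fun I (p : CIn × (Bx × ℕ × ℕ) × List Bool) =>
      (blocks (cr q p.1) (cK p.1) p.2.2).countP (coin smp slen (Q I) p.1 p.2.1.1)) := by
    refine OPTU.countP (P := fun I (p : CIn × (Bx × ℕ × ℕ) × List Bool) (l : List Bool) =>
      coin smp slen (Q I) p.1 p.2.1.1 l) ?_ (OPTF.of_ptf hb)
    exact OPTF.pre (g := fun I (p : (CIn × Bx) × List Bool) => coin smp slen (Q I) p.1.1 p.1.2 p.2)
      (f := fun p : (CIn × (Bx × ℕ × ℕ) × List Bool) × List Bool => ((p.1.1, p.1.2.1.1), p.2))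
      (optf_coin hsmp hlen hQ) (by fun_prop)
  have hc' := OPTU.toOPTF hc
  have hK' : OPTF (fun (_ : Inst) (p : CIn × (Bx × ℕ × ℕ) × List Bool) => cK p.1) :=
    OPTF.of_ptf (PTU.toPTF hK)
  have hfin : OPTF (fun (_ : Inst) (p : CIn × (Bx × ℕ × ℕ) × List Bool) => finB (cn p.1) p.2.1.1) :=
    OPTF.of_ptf (PTF.comp (g := fun p : CIn × Bx => finB (cn p.1) p.2)
      (f := fun p : CIn × (Bx × ℕ × ℕ) × List Bool => (p.1, p.2.1.1)) ptf_fin (by fun_prop))
  have hlo : OPTF (fun (_ : Inst) (p : CIn × (Bx × ℕ × ℕ) × List Bool) => loS (cn p.1) p.2.1.1) :=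
    OPTF.of_ptf (PTF.comp (g := fun p : CIn × Bx => loS (cn p.1) p.2)
      (f := fun p : CIn × (Bx × ℕ × ℕ) × List Bool => (p.1, p.2.1.1)) ptf_lo (by fun_prop))
  have hhi : OPTF (fun (_ : Inst) (p : CIn × (Bx × ℕ × ℕ) × List Bool) => hiS (cn p.1) p.2.1.1) :=
    OPTF.of_ptf (PTF.comp (g := fun p : CIn × Bx => hiS (cn p.1) p.2)
      (f := fun p : CIn × (Bx × ℕ × ℕ) × List Bool => (p.1, p.2.1.1)) ptf_hi (by fun_prop))
  have h1 : OPTF (fun (_ : Inst) (p : CIn × (Bx × ℕ × ℕ) × List Bool) => p.2.1) :=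
    OPTF.of_ptf (by fun_prop)
  have h2 : OPTF (fun (_ : Inst) (p : CIn × (Bx × ℕ × ℕ) × List Bool) => p.2.1.2.1) :=
    OPTF.of_ptf (by fun_prop)
  have h3 : OPTF (fun (_ : Inst) (p : CIn × (Bx × ℕ × ℕ) × List Bool) => p.2.1.2.2) :=
    OPTF.of_ptf (by fun_prop)
  refine OPTF.cond hfin h1 (OPTF.cond ?_ ?_ ?_)
  · exact OPTP.toOPTF (OPTP.natLe hK' (OPTF.natMul (OPTF.const 2) hc'))
  · exact OPTF.prodMk hlo (OPTF.prodMk (OPTF.natMul h2 hK') (OPTF.natMul h3 hc'))
  · exact OPTF.prodMk hhi (OPTF.prodMk (OPTF.natMul h2 hK') (OPTF.natMul h3 (OPTF.natSub hK' hc')))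

/-! ### sizes along the bisection -/

theorem round_V (coin : Bx → List Bool → Bool) (n R r K : ℕ) (x : Bx × ℕ × ℕ) (l : List Bool)
    (h : V n R x.1) : V n R (round coin (loS n) (hiS n) (finB n) r K x l).1 := by
  have hsp := split (n := n) (R := R) (fun _ => 0) (fun _ => 0)
    (fun s => decide (0 < cnt (n := n) (fun _ => 0) (fun _ => 0) R s))
    (fun s _ => decide_eq_true_iff)
  unfold Crest.Agent.R309.Count632.round
  by_cases hf : finB n x.1 = true
  · simpa [hf] using h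
  · have hf' : finB n x.1 = false := by simpa using hf
    simp only [hf', cond_false]
    by_cases h2 : K ≤ 2 * (blocks r K l).countP (coin x.1)
    · simp only [h2, decide_true, cond_true]
      exact hsp.V_lo _ h hf'
    · simp only [h2, decide_false, cond_false]
      exact hsp.V_hi _ h hf'

theorem round_sz (coin : Bx → List Bool → Bool) (n r K : ℕ) (x : Bx × ℕ × ℕ) (l : List Bool) :
    sz (round coin (loS n) (hiS n) (finB n) r K x l).2.1 ≤ sz x.2.1 + sz K ∧
      sz (round coin (loS n) (hiS n) (finB n) r K x l).2.2 ≤ sz x.2.2 + sz K := by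
  obtain ⟨s, a, d⟩ := x
  have h3 : sz (a * K) ≤ sz a + sz K := by
    rw [sz_nat, sz_nat, sz_nat]; exact size_mul_le a K
  have hcK := blocks_countP_le r K l (coin s)
  have h4 : sz (d * (blocks r K l).countP (coin s)) ≤ sz d + sz K := by
    refine le_trans ?_ (Nat.add_le_add_left (sz_nat_mono hcK) _)
    rw [sz_nat, sz_nat, sz_nat]; exact size_mul_le _ _
  have h5 : sz (d * (K - (blocks r K l).countP (coin s))) ≤ sz d + sz K := by
    refine le_trans ?_ (Nat.add_le_add_left (sz_nat_mono (Nat.sub_le K ((blocks r K l).countP (coin s)))) _)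
    rw [sz_nat, sz_nat, sz_nat]; exact size_mul_le _ _
  unfold Crest.Agent.R309.Count632.round
  cases finB n s
  · simp only [cond_false]
    by_cases h : K ≤ 2 * (blocks r K l).countP (coin s)
    · simp only [h, decide_true, cond_true]
      exact ⟨h3, h4⟩
    · simp only [h, decide_false, cond_false]
      exact ⟨h3, h5⟩
  · simp only [cond_true]
    exact ⟨Nat.le_add_right _ _, Nat.le_add_right _ _⟩

theorem runSteps_sz (coin : Bx → List Bool → Bool) (c : CIn) (r K r' : ℕ) (l : List Bool) (i : ℕ) :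
    sz (runSteps (round coin (loS (cn c)) (hiS (cn c)) (finB (cn c)) r K) r' i (s0 c, 1, 1) l) ≤
      2 * cS c + 1 + (2 * (1 + i * sz K) + 1 + (1 + i * sz K)) := by
  have key : ∀ i, V (cn c) (cR c)
        (runSteps (round coin (loS (cn c)) (hiS (cn c)) (finB (cn c)) r K) r' i (s0 c, 1, 1) l).1 ∧
      sz (runSteps (round coin (loS (cn c)) (hiS (cn c)) (finB (cn c)) r K) r' i (s0 c, 1, 1) l).2.1 ≤
        1 + i * sz K ∧
      sz (runSteps (round coin (loS (cn c)) (hiS (cn c)) (finB (cn c)) r K) r' i (s0 c, 1, 1) l).2.2 ≤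
        1 + i * sz K := by
    intro i
    induction i with
    | zero =>
      refine ⟨V_init _ _, ?_, ?_⟩ <;> simp [runSteps, sz_nat]
    | succ i ih =>
      rw [runSteps_succ']
      obtain ⟨h1, h2, h3⟩ := ih
      obtain ⟨g1, g2⟩ := round_sz coin (cn c) r K
        (runSteps (round coin (loS (cn c)) (hiS (cn c)) (finB (cn c)) r K) r' i (s0 c, 1, 1) l)
        ((l.drop (i * r')).take r')
      refine ⟨round_V coin _ _ _ _ _ _ h1, ?_, ?_⟩
      · refine g1.trans ?_
        have : (i + 1) * sz K = i * sz K + sz K := by ring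
        omega
      · refine g2.trans ?_
        have : (i + 1) * sz K = i * sz K + sz K := by ring
        omega
  obtain ⟨h1, h2, h3⟩ := key i
  have h4 := sz_box_le (c := c) h1
  set y := runSteps (round coin (loS (cn c)) (hiS (cn c)) (finB (cn c)) r K) r' i (s0 c, 1, 1) l
  have e1 : sz y = 2 * sz y.1 + 1 + sz y.2 := sz_prod y
  have e2 : sz y.2 = 2 * sz y.2.1 + 1 + sz y.2.2 := sz_prod y.2
  omega

theorem optf_run (hsmp : RelSmp smp) (hlen : PTU slen)
    (hQ : OPTF (fun I (p : Bool × List Bool) => Q I p.1 p.2)) :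
    OPTF (fun I (p : CIn × List Bool) => run smp slen q (Q I) p) := by
  unfold run base
  have hround := optf_round (q := q) hsmp hlen hQ
  have hKp : PTU (fun p : CIn × List Bool => cK p.1) := PTU.comp ptu_cK PTF.fst
  have hrp : PTU (fun p : CIn × List Bool => cr q p.1) := PTU.comp (ptu_cr q) PTF.fst
  have hJp : PTU (fun p : CIn × List Bool => cJ p.1) := PTU.comp ptu_cJ PTF.fst
  have hSp : PTU (fun p : CIn × List Bool => cS p.1) := PTU.comp ptu_cS PTF.fst
  have hrun : OPTF (fun I (p : CIn × List Bool) =>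
      runSteps (round (coin smp slen (Q I) p.1) (loS (cn p.1)) (hiS (cn p.1)) (finB (cn p.1))
        (cr q p.1) (cK p.1)) (cK p.1 * cr q p.1) (cJ p.1) (s0 p.1, 1, 1) p.2) := by
    refine OPTF.runSteps (γ := CIn × List Bool)
      (f := fun I p => round (coin smp slen (Q I) p.1) (loS (cn p.1)) (hiS (cn p.1)) (finB (cn p.1))
        (cr q p.1) (cK p.1))
      (r := fun _ p => cK p.1 * cr q p.1) (k := fun _ p => cJ p.1) (s := fun _ p => (s0 p.1, 1, 1))
      (t := fun _ p => p.2) ?_ ?_ ?_ ?_ ?_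
      (B := fun _ p => 2 * cS p.1 + 1 + (2 * (1 + cJ p.1 * sz (cK p.1)) + 1 +
        (1 + cJ p.1 * sz (cK p.1)))) ?_ ?_
    · exact OPTF.pre (g := fun I (p : CIn × (Bx × ℕ × ℕ) × List Bool) =>
        round (coin smp slen (Q I) p.1) (loS (cn p.1)) (hiS (cn p.1)) (finB (cn p.1)) (cr q p.1)
        (cK p.1) p.2.1 p.2.2)
        (f := fun p : (CIn × List Bool) × (Bx × ℕ × ℕ) × List Bool => (p.1.1, p.2.1, p.2.2))
        hround (by fun_prop)
    · exact OPTF.of_ptf (PTF.natMul (PTU.toPTF hKp) (PTU.toPTF hrp))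
    · exact OPTU.of_ptu hJp
    · have := ptf_s0
      exact OPTF.of_ptf (PTF.prodMk (PTF.comp (g := s0) this PTF.fst) (PTF.const _))
    · exact OPTF.of_ptf (by fun_prop)
    · refine OPB.of_pb ?_
      have h1 : Crest.Agent.Lib.PT.PB (fun p : CIn × List Bool => cJ p.1) := hJp.pb
      have h2 : Crest.Agent.Lib.PT.PB (fun p : CIn × List Bool => cS p.1) := hSp.pb
      have h3 : PTF (fun p : CIn × List Bool => cK p.1) := PTU.toPTF hKp
      fun_prop
    · intro I p i hi
      refine (runSteps_sz _ _ _ _ _ _ _).trans ?_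
      have := Nat.mul_le_mul_right (sz (cK p.1)) hi
      omega
  have h1 : OPTF (fun I (p : CIn × List Bool) => (runSteps (round (coin smp slen (Q I) p.1)
      (loS (cn p.1)) (hiS (cn p.1)) (finB (cn p.1))
        (cr q p.1) (cK p.1)) (cK p.1 * cr q p.1) (cJ p.1) (s0 p.1, 1, 1) p.2).1) := OPTF.fst hrun
  have h2 := OPTF.fst (OPTF.snd hrun)
  have h3 := OPTF.snd (OPTF.snd hrun)
  refine OPTF.cond ?_ ?_ (OPTF.const 0)
  · exact OPTF.comp (g := fun I (p : CIn × Bx) => leaf (Q I) p.1 p.2)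
      (f := fun I (p : CIn × List Bool) => (p.1, (runSteps (round (coin smp slen (Q I) p.1)
      (loS (cn p.1)) (hiS (cn p.1)) (finB (cn p.1))
        (cr q p.1) (cK p.1)) (cK p.1 * cr q p.1) (cJ p.1) (s0 p.1, 1, 1) p.2).1))
      (optf_leaf hQ) (OPTF.prodMk (OPTF.of_ptf PTF.fst) h1)
  · exact OPTF.post₂ (g := fun a b : ℕ => (a : ℚ) / b)
      (PTF.ratDiv (PTF.ratNatCast PTF.fst) (PTF.ratNatCast PTF.snd)) h2 h3

/-- **the estimator is polynomial time relative to the oracle** -/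
theorem relComp (hsmp : RelSmp smp) (hlen : PTU slen) : RelComp (G smp slen q) := by
  intro Q hQ
  unfold G est
  have hrun := optf_run (q := q) hsmp hlen hQ
  have hb : PTF (fun p : CIn × List Bool =>
      blocks (cJ p.1 * (cK p.1 * cr q p.1)) (2 * cM p.1) p.2) := by
    refine ptf_blocks (PTU.toPTF ?_) ?_ PTF.snd
    · exact PTU.mul (PTU.comp ptu_cJ PTF.fst) (PTU.mul (PTU.comp ptu_cK PTF.fst)
        (PTU.comp (ptu_cr q) PTF.fst))
    · exact PTU.mul (PTU.const 2) (PTU.comp ptu_cM PTF.fst)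
  refine OPTF.post (g := med) (ptf_med PTF.id) (OPTF.map (l := fun _ p => _)
    (f := fun I (p : CIn × List Bool) (l : List Bool) => run smp slen q (Q I) (p.1, l))
    (OPTF.of_ptf hb) ?_)
  exact OPTF.pre (g := fun I (p : CIn × List Bool) => run smp slen q (Q I) p)
    (f := fun p : (CIn × List Bool) × List Bool => (p.1.1, p.2)) hrun (by fun_prop)

end rel

/-- **S0461 and S0462 from a sampler**: everything that is left is a box sampler. -/
theorem exists_estimator {smp : Smp} {slen : SIn → ℕ} (hS : SmpSpec smp slen) (hsmp : RelSmp smp)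
    (hlen : PTU slen) :
    ∃ (G : (Bool → List Bool → ℕ) → CIn × List Bool → ℚ) (N : CIn → ℕ),
      RelComp G ∧ PTU N ∧ CountSpec G N := by
  obtain ⟨q, hq⟩ := hlen.pb
  exact ⟨G smp slen q, N q, relComp hsmp hlen, ptu_N q, countSpec hS hq⟩

end Crest.Agent.R302.Top
end

-- ▼ part R302/RelSmp166
section

/-!
# R302 (helper166): `RelSmp (smp P)` from the closures of the program data
-/

set_option autoImplicit false
set_option linter.dupNamespace false

namespace Crest.Agent.R302.Smp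

open Crest.Agent.R302.ORAM Crest.Agent.R302.Loop Crest.Agent.R302.CenL Crest.Agent.R302.AnnBox
open Crest.Agent.R302.Top Crest.Agent.R309.Tape Crest.Agent.Lib.PT Crest.Agent.R309.PTX
open Crest.Agent.R302.EDM

/-! ### input -/

section input

variable {γ : Type} [PTCode γ] {s : γ → SIn}

theorem ptu_sn : PTU sn := by unfold sn; fun_prop
theorem ptf_sR : PTF sR := by unfold sR; fun_prop
theorem ptu_sm : PTU sm := by unfold sm; fun_prop
theorem ptf_slo : PTF slo := by unfold slo; fun_prop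
theorem ptf_shi : PTF shi := by unfold shi; fun_prop

end input

/-- relative computability of a function of the input -/
def RC {α β : Type} [PTCode α] [PTCode β] (f : Qf → α → β) : Prop :=
  ∀ Q : Inst → Qf, OPTF (fun I (p : Bool × List Bool) => Q I p.1 p.2) → OPTF (fun I a => f (Q I) a)

theorem RC.of_ptf {α β : Type} [PTCode α] [PTCode β] {f : α → β} (hf : PTF f) :
    RC (fun _ => f) := fun _ _ => OPTF.of_ptf hf

theorem rc_cen : RC cen := by
  intro Q hQ
  have hq : ∀ b : Bool, OPTF (fun I (p : SIn × List Bool) => (Q I b p.2 : ℤ)) := fun b =>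
    OPTF.intNatCast (OPTF.comp (g := fun I (p : Bool × List Bool) => Q I p.1 p.2)
      (f := fun _ (p : SIn × List Bool) => (b, p.2)) hQ (OPTF.of_ptf (by fun_prop)))
  exact cenBL_optf (OPTU.of_ptu ptu_sn) (OPTF.of_ptf ptf_sR) (hq false) (hq true)
    (OPTF.of_ptf ptf_sR) (OPTF.of_ptf ptf_slo) (OPTF.of_ptf ptf_shi)

variable {Ω : Type} [PTCode Ω]

/-- numerical closures of the program data -/
structure Prg.Num (P : Prg Ω) : Prop where
  L : PTU P.pL
  m : PTU P.pm
  K : PTU P.K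
  E : PTU P.pE
  M : PTU P.pM

theorem Prg.Num.T {P : Prg Ω} (h : P.Num) : PTU P.T := ptu_nStages ptu_sn h.L ptf_sR

theorem Prg.Num.pop {P : Prg Ω} (h : P.Num) : PTU P.pop :=
  PTU.add (PTU.const 1) (PTU.mul h.T (PTU.add (PTU.const 1) h.K))

theorem Prg.Num.rb {P : Prg Ω} (h : P.Num) : PTU P.rb :=
  PTU.add (PTU.mul h.K h.E) (PTU.mul h.pop h.M)

theorem Prg.Num.slen {P : Prg Ω} (h : P.Num) : PTU (slen P) := PTU.mul h.T h.rb

/-- functional closures of the program data -/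
structure Prg.Comp (P : Prg Ω) : Prop where
  E : RC (fun Q (p : SIn × ℕ × List ℤ × List ℤ × List Bool) =>
    P.runE Q p.1 p.2.1 p.2.2.1 p.2.2.2.1 p.2.2.2.2)
  M : RC (fun Q (p : SIn × ℕ × List ℤ × List ℤ × List Bool) =>
    P.runM Q p.1 p.2.1 p.2.2.1 p.2.2.2.1 p.2.2.2.2)
  out : RC (fun Q (p : SIn × ℕ × Ω) => P.out Q p.1 p.2.1 p.2.2)
  ev : RC (fun Q (p : SIn × ℕ × ℕ × ℕ × Ω) => P.ev Q p.1 p.2.1 p.2.2.1 p.2.2.2.1 p.2.2.2.2)
  rep : RC (fun Q (p : SIn × ℕ × ℕ) => P.rep Q p.1 p.2.1 p.2.2)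

/-- **the sampler is computable relative to the query function** -/
theorem relSmp {P : Prg Ω} (hN : P.Num) (hC : P.Comp)
    (BS : (Inst → Qf) → Inst → SIn → ℕ)
    (hBS : ∀ Q : Inst → Qf, OPTF (fun I (p : Bool × List Bool) => Q I p.1 p.2) → OPB (BS Q))
    (hcen : ∀ (Q : Inst → Qf) I s, sz (cen (Q I) s) ≤ BS Q I s)
    (hstep : ∀ (Q : Inst → Qf) I s t g x y l, sz x ≤ BS Q I s → sz y ≤ BS Q I s →
      sz ((P.out (Q I) s t (P.runM (Q I) s t g y l)).getD x) ≤ BS Q I s) :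
    RelSmp (smp P) := by
  intro Q hQ
  have hc := rc_cen Q hQ
  -- context
  have hs : OPTF (fun (_ : Inst) (p : SIn × List Bool) => p.1) := OPTF.of_ptf (by fun_prop)
  have key := OPTF.chain_sampler (γ := SIn × List Bool) (S := List ℤ) (Ω := Ω)
    (C := fun I c => P.ch (Q I) c.1) (n := fun _ c => sn c.1)
    (OPTU.of_ptu (PTU.comp ptu_sn (by fun_prop)))
    (OPTF.comp (g := fun I (p : SIn × ℕ × List ℤ × List ℤ × List Bool) =>
      P.runE (Q I) p.1 p.2.1 p.2.2.1 p.2.2.2.1 p.2.2.2.2)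
      (f := fun _ (p : (SIn × List Bool) × ℕ × List ℤ × List ℤ × List Bool) => (p.1.1, p.2))
      (hC.E Q hQ) (OPTF.of_ptf (by fun_prop)))
    (OPTF.comp (g := fun I (p : SIn × ℕ × List ℤ × List ℤ × List Bool) =>
      P.runM (Q I) p.1 p.2.1 p.2.2.1 p.2.2.2.1 p.2.2.2.2)
      (f := fun _ (p : (SIn × List Bool) × ℕ × List ℤ × List ℤ × List Bool) => (p.1.1, p.2))
      (hC.M Q hQ) (OPTF.of_ptf (by fun_prop)))
    (OPTF.comp (g := fun I (p : SIn × ℕ × Ω) => P.out (Q I) p.1 p.2.1 p.2.2)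
      (f := fun _ (p : (SIn × List Bool) × ℕ × Ω) => (p.1.1, p.2)) (hC.out Q hQ)
      (OPTF.of_ptf (by fun_prop)))
    (OPTF.comp (g := fun I (p : SIn × ℕ × ℕ × ℕ × Ω) =>
      P.ev (Q I) p.1 p.2.1 p.2.2.1 p.2.2.2.1 p.2.2.2.2)
      (f := fun _ (p : (SIn × List Bool) × ℕ × ℕ × ℕ × Ω) => (p.1.1, p.2)) (hC.ev Q hQ)
      (OPTF.of_ptf (by fun_prop)))
    (OPTF.comp (g := fun I (p : SIn × ℕ × ℕ) => P.rep (Q I) p.1 p.2.1 p.2.2)
      (f := fun _ (p : (SIn × List Bool) × ℕ × ℕ) => (p.1.1, p.2)) (hC.rep Q hQ)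
      (OPTF.of_ptf (by fun_prop)))
    ((OPTU.of_ptu (PTU.comp hN.E (by fun_prop))).toOPTF :
      OPTF (fun (_ : Inst) (c : SIn × List Bool) => P.pE c.1))
    ((OPTU.of_ptu (PTU.comp hN.M (by fun_prop))).toOPTF :
      OPTF (fun (_ : Inst) (c : SIn × List Bool) => P.pM c.1))
    (OPTU.of_ptu (PTU.comp hN.m (by fun_prop)) :
      OPTU (fun (_ : Inst) (c : SIn × List Bool) => P.pm c.1))
    (OPTU.of_ptu (PTU.comp hN.K (by fun_prop)) :
      OPTU (fun (_ : Inst) (c : SIn × List Bool) => P.K c.1))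
    (fun I c _ x => sz x ≤ BS Q I c.1)
    (fun I c i g x y l hx hy => hstep Q I c.1 i g x y l hx hy)
    (T := fun _ c => P.T c.1) (r := fun _ c => P.rb c.1)
    (OPTU.of_ptu (PTU.comp hN.T (by fun_prop)))
    ((OPTU.of_ptu (PTU.comp hN.rb (by fun_prop))).toOPTF)
    (x0 := fun I c => cen (Q I) c.1) (d := fun I c => cen (Q I) c.1)
    (OPTF.comp (g := fun I s => cen (Q I) s) hc hs) (OPTF.comp (g := fun I s => cen (Q I) s) hc hs)
    (g0 := fun _ c => List.replicate (sn c.1) 0)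
    (OPTF.of_ptf (PTF.replicate (PTU.comp ptu_sn (by fun_prop)) (PTF.const 0)))
    (t := fun _ c => c.2) (OPTF.of_ptf (by fun_prop))
    (fun I c => hcen Q I c.1) (BS := fun I c => BS Q I c.1) ((hBS Q hQ).comp hs)
    (fun I c i x _ h => h)
  have hz : OPTP (fun (_ : Inst) (p : SIn × List Bool) => sn p.1 = 0) :=
    OPTP.natEq ((OPTU.of_ptu (PTU.comp ptu_sn (by fun_prop))).toOPTF) (OPTF.const 0)
  exact OPTF.ite hz (OPTF.const _) key

end Crest.Agent.R302.Smp
end

-- ▼ part R302/Slack166B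
section

/-!
# R302, block O2 (helper166): the slack sampler is a polynomial-time function; dyadic coins
-/

set_option autoImplicit false

namespace Crest.Agent.R302.Slk

open Crest.Agent.R309.Tape Crest.Agent.R309.MC Crest.Agent.R309.PTX
open Crest.Agent.Lib.PT Crest.Agent.Lib.PT.Arith
open Crest.Agent.R302.ORAM

variable {γ : Type} [PTCode γ]

theorem ptf_cfix {M k i : γ → ℕ} (hM : PTU M) (hk : PTU k) (hi : PTU i) :
    PTF (fun c => cfix (M c) (k c) (i c)) := by
  refine ptf_natRec (n := i) (r := fun a j => cfix (M a) (k a) j)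
    (b := fun a => 2 ^ M a - 2 ^ (M a - k a)) (s := fun a _ t => t ^ 2 / 2 ^ M a) hi ?_ ?_
    (fun a => rfl) (fun a j _ => rfl) (B := fun a => M a + 1) ?_ (fun a j _ => ?_)
  · pt_solve
  · pt_solve
  · have := hM.pb
    fun_prop
  · rw [sz_nat]
    refine (Nat.size_le_size (cfix_le (M a) (k a) j)).trans ?_
    rw [Nat.size_pow]

theorem ptf_thr {M k i : γ → ℕ} (hM : PTU M) (hk : PTU k) (hi : PTU i) :
    PTF (fun c => thr (M c) (k c) (i c)) := by
  have h := ptf_cfix hM hk hi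
  unfold thr
  pt_solve

theorem ptf_msb {l : γ → List Bool} (hl : PTF l) : PTF (fun c => msb (l c)) :=
  PTF.comp (g := msb) Arith.ptf_msb hl

theorem ptf_geo {M k D : γ → ℕ} {l : γ → List Bool} (hM : PTU M) (hk : PTU k) (hD : PTU D)
    (hl : PTF l) : PTF (fun c => geo (M c) (k c) (D c) (l c)) := by
  have key : PTF (fun c => ((List.range (D c)).map fun i =>
      if msb (((l c).drop (i * M c)).take (M c)) < thr (M c) (k c) (min i (D c))
        then 2 ^ (min i (D c)) else 0).sum) := by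
    refine PTF.natSum (PTF.map (PTF.range hD) ?_)
    have hM' : PTU (fun p : γ × ℕ => M p.1) := PTU.comp hM PTF.fst
    have hk' : PTU (fun p : γ × ℕ => k p.1) := PTU.comp hk PTF.fst
    have hD' : PTU (fun p : γ × ℕ => D p.1) := PTU.comp hD PTF.fst
    have hi : PTU (fun p : γ × ℕ => min p.2 (D p.1)) := ptu_min PTF.snd hD'
    have h1 := ptf_thr hM' hk' hi
    have hl' : PTF (fun p : γ × ℕ => l p.1) := PTF.comp hl PTF.fst
    have hM'' : PTF (fun p : γ × ℕ => M p.1) := PTU.toPTF hM'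
    have h2 : PTF (fun p : γ × ℕ => msb (((l p.1).drop (p.2 * M p.1)).take (M p.1))) :=
      ptf_msb (ptf_take' hM'' (ptf_drop' (by pt_solve) hl'))
    show PTF (fun p : γ × ℕ => if msb (((l p.1).drop (p.2 * M p.1)).take (M p.1)) <
      thr (M p.1) (k p.1) (min p.2 (D p.1)) then 2 ^ (min p.2 (D p.1)) else 0)
    exact PTF.ite (PTPred.natLt h2 h1) (PTF.natTwoPow hi) (PTF.const 0)
  refine key.of_eq fun c => ?_
  unfold geo
  congr 1
  refine List.map_congr_left fun i hi => ?_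
  rw [min_eq_left (List.mem_range.1 hi).le]

theorem ptu_dgt {k N : γ → ℕ} (hk : PTU k) (hN : PTU N) : PTU (fun c => dgt (k c) (N c)) := by
  unfold dgt
  exact PTU.add hk (PTU.add hN (PTU.const 2))

theorem ptu_prc {k N : γ → ℕ} (hk : PTU k) (hN : PTU N) : PTU (fun c => prc (k c) (N c)) := by
  unfold prc
  exact PTU.add (PTU.add hk (PTU.add hN (PTU.const 2))) (PTU.add hN (PTU.const 3))

theorem ptu_geoLen {k N : γ → ℕ} (hk : PTU k) (hN : PTU N) :
    PTU (fun c => geoLen (k c) (N c)) := PTU.mul (ptu_dgt hk hN) (ptu_prc hk hN)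

theorem ptu_slkLen {k N : γ → ℕ} (hk : PTU k) (hN : PTU N) :
    PTU (fun c => slkLen (k c) (N c)) := by
  have h := ptu_geoLen hk (PTU.add hN (PTU.const 1))
  exact PTU.add (PTU.add h h) (PTU.add h h)

theorem ptf_bilD {k N : γ → ℕ} {l : γ → List Bool} (hk : PTU k) (hN : PTU N) (hl : PTF l) :
    PTF (fun c => bilD (k c) (N c) (l c)) := by
  have h1 := PTU.toPTF (ptu_geoLen hk hN)
  have h2 := ptf_geo (ptu_prc hk hN) hk (ptu_dgt hk hN) (ptf_take' h1 hl)
  have h3 := ptf_geo (ptu_prc hk hN) hk (ptu_dgt hk hN) (ptf_drop' h1 hl)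
  unfold bilD
  exact PTF.intAdd (PTF.intNatCast h2) (PTF.intNeg (PTF.intNatCast h3))

theorem ptf_slk {k N : γ → ℕ} {l : γ → List Bool} (hk : PTU k) (hN : PTU N) (hl : PTF l) :
    PTF (fun c => slk (k c) (N c) (l c)) := by
  have hN1 : PTU (fun c => N c + 1) := PTU.add hN (PTU.const 1)
  have h := ptu_geoLen hk hN1
  have h1 := PTU.toPTF (PTU.add h h)
  have h2 := ptf_take' (PTU.toPTF (ptu_slkLen hk hN)) hl
  unfold slk
  exact PTF.intAdd (ptf_bilD hk hN1 (ptf_take' h1 h2)) (ptf_bilD hk hN1 (ptf_drop' h1 h2))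

theorem ptf_slks {N B : γ → ℕ} {ks : γ → List ℕ} {l : γ → List Bool} (hN : PTU N) (hB : PTU B)
    (hks : PTF ks) (hl : PTF l) : PTF (fun c => slks (N c) (B c) (ks c) (l c)) := by
  unfold slks
  refine PTF.map (PTF.range (PTU.length hks)) ?_
  have hN' : PTU (fun p : γ × ℕ => N p.1) := PTU.comp hN PTF.fst
  have hB' : PTU (fun p : γ × ℕ => B p.1) := PTU.comp hB PTF.fst
  have hks' : PTF (fun p : γ × ℕ => ks p.1) := PTF.comp hks PTF.fst
  have hl' : PTF (fun p : γ × ℕ => l p.1) := PTF.comp hl PTF.fst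
  have hB'' := PTU.toPTF hB'
  have hk : PTU (fun p : γ × ℕ => min ((ks p.1).getD p.2 0) (B p.1)) :=
    ptu_min (f := fun p : γ × ℕ => (ks p.1).getD p.2 0)
      (ptf_getD' PTF.snd hks' (PTF.const 0)) hB'
  have hd : PTF (fun p : γ × ℕ => ((l p.1).drop (p.2 * B p.1)).take (B p.1)) :=
    ptf_take' hB'' (ptf_drop' (PTF.natMul PTF.snd hB'') hl')
  exact ptf_slk (k := fun p : γ × ℕ => min ((ks p.1).getD p.2 0) (B p.1)) (N := fun p => N p.1)
    (l := fun p => ((l p.1).drop (p.2 * B p.1)).take (B p.1)) hk hN' hd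

/-! ### relative to the oracle -/


theorem optf_slks {N B : Inst → γ → ℕ} {ks : Inst → γ → List ℕ} {l : Inst → γ → List Bool}
    (hN : OPTU N) (hB : OPTU B) (hks : OPTF ks) (hl : OPTF l) :
    OPTF (fun I c => slks (N I c) (B I c) (ks I c) (l I c)) := by
  have h1 : PTU (fun p : Un × Un × List ℕ × List Bool => p.1.val) := PTF.fst
  have h2 : PTU (fun p : Un × Un × List ℕ × List Bool => p.2.1.val) := by
    show PTF (fun p : Un × Un × List ℕ × List Bool => p.2.1)
    fun_prop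
  have h3 : PTF (fun p : Un × Un × List ℕ × List Bool => p.2.2.1) :=
    PTF.comp PTF.fst (PTF.comp PTF.snd PTF.snd)
  have h4 : PTF (fun p : Un × Un × List ℕ × List Bool => p.2.2.2) :=
    PTF.comp PTF.snd (PTF.comp PTF.snd PTF.snd)
  have h := ptf_slks h1 h2 h3 h4
  exact OPTF.post
    (g := fun p : Un × Un × List ℕ × List Bool => slks p.1.val p.2.1.val p.2.2.1 p.2.2.2)
    (f := fun I c => (Un.mk (N I c), Un.mk (B I c), ks I c, l I c)) h
    (OPTF.prodMk hN (OPTF.prodMk hB (OPTF.prodMk hks hl)))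

/-! ### dyadic coins -/







end Crest.Agent.R302.Slk
end

-- ▼ part R302/Step223D
section

/-!
# R302, block STEP (helper223), part D: closure of `stepL` and of the `T`-step run

* `PrmOPT P` : every field of the stage data is `OPTF` / `OPTU`.
* `stepL_optf`, `run_optf`, `pfL`, `pfL_enc`, `pfL_optf`.
* `sz_run_le`, `sz_run_fst_le` : sizes of the states of the run.
-/

set_option autoImplicit false
set_option maxHeartbeats 400000

namespace Crest.Agent.R302.Step

open Crest.Agent.R302.EDM Crest.Agent.R302.Sfm646 Crest.Agent.R302.ORAM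
open Crest.Agent.Lib.PT Crest.Agent.Lib.PT.Arith Crest.Agent.R302.LatChain
open Crest.Agent.R309.Tape Crest.Agent.R309.PTX Crest.Agent.R302.Slk Crest.Agent.R302.Stage
open Crest.Agent.R302.Inst

/-! ### the perfect state -/

/-- block contents of `x` at the roots, `0` elsewhere -/
def blkL (n : ℕ) (par : List ℕ) (sub : List (List Bool)) (x : List ℤ) : List ℤ :=
  (List.range n).map fun a => if par.getD a n = n then bsL n sub x a else 0

/-- the perfect state over `x` -/
def pfL (n : ℕ) (par₁ par₂ : List ℕ) (sub₁ sub₂ : List (List Bool)) (x : List ℤ) : St :=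
  (x, blkL n par₁ sub₁ x, blkL n par₂ sub₂ x)

theorem CodeS.blkL {n : ℕ} {S : Side (Fin n)} {par : List ℕ} {sub : List (List Bool)}
    {ks : List ℕ} {mem : List ℤ → Bool} (h : CodeS S par sub ks mem) (x : Fin n → ℤ) :
    blkL n par sub (List.ofFn x) = encB S (S.blk x) := by
  unfold Step.blkL encB
  refine map_range_eq_ofFn _ _ fun a => ?_
  by_cases hp : S.T.par a = none
  · rw [if_pos ((h.par_iff a).2 hp), dif_pos hp, h.bsL]
    rfl
  · rw [if_neg (fun e => hp ((h.par_iff a).1 e)), dif_neg hp]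

theorem Code.pfL {n : ℕ} {D : SD (Fin n)} {P : Prm} {w : List ℤ → ℤ} {mem₁ mem₂ : List ℤ → Bool}
    (h : Code D P w mem₁ mem₂) (x : Fin n → ℤ) :
    pfL n P.par₁ P.par₂ P.sub₁ P.sub₂ (List.ofFn x) = enc D (D.pf x) := by
  unfold Step.pfL
  rw [h.s₁.blkL, h.s₂.blkL]
  rfl

/-! ### closure -/

section optf

variable {γ : Type} [PTCode γ] {N kmax Ns B : Inst → γ → ℕ} {P : Inst → γ → Prm}
  {w : Inst → γ → List ℤ → ℤ} {mem₁ mem₂ : Inst → γ → List ℤ → Bool} {s : Inst → γ → St}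
  {l : Inst → γ → List Bool}

/-- every field of the stage data is relatively computable -/
structure PrmOPT (P : Inst → γ → Prm) : Prop where
  par₁ : OPTF (fun I c => (P I c).par₁)
  par₂ : OPTF (fun I c => (P I c).par₂)
  sub₁ : OPTF (fun I c => (P I c).sub₁)
  sub₂ : OPTF (fun I c => (P I c).sub₂)
  ks₁ : OPTF (fun I c => (P I c).ks₁)
  ks₂ : OPTF (fun I c => (P I c).ks₂)
  a : OPTF (fun I c => (P I c).a)
  g : OPTF (fun I c => (P I c).g)
  c : OPTF (fun I c => (P I c).c)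
  M : OPTF (fun I c => (P I c).M)
  Lb : OPTF (fun I c => (P I c).Lb)
  cs : OPTF (fun I c => (P I c).cs)
  qa : OPTU (fun I c => (P I c).qa)
  qb : OPTU (fun I c => (P I c).qb)


theorem bxLo_optf (hn : OPTU N) (hP : PrmOPT P) :
    OPTF (fun I c => bxLo (N I c) (P I c).c (P I c).M (P I c).Lb) := by
  unfold bxLo
  have h1 : OPTF (fun I (p : γ × ℕ) => (P I p.1).c) := off hP.c
  have h2 : OPTF (fun I (p : γ × ℕ) => (P I p.1).M) := off hP.M
  have h3 : OPTF (fun I (p : γ × ℕ) => (P I p.1).Lb) := off hP.Lb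
  opt_solve

theorem bxHi_optf (hn : OPTU N) (hP : PrmOPT P) :
    OPTF (fun I c => bxHi (N I c) (P I c).c (P I c).M (P I c).Lb) := by
  unfold bxHi
  have h1 : OPTF (fun I (p : γ × ℕ) => (P I p.1).c) := off hP.c
  have h2 : OPTF (fun I (p : γ × ℕ) => (P I p.1).M) := off hP.M
  have h3 : OPTF (fun I (p : γ × ℕ) => (P I p.1).Lb) := off hP.Lb
  opt_solve

theorem coinM_optf {B₁ : Inst → γ → ℕ} {u : Inst → γ → St → ℤ}
    {z₁ z₂ : Inst → γ → St → List ℤ → List ℤ} {D₁ D₂ : Inst → γ → List Bool → List ℤ}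
    {s' : Inst → γ → St} (hk : OPTF kmax) (hB₁ : OPTF B₁)
    (hu : OPTF (fun I (p : γ × St) => u I p.1 p.2))
    (hz₁ : OPTF (fun I (p : γ × St × List ℤ) => z₁ I p.1 p.2.1 p.2.2))
    (hz₂ : OPTF (fun I (p : γ × St × List ℤ) => z₂ I p.1 p.2.1 p.2.2))
    (hD₁ : OPTF (fun I (p : γ × List Bool) => D₁ I p.1 p.2))
    (hD₂ : OPTF (fun I (p : γ × List Bool) => D₂ I p.1 p.2))
    (hm₁ : OPTF (fun I (p : γ × List ℤ) => mem₁ I p.1 p.2))
    (hm₂ : OPTF (fun I (p : γ × List ℤ) => mem₂ I p.1 p.2)) (hs : OPTF s) (hs' : OPTF s')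
    (hl : OPTF l) :
    OPTF (fun I c => coinM (kmax I c) (B₁ I c) (u I c) (z₁ I c) (z₂ I c)
      (D₁ I c) (D₂ I c) (mem₁ I c) (mem₂ I c) (s I c) (s' I c) (l I c)) := by
  unfold coinM
  have e1 : OPTF (fun I c => u I c (s' I c)) := OPTF.comp₂ hu OPTF.id hs'
  have e2 : OPTF (fun I c => u I c (s I c)) := OPTF.comp₂ hu OPTF.id hs
  have e3 : OPTF (fun I c => D₁ I c (((l I c).drop (kmax I c)).take (B₁ I c))) :=
    OPTF.comp₂ hD₁ OPTF.id (by opt_solve)
  have e4 : OPTF (fun I c => D₂ I c (((l I c).drop (kmax I c)).drop (B₁ I c))) :=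
    OPTF.comp₂ hD₂ OPTF.id (by opt_solve)
  have e5 : OPTF (fun I c => z₁ I c (s' I c)
      (D₁ I c (((l I c).drop (kmax I c)).take (B₁ I c)))) := OPTF.comp₃ hz₁ OPTF.id hs' e3
  have e6 : OPTF (fun I c => z₂ I c (s' I c)
      (D₂ I c (((l I c).drop (kmax I c)).drop (B₁ I c)))) :=
    OPTF.comp₃ hz₂ OPTF.id hs' e4
  have e7 := OPTF.comp₂ hm₁ OPTF.id e5
  have e8 := OPTF.comp₂ hm₂ OPTF.id e6
  have e9 : OPTF (fun I c => (u I c (s' I c) - u I c (s I c)).toNat) := by opt_solve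
  exact OPTF.and (coin2_optf hk e9 (OPTF.take hk hl)) (OPTF.and e7 e8)

/-- **the step relative to the oracle** -/
theorem stepL_optf (hn : OPTU N) (hP : PrmOPT P) (hw : OPTF (fun I (p : γ × List ℤ) => w I p.1 p.2))
    (hm₁ : OPTF (fun I (p : γ × List ℤ) => mem₁ I p.1 p.2))
    (hm₂ : OPTF (fun I (p : γ × List ℤ) => mem₂ I p.1 p.2)) (hk : OPTU kmax) (hNs : OPTU Ns)
    (hB : OPTU B) (hs : OPTF s) (hl : OPTF l) :
    OPTF (fun I c => stepL (N I c) (P I c) (w I c) (mem₁ I c) (mem₂ I c) (kmax I c) (Ns I c)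
      (B I c) (s I c) (l I c)) := by
  unfold stepL
  have hBox : OPTF (fun I (p : γ × St) => inBoxSt (N I p.1) (bxLo (N I p.1) (P I p.1).c (P I p.1).M
      (P I p.1).Lb) (bxHi (N I p.1) (P I p.1).c (P I p.1).M (P I p.1).Lb) p.2) :=
    inBoxSt_optf (ouf hn) (off (bxLo_optf hn hP)) (off (bxHi_optf hn hP)) (OPTF.snd OPTF.id)
  have hmv : OPTF (fun I (p : γ × St × ℕ) => mvL (N I p.1) (P I p.1).qa (P I p.1).qb (P I p.1).cs
      (inBoxSt (N I p.1) (bxLo (N I p.1) (P I p.1).c (P I p.1).M (P I p.1).Lb)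
        (bxHi (N I p.1) (P I p.1).c (P I p.1).M (P I p.1).Lb)) p.2.1 p.2.2) := by
    refine mvL_optf (γ := γ × St × ℕ) (ouf hn) (ouf hP.qa) (ouf hP.qb) (off hP.cs) ?_
      (OPTF.fst (OPTF.snd OPTF.id)) (OPTF.snd (OPTF.snd OPTF.id))
    exact OPTF.comp₂ (g := fun I (c : γ) (s : St) => inBoxSt (N I c) (bxLo (N I c) (P I c).c
      (P I c).M (P I c).Lb) (bxHi (N I c) (P I c).c (P I c).M (P I c).Lb) s)
      (f := fun _ (p : (γ × St × ℕ) × St) => p.1.1) (h := fun _ (p : (γ × St × ℕ) × St) => p.2)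
      hBox (by opt_solve) (by opt_solve)
  have hu : OPTF (fun I (p : γ × St) => uwL (N I p.1) (P I p.1).par₁ (P I p.1).par₂ (P I p.1).sub₁
      (P I p.1).sub₂ (P I p.1).a (P I p.1).g (w I p.1) p.2) := by
    unfold uwL
    refine OPTF.intAdd (uL_optf (ouf hn) (off hP.par₁) (off hP.par₂) (off hP.sub₁) (off hP.sub₂)
      (off hP.a) (off hP.g) (OPTF.snd OPTF.id)) ?_
    exact OPTF.comp₂ (g := w) (f := fun _ (p : γ × St) => p.1)
      (h := fun _ (p : γ × St) => p.2.2.1) hw (by opt_solve) (by opt_solve)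
  have hz₁ : OPTF (fun I (p : γ × St × List ℤ) => zL (N I p.1) (P I p.1).par₁ (P I p.1).sub₁
      p.2.1.1 p.2.1.2.1 p.2.2) :=
    zL_optf (ouf hn) (off hP.par₁) (off hP.sub₁) (by opt_solve) (by opt_solve) (by opt_solve)
  have hz₂ : OPTF (fun I (p : γ × St × List ℤ) => zL (N I p.1) (P I p.1).par₂ (P I p.1).sub₂
      p.2.1.1 p.2.1.2.2 p.2.2) :=
    zL_optf (ouf hn) (off hP.par₂) (off hP.sub₂) (by opt_solve) (by opt_solve) (by opt_solve)
  have hD₁ : OPTF (fun I (p : γ × List Bool) => slks (Ns I p.1) (B I p.1) (P I p.1).ks₁ p.2) :=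
    optf_slks (ouf hNs) (ouf hB) (off hP.ks₁) (OPTF.snd OPTF.id)
  have hD₂ : OPTF (fun I (p : γ × List Bool) => slks (Ns I p.1) (B I p.1) (P I p.1).ks₂ p.2) :=
    optf_slks (ouf hNs) (ouf hB) (off hP.ks₂) (OPTF.snd OPTF.id)
  have hkf : OPTF kmax := OPTU.toOPTF hk
  have hnB : OPTF (fun I c => N I c * B I c) := OPTF.natMul (OPTU.toOPTF hn) (OPTU.toOPTF hB)
  have hcoin : OPTF (fun I (p : γ × St × St × List Bool) => coinM (kmax I p.1) (N I p.1 * B I p.1)
      (uwL (N I p.1) (P I p.1).par₁ (P I p.1).par₂ (P I p.1).sub₁ (P I p.1).sub₂ (P I p.1).a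
        (P I p.1).g (w I p.1))
      (fun s t => zL (N I p.1) (P I p.1).par₁ (P I p.1).sub₁ s.1 s.2.1 t)
      (fun s t => zL (N I p.1) (P I p.1).par₂ (P I p.1).sub₂ s.1 s.2.2 t)
      (slks (Ns I p.1) (B I p.1) (P I p.1).ks₁) (slks (Ns I p.1) (B I p.1) (P I p.1).ks₂)
      (mem₁ I p.1) (mem₂ I p.1) p.2.1 p.2.2.1 p.2.2.2) := by
    refine coinM_optf (γ := γ × St × St × List Bool) (off hkf) (off hnB) ?_ ?_ ?_ ?_ ?_ ?_ ?_
      (by opt_solve) (by opt_solve) (by opt_solve)
    · exact OPTF.comp₂ (g := fun I (c : γ) (s : St) => uwL (N I c) (P I c).par₁ (P I c).par₂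
        (P I c).sub₁ (P I c).sub₂ (P I c).a (P I c).g (w I c) s)
        (f := fun _ (p : (γ × St × St × List Bool) × St) => p.1.1)
        (h := fun _ (p : (γ × St × St × List Bool) × St) => p.2) hu (by opt_solve) (by opt_solve)
    · exact OPTF.comp₃ (g := fun I (c : γ) (s : St) (t : List ℤ) => zL (N I c) (P I c).par₁
        (P I c).sub₁ s.1 s.2.1 t)
        (f := fun _ (p : (γ × St × St × List Bool) × St × List ℤ) => p.1.1)
        (h := fun _ (p : (γ × St × St × List Bool) × St × List ℤ) => p.2.1)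
        (k := fun _ (p : (γ × St × St × List Bool) × St × List ℤ) => p.2.2)
        hz₁ (by opt_solve) (by opt_solve) (by opt_solve)
    · exact OPTF.comp₃ (g := fun I (c : γ) (s : St) (t : List ℤ) => zL (N I c) (P I c).par₂
        (P I c).sub₂ s.1 s.2.2 t)
        (f := fun _ (p : (γ × St × St × List Bool) × St × List ℤ) => p.1.1)
        (h := fun _ (p : (γ × St × St × List Bool) × St × List ℤ) => p.2.1)
        (k := fun _ (p : (γ × St × St × List Bool) × St × List ℤ) => p.2.2)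
        hz₂ (by opt_solve) (by opt_solve) (by opt_solve)
    · exact OPTF.comp₂ (g := fun I (c : γ) (l : List Bool) => slks (Ns I c) (B I c) (P I c).ks₁ l)
        (f := fun _ (p : (γ × St × St × List Bool) × List Bool) => p.1.1)
        (h := fun _ (p : (γ × St × St × List Bool) × List Bool) => p.2) hD₁ (by opt_solve)
        (by opt_solve)
    · exact OPTF.comp₂ (g := fun I (c : γ) (l : List Bool) => slks (Ns I c) (B I c) (P I c).ks₂ l)
        (f := fun _ (p : (γ × St × St × List Bool) × List Bool) => p.1.1)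
        (h := fun _ (p : (γ × St × St × List Bool) × List Bool) => p.2) hD₂ (by opt_solve)
        (by opt_solve)
    · exact OPTF.comp₂ (g := mem₁)
        (f := fun _ (p : (γ × St × St × List Bool) × List ℤ) => p.1.1)
        (h := fun _ (p : (γ × St × St × List Bool) × List ℤ) => p.2) hm₁ (by opt_solve)
        (by opt_solve)
    · exact OPTF.comp₂ (g := mem₂)
        (f := fun _ (p : (γ × St × St × List Bool) × List ℤ) => p.1.1)
        (h := fun _ (p : (γ × St × St × List Bool) × List ℤ) => p.2) hm₂ (by opt_solve)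
        (by opt_solve)
  have hq : OPTF (fun I c => (P I c).qa + (P I c).qb + 2) :=
    OPTU.toOPTF (OPTU.add (OPTU.add hP.qa hP.qb) (OPTU.const 2))
  exact cstep_optf hq hmv hcoin hs hl

theorem stepBits_optu (hn : OPTU N) (hP : PrmOPT P) (hk : OPTU kmax) (hB : OPTU B) :
    OPTU (fun I c => stepBits (N I c) (P I c) (kmax I c) (B I c)) := by
  unfold stepBits
  exact OPTU.add (OPTU.add (OPTU.add hP.qa hP.qb) (OPTU.const 2))
    (OPTU.add hk (OPTU.add (OPTU.mul hn hB) (OPTU.mul hn hB)))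

end optf

/-! ### sizes and the run -/

/-- size bound for the first component in the domain -/
def szBx (n : ℕ) (lo hi : List ℤ) : ℕ := n * (2 * (3 + (sz lo + sz hi)) + 1)

theorem sz_stepL_le (n : ℕ) (P : Prm) (w : List ℤ → ℤ) (mem₁ mem₂ : List ℤ → Bool)
    (kmax N B : ℕ) (s : St) (l : List Bool) :
    sz (stepL n P w mem₁ mem₂ kmax N B s l) ≤
      max (sz s) (szBd n (bxLo n P.c P.M P.Lb) (bxHi n P.c P.M P.Lb)) := by
  unfold stepL
  exact sz_cstep_le l

theorem stepL_cases (n : ℕ) (P : Prm) (w : List ℤ → ℤ) (mem₁ mem₂ : List ℤ → Bool)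
    (kmax N B : ℕ) (s : St) (l : List Bool) :
    stepL n P w mem₁ mem₂ kmax N B s l = s ∨
      (inBoxSt n (bxLo n P.c P.M P.Lb) (bxHi n P.c P.M P.Lb)
        (stepL n P w mem₁ mem₂ kmax N B s l) = true ∧
        (stepL n P w mem₁ mem₂ kmax N B s l).1.length = n) := by
  unfold stepL cstep
  cases h : mvL n P.qa P.qb P.cs (inBoxSt n (bxLo n P.c P.M P.Lb) (bxHi n P.c P.M P.Lb)) s
      (msb (l.take (P.qa + P.qb + 2))) with
  | none => exact Or.inl rfl
  | some s' =>
    simp only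
    split_ifs
    · right
      unfold mvL at h
      split_ifs at h
      revert h
      cases (P.cs.drop (msb (l.take (P.qa + P.qb + 2)) / 2 / 2 ^ P.qb)).head? with
      | none => intro h; exact absurd h (by simp)
      | some p =>
        intro h
        simp only [guardSt] at h
        split_ifs at h with h1
        rw [← Option.some.inj h]
        exact ⟨h1, by simp [axSt, axL]⟩
    · exact Or.inl rfl

/-- every state of a run is the start or lies in the window -/
theorem runSteps_cases (n : ℕ) (P : Prm) (w : List ℤ → ℤ) (mem₁ mem₂ : List ℤ → Bool)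
    (kmax N B : ℕ) (r T : ℕ) (s : St) (l : List Bool) :
    runSteps (stepL n P w mem₁ mem₂ kmax N B) r T s l = s ∨
      (inBoxSt n (bxLo n P.c P.M P.Lb) (bxHi n P.c P.M P.Lb)
        (runSteps (stepL n P w mem₁ mem₂ kmax N B) r T s l) = true ∧
        (runSteps (stepL n P w mem₁ mem₂ kmax N B) r T s l).1.length = n) := by
  induction T with
  | zero => exact Or.inl rfl
  | succ T ih =>
    rw [runSteps_succ']
    rcases stepL_cases n P w mem₁ mem₂ kmax N B
      (runSteps (stepL n P w mem₁ mem₂ kmax N B) r T s l) ((l.drop (T * r)).take r) with h | h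
    · rw [h]; exact ih
    · exact Or.inr h

theorem sz_run_le (n : ℕ) (P : Prm) (w : List ℤ → ℤ) (mem₁ mem₂ : List ℤ → Bool)
    (kmax N B : ℕ) (r T : ℕ) (s : St) (l : List Bool) :
    sz (runSteps (stepL n P w mem₁ mem₂ kmax N B) r T s l) ≤
      max (sz s) (szBd n (bxLo n P.c P.M P.Lb) (bxHi n P.c P.M P.Lb)) := by
  induction T with
  | zero => exact le_max_left _ _
  | succ T ih =>
    rw [runSteps_succ']
    refine (sz_stepL_le _ _ _ _ _ _ _ _ _ _).trans ?_
    exact max_le ih (le_max_right _ _)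

/-- size of the point of a state of the run -/
theorem sz_run_fst_le (n : ℕ) (P : Prm) (w : List ℤ → ℤ) (mem₁ mem₂ : List ℤ → Bool)
    (kmax N B : ℕ) (r T : ℕ) (s : St) (l : List Bool) :
    sz (runSteps (stepL n P w mem₁ mem₂ kmax N B) r T s l).1 ≤
      max (sz s.1) (szBx n (bxLo n P.c P.M P.Lb).1 (bxHi n P.c P.M P.Lb).1) := by
  rcases runSteps_cases n P w mem₁ mem₂ kmax N B r T s l with h | ⟨h, hl⟩
  · rw [h]; exact le_max_left _ _
  · refine le_trans ?_ (le_max_right _ _)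
    unfold inBoxSt at h
    rw [Bool.and_eq_true] at h
    exact sz_axL_le hl h.1

section optf2

variable {γ : Type} [PTCode γ] {N kmax Ns B T : Inst → γ → ℕ} {P : Inst → γ → Prm}
  {w : Inst → γ → List ℤ → ℤ} {mem₁ mem₂ : Inst → γ → List ℤ → Bool} {s : Inst → γ → St}
  {l : Inst → γ → List Bool}

/-- **the run relative to the oracle** -/
theorem run_optf (hn : OPTU N) (hP : PrmOPT P) (hw : OPTF (fun I (p : γ × List ℤ) => w I p.1 p.2))
    (hm₁ : OPTF (fun I (p : γ × List ℤ) => mem₁ I p.1 p.2))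
    (hm₂ : OPTF (fun I (p : γ × List ℤ) => mem₂ I p.1 p.2)) (hk : OPTU kmax) (hNs : OPTU Ns)
    (hB : OPTU B) (hT : OPTU T) (hs : OPTF s) (hl : OPTF l) :
    OPTF (fun I c => runSteps (stepL (N I c) (P I c) (w I c) (mem₁ I c) (mem₂ I c) (kmax I c)
      (Ns I c) (B I c)) (stepBits (N I c) (P I c) (kmax I c) (B I c)) (T I c) (s I c) (l I c)) := by
  have hstep : OPTF (fun I (p : γ × St × List Bool) => stepL (N I p.1) (P I p.1) (w I p.1)
      (mem₁ I p.1) (mem₂ I p.1) (kmax I p.1) (Ns I p.1) (B I p.1) p.2.1 p.2.2) := by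
    refine stepL_optf (γ := γ × St × List Bool) (N := fun I p => N I p.1) (P := fun I p => P I p.1)
      (w := fun I p => w I p.1) (mem₁ := fun I p => mem₁ I p.1) (mem₂ := fun I p => mem₂ I p.1)
      (kmax := fun I p => kmax I p.1) (Ns := fun I p => Ns I p.1) (B := fun I p => B I p.1)
      (ouf hn) ?_ ?_ ?_ ?_ (ouf hk) (ouf hNs) (ouf hB) (by opt_solve) (by opt_solve)
    · exact ⟨off hP.par₁, off hP.par₂, off hP.sub₁, off hP.sub₂, off hP.ks₁, off hP.ks₂, off hP.a,
        off hP.g, off hP.c, off hP.M, off hP.Lb, off hP.cs, ouf hP.qa, ouf hP.qb⟩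
    · exact OPTF.comp₂ (g := w) (f := fun _ (p : (γ × St × List Bool) × List ℤ) => p.1.1)
        (h := fun _ (p : (γ × St × List Bool) × List ℤ) => p.2) hw (by opt_solve) (by opt_solve)
    · exact OPTF.comp₂ (g := mem₁) (f := fun _ (p : (γ × St × List Bool) × List ℤ) => p.1.1)
        (h := fun _ (p : (γ × St × List Bool) × List ℤ) => p.2) hm₁ (by opt_solve) (by opt_solve)
    · exact OPTF.comp₂ (g := mem₂) (f := fun _ (p : (γ × St × List Bool) × List ℤ) => p.1.1)
        (h := fun _ (p : (γ × St × List Bool) × List ℤ) => p.2) hm₂ (by opt_solve) (by opt_solve)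
  have hlo := bxLo_optf hn hP
  have hhi := bxHi_optf hn hP
  have hb : ∀ {u v : Inst → γ → List ℤ}, OPTF u → OPTF v →
      OPB (fun I c => N I c * (2 * (3 + (sz (u I c) + sz (v I c))) + 1)) := by
    intro u v hu hv
    exact hn.opb.mul (((OPB.const 2).mul ((OPB.const 3).add (hu.bound.add hv.bound))).add
      (OPB.const 1))
  have hBd : OPB (fun I c => szBd (N I c) (bxLo (N I c) (P I c).c (P I c).M (P I c).Lb)
      (bxHi (N I c) (P I c).c (P I c).M (P I c).Lb)) := by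
    unfold szBd
    exact (((OPB.const 2).mul (hb hlo.fst hhi.fst)).add (OPB.const 1)).add
      ((((OPB.const 2).mul (hb hlo.snd.fst hhi.snd.fst)).add (OPB.const 1)).add
        (hb hlo.snd.snd hhi.snd.snd))
  refine OPTF.runSteps hstep (OPTU.toOPTF (stepBits_optu hn hP hk hB)) hT hs hl
    (hs.bound.add hBd) (fun I c i _ => ?_)
  refine (sz_run_le _ _ _ _ _ _ _ _ _ _ _ _).trans ?_
  exact max_le (Nat.le_add_right _ _) (Nat.le_add_left _ _)

theorem blkL_optf {par : Inst → γ → List ℕ} {sub : Inst → γ → List (List Bool)}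
    {x : Inst → γ → List ℤ} (hn : OPTU N) (hp : OPTF par) (hs : OPTF sub) (hx : OPTF x) :
    OPTF (fun I c => blkL (N I c) (par I c) (sub I c) (x I c)) := by
  unfold blkL
  have h2 : OPTF (fun I (p : γ × ℕ) => par I p.1) := off hp
  have h4 : OPTF (fun I (p : γ × ℕ) => bsL (N I p.1) (sub I p.1) (x I p.1) p.2) :=
    bsL_optf (ouf hn) (off hs) (off hx) (OPTF.snd OPTF.id)
  have h5 : OPTU (fun I (p : γ × ℕ) => N I p.1) := ouf hn
  opt_solve

theorem pfL_optf {par₁ par₂ : Inst → γ → List ℕ} {sub₁ sub₂ : Inst → γ → List (List Bool)}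
    {x : Inst → γ → List ℤ} (hn : OPTU N) (hp₁ : OPTF par₁) (hp₂ : OPTF par₂) (hs₁ : OPTF sub₁)
    (hs₂ : OPTF sub₂) (hx : OPTF x) :
    OPTF (fun I c => pfL (N I c) (par₁ I c) (par₂ I c) (sub₁ I c) (sub₂ I c) (x I c)) := by
  unfold pfL
  exact OPTF.prodMk hx (OPTF.prodMk (blkL_optf hn hp₁ hs₁ hx) (blkL_optf hn hp₂ hs₂ hx))

end optf2

end Crest.Agent.R302.Step
end

-- ▼ part R302/Prog166

/-!
# R302 (helper166): THE CONCRETE PROGRAM of the sampler

`Par` : the numerical parameters (functions of the input of the sampler);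
`Prog.prg P : Smp.Prg Step.St` : the program data of `Smp272`.
All the data of the stage with index `t` are those of the target stage `t + 1`.
-/

set_option autoImplicit false
set_option linter.dupNamespace false

namespace Crest.Agent.R302.Prog

open Crest.Agent.R302.ORAM Crest.Agent.R302.Loop Crest.Agent.R302.CenL Crest.Agent.R302.AnnBox
open Crest.Agent.R302.Top Crest.Agent.R302.Smp Crest.Agent.R302.Step Crest.Agent.R302.EDM
open Crest.Agent.R302.StageL Crest.Agent.R302.GeoSpec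
open Crest.Agent.R309.Tape Crest.Agent.Lib.PT

/-- the parameters of the program -/
structure Par where
  /-- precision exponent of the start -/
  L : SIn → ℕ
  /-- cost exponent of a link, estimators -/
  aE : SIn → ℕ
  /-- cost exponent of a link, movers -/
  aM : SIn → ℕ
  /-- accuracy of the gauge estimates -/
  D : SIn → ℕ
  /-- threshold of the fat links -/
  w₁ : SIn → ℕ
  /-- divisor of the slack exponents -/
  dk : SIn → ℕ
  /-- divisor of the length exponents -/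
  dl : SIn → ℕ
  /-- bits for the direction -/
  qa : SIn → ℕ
  /-- bits for the length -/
  qb : SIn → ℕ
  /-- window of `x` -/
  M : SIn → ℕ
  /-- window of the block contents -/
  Lb : SIn → ℕ
  /-- precision of the slacks -/
  N : SIn → ℕ
  /-- bits of one slack -/
  B : SIn → ℕ
  /-- bits of the ratio coin -/
  kmax : SIn → ℕ
  /-- steps of an estimator run -/
  TE : SIn → ℕ
  /-- steps of a mover run -/
  TM : SIn → ℕ
  /-- representatives of the components, from `n`, the threshold and the two matrices -/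
  rp : ℕ → ℤ → List (List ℤ) → List (List ℤ) → List ℕ

/-! ### output and events on lists -/

/-- `x + e_u` -/
def addE (n : ℕ) (x : List ℤ) (u : ℕ) : List ℤ :=
  (List.range n).map fun j => x.getD j 0 + if j = u then 1 else 0

/-- output of a state -/
def outL (n : ℕ) (par₁ par₂ : List ℕ) (sub₁ sub₂ : List (List Bool)) (mem₁ mem₂ : List ℤ → Bool)
    (y : St) : Option (List ℤ) :=
  if (decide (pfL n par₁ par₂ sub₁ sub₂ y.1 = y) && (mem₁ y.1 && mem₂ y.1)) = true
    then some y.1 else none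

/-- the one-link event of the pair `(u, v)` -/
def evL (n : ℕ) (par₁ par₂ : List ℕ) (sub₁ sub₂ : List (List Bool)) (u v : ℕ) (y : St) : Bool :=
  decide (blkL n par₁ sub₁ (addE n y.1 u) = y.2.1) &&
    decide (blkL n par₂ sub₂ (addE n y.1 v) = y.2.2)

/-! ### the data of a stage -/

section stage

variable (P : Par) (Q : Qf) (s : SIn) (t : ℕ)

/-- the rank functions on lists -/
def rk (b : Bool) : List Bool → ℤ := fun l => (Q b l : ℤ)

/-- number of stages -/
def nT : ℕ := nStages (sn s) (P.L s) (sR s)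

/-- index of the target stage -/
def tt : ℕ := min (t + 1) (nT P s)

/-- lower corner of the target stage -/
def loT : List ℤ := loL (sn s) (stQ (sn s) (P.L s) (tt P s t)) (cen Q s) (slo s)

/-- upper corner of the target stage -/
def hiT : List ℤ := hiL (sn s) (stQ (sn s) (P.L s) (tt P s t)) (cen Q s) (shi s)

/-- the matrix of the capacities of side `b` at the centre -/
def matT (b : Bool) : List (List ℤ) :=
  matBL (sn s) (sR s) (rk Q b) (loT P Q s t) (hiT P Q s t) (cen Q s)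

/-- parents, descendants, slack exponents, directions -/
def envT : Env :=
  envL (sn s) (P.w₁ s) (P.dk s) (P.dl s) (matT P Q s t false) (matT P Q s t true)

/-- the representatives of the components -/
def repT (u : ℕ) : ℕ :=
  (P.rp (sn s) (P.w₁ s) (matT P Q s t false) (matT P Q s t true)).getD u 0

/-- the gauge on the elements -/
def gaT (g : List ℤ) : List ℤ := (List.range (sn s)).map fun v => g.getD (repT P Q s t v) 0

/-- the stage record of `Step223C`; link cost `a`, gauge `g` -/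
def prm (a : ℕ) (g : List ℤ) : Prm where
  par₁ := (envT P Q s t).1.1
  par₂ := (envT P Q s t).1.2
  sub₁ := (envT P Q s t).2.1.1
  sub₂ := (envT P Q s t).2.1.2
  ks₁ := (envT P Q s t).2.2.1.1
  ks₂ := (envT P Q s t).2.2.1.2
  a := a
  g := gaT P Q s t g
  c := cen Q s
  M := P.M s
  Lb := P.Lb s
  cs := (envT P Q s t).2.2.2
  qa := P.qa s
  qb := P.qb s

/-- exponent of the stage weight -/
def wT (β : List ℤ) : ℤ := (stHL (sn s) (P.L s) (tt P s t) (cen Q s) β : ℤ)

/-- membership in side `b` of the stage -/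
def memT (b : Bool) (z : List ℤ) : Bool :=
  memBL (sn s) (sR s) (rk Q b) (sR s) (loT P Q s t) (hiT P Q s t) z

/-- one step -/
def stp (a : ℕ) (g : List ℤ) : St → List Bool → St :=
  stepL (sn s) (prm P Q s t a g) (wT P Q s t) (memT P Q s t false) (memT P Q s t true)
    (P.kmax s) (P.N s) (P.B s)

/-- bits of one step -/
def bitsS : ℕ := (P.qa s + P.qb s + 2) + (P.kmax s + (sn s * P.B s + sn s * P.B s))


/-- the perfect start state -/
def pfT (x : List ℤ) : St :=
  pfL (sn s) (envT P Q s t).1.1 (envT P Q s t).1.2 (envT P Q s t).2.1.1 (envT P Q s t).2.1.2 x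

/-- `T` steps from the perfect state over `x` -/
def runT (a T : ℕ) (g x : List ℤ) (l : List Bool) : St :=
  runSteps (stp P Q s t a g) (bitsS P s) T (pfT P Q s t x) l

/-- output -/
def outT (y : St) : Option (List ℤ) :=
  outL (sn s) (envT P Q s t).1.1 (envT P Q s t).1.2 (envT P Q s t).2.1.1 (envT P Q s t).2.1.2
    (memT P Q s t false) (memT P Q s t true) y

/-- one-link event -/
def evT (u v : ℕ) (y : St) : Bool :=
  evL (sn s) (envT P Q s t).1.1 (envT P Q s t).1.2 (envT P Q s t).2.1.1 (envT P Q s t).2.1.2 u v y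

end stage

/-- **the program** -/
def prg (P : Par) : Prg St where
  pL := P.L
  pm := fun s => 2 * P.aE s
  pD := P.D
  pE := fun s => P.TE s * bitsS P s
  pM := fun s => P.TM s * bitsS P s
  runE := fun Q s t g x l => runT P Q s t (P.aE s) (P.TE s) g x l
  runM := fun Q s t g x l => runT P Q s t (P.aM s) (P.TM s) g x l
  out := fun Q s t y => outT P Q s t y
  ev := fun Q s t u v y => evT P Q s t u v y
  rep := fun Q s t u => repT P Q s t u

end Crest.Agent.R302.Prog
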