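import Crest.Agent.R302.Inst532A

/-!
R302 (helper532): positivity, ratio lemmas, smoothness of the official soft weights, and the
identity `W = ∑ lw`.
-/

set_option linter.unusedSectionVars false
set_option autoImplicit false

namespace Crest.Agent.R302.Inst

open Finset Crest.Agent.R302.Lor

/-! ### one-dimensional kernels -/

/-- positive kernel with two-sided slope `b` -/
structure Slope (κ : ℤ → ℝ) (b : ℝ) : Prop where
  pos : ∀ t, 0 < κ t
  up : ∀ t, κ (t + 1) ≤ Real.exp b * κ t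
  dn : ∀ t, κ t ≤ Real.exp b * κ (t + 1)

theorem Slope.b_nonneg {κ : ℤ → ℝ} {b : ℝ} (h : Slope κ b) : 0 ≤ b := by
  by_contra hb
  push Not at hb
  have h1 := h.up 0
  have h2 := h.dn 0
  have h3 : Real.exp b < 1 := by rw [Real.exp_lt_one_iff]; exact hb
  have p0 := h.pos 0
  have p1 := h.pos (0 + 1)
  nlinarith

theorem Slope.le_nat {κ : ℤ → ℝ} {b : ℝ} (h : Slope κ b) (t : ℤ) (s : ℕ) :
    κ (t + s) ≤ Real.exp (b * s) * κ t ∧ κ t ≤ Real.exp (b * s) * κ (t + s) := by
  induction s with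
  | zero => simp
  | succ s ih =>
    have e : Real.exp (b * ((s + 1 : ℕ) : ℝ)) = Real.exp b * Real.exp (b * s) := by
      rw [← Real.exp_add]; congr 1; push_cast; ring
    have e2 : t + ((s + 1 : ℕ) : ℤ) = t + s + 1 := by push_cast; ring
    rw [e, e2]
    have hb := Real.exp_pos b
    have hs := Real.exp_pos (b * s)
    constructor
    · calc κ (t + s + 1) ≤ Real.exp b * κ (t + s) := h.up _
        _ ≤ Real.exp b * (Real.exp (b * s) * κ t) := mul_le_mul_of_nonneg_left ih.1 hb.le
        _ = _ := by ring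
    · calc κ t ≤ Real.exp (b * s) * κ (t + s) := ih.2
        _ ≤ Real.exp (b * s) * (Real.exp b * κ (t + s + 1)) :=
          mul_le_mul_of_nonneg_left (h.dn _) hs.le
        _ = _ := by ring

theorem Slope.le {κ : ℤ → ℝ} {b : ℝ} (h : Slope κ b) (t s : ℤ) :
    κ (t + s) ≤ Real.exp (b * (s.natAbs : ℝ)) * κ t := by
  rcases Int.natAbs_eq s with hs | hs
  · have := (h.le_nat t s.natAbs).1
    rwa [← hs] at this
  · have := (h.le_nat (t + s) s.natAbs).2
    have e : t + s + (s.natAbs : ℤ) = t := by omega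
    rwa [e] at this

/-- thin kernel -/
theorem slope_theta {θ : ℝ} (h0 : 0 < θ) (h1 : θ ≤ 1) :
    Slope (fun t => θ ^ t.natAbs) (-Real.log θ) := by
  have e : Real.exp (-Real.log θ) = θ⁻¹ := by rw [Real.exp_neg, Real.exp_log h0]
  refine ⟨fun t => pow_pos h0 _, fun t => ?_, fun t => ?_⟩
  · rw [e]
    have h3 : θ ^ t.natAbs ≤ θ⁻¹ * θ ^ t.natAbs := by
      have : 1 ≤ θ⁻¹ := (one_le_inv₀ h0).2 h1
      nlinarith [pow_pos h0 t.natAbs]
    rcases lt_or_ge t 0 with ht | ht
    · obtain ⟨k, hk⟩ : ∃ k : ℕ, t.natAbs = k + 1 := ⟨t.natAbs - 1, by omega⟩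
      have h4 : (t + 1).natAbs = k := by omega
      simp only [h4, hk, pow_succ]
      rw [show θ⁻¹ * (θ ^ k * θ) = θ ^ k * (θ⁻¹ * θ) from by ring, inv_mul_cancel₀ h0.ne', mul_one]
    · have h4 : (t + 1).natAbs = t.natAbs + 1 := by omega
      simp only [h4, pow_succ]
      refine le_trans ?_ h3
      nlinarith [pow_pos h0 t.natAbs]
  · rw [e]
    rcases lt_or_ge t 0 with ht | ht
    · obtain ⟨k, hk⟩ : ∃ k : ℕ, t.natAbs = k + 1 := ⟨t.natAbs - 1, by omega⟩
      have h4 : (t + 1).natAbs = k := by omega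
      simp only [h4, hk, pow_succ]
      have : 1 ≤ θ⁻¹ := (one_le_inv₀ h0).2 h1
      have hk := pow_pos h0 k
      nlinarith
    · have h4 : (t + 1).natAbs = t.natAbs + 1 := by omega
      simp only [h4, pow_succ]
      rw [show θ⁻¹ * (θ ^ t.natAbs * θ) = θ ^ t.natAbs * (θ⁻¹ * θ) from by ring,
        inv_mul_cancel₀ h0.ne', mul_one]

variable {E : Type*} [Fintype E] [DecidableEq E]

/-! ### the basic exchange vectors -/

/-- `e_a - e_{par a}`, resp. `e_a` for thin `a` -/
def dq (T : MP3.Forest E) (a : E) : E → ℤ := match T.par a with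
  | none => ev a
  | some b => ev a - ev b

theorem bs_dq (T : MP3.Forest E) (q a : E) : bs T (dq T q) a = if a = q then 1 else 0 := by
  unfold dq
  rcases h : T.par q with _ | b
  · simp only
    rw [bs_ev]
    refine if_congr ?_ rfl rfl
    rw [MP3.Forest.mem_sub, MP3.Forest.le_iff]
    constructor
    · rintro (h1 | ⟨c, hc, _⟩)
      · exact h1.symm
      · rw [h] at hc; cases hc
    · rintro rfl; exact Or.inl rfl
  · simp only
    rw [bs_sub, bs_ev, bs_ev]
    by_cases h1 : b ∈ T.sub a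
    · have h2 : q ∈ T.sub a := by
        rw [MP3.Forest.mem_sub, MP3.Forest.le_iff]
        exact Or.inr ⟨b, h, MP3.Forest.mem_sub.1 h1⟩
      have h3 : a ≠ q := by
        rintro rfl
        exact MP3.Forest.not_le_of_par h (MP3.Forest.mem_sub.1 h1)
      simp [h1, h2, h3]
    · by_cases h3 : a = q
      · subst h3
        simp [h1, MP3.Forest.Le.refl]
      · have h2 : q ∉ T.sub a := by
          rw [MP3.Forest.mem_sub, MP3.Forest.le_iff]
          rintro (h4 | ⟨c, hc, h4⟩)
          · exact h3 h4.symm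
          · rw [h] at hc
            cases hc
            exact h1 (MP3.Forest.mem_sub.2 h4)
        simp [h1, h2, h3]

/-- the subtree sums determine the vector -/
theorem eq_sum_dq (T : MP3.Forest E) (x : E → ℤ) : x = ∑ a, bs T x a • dq T a := by
  classical
  have key : ∀ (g : E → ℝ), ∑ c, (x c : ℝ) * g c
      = ∑ c, ((∑ a, bs T x a • dq T a) c : ℝ) * g c := by
    intro g
    rw [MP3.Forest.tele_all (F := T) (fun c => (x c : ℝ)) g]
    have h1 : ∀ c, (((∑ a, bs T x a • dq T a) c : ℤ) : ℝ) * g c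
        = ∑ a, (bs T x a : ℝ) * ((dq T a c : ℝ) * g c) := by
      intro c
      rw [Finset.sum_apply]
      push_cast
      rw [Finset.sum_mul]
      exact Finset.sum_congr rfl fun a _ => by
        simp only [Pi.smul_apply, smul_eq_mul]; push_cast; ring
    simp only [h1]
    rw [Finset.sum_comm]
    refine Finset.sum_congr rfl fun a _ => ?_
    rw [← Finset.mul_sum]
    have h2 : (∑ c ∈ T.sub a, (x c : ℝ)) = (bs T x a : ℝ) := by
      unfold bs; push_cast; rfl
    rw [h2]
    congr 1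
    unfold dq
    rcases h : T.par a with _ | b
    · simp [ev, Pi.single_apply]
    · simp [ev, Pi.single_apply, sub_mul, Finset.sum_sub_distrib]
  funext c
  have := key (Pi.single c 1)
  simp only [Pi.single_apply, mul_ite, mul_one, mul_zero, Finset.sum_ite_eq',
    Finset.mem_univ, if_true] at this
  exact_mod_cast this

namespace Side

variable (S : Side E)

/-- subtree sums of the loads -/
theorem bs_load (x : E → ℤ) (β : S.Blk → ℤ) (a : E) :
    bs S.T (S.load x β) a = if h : S.T.par a = none then β ⟨a, h⟩ else bs S.T x a := by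
  classical
  have hl : S.load x β = x + ∑ r : S.Blk, (β r - bs S.T x r) • dq S.T (r : E) := by
    funext c
    rw [Pi.add_apply, Finset.sum_apply]
    unfold load
    by_cases h : S.T.par c = none
    · rw [dif_pos h, Finset.sum_eq_single (⟨c, h⟩ : S.Blk)]
      · simp [dq, h, ev]
      · rintro ⟨r, hr⟩ _ hne
        have : c ≠ r := fun h' => hne (by subst h'; rfl)
        simp [dq, hr, ev, this]
      · intro h'; exact absurd (mem_univ _) h'
    · rw [dif_neg h, Finset.sum_eq_zero, add_zero]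
      rintro ⟨r, hr⟩ _
      have : c ≠ r := fun h' => h (by subst h'; exact hr)
      simp [dq, hr, ev, this]
  have hs : ∀ (s : Finset S.Blk) (w : S.Blk → ℤ),
      bs S.T (∑ r ∈ s, w r • dq S.T (r : E)) a = ∑ r ∈ s, w r * (if a = r then 1 else 0) := by
    intro s w
    induction s using Finset.induction_on with
    | empty => simp [bs_zero]
    | insert r s hr ih => rw [Finset.sum_insert hr, Finset.sum_insert hr, bs_add, bs_smul, bs_dq, ih]
  rw [hl, bs_add, hs]
  by_cases h : S.T.par a = none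
  · rw [dif_pos h, Finset.sum_eq_single (⟨a, h⟩ : S.Blk)]
    · simp
    · rintro ⟨r, hr⟩ _ hne
      have : a ≠ r := fun h' => hne (by subst h'; rfl)
      simp [this]
    · intro h'; exact absurd (mem_univ _) h'
  · rw [dif_neg h, Finset.sum_eq_zero, add_zero]
    rintro ⟨r, hr⟩ _
    have : a ≠ r := fun h' => h (by subst h'; exact hr)
    simp [this]

/-- `ff` depends only on the loads -/
theorem ff_load (x : E → ℤ) (β : S.Blk → ℤ) :
    S.ff x β = S.ff (S.load x β) (S.blk (S.load x β)) := by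
  unfold ff
  refine Finset.sum_congr rfl fun z _ => ?_
  congr 1
  refine Finset.prod_congr rfl fun a _ => ?_
  unfold fk blk
  by_cases h : S.T.par a = none
  · rw [dif_pos h, dif_pos h]
    simp only [bs_load, h, dif_pos]
  · rw [dif_neg h, dif_neg h, bs_load, dif_neg h]


/-- hypotheses on a side: nonnegative weights and positive fat kernels with slopes `b` -/
structure Ok (b : E → ℝ) : Prop where
  g0 : ∀ z, 0 ≤ S.g z
  sl : ∀ a, S.T.par a ≠ none → Slope (S.κ a) (b a)

variable {S} {b : E → ℝ}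

theorem Ok.fk_nonneg (h : S.Ok b) (x : E → ℤ) (β : S.Blk → ℤ) (z : E → ℤ) (a : E) :
    0 ≤ S.fk x β z a := by
  unfold fk
  split_ifs with h1 h2
  · exact zero_le_one
  · exact le_rfl
  · exact ((h.sl a h1).pos _).le

theorem Ok.ff_nonneg (h : S.Ok b) (x : E → ℤ) (β : S.Blk → ℤ) : 0 ≤ S.ff x β :=
  Finset.sum_nonneg fun z _ => mul_nonneg (h.g0 z) (Finset.prod_nonneg fun a _ =>
    h.fk_nonneg x β z a)

open Classical in
/-- total slope cost of a move, fat part -/
noncomputable def fcost (T : MP3.Forest E) (b : E → ℝ) (c : E → ℤ) : ℝ :=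
  ∑ a ∈ univ.filter (fun a => T.par a ≠ none), b a * ((bs T c a).natAbs : ℝ)

open Classical in
/-- thin part: total change of the block contents -/
noncomputable def tcost (T : MP3.Forest E) (c : E → ℤ) : ℕ :=
  ∑ a ∈ univ.filter (fun a => T.par a = none), (bs T c a).natAbs

theorem fcost_neg (T : MP3.Forest E) (b : E → ℝ) (c : E → ℤ) : fcost T b (-c) = fcost T b c := by
  unfold fcost; simp [bs_neg]

theorem tcost_neg (T : MP3.Forest E) (c : E → ℤ) : tcost T (-c) = tcost T c := by
  unfold tcost; simp [bs_neg]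

/-- **ratio lemma for `ff`** -/
theorem Ok.ff_le (h : S.Ok b) (x c : E → ℤ) (β : S.Blk → ℤ) :
    S.ff (x + c) β ≤ Real.exp (fcost S.T b c) * S.ff x β := by
  classical
  unfold ff
  rw [Finset.mul_sum]
  refine Finset.sum_le_sum fun z _ => ?_
  have h1 : ∏ a, S.fk (x + c) β z a ≤ Real.exp (fcost S.T b c) * ∏ a, S.fk x β z a := by
    have e : Real.exp (fcost S.T b c) = ∏ a, (if S.T.par a ≠ none then
        Real.exp (b a * ((bs S.T c a).natAbs : ℝ)) else 1) := by
      unfold fcost
      rw [Real.exp_sum, Finset.prod_filter]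
    rw [e, ← Finset.prod_mul_distrib]
    refine Finset.prod_le_prod (fun a _ => h.fk_nonneg _ _ _ _) fun a _ => ?_
    by_cases ha : S.T.par a = none
    · simp [fk, ha]
    · rw [if_pos ha]
      unfold fk
      rw [dif_neg ha, dif_neg ha]
      have h2 := (h.sl a ha).le (bs S.T z a - bs S.T x a) (-(bs S.T c a))
      rw [Int.natAbs_neg] at h2
      rwa [show bs S.T z a - bs S.T (x + c) a = bs S.T z a - bs S.T x a + -(bs S.T c a) from by
        rw [bs_add]; ring]
  calc S.g z * ∏ a, S.fk (x + c) β z a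
      ≤ S.g z * (Real.exp (fcost S.T b c) * ∏ a, S.fk x β z a) :=
        mul_le_mul_of_nonneg_left h1 (h.g0 z)
    _ = _ := by ring

/-- the `θ`-factor of `lw` -/
theorem theta_factor_le {θ : ℝ} (h0 : 0 < θ) (h1 : θ ≤ 1) (x c : E → ℤ) (β : S.Blk → ℤ) :
    ∏ r : S.Blk, θ ^ (β r - bs S.T (x + c) r).natAbs
      ≤ (θ⁻¹) ^ (tcost S.T c) * ∏ r : S.Blk, θ ^ (β r - bs S.T x r).natAbs := by
  classical
  have e : (θ⁻¹) ^ (tcost S.T c) = ∏ r : S.Blk, (θ⁻¹) ^ (bs S.T c r).natAbs := by
    rw [Finset.prod_pow_eq_pow_sum]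
    congr 1
    unfold tcost
    rw [← Finset.sum_subtype (univ.filter (fun a => S.T.par a = none)) (fun a => by simp)
      (fun a => (bs S.T c a).natAbs)]
  rw [e, ← Finset.prod_mul_distrib]
  refine Finset.prod_le_prod (fun r _ => (pow_pos h0 _).le) fun r _ => ?_
  have hle : (β r - bs S.T x r).natAbs ≤ (β r - bs S.T (x + c) r).natAbs
      + (bs S.T c r).natAbs := by rw [bs_add]; omega
  have h2 : θ ^ ((β r - bs S.T (x + c) r).natAbs + (bs S.T c r).natAbs)
      ≤ θ ^ (β r - bs S.T x r).natAbs := pow_le_pow_of_le_one h0.le h1 hle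
  rw [pow_add] at h2
  have h3 : 0 < θ ^ (bs S.T c r).natAbs := pow_pos h0 _
  rw [inv_pow]
  rw [← div_eq_inv_mul, le_div_iff₀ h3]
  exact h2

theorem Ok.lw_nonneg (h : S.Ok b) {θ : ℝ} (h0 : 0 < θ) {μ : E → ℝ} (hμ : ∀ a, 0 < μ a)
    (x : E → ℤ) (β : S.Blk → ℤ) : 0 ≤ S.lw θ μ x β := by
  unfold lw
  have := h.ff_nonneg x β
  have h1 : 0 < ∏ r : S.Blk, θ ^ (β r - bs S.T x r).natAbs := Finset.prod_pos fun r _ => pow_pos h0 _
  have h2 : 0 < ∏ r : S.Blk, μ r ^ β r := Finset.prod_pos fun r _ => zpow_pos (hμ _) _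
  positivity

/-- **ratio lemma for `lw`** -/
theorem Ok.lw_le (h : S.Ok b) {θ : ℝ} (h0 : 0 < θ) (h1 : θ ≤ 1) {μ : E → ℝ} (hμ : ∀ a, 0 < μ a)
    (x c : E → ℤ) (β : S.Blk → ℤ) :
    S.lw θ μ (x + c) β
      ≤ ((θ⁻¹) ^ (tcost S.T c) * Real.exp (fcost S.T b c)) * S.lw θ μ x β := by
  unfold lw
  have h2 := h.ff_le x c β
  have h3 := theta_factor_le (S := S) h0 h1 x c β
  have h4 : 0 < ∏ r : S.Blk, μ r ^ β r := Finset.prod_pos fun r _ => zpow_pos (hμ _) _
  have h5 : 0 ≤ ∏ r : S.Blk, θ ^ (β r - bs S.T (x + c) r).natAbs :=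
    Finset.prod_nonneg fun r _ => (pow_pos h0 _).le
  have h6 := h.ff_nonneg x β
  have h6' := h.ff_nonneg (x + c) β
  have h7 : 0 ≤ (θ⁻¹) ^ (tcost S.T c) * ∏ r : S.Blk, θ ^ (β r - bs S.T x r).natAbs := h5.trans h3
  have h8 := mul_le_mul h3 h2 h6' h7
  calc _ = (∏ r : S.Blk, θ ^ (β r - bs S.T (x + c) r).natAbs) * S.ff (x + c) β
        * ∏ r : S.Blk, μ r ^ β r := by ring
    _ ≤ _ := mul_le_mul_of_nonneg_right h8 h4.le
    _ = _ := by ring

/-- a nonthin element is not fat: kernel of `W` -/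
theorem Ok.wk_slope (h : S.Ok b) {θ : ℝ} (h0 : 0 < θ) (h1 : θ ≤ 1) (a : E) :
    Slope (S.wk θ a) (if S.T.par a = none then -Real.log θ else b a) := by
  by_cases ha : S.T.par a = none
  · rw [if_pos ha]
    have : S.wk θ a = fun t => θ ^ t.natAbs := by funext t; simp [wk, ha]
    rw [this]
    exact slope_theta h0 h1
  · rw [if_neg ha]
    have : S.wk θ a = S.κ a := by funext t; simp [wk, ha]
    rw [this]
    exact h.sl a ha

/-- the gauge is constant along fat edges -/
def Gauge (S : Side E) (μ : E → ℝ) : Prop :=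
  (∀ a, 0 < μ a) ∧ ∀ a b, S.T.par a = some b → μ a = μ b

theorem mon_eq {μ : E → ℝ} (hμ : Gauge S μ) (z : E → ℤ) :
    mon μ z = ∏ r : S.Blk, μ r ^ bs S.T z r := by
  classical
  have h1 : mon μ z = Real.exp (∑ c, (z c : ℝ) * Real.log (μ c)) := by
    unfold mon
    rw [Real.exp_sum]
    refine Finset.prod_congr rfl fun c _ => ?_
    rw [mul_comm, Real.exp_mul, Real.exp_log (hμ.1 c), Real.rpow_intCast]
  have h2 : ∑ c, (z c : ℝ) * Real.log (μ c)
      = ∑ a, (if S.T.par a = none then (bs S.T z a : ℝ) * Real.log (μ a) else 0) := by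
    rw [MP3.Forest.tele_all (F := S.T) (fun c => (z c : ℝ)) (fun c => Real.log (μ c))]
    refine Finset.sum_congr rfl fun a _ => ?_
    have h3 : (∑ c ∈ S.T.sub a, (z c : ℝ)) = (bs S.T z a : ℝ) := by unfold bs; push_cast; rfl
    rw [h3]
    rcases h : S.T.par a with _ | b
    · simp
    · simp [hμ.2 a b h]
  rw [h1, h2, ← Finset.sum_filter, Real.exp_sum,
    Finset.prod_subtype (p := fun a => S.T.par a = none) (univ.filter (fun a => S.T.par a = none))
      (fun a => by simp) (fun a => Real.exp ((bs S.T z a : ℝ) * Real.log (μ a)))]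
  refine Finset.prod_congr rfl fun r _ => ?_
  rw [mul_comm, Real.exp_mul, Real.exp_log (hμ.1 _), Real.rpow_intCast]

/-- **the marginal of the links** -/
theorem W_eq_sum_lw (θ : ℝ) {μ : E → ℝ} (hμ : Gauge S μ) (x : E → ℤ) (B : Finset (S.Blk → ℤ))
    (hB : ∀ z ∈ S.J, S.blk z ∈ B) : S.W θ μ x = ∑ β ∈ B, S.lw θ μ x β := by
  classical
  unfold W lw ff
  simp only [Finset.mul_sum]
  rw [Finset.sum_comm]
  refine Finset.sum_congr rfl fun z hz => ?_
  rw [Finset.sum_eq_single (S.blk z)]
  · have e1 : ∏ a, S.fk x (S.blk z) z a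
        = ∏ a, (if S.T.par a = none then 1 else S.κ a (bs S.T z a - bs S.T x a)) := by
      refine Finset.prod_congr rfl fun a _ => ?_
      unfold fk blk
      by_cases h : S.T.par a = none
      · simp [h]
      · simp [h]
    have e2 : ∏ a, S.wk θ a (bs S.T z a - bs S.T x a)
        = (∏ a, (if S.T.par a = none then θ ^ (bs S.T z a - bs S.T x a).natAbs else 1))
          * ∏ a, (if S.T.par a = none then 1 else S.κ a (bs S.T z a - bs S.T x a)) := by
      rw [← Finset.prod_mul_distrib]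
      refine Finset.prod_congr rfl fun a _ => ?_
      unfold wk
      by_cases h : S.T.par a = none
      · simp [h]
      · simp [h]
    have e3 : ∏ a, (if S.T.par a = none then θ ^ (bs S.T z a - bs S.T x a).natAbs else 1)
        = ∏ r : S.Blk, θ ^ (S.blk z r - bs S.T x r).natAbs := by
      rw [← Finset.prod_filter, Finset.prod_subtype (p := fun a => S.T.par a = none)
        (univ.filter (fun a => S.T.par a = none))
        (fun a => by simp) (fun a => θ ^ (bs S.T z a - bs S.T x a).natAbs)]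
      rfl
    rw [e1, e2, e3, mon_eq hμ]
    unfold blk
    ring
  · intro β _ hne
    obtain ⟨r, hr⟩ := Function.ne_iff.1 hne
    have : ∏ a, S.fk x β z a = 0 := by
      refine Finset.prod_eq_zero (mem_univ (r : E)) ?_
      unfold fk
      rw [dif_pos r.2, if_neg]
      intro h
      exact hr h.symm
    rw [this]
    ring
  · intro h; exact absurd (hB z hz) h

theorem W_pos (h : S.Ok b) {θ : ℝ} (h0 : 0 < θ) (h1 : θ ≤ 1) {μ : E → ℝ} (hμ : ∀ a, 0 < μ a)
    (hJ : ∃ z ∈ S.J, 0 < S.g z) (x : E → ℤ) : 0 < S.W θ μ x := by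
  obtain ⟨z, hz, hg⟩ := hJ
  unfold W
  have hp : ∀ z, 0 < ∏ a, S.wk θ a (bs S.T z a - bs S.T x a) := fun z =>
    Finset.prod_pos fun a _ => (h.wk_slope h0 h1 a).pos _
  refine Finset.sum_pos' (fun z _ => ?_) ⟨z, hz, ?_⟩
  · have := h.g0 z
    have := mon_pos hμ z
    have := hp z
    positivity
  · have := mon_pos hμ z
    have := hp z
    positivity

end Side

end Crest.Agent.R302.Inst
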