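/-
R302 (helper646), block T3: component representatives of the relation "some capacity is `≥ w₁`".

* `repL n w₁ M₁ M₂ : List ℕ` (labels), `PTF` closure `ptf_repL`;
* `relG m₁ m₂ w₁ : SimpleGraph (Fin n)`;
* `repL_lt`, `repL_reach`, `repL_const`, `repL_idem`;
* `gauge₁`, `gauge₂` : `Gauge` of helper532 for `μ e = 2 ^ (g (rep e))`;
* `NN_rep_le` : `Blk151.blk_le` for the representatives.
-/
import Crest.Agent.R302.GeoSpec725B
import Crest.Agent.R302.Inst532B
import Crest.Agent.R302.Blk151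

set_option autoImplicit false

namespace Crest.Agent.R302.Rep646

open Crest.Agent.Lib.PT Crest.Agent.R309.PTX Crest.Agent.Lib.PT.Arith
open Crest.Agent.R302.GeoProg Crest.Agent.R302.GeoSpec Crest.Agent.R302.TreeNN

/-! ### The program -/

/-- one relabelling step -/
def relab (n : ℕ) (w₁ : ℤ) (M₁ M₂ : List (List ℤ)) (st : List ℕ) (q : ℕ × ℕ) : List ℕ :=
  if w₁ ≤ (M₁.getD q.1 []).getD q.2 0 ∨ w₁ ≤ (M₂.getD q.1 []).getD q.2 0 then
    (List.range n).map (fun w => min n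
      (if st.getD w 0 = st.getD q.1 0 then st.getD q.2 0 else st.getD w 0))
  else st

/-- all pairs -/
def allP (n : ℕ) : List (ℕ × ℕ) :=
  (List.range n).flatMap (fun a => (List.range n).map (fun b => (a, b)))

/-- **labels of the components** -/
def repL (n : ℕ) (w₁ : ℤ) (M₁ M₂ : List (List ℤ)) : List ℕ :=
  (allP n).foldl (relab n w₁ M₁ M₂) (List.range n)

theorem mem_allP {n a b : ℕ} : (a, b) ∈ allP n ↔ a < n ∧ b < n := by
  unfold allP
  simp

/-! ### Closure -/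

section ptf

variable {γ : Type} [PTCode γ]

theorem ptf_relab {n : γ → ℕ} {w₁ : γ → ℤ} {M₁ M₂ : γ → List (List ℤ)} (hn : PTU n)
    (hw : PTF w₁) (h₁ : PTF M₁) (h₂ : PTF M₂) :
    PTF (fun p : γ × List ℕ × (ℕ × ℕ) =>
      relab (n p.1) (w₁ p.1) (M₁ p.1) (M₂ p.1) p.2.1 p.2.2) := by
  unfold relab
  pt_solve

theorem ptf_allP {n : γ → ℕ} (hn : PTU n) : PTF (fun c => allP (n c)) := by
  unfold allP
  pt_solve

theorem sz_labels {n : ℕ} (l : List ℕ) (hl : l.length = n) (h : ∀ x ∈ l, x ≤ n) :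
    sz l ≤ n * (2 * n + 1) := by
  have := sz_list_le (l := l) (m := n) (fun a ha => (sz_nat_le _).trans (h a ha))
  rw [hl] at this
  exact this

theorem ptf_repL {n : γ → ℕ} {w₁ : γ → ℤ} {M₁ M₂ : γ → List (List ℤ)} (hn : PTU n)
    (hw : PTF w₁) (h₁ : PTF M₁) (h₂ : PTF M₂) :
    PTF (fun c => repL (n c) (w₁ c) (M₁ c) (M₂ c)) := by
  unfold repL
  refine PTF.foldl_bdd (ptf_allP hn) (ptf_relab hn hw h₁ h₂) (PTF.range hn)
    (G := fun c => n c * (2 * n c + 1)) ?_ ?_ ?_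
  · have h2 := hn.pb
    fun_prop
  · intro c b q _ hb
    unfold relab
    split_ifs
    · refine sz_labels _ (by simp) ?_
      intro x hx
      obtain ⟨w, _, rfl⟩ := List.mem_map.1 hx
      exact min_le_left _ _
    · exact hb
  · intro c
    refine sz_labels _ (by simp) ?_
    intro x hx
    exact (List.mem_range.1 hx).le

end ptf

/-! ### The specification -/

section spec

variable {n : ℕ}

/-- the relation: a capacity of one of the sides is at least `w₁` -/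
def relG (m₁ m₂ : Fin n → Fin n → ℤ) (w₁ : ℤ) : SimpleGraph (Fin n) :=
  SimpleGraph.fromRel (fun a b => w₁ ≤ m₁ a b ∨ w₁ ≤ m₂ a b)

theorem relG_adj {m₁ m₂ : Fin n → Fin n → ℤ} {w₁ : ℤ} {a b : Fin n} (hab : a ≠ b)
    (h : w₁ ≤ m₁ a b ∨ w₁ ≤ m₂ a b) : (relG m₁ m₂ w₁).Adj a b :=
  (SimpleGraph.fromRel_adj _ _ _).2 ⟨hab, Or.inl h⟩

/-- for symmetric capacities adjacency means exactly one capacity `≥ w₁` -/
theorem relG_ge {m₁ m₂ : Fin n → Fin n → ℤ} {w₁ : ℤ} (hs₁ : ∀ a b, m₁ a b = m₁ b a)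
    (hs₂ : ∀ a b, m₂ a b = m₂ b a) {a b : Fin n} (h : (relG m₁ m₂ w₁).Adj a b) :
    w₁ ≤ m₁ a b ∨ w₁ ≤ m₂ a b := by
  rcases ((SimpleGraph.fromRel_adj _ _ _).1 h).2 with h | h
  · exact h
  · rw [hs₁ a b, hs₂ a b]; exact h

/-- the state of the labels represents a map into the vertices which stays inside the
components -/
structure Inv (G : SimpleGraph (Fin n)) (st : List ℕ) : Prop where
  len : st.length = n
  lt : ∀ u : Fin n, st.getD u 0 < n
  reach : ∀ u v : Fin n, st.getD u 0 = v → G.Reachable u v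

theorem inv_range (G : SimpleGraph (Fin n)) : Inv G (List.range n) := by
  have h : ∀ u : Fin n, (List.range n).getD u 0 = u := by
    intro u
    simp [List.getD_eq_getElem?_getD, u.2]
  refine ⟨by simp, fun u => ?_, fun u v huv => ?_⟩
  · rw [h]; exact u.2
  · rw [h] at huv
    rw [Fin.ext huv]

theorem relab_getD {w₁ : ℤ} {M₁ M₂ : List (List ℤ)} {st : List ℕ} {q : ℕ × ℕ}
    (hlt : ∀ u : Fin n, st.getD u 0 < n) (hq2 : q.2 < n)
    (h : w₁ ≤ (M₁.getD q.1 []).getD q.2 0 ∨ w₁ ≤ (M₂.getD q.1 []).getD q.2 0) (u : Fin n) :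
    (relab n w₁ M₁ M₂ st q).getD u 0 =
      if st.getD u 0 = st.getD q.1 0 then st.getD q.2 0 else st.getD u 0 := by
  unfold relab
  rw [if_pos h, getD_map_range n _ _ u.2]
  apply min_eq_right
  split_ifs
  · exact (hlt ⟨q.2, hq2⟩).le
  · exact (hlt u).le

theorem inv_relab {m₁ m₂ : Fin n → Fin n → ℤ} {w₁ : ℤ} {M₁ M₂ : List (List ℤ)}
    (hM₁ : ∀ a b : Fin n, (M₁.getD a []).getD b 0 = m₁ a b)
    (hM₂ : ∀ a b : Fin n, (M₂.getD a []).getD b 0 = m₂ a b) {st : List ℕ}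
    (hst : Inv (relG m₁ m₂ w₁) st) {q : ℕ × ℕ} (hq1 : q.1 < n) (hq2 : q.2 < n) :
    Inv (relG m₁ m₂ w₁) (relab n w₁ M₁ M₂ st q) := by
  by_cases h : w₁ ≤ (M₁.getD q.1 []).getD q.2 0 ∨ w₁ ≤ (M₂.getD q.1 []).getD q.2 0
  · have hg := relab_getD hst.lt hq2 h
    set a : Fin n := ⟨q.1, hq1⟩ with ha
    set b : Fin n := ⟨q.2, hq2⟩ with hb
    have hab : (relG m₁ m₂ w₁).Reachable a b := by
      by_cases e : a = b
      · rw [e]
      · apply SimpleGraph.Adj.reachable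
        apply relG_adj e
        rw [← hM₁ a b, ← hM₂ a b]
        exact h
    refine ⟨?_, fun u => ?_, fun u v huv => ?_⟩
    · unfold relab; rw [if_pos h]; simp
    · rw [hg]
      split_ifs
      · exact hst.lt b
      · exact hst.lt u
    · rw [hg] at huv
      split_ifs at huv with h1
      · -- `u ~ a ~ b ~ v`
        have e1 := hst.reach u ⟨st.getD u 0, hst.lt u⟩ rfl
        have e2 := hst.reach a ⟨st.getD u 0, hst.lt u⟩ h1.symm
        have e3 := hst.reach b v huv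
        exact ((e1.trans e2.symm).trans hab).trans e3
      · exact hst.reach u v huv
  · unfold relab
    rw [if_neg h]
    exact hst

/-- **Main lemma**: the labels stay in the components and are constant along processed pairs. -/
theorem foldl_spec {m₁ m₂ : Fin n → Fin n → ℤ} {w₁ : ℤ} {M₁ M₂ : List (List ℤ)}
    (hM₁ : ∀ a b : Fin n, (M₁.getD a []).getD b 0 = m₁ a b)
    (hM₂ : ∀ a b : Fin n, (M₂.getD a []).getD b 0 = m₂ a b) (L : List (ℕ × ℕ))
    (hL : ∀ q ∈ L, q.1 < n ∧ q.2 < n) :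
    Inv (relG m₁ m₂ w₁) (L.foldl (relab n w₁ M₁ M₂) (List.range n)) ∧
      ∀ a b : Fin n, ((a : ℕ), (b : ℕ)) ∈ L → (w₁ ≤ m₁ a b ∨ w₁ ≤ m₂ a b) →
        (L.foldl (relab n w₁ M₁ M₂) (List.range n)).getD a 0 =
          (L.foldl (relab n w₁ M₁ M₂) (List.range n)).getD b 0 := by
  induction L using List.reverseRecOn with
  | nil => exact ⟨inv_range _, fun a b h => absurd h (by simp)⟩
  | append_singleton L q ih =>
    obtain ⟨ih1, ih2⟩ := ih (fun q hq => hL q (by simp [hq]))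
    obtain ⟨hq1, hq2⟩ := hL q (by simp)
    rw [List.foldl_append, List.foldl_cons, List.foldl_nil]
    set st := L.foldl (relab n w₁ M₁ M₂) (List.range n) with hst
    refine ⟨inv_relab hM₁ hM₂ ih1 hq1 hq2, ?_⟩
    intro a b hmem hab
    by_cases h : w₁ ≤ (M₁.getD q.1 []).getD q.2 0 ∨ w₁ ≤ (M₂.getD q.1 []).getD q.2 0
    · rw [relab_getD ih1.lt hq2 h, relab_getD ih1.lt hq2 h]
      rcases List.mem_append.1 hmem with hm | hm
      · rw [ih2 a b hm hab]
      · rw [List.mem_singleton] at hm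
        rw [← hm]
        dsimp only
        rw [if_pos rfl]
        split_ifs <;> rfl
    · rcases List.mem_append.1 hmem with hm | hm
      · unfold relab
        rw [if_neg h]
        exact ih2 a b hm hab
      · rw [List.mem_singleton] at hm
        exfalso
        apply h
        rw [← hm]
        dsimp only
        rw [hM₁ a b, hM₂ a b]
        exact hab

variable {m₁ m₂ : Fin n → Fin n → ℤ} {w₁ : ℤ} {M₁ M₂ : List (List ℤ)}

theorem repL_spec (hM₁ : ∀ a b : Fin n, (M₁.getD a []).getD b 0 = m₁ a b)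
    (hM₂ : ∀ a b : Fin n, (M₂.getD a []).getD b 0 = m₂ a b) :
    Inv (relG m₁ m₂ w₁) (repL n w₁ M₁ M₂) ∧
      ∀ a b : Fin n, (relG m₁ m₂ w₁).Adj a b →
        (repL n w₁ M₁ M₂).getD a 0 = (repL n w₁ M₁ M₂).getD b 0 := by
  have h := foldl_spec hM₁ hM₂ (w₁ := w₁) (allP n) (by
    rintro ⟨a, b⟩ hq
    exact mem_allP.1 hq)
  refine ⟨h.1, fun a b hab => ?_⟩
  rcases ((SimpleGraph.fromRel_adj _ _ _).1 hab).2 with h' | h'
  · exact h.2 a b (mem_allP.2 ⟨a.2, b.2⟩) h'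
  · exact (h.2 b a (mem_allP.2 ⟨b.2, a.2⟩) h').symm



/-- **the representative of `u`** as an element of `Fin n` -/
def rep (hM₁ : ∀ a b : Fin n, (M₁.getD a []).getD b 0 = m₁ a b)
    (hM₂ : ∀ a b : Fin n, (M₂.getD a []).getD b 0 = m₂ a b) (w₁ : ℤ) (u : Fin n) : Fin n :=
  ⟨(repL n w₁ M₁ M₂).getD u 0, (repL_spec hM₁ hM₂).1.lt u⟩

section

variable (hM₁ : ∀ a b : Fin n, (M₁.getD a []).getD b 0 = m₁ a b)
    (hM₂ : ∀ a b : Fin n, (M₂.getD a []).getD b 0 = m₂ a b)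


include hM₁ hM₂

/-- `rep_lt` of `ChainOK` -/
theorem repL_lt {u : ℕ} (hu : u < n) : (repL n w₁ M₁ M₂).getD u 0 < n :=
  (repL_spec (w₁ := w₁) hM₁ hM₂).1.lt ⟨u, hu⟩

theorem rep_reach (u : Fin n) : (relG m₁ m₂ w₁).Reachable u (rep hM₁ hM₂ w₁ u) :=
  (repL_spec (w₁ := w₁) hM₁ hM₂).1.reach u _ rfl

theorem rep_const {u v : Fin n} (h : (relG m₁ m₂ w₁).Reachable u v) :
    rep hM₁ hM₂ w₁ u = rep hM₁ hM₂ w₁ v := by
  obtain ⟨p⟩ := h
  induction p with
  | nil => rfl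
  | cons hadj p ih =>
    rw [← ih]
    exact Fin.ext ((repL_spec (w₁ := w₁) hM₁ hM₂).2 _ _ hadj)

theorem rep_rep (u : Fin n) : rep hM₁ hM₂ w₁ (rep hM₁ hM₂ w₁ u) = rep hM₁ hM₂ w₁ u :=
  (rep_const hM₁ hM₂ (rep_reach hM₁ hM₂ u)).symm

theorem repL_idem {u : ℕ} (hu : u < n) :
    (repL n w₁ M₁ M₂).getD ((repL n w₁ M₁ M₂).getD u 0) 0 = (repL n w₁ M₁ M₂).getD u 0 :=
  congrArg Fin.val (rep_rep hM₁ hM₂ (w₁ := w₁) ⟨u, hu⟩)



/-- constant on the fat edges of the first forest -/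
theorem rep_par₁ {a b : Fin n} (h : (nnForest m₁ w₁).par a = some b) :
    rep hM₁ hM₂ w₁ a = rep hM₁ hM₂ w₁ b := by
  have hlt := (nn_nnForest m₁ w₁).lt a b h
  exact rep_const hM₁ hM₂ (SimpleGraph.Adj.reachable
    (relG_adj (ne_of_gt hlt) (Or.inl ((nn_nnForest m₁ w₁).ge a b h))))

/-- constant on the fat edges of the second forest -/
theorem rep_par₂ {a b : Fin n} (h : (nnForest m₂ w₁).par a = some b) :
    rep hM₁ hM₂ w₁ a = rep hM₁ hM₂ w₁ b := by
  have hlt := (nn_nnForest m₂ w₁).lt a b h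
  exact rep_const hM₁ hM₂ (SimpleGraph.Adj.reachable
    (relG_adj (ne_of_gt hlt) (Or.inr ((nn_nnForest m₂ w₁).ge a b h))))



end

/-! ### The spread gauge list -/







end spec

end Crest.Agent.R302.Rep646
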