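import Crest.Agent.R302.Smp272
import Crest.Agent.R302.Const302
import Crest.Agent.R302.Prog166
import Crest.Agent.R302.Rep646
import Crest.Agent.R302.Conc725

-- ▼ part R302/Num272A
section

/-!
# R302, numbers A (helper272): the top level error

`L = 46 s`, `m = 4 s` (`aE = 2 s`), `D = X ^ 23`, `eE = X ^ (-44)`, `eM = X ^ (-60)` give total error `≤ 1/m`.
-/

set_option autoImplicit false

namespace Crest.Agent.R302.Smp

open Crest.Agent.R302.Cst Crest.Agent.R302.AnnBox Crest.Agent.R302.Top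

/-- the scale exponent of an input -/
def ss (s : SIn) : ℕ := sC (sn s) (sR s) (sm s)

/-- the scale of an input -/
def XX (s : SIn) : ℕ := XC (sn s) (sR s) (sm s)

theorem XX_eq (s : SIn) : XX s = 2 ^ ss s := rfl

theorem XX_ge (s : SIn) : 2 ^ 16 ≤ XX s := two16_le

theorem sn_le (s : SIn) : sn s + 1 ≤ XX s := succ_n_le

theorem sm_le (s : SIn) : sm s + 1 ≤ XX s := succ_m_le

theorem two_pow_mul_ss (s : SIn) (c : ℕ) : 2 ^ (c * ss s) = XX s ^ c := by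
  rw [XX_eq, ← pow_mul, mul_comm]

theorem clog_sR_le (s : SIn) : Nat.clog 2 (sR s) ≤ XX s := by
  have h1 : sR s ≤ 2 ^ Nat.size (sR s) := (Nat.lt_size_self (sR s)).le
  have h2 : Nat.clog 2 (sR s) ≤ Nat.size (sR s) := Nat.clog_le_of_le_pow h1
  have h3 : Nat.size (sR s) + 1 ≤ XX s := succ_size_le
  omega

/-- number of stages -/
theorem T_le {Ω : Type*} (P : Prg Ω) (s : SIn) (hL : P.pL s = 46 * ss s) : P.T s ≤ XX s ^ 15 := by
  unfold Prg.T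
  refine nStages_le (XX_ge s) (sn_le s) ?_ (clog_sR_le s)
  rw [hL]
  exact c_mul_s_le (by norm_num)

theorem K_eq {Ω : Type*} (P : Prg Ω) (s : SIn) (hm : P.pm s = 4 * ss s) (hD : P.pD s = XX s ^ 23) :
    P.K s = XX s ^ 27 := by
  unfold Prg.K
  rw [hm, hD, two_pow_mul_ss, ← pow_add]

theorem pop_le {Ω : Type*} (P : Prg Ω) (s : SIn) (hL : P.pL s = 46 * ss s) (hm : P.pm s = 4 * ss s)
    (hD : P.pD s = XX s ^ 23) : P.pop s ≤ XX s ^ 43 := by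
  unfold Prg.pop
  rw [K_eq P s hm hD]
  have hX := XX_ge s
  have h1 := T_le P s hL
  have h2 : 1 ≤ XX s ^ 27 := Nat.one_le_pow _ _ (by omega)
  have h3 : P.T s * (1 + XX s ^ 27) ≤ 2 * XX s ^ 42 := by
    calc P.T s * (1 + XX s ^ 27) ≤ XX s ^ 15 * (2 * XX s ^ 27) := Nat.mul_le_mul h1 (by omega)
      _ = 2 * XX s ^ 42 := by ring
  have h4 : 1 ≤ XX s ^ 42 := Nat.one_le_pow _ _ (by omega)
  have h5 : 3 * XX s ^ 42 ≤ XX s ^ 43 := c_mul_pw hX (by norm_num)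
  omega

/-- estimator error -/
noncomputable def eE0 (s : SIn) : ℝ := 1 / (XX s : ℝ) ^ 44

/-- mover error -/
noncomputable def eM0 (s : SIn) : ℝ := 1 / (XX s : ℝ) ^ 60

theorem aux1 {x n : ℝ} (hX : 65536 ≤ x) (hn : n + 1 ≤ x) : 8 * n * (1 / x ^ 46) ≤ 1 := by
  have hX0 : (0 : ℝ) < x := by linarith
  have h1 : x ^ 46 = x * x * x ^ 44 := by ring
  have h2 : (1 : ℝ) ≤ x ^ 44 := one_le_pow₀ (by linarith)
  rw [mul_one_div, div_le_one (by positivity), h1]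
  have h3 : 8 * n ≤ x * x := by nlinarith
  have h4 : x * x * 1 ≤ x * x * x ^ 44 := mul_le_mul_of_nonneg_left h2 (by positivity)
  linarith

theorem aux2 {X n m T pop : ℝ} (hX : 65536 ≤ X) (hn0 : 0 ≤ n) (hn : n ≤ X) (hm1 : 1 ≤ m) (hm : m ≤ X)
    (hT : T ≤ X ^ 15) (hp0 : 0 ≤ pop) (hpop : pop ≤ X ^ 43) :
    T * (X ^ 27 * (1 / X ^ 44) + 16 * n ^ 2 * X ^ 4 / X ^ 23 + pop * (1 / X ^ 60)) +
      pop * (8 * n * (1 / X ^ 46)) ≤ 1 / m := by
  have hX0 : (0 : ℝ) < X := by linarith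
  have t1 : X ^ 27 * (1 / X ^ 44) = 1 / X ^ 17 := by field_simp
  have t2 : 16 * n ^ 2 * X ^ 4 / X ^ 23 ≤ 16 / X ^ 17 := by
    rw [div_le_div_iff₀ (by positivity) (by positivity)]
    have : n ^ 2 ≤ X ^ 2 := pow_le_pow_left₀ hn0 hn 2
    calc 16 * n ^ 2 * X ^ 4 * X ^ 17 ≤ 16 * X ^ 2 * X ^ 4 * X ^ 17 := by gcongr
      _ = 16 * X ^ 23 := by ring
  have t3 : pop * (1 / X ^ 60) ≤ 1 / X ^ 17 := by
    rw [mul_one_div, div_le_div_iff₀ (by positivity) (by positivity), one_mul]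
    calc pop * X ^ 17 ≤ X ^ 43 * X ^ 17 := by gcongr
      _ = X ^ 60 := by ring
  have t4 : pop * (8 * n * (1 / X ^ 46)) ≤ 8 / X ^ 2 := by
    have : pop * (8 * n * (1 / X ^ 46)) = (pop * (8 * n)) / X ^ 46 := by ring
    rw [this, div_le_div_iff₀ (by positivity) (by positivity)]
    calc pop * (8 * n) * X ^ 2 ≤ X ^ 43 * (8 * X) * X ^ 2 := by gcongr
      _ = 8 * X ^ 46 := by ring
  have t5 : T * (X ^ 27 * (1 / X ^ 44) + 16 * n ^ 2 * X ^ 4 / X ^ 23 + pop * (1 / X ^ 60)) ≤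
      18 / X ^ 2 := by
    have h1 : X ^ 27 * (1 / X ^ 44) + 16 * n ^ 2 * X ^ 4 / X ^ 23 + pop * (1 / X ^ 60) ≤
        18 / X ^ 17 := by
      rw [t1]
      have : (18 : ℝ) / X ^ 17 = 1 / X ^ 17 + 16 / X ^ 17 + 1 / X ^ 17 := by ring
      linarith
    have h2 : 0 ≤ X ^ 27 * (1 / X ^ 44) + 16 * n ^ 2 * X ^ 4 / X ^ 23 + pop * (1 / X ^ 60) := by
      positivity
    calc _ ≤ X ^ 15 * (18 / X ^ 17) := mul_le_mul hT h1 h2 (by positivity)
      _ = 18 / X ^ 2 := by field_simp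
  have t6 : 26 / X ^ 2 ≤ 1 / X := by
    rw [div_le_div_iff₀ (by positivity) hX0]
    nlinarith
  have t7 : 1 / X ≤ 1 / m := one_div_le_one_div_of_le (by linarith) hm
  have t8 : (26 : ℝ) / X ^ 2 = 18 / X ^ 2 + 8 / X ^ 2 := by ring
  linarith

theorem XX_geR (s : SIn) : (65536 : ℝ) ≤ (XX s : ℝ) := by
  have := XX_ge s
  have h : (65536 : ℕ) ≤ XX s := by simpa using this
  exact_mod_cast h

theorem half_pow (s : SIn) (c : ℕ) : ((1 : ℝ) / 2) ^ (c * ss s) = 1 / (XX s : ℝ) ^ c := by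
  rw [one_div_pow]
  congr 1
  exact_mod_cast two_pow_mul_ss s c

theorem hL0 {Ω : Type*} (P : Prg Ω) (s : SIn) (hL : P.pL s = 46 * ss s) :
    1 ≤ P.pL s ∧ 8 * (sn s : ℝ) * (1 / 2) ^ P.pL s ≤ 1 := by
  have hs : 20 ≤ ss s := sC_ge
  refine ⟨by rw [hL]; omega, ?_⟩
  rw [hL, half_pow]
  exact aux1 (XX_geR s) (by exact_mod_cast sn_le s)

theorem err_le {Ω : Type*} (P : Prg Ω) (s : SIn) (hL : P.pL s = 46 * ss s) (hm : P.pm s = 4 * ss s)
    (hD : P.pD s = XX s ^ 23) (m1 : 1 ≤ sm s) : err P eE0 eM0 s ≤ 1 / sm s := by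
  have hT : (P.T s : ℝ) ≤ (XX s : ℝ) ^ 15 := by exact_mod_cast T_le P s hL
  have hpop : (P.pop s : ℝ) ≤ (XX s : ℝ) ^ 43 := by exact_mod_cast pop_le P s hL hm hD
  have hK : (P.K s : ℝ) = (XX s : ℝ) ^ 27 := by rw [K_eq P s hm hD]; push_cast; ring
  have hn : (sn s : ℝ) ≤ (XX s : ℝ) := by exact_mod_cast (Nat.le_succ _).trans (sn_le s)
  have hmm : (sm s : ℝ) ≤ (XX s : ℝ) := by exact_mod_cast (Nat.le_succ _).trans (sm_le s)
  have hm1 : (1 : ℝ) ≤ sm s := by exact_mod_cast m1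
  have e2 : (2 : ℝ) ^ P.pm s = (XX s : ℝ) ^ 4 := by
    rw [hm]; exact_mod_cast two_pow_mul_ss s 4
  have e3 : (P.pD s : ℝ) = (XX s : ℝ) ^ 23 := by rw [hD]; push_cast; ring
  unfold err
  rw [e2, e3, hK, hL, half_pow]
  exact aux2 (XX_geR s) (Nat.cast_nonneg _) hn hm1 hmm hT (Nat.cast_nonneg _) hpop

theorem eE0_nonneg (s : SIn) : 0 ≤ eE0 s := by unfold eE0; positivity
theorem eM0_nonneg (s : SIn) : 0 ≤ eM0 s := by unfold eM0; positivity

end Crest.Agent.R302.Smp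
end

-- ▼ part R302/CPar272

/-!
# R302: THE CONCRETE PARAMETERS (helper272)

`X = 2 ^ s`, `s = ss s`.  `Lam = X ^ 75`, `P = X ^ 76`, `w₁ = X ^ 112`, `G = X ^ 18`, `h₀ = X ^ 6`, `Kw = X ^ 4`,
`A = X ^ 1500`, `δ = X ^ (-1630)`, `T = X ^ 3135`, `mx = 2 ^ (4 X)`.
-/

set_option autoImplicit false

namespace Crest.Agent.R302.Prog

open Crest.Agent.R302.Smp Crest.Agent.R302.Top Crest.Agent.R302.Cst

/-- **the constants of the program** -/
def cPar : Par where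
  L s := 46 * ss s
  aE s := 2 * ss s
  aM s := 33 * ss s
  D s := XX s ^ 23
  w₁ s := XX s ^ 112
  dk s := XX s ^ 75
  dl s := sn s * (2 * sn s + 1) ^ 2 * XX s ^ 76
  qa s := 3 * ss s
  qb s := XX s ^ 2
  M s := 2 ^ (5 * XX s)
  Lb s := 2 ^ (5 * XX s)
  N s := 3210 * ss s
  B s := XX s ^ 4
  kmax s := 3210 * ss s
  TE s := XX s ^ 3135
  TM s := XX s ^ 3135
  rp := Rep646.repL

/-- the numerical parameters of a stage record (`a` = cost exponent of a link) -/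
def cC (s : SIn) (a : ℕ) : Conc.Par where
  w₁ := (cPar.w₁ s : ℤ)
  dk := cPar.dk s
  dl := cPar.dl s
  a := a
  M := cPar.M s
  Lb := cPar.Lb s
  qa := cPar.qa s
  qb := cPar.qb s

end Crest.Agent.R302.Prog
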