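import Crest.Agent.R302.Conc725
import Crest.Agent.R302.Smp272
import Crest.Agent.R302.Prog166

-- ▼ part R302/Conc725B
section

set_option autoImplicit false

namespace Crest.Agent.R302.Conc

open Finset Crest.Agent.R302.Inst Crest.Agent.R302.Stage Crest.Agent.R302.GeoProg
open Crest.Agent.R302.GeoSpec Crest.Agent.R302.TreeNN Crest.Agent.R302.StageL
open Crest.Agent.R302.Facet Crest.Agent.R302.AnnBox Crest.Agent.R302.EDM
open Crest.Agent.R302.Smp Crest.Agent.R302.Top Crest.Polymatroid Crest.Agent.R302.ORAM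

variable {n : ℕ}

/-! ### capacities depend only on the integer points -/

/-- the exchange `x + θ (e_a - e_b)` is possible iff `θ ≤ cap` -/
theorem le_cap_iff {r : Finset (Fin n) → ℤ} {R : ℤ} {x : Fin n → ℤ} (hx : MemJ r R x)
    {a b : Fin n} (hab : a ≠ b) {θ : ℤ} (hθ : 0 ≤ θ) :
    θ ≤ cap r x a b ↔ MemJ r R (fun v => x v + θ * hs a b v) := by
  have hsum : ∀ A : Finset (Fin n), ∑ v ∈ A, (x v + θ * hs a b v) =
      ∑ v ∈ A, x v + θ * ((if a ∈ A then 1 else 0) - if b ∈ A then 1 else 0) := by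
    intro A
    rw [sum_add_distrib, ← mul_sum, hs_sum]
  constructor
  · intro h
    refine ⟨fun A => ?_, ?_⟩
    · rw [hsum]
      have h1 := hx.1 A
      by_cases ha : a ∈ A
      · by_cases hb : b ∈ A
        · rw [if_pos ha, if_pos hb]; linarith
        · have h2 := cap_le (r := r) (x := x) ha hb
          unfold slk at h2
          rw [if_pos ha, if_neg hb]
          linarith
      · rw [if_neg ha]
        by_cases hb : b ∈ A
        · rw [if_pos hb]; linarith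
        · rw [if_neg hb]; linarith
    · have := hsum univ
      rw [this, hx.2]
      simp
  · intro h
    obtain ⟨A, ha, hb, hA⟩ := exists_cap (r := r) (x := x) hab
    rw [← hA]
    have h1 := h.1 A
    rw [hsum, if_pos ha, if_neg hb] at h1
    unfold slk
    linarith

theorem cap_nonneg' {r : Finset (Fin n) → ℤ} {R : ℤ} {x : Fin n → ℤ} (hx : MemJ r R x)
    {a b : Fin n} (hab : a ≠ b) : 0 ≤ cap r x a b := by
  obtain ⟨A, _, _, hA⟩ := exists_cap (r := r) (x := x) hab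
  rw [← hA]
  exact slk_nonneg hx A

theorem cap_congr {r r' : Finset (Fin n) → ℤ} {R : ℤ} (h : ∀ y, MemJ r R y ↔ MemJ r' R y)
    {x : Fin n → ℤ} (hx : MemJ r R x) (a b : Fin n) : cap r x a b = cap r' x a b := by
  by_cases hab : a = b
  · subst hab
    have : ¬ (sep a a).Nonempty := by
      rintro ⟨A, hA⟩
      rw [mem_sep] at hA
      exact hA.2 hA.1
    unfold cap
    rw [dif_neg this, dif_neg this]
  · have hx' := (h x).1 hx
    apply le_antisymm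
    · rw [le_cap_iff hx' hab (cap_nonneg' hx hab), ← h, ← le_cap_iff hx hab (cap_nonneg' hx hab)]
    · rw [le_cap_iff hx hab (cap_nonneg' hx' hab), h, ← le_cap_iff hx' hab (cap_nonneg' hx' hab)]

theorem mcap_congr {r r' : Finset (Fin n) → ℤ} {R : ℤ} (h : ∀ y, MemJ r R y ↔ MemJ r' R y)
    {x : Fin n → ℤ} (hx : MemJ r R x) : mcap r x = mcap r' x := by
  funext a b
  unfold mcap
  rw [cap_congr h hx, cap_congr h hx]

/-! ### the program matrix -/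

theorem eq_ofMat {M : List (List ℤ)} {m : Fin n → Fin n → ℤ} (h0 : M.length = n)
    (h1 : ∀ a : Fin n, (M.getD a []).length = n)
    (h : ∀ a b : Fin n, (M.getD a []).getD b 0 = m a b) : M = ofMat m := by
  unfold ofMat
  apply List.ext_getElem
  · simp [h0]
  · intro i hi1 hi2
    have hi : i < n := by rw [← h0]; exact hi1
    rw [List.getElem_ofFn]
    have e1 : M[i] = M.getD (⟨i, hi⟩ : Fin n) [] := (List.getD_eq_getElem _ _ hi1).symm
    rw [e1]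
    apply List.ext_getElem
    · rw [h1]; simp
    · intro j hj1 hj2
      have hj : j < n := by rw [h1] at hj1; exact hj1
      rw [List.getElem_ofFn]
      have e2 := h ⟨i, hi⟩ ⟨j, hj⟩
      rw [List.getD_eq_getElem _ _ hj1] at e2
      exact e2

theorem matBL_eq_ofMat {K : ℕ} {r : List Bool → ℤ} {ρ : Finset (Fin n) → ℤ} (h : RepL n r ρ)
    {R : ℤ} (hr : SubM ρ R) (hK : ∀ A, |ρ A| ≤ K) {lo hi x : List ℤ}
    (hx : MemJ ρ R (vecL n x))
    (hbox : ∀ i, vecL n lo i ≤ vecL n x i ∧ vecL n x i ≤ vecL n hi i) :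
    matBL n K r lo hi x = ofMat (mcap (boxR (vecL n lo) (vecL n hi) ρ) (vecL n x)) := by
  refine eq_ofMat ?_ ?_ (matBL_getD h hr hK hx hbox)
  · simp [matBL]
  · intro a
    unfold matBL
    rw [getD_map_range n _ _ a.2]
    simp

theorem vecL_eq_toV (l : List ℤ) : vecL n l = AnnData.toV n l := rfl

/-- one side of an instance: the matrix of the program at stage `t` -/
theorem matBL_stage {K : ℕ} {q : List Bool → ℤ} {ρ : Finset (Fin n) → ℤ} (h : RepL n q ρ)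
    {R : ℤ} (hr : SubM ρ R) (hK : ∀ A, |ρ A| ≤ K) {lo hi : Fin n → ℤ} {x : List ℤ}
    (hx : MemJ ρ R (vecL n x)) (hbox : ∀ i, lo i ≤ vecL n x i ∧ vecL n x i ≤ hi i) (d : ℕ) :
    matBL n K q (loL n d x (List.ofFn lo)) (hiL n d x (List.ofFn hi)) x =
      ofMat (mcap (boxR (fun v => vecL n x v - d) (fun v => vecL n x v + d) (boxR lo hi ρ))
        (vecL n x)) := by
  have e1 : vecL n (loL n d x (List.ofFn lo)) = fun v => max (lo v) (vecL n x v - d) := by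
    rw [vecL_eq_toV, toV_loL, AnnData.toV_ofFn]; rfl
  have e2 : vecL n (hiL n d x (List.ofFn hi)) = fun v => min (hi v) (vecL n x v + d) := by
    rw [vecL_eq_toV, toV_hiL, AnnData.toV_ofFn]; rfl
  have hb : ∀ i, vecL n (loL n d x (List.ofFn lo)) i ≤ vecL n x i ∧
      vecL n x i ≤ vecL n (hiL n d x (List.ofFn hi)) i := by
    intro i
    rw [e1, e2]
    have := hbox i
    constructor
    · exact max_le this.1 (by omega)
    · exact le_min this.2 (by omega)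
  rw [matBL_eq_ofMat h hr hK hx hb]
  congr 1
  refine mcap_congr (R := R) (fun y => ?_) ?_
  · rw [memJ_boxR hr, memJ_stage_box hr hx hbox, e1, e2]
  · rw [memJ_boxR hr]
    exact ⟨hx, hb⟩

/-! ### instances -/

section inst

variable {Ω : Type*} {P : Prg Ω} {R m : ℕ} {r₁ r₂ : Finset (Fin n) → ℕ} {lo hi : Fin n → ℤ}
  {𝒜 : AnnData n}

theorem IsInst.x₀_box (h : IsInst P n R m r₁ r₂ lo hi 𝒜) (v : Fin n) :
    lo v ≤ 𝒜.x₀ v ∧ 𝒜.x₀ v ≤ hi v := by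
  have h1 := 𝒜.mem₁
  rw [h.A₁, h.AR, memJ_boxR (zr_subM h.pr₁ h.e₁)] at h1
  exact h1.2 v

theorem IsInst.x₀_mem₁ (h : IsInst P n R m r₁ r₂ lo hi 𝒜) : MemJ (zr r₁) R 𝒜.x₀ := by
  have h1 := 𝒜.mem₁
  rw [h.A₁, h.AR, memJ_boxR (zr_subM h.pr₁ h.e₁)] at h1
  exact h1.1

theorem IsInst.x₀_mem₂ (h : IsInst P n R m r₁ r₂ lo hi 𝒜) : MemJ (zr r₂) R 𝒜.x₀ := by
  have h1 := 𝒜.mem₂
  rw [h.A₂, h.AR, memJ_boxR (zr_subM h.pr₂ h.e₂)] at h1
  exact h1.1

/-- **matrix of side 1 at stage `t`** -/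
theorem IsInst.mat₁ (h : IsInst P n R m r₁ r₂ lo hi 𝒜) (t : ℕ) :
    matBL n R (fun l => (rq r₁ r₂ false l : ℤ))
      (loL n (stQ n 𝒜.L t) (cen (rq r₁ r₂) (inp n R m lo hi)) (List.ofFn lo))
      (hiL n (stQ n 𝒜.L t) (cen (rq r₁ r₂) (inp n R m lo hi)) (List.ofFn hi))
      (cen (rq r₁ r₂) (inp n R m lo hi)) = ofMat (mA 𝒜 𝒜.r₁ t) := by
  have hr1 := repL r₁ r₂ false
  simp only [Bool.false_eq_true, if_false] at hr1
  have hx := IsInst.x₀_mem₁ h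
  have hb := IsInst.x₀_box h
  rw [h.Ax] at hx hb
  rw [matBL_stage hr1 (zr_subM h.pr₁ h.e₁) (zr_abs h.pr₁ h.e₁) hx hb]
  unfold mA AnnData.stR
  rw [h.A₁, h.Ax]

/-- **matrix of side 2 at stage `t`** -/
theorem IsInst.mat₂ (h : IsInst P n R m r₁ r₂ lo hi 𝒜) (t : ℕ) :
    matBL n R (fun l => (rq r₁ r₂ true l : ℤ))
      (loL n (stQ n 𝒜.L t) (cen (rq r₁ r₂) (inp n R m lo hi)) (List.ofFn lo))
      (hiL n (stQ n 𝒜.L t) (cen (rq r₁ r₂) (inp n R m lo hi)) (List.ofFn hi))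
      (cen (rq r₁ r₂) (inp n R m lo hi)) = ofMat (mA 𝒜 𝒜.r₂ t) := by
  have hr2 := repL r₁ r₂ true
  simp only [if_true] at hr2
  have hx := IsInst.x₀_mem₂ h
  have hb := IsInst.x₀_box h
  rw [h.Ax] at hx hb
  rw [matBL_stage hr2 (zr_subM h.pr₂ h.e₂) (zr_abs h.pr₂ h.e₂) hx hb]
  unfold mA AnnData.stR
  rw [h.A₂, h.Ax]

end inst

end Crest.Agent.R302.Conc
end

-- ▼ part R302/Code725
section

set_option autoImplicit false

namespace Crest.Agent.R302.Conc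

open Finset Crest.Agent.R302.Inst Crest.Agent.R302.Stage Crest.Agent.R302.GeoProg
open Crest.Agent.R302.GeoSpec Crest.Agent.R302.TreeNN Crest.Agent.R302.StageL
open Crest.Agent.R302.Facet Crest.Agent.R302.AnnBox Crest.Agent.R302.EDM
open Crest.Agent.R302.Smp Crest.Agent.R302.Top Crest.Polymatroid Crest.Agent.R302.ORAM
open Crest.Agent.R302.Step (CodeS Code encB)

variable {n : ℕ}

/-! ### the two codings agree -/


theorem ocode_eq_elim (o : Option (Fin n)) : ocode o = o.elim n (fun b => (b : ℕ)) := by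
  cases o <;> rfl

/-- one side of the code of `sideOf` -/
theorem codeS_sideOf {m : Fin n → Fin n → ℤ} {w₁ : ℤ} {dk : ℕ} {J : Finset (Fin n → ℤ)}
    {M : List (List ℤ)} (hM : ∀ a b : Fin n, (M.getD a []).getD b 0 = m a b)
    {mem : List ℤ → Bool} (hmem : ∀ z : Fin n → ℤ, mem (List.ofFn z) = true ↔ z ∈ J) :
    CodeS (sideOf m w₁ dk J) (parL n w₁ M) (subL n (parL n w₁ M)) (ksL n dk M (parL n w₁ M))
      mem := by
  have hp := cPar_parL hM w₁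
  have hk := ksL_eq (dk := dk) hM hp
  refine ⟨fun a => ?_, fun a b => ?_, ?_, fun a ha => ?_, fun a ha t => ?_, fun z => rfl, hmem⟩
  · rw [hp a, ocode_eq_elim]
    rfl
  · exact cSub_nn hM w₁ a b
  · simp [ksL]
  · rw [hk, StageL.getD_ofFn]
    have ha' : (nnForest m w₁).par a = none := ha
    unfold kV
    rw [ha']
  · rw [hk, StageL.getD_ofFn]
    rfl

/-- the code of `sdOf` -/
theorem code_sdOf {m₁ m₂ : Fin n → Fin n → ℤ} {J₁ J₂ : Finset (Fin n → ℤ)}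
    {w : (Fin n → ℤ) → ℤ} {P : Par} {ell c : Fin n → ℤ} {wL : List ℤ → ℤ}
    (hw : ∀ z : Fin n → ℤ, wL (List.ofFn z) = w z) {mem₁ mem₂ : List ℤ → Bool}
    (h₁ : ∀ z : Fin n → ℤ, mem₁ (List.ofFn z) = true ↔ z ∈ J₁)
    (h₂ : ∀ z : Fin n → ℤ, mem₂ (List.ofFn z) = true ↔ z ∈ J₂) {gL cL : List ℤ}
    (hg : ∀ e : Fin n, gL.getD e 0 = ell e) (hc : ∀ e : Fin n, cL.getD e 0 = c e) :
    Code (sdOf m₁ m₂ J₁ J₂ w P ell c) (prmL n P (ofMat m₁) (ofMat m₂) gL cL) wL mem₁ mem₂ where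
  s₁ := codeS_sideOf (ofMat_getD m₁) h₁
  s₂ := codeS_sideOf (ofMat_getD m₂) h₂
  w := fun β => hw _
  a := rfl
  ell₁ := fun e _ => (hg e).symm
  ell₂ := fun e _ => (hg e).symm
  c := hc
  M := rfl
  Lb := rfl
  cs := envL_cs (D := sdOf m₁ m₂ J₁ J₂ w P ell c) P.w₁ P.dk P.dl (ofMat_getD m₁) (ofMat_getD m₂)
    rfl rfl rfl rfl rfl
  qa := rfl
  qb := rfl

/-! ### the program -/

/-- the numerical parameters of the stage data of the program, link cost `a` -/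
def parOf (P : Prog.Par) (s : SIn) (a : ℕ) : Par where
  w₁ := P.w₁ s
  dk := P.dk s
  dl := P.dl s
  a := a
  M := P.M s
  Lb := P.Lb s
  qa := P.qa s
  qb := P.qb s

section inst

variable {P : Prog.Par} {R m : ℕ} {r₁ r₂ : Finset (Fin n) → ℕ} {lo hi : Fin n → ℤ}
  {𝒜 : AnnData n}

theorem ofFn_x₀ (h : IsInst (Prog.prg P) n R m r₁ r₂ lo hi 𝒜) :
    List.ofFn 𝒜.x₀ = cen (rq r₁ r₂) (inp n R m lo hi) := by
  rw [h.Ax]
  exact CenL.ofFn_cenBL _ _ _ _ _ _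

theorem tt_eq (P : Prog.Par) {s : SIn} {t : ℕ} (ht : t < (Prog.prg P).T s) :
    Prog.tt P s t = t + 1 := by
  unfold Prog.tt
  exact min_eq_left (show t + 1 ≤ nStages (sn s) (P.L s) (sR s) from ht)

theorem matT₁ (h : IsInst (Prog.prg P) n R m r₁ r₂ lo hi 𝒜) {t : ℕ}
    (ht : t < (Prog.prg P).T (inp n R m lo hi)) :
    Prog.matT P (rq r₁ r₂) (inp n R m lo hi) t false = ofMat (mA 𝒜 𝒜.r₁ (t + 1)) := by
  have e := IsInst.mat₁ h (t + 1)
  rw [← e]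
  unfold Prog.matT Prog.loT Prog.hiT
  rw [tt_eq P ht, h.AL]
  rfl

theorem matT₂ (h : IsInst (Prog.prg P) n R m r₁ r₂ lo hi 𝒜) {t : ℕ}
    (ht : t < (Prog.prg P).T (inp n R m lo hi)) :
    Prog.matT P (rq r₁ r₂) (inp n R m lo hi) t true = ofMat (mA 𝒜 𝒜.r₂ (t + 1)) := by
  have e := IsInst.mat₂ h (t + 1)
  rw [← e]
  unfold Prog.matT Prog.loT Prog.hiT
  rw [tt_eq P ht, h.AL]
  rfl

/-- the stage box of the program is the polytope of the stage -/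
theorem memT_aux {q : List Bool → ℤ} {ρ : Finset (Fin n) → ℤ} (hq : RepL n q ρ)
    (hr : SubM ρ R) (hK : ∀ A, |ρ A| ≤ R) {x₀ : Fin n → ℤ} (hx : MemJ ρ R x₀)
    (hb : ∀ v, lo v ≤ x₀ v ∧ x₀ v ≤ hi v) (d : ℕ) (z : Fin n → ℤ) :
    memBL n R q R (loL n d (List.ofFn x₀) (List.ofFn lo)) (hiL n d (List.ofFn x₀) (List.ofFn hi))
      (List.ofFn z) = true ↔
      MemJ (boxR (fun v => x₀ v - d) (fun v => x₀ v + d) (boxR lo hi ρ)) R z := by
  rw [memBL_iff hq hr hK, memJ_stage_box hr hx hb, vecL_eq_toV, vecL_eq_toV, vecL_eq_toV,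
    toV_loL, toV_hiL]
  simp only [AnnData.toV_ofFn]
  exact and_comm

theorem memT₁ (h : IsInst (Prog.prg P) n R m r₁ r₂ lo hi 𝒜) {t : ℕ}
    (ht : t < (Prog.prg P).T (inp n R m lo hi)) (z : Fin n → ℤ) :
    Prog.memT P (rq r₁ r₂) (inp n R m lo hi) t false (List.ofFn z) = true ↔
      z ∈ jF 𝒜 𝒜.r₁ (t + 1) := by
  rw [mem_jF 𝒜 𝒜.sub₁]
  have hr1 := repL r₁ r₂ false
  simp only [Bool.false_eq_true, if_false] at hr1
  have e := memT_aux (lo := lo) (hi := hi) hr1 (zr_subM h.pr₁ h.e₁) (zr_abs h.pr₁ h.e₁)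
    (IsInst.x₀_mem₁ h) (IsInst.x₀_box h) (stQ n 𝒜.L (t + 1)) z
  unfold AnnData.stR
  rw [h.A₁, h.AR, ← e, ofFn_x₀ h]
  unfold Prog.memT Prog.loT Prog.hiT
  rw [tt_eq P ht, h.AL]
  rfl

theorem memT₂ (h : IsInst (Prog.prg P) n R m r₁ r₂ lo hi 𝒜) {t : ℕ}
    (ht : t < (Prog.prg P).T (inp n R m lo hi)) (z : Fin n → ℤ) :
    Prog.memT P (rq r₁ r₂) (inp n R m lo hi) t true (List.ofFn z) = true ↔
      z ∈ jF 𝒜 𝒜.r₂ (t + 1) := by
  rw [mem_jF 𝒜 𝒜.sub₂]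
  have hr2 := repL r₁ r₂ true
  simp only [if_true] at hr2
  have e := memT_aux (lo := lo) (hi := hi) hr2 (zr_subM h.pr₂ h.e₂) (zr_abs h.pr₂ h.e₂)
    (IsInst.x₀_mem₂ h) (IsInst.x₀_box h) (stQ n 𝒜.L (t + 1)) z
  unfold AnnData.stR
  rw [h.A₂, h.AR, ← e, ofFn_x₀ h]
  unfold Prog.memT Prog.loT Prog.hiT
  rw [tt_eq P ht, h.AL]
  rfl

/-- the gauge of the elements: the gauge of the representative -/
def ellOf (P : Prog.Par) (Q : Qf) (s : SIn) (t : ℕ) (g : List ℤ) (e : Fin n) : ℤ :=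
  g.getD (Prog.repT P Q s t e) 0

/-- **the program at stage `t` is the list code of the stage data `sdA 𝒜 (t + 1)`** -/
theorem code_prg (h : IsInst (Prog.prg P) n R m r₁ r₂ lo hi 𝒜) {t : ℕ}
    (ht : t < (Prog.prg P).T (inp n R m lo hi)) (a : ℕ) (g : List ℤ) :
    Code (sdA 𝒜 (t + 1) (parOf P (inp n R m lo hi) a)
        (ellOf P (rq r₁ r₂) (inp n R m lo hi) t g))
      (Prog.prm P (rq r₁ r₂) (inp n R m lo hi) t a g)
      (Prog.wT P (rq r₁ r₂) (inp n R m lo hi) t)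
      (Prog.memT P (rq r₁ r₂) (inp n R m lo hi) t false)
      (Prog.memT P (rq r₁ r₂) (inp n R m lo hi) t true) := by
  have e : Prog.prm P (rq r₁ r₂) (inp n R m lo hi) t a g =
      prmL n (parOf P (inp n R m lo hi) a) (ofMat (mA 𝒜 𝒜.r₁ (t + 1)))
        (ofMat (mA 𝒜 𝒜.r₂ (t + 1))) (Prog.gaT P (rq r₁ r₂) (inp n R m lo hi) t g)
        (cen (rq r₁ r₂) (inp n R m lo hi)) := by
    rw [← matT₁ h ht, ← matT₂ h ht]
    rfl
  rw [e]
  unfold sdA
  refine code_sdOf (fun z => ?_) (memT₁ h ht) (memT₂ h ht) (fun e => ?_) (fun e => ?_)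
  · unfold Prog.wT
    rw [tt_eq P ht, stHL_eq, h.AL, h.Ax]
    show ((stH n (P.L (inp n R m lo hi)) (t + 1)
      (AnnData.toV n (cen (rq r₁ r₂) (inp n R m lo hi))) (AnnData.toV n (List.ofFn z)) : ℕ) : ℤ) = _
    rw [AnnData.toV_ofFn]
    rfl
  · unfold Prog.gaT ellOf
    rw [getD_map_range (sn (inp n R m lo hi)) _ _ e.2]
  · rw [← ofFn_x₀ h, StageL.getD_ofFn]

end inst

end Crest.Agent.R302.Conc
end

-- ▼ part R302/Code725B

set_option autoImplicit false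

namespace Crest.Agent.R302.Conc

open Finset Crest.Agent.R302.Inst Crest.Agent.R302.Stage Crest.Agent.R302.GeoProg
open Crest.Agent.R302.GeoSpec Crest.Agent.R302.TreeNN Crest.Agent.R302.StageL
open Crest.Agent.R302.Facet Crest.Agent.R302.AnnBox Crest.Agent.R302.EDM
open Crest.Agent.R302.Smp Crest.Agent.R302.Top Crest.Polymatroid Crest.Agent.R302.ORAM
open Crest.Agent.R302.Step (CodeS Code encB)
open Crest.Agent.R302.Slk Crest.Agent.R309.MC Crest.Agent.R309.Tape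

variable {n : ℕ} {P : Prog.Par} {R m : ℕ} {r₁ r₂ : Finset (Fin n) → ℕ} {lo hi : Fin n → ℤ}
  {𝒜 : AnnData n}

/-- the slack exponents of the program -/
theorem mem_ks₁ (h : IsInst (Prog.prg P) n R m r₁ r₂ lo hi 𝒜) {t : ℕ}
    (ht : t < (Prog.prg P).T (inp n R m lo hi)) (a : ℕ) (g : List ℤ) {k : ℕ}
    (hk : k ∈ (Prog.prm P (rq r₁ r₂) (inp n R m lo hi) t a g).ks₁) :
    ∃ e : Fin n, k = kV (P.dk (inp n R m lo hi))
      (nnForest (mA 𝒜 𝒜.r₁ (t + 1)) (P.w₁ (inp n R m lo hi))) (mA 𝒜 𝒜.r₁ (t + 1)) e := by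
  have e : (Prog.prm P (rq r₁ r₂) (inp n R m lo hi) t a g).ks₁ =
      (envL n (P.w₁ (inp n R m lo hi)) (P.dk (inp n R m lo hi)) (P.dl (inp n R m lo hi))
        (ofMat (mA 𝒜 𝒜.r₁ (t + 1))) (ofMat (mA 𝒜 𝒜.r₂ (t + 1)))).2.2.1.1 := by
    rw [← matT₁ h ht, ← matT₂ h ht]
    rfl
  rw [e, envL_ks₁ _ _ _ (ofMat_getD _), List.mem_ofFn'] at hk
  obtain ⟨i, hi⟩ := hk
  exact ⟨i, hi.symm⟩

/-- the slack exponents of the program -/
theorem mem_ks₂ (h : IsInst (Prog.prg P) n R m r₁ r₂ lo hi 𝒜) {t : ℕ}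
    (ht : t < (Prog.prg P).T (inp n R m lo hi)) (a : ℕ) (g : List ℤ) {k : ℕ}
    (hk : k ∈ (Prog.prm P (rq r₁ r₂) (inp n R m lo hi) t a g).ks₂) :
    ∃ e : Fin n, k = kV (P.dk (inp n R m lo hi))
      (nnForest (mA 𝒜 𝒜.r₂ (t + 1)) (P.w₁ (inp n R m lo hi))) (mA 𝒜 𝒜.r₂ (t + 1)) e := by
  have e : (Prog.prm P (rq r₁ r₂) (inp n R m lo hi) t a g).ks₂ =
      (envL n (P.w₁ (inp n R m lo hi)) (P.dk (inp n R m lo hi)) (P.dl (inp n R m lo hi))
        (ofMat (mA 𝒜 𝒜.r₁ (t + 1))) (ofMat (mA 𝒜 𝒜.r₂ (t + 1)))).2.2.1.2 := by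
    rw [← matT₁ h ht, ← matT₂ h ht]
    rfl
  rw [e, envL_ks₂ _ _ _ (ofMat_getD _), List.mem_ofFn'] at hk
  obtain ⟨i, hi⟩ := hk
  exact ⟨i, hi.symm⟩



end Crest.Agent.R302.Conc
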