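import Crest.Agent.R302.Stage536C
import Crest.Agent.R302.Mix497B
import Crest.Agent.R302.Loop272C
import Crest.Agent.R302.Prog166
import Mathlib
import Crest.Agent.R302.Gau970C
import Crest.Agent.R302.Ann425E
import Crest.Agent.R302.Code725B
import Crest.Agent.R302.Rep646B
import Crest.Agent.R302.ConcFacts342
import Crest.Agent.R302.Conc725

-- ▼ part R302/Stage536D
section

/-!
R302 (helper536), STAGE: the mixing input of one stage in the form needed by `Warm272.conv_of`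
(`128 * e ≤ c * mass * η ^ 2`), from (S1), the mass of the states with a small acceptance
probability, and numbers.
-/

set_option autoImplicit false
set_option linter.unusedSectionVars false

namespace Crest.Agent.R302.Stage

open Finset Crest.Agent.R302.Inst Crest.Agent.R302.Macro Crest.Agent.R302.LatChain
open Crest.Agent.R302.Mix
open Crest.Agent.R309.MC

variable {E : Type*} [Fintype E] [DecidableEq E]

namespace SD

variable {D : SD E}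

theorem mass_nuG (D : SD E) : mass (fun σ : D.bx => D.nuG σ) = ∑ σ ∈ D.bx, D.nuG σ := by
  unfold mass
  exact Finset.sum_coe_sort D.bx D.nuG

/-- **the mixing input of one stage** -/
theorem poincD_final (hOK : D.OK) (hlen : D.cs.length ≤ 2 ^ D.qa) (hexp : ∀ p ∈ D.cs, p.2 ≤ D.qb)
    {A d : ℝ} (hA : 0 < A)
    (hP : ∀ (f : St D → ℝ) (M : ℝ), 0 ≤ M → (∀ p, |f p| ≤ M) →
      vr D.bx D.nuG f ≤ A * D.enG f + d * M ^ 2) {δ Z ρ τ η : ℝ} (hδ : 0 < δ) (hZ : 0 < Z)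
    (hd0 : 0 ≤ d) (hd : d ≤ ρ * Z)
    (hsm : ∑ σ ∈ D.bx.filter (fun σ => D.FG σ < δ), D.nuG σ ≤ τ * Z)
    (hmass : Z / 2 ≤ ∑ σ ∈ D.bx, D.nuG σ)
    (hnum : 256 * ρ + 512 * (A * 2 ^ (D.qa + 2)) * τ ≤ η ^ 2) :
    ∃ e : ℝ, 0 ≤ e ∧ PoincD (fun σ : D.bx => D.nuG σ) D.Kch (δ / (A * 2 ^ (D.qa + 2))) e ∧
      128 * e ≤ δ / (A * 2 ^ (D.qa + 2)) * mass (fun σ : D.bx => D.nuG σ) * η ^ 2 := by
  have hs0 : 0 ≤ ∑ σ ∈ D.bx.filter (fun σ => D.FG σ < δ), D.nuG σ :=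
    Finset.sum_nonneg fun σ _ => nuG_nonneg hOK σ
  refine ⟨_, ?_, poincD_stage hOK hlen hexp hA hP hδ.le, ?_⟩
  · positivity
  rw [mass_nuG]
  set B := A * 2 ^ (D.qa + 2) with hB
  have hB0 : 0 < B := by positivity
  set m := ∑ σ ∈ D.bx, D.nuG σ with hm
  set s := ∑ σ ∈ D.bx.filter (fun σ => D.FG σ < δ), D.nuG σ with hs
  have h1 : 128 * (δ * d / B + 2 * δ * s) = δ / B * (128 * d + 256 * B * s) := by
    field_simp
    ring
  rw [h1, mul_assoc (δ / B)]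
  refine mul_le_mul_of_nonneg_left ?_ (by positivity)
  have h2 : 256 * B * s ≤ 256 * B * (τ * Z) := mul_le_mul_of_nonneg_left hsm (by positivity)
  have h3 : Z / 2 * η ^ 2 ≤ m * η ^ 2 := mul_le_mul_of_nonneg_right hmass (sq_nonneg η)
  have h4 : (256 * ρ + 512 * B * τ) * (Z / 2) ≤ η ^ 2 * (Z / 2) :=
    mul_le_mul_of_nonneg_right hnum (by positivity)
  nlinarith

end SD

end Crest.Agent.R302.Stage
end

-- ▼ part R302/Warm272
section

/-!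
# R302, block LOOP, part D: from the warm-start mixing theorem to `ChainOK` (helper272)

Abstract glue, for one stage and one good gauge.  `α` = finite set of chain states, `w` = weight of the chain,
`M` = its mass; `P` = points of the next stage with weight `om`, `Z` = their mass; `f` = weight `w` at the perfect
state of a point.

* `startdom`, `conv_of`: the law `μ ≤ 2 ν` of the present stage, put at the perfect states, is dominated by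
  `8 π + ρ`, hence the run converges (`conv`), error `es + 4 ε₁ + η`;
* `perf_of`: `|π.E (φ (out.getD d)) - ν.E φ| ≤ 2 (2 ε₁ + ε₂)`;
* `rat_of`: the one-link events.
-/

set_option autoImplicit false
open Finset

namespace Crest.Agent.R302.Loop

open Crest.Agent.R309.MC Crest.Agent.R309.Tape Crest.Agent.R302.Mix

variable {α : Type*} [Fintype α]

/-- the one-particle theorem for programs which implement the kernel approximately -/
theorem one_particle' [DecidableEq α] {S S' : Type*} {f : S → List Bool → S} {r : ℕ} {enc : α → S}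
    {K : α → α → ℝ} {w : α → ℝ} (hw : ∀ x, 0 ≤ w x) (hm : 0 < mass w)
    (hK : IsKer K) (hr : Rev w K) (hp : PSD w K) {c e : ℝ} (hc : PoincD w K c e) (hc0 : 0 < c)
    (hc1 : c ≤ 1) (he : 0 ≤ e) {H ε η es : ℝ} (hH : 0 ≤ H) (hη : 0 ≤ η) (μ : Law S') (start : S' → S)
    (st : S' → α) (hst : ∀ x ∈ μ.supp, enc (st x) = start x)
    (ρ : α → ℝ) (hρ0 : ∀ a, 0 ≤ ρ a) (hρ : ∑ a, ρ a ≤ ε) (hε : ε ≤ 1 / 2)
    (hdom : ∀ a, startLaw μ st a ≤ H * (w a / mass w) + ρ a) {t L : ℕ}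
    (hI : ∀ a, ∀ φ : S → ℝ, (∀ s, 0 ≤ φ s ∧ φ s ≤ 1) →
      |avg (t * r) (fun l => φ (runSteps f r t (enc a) l)) - ∑ y, law K (pt a) t y * φ (enc y)| ≤ es)
    (hL : H ≤ η ^ 2 * 2 ^ L) (ht : (L : ℝ) ≤ c * t) (hec : 2 * e * H ^ 2 ≤ c * mass w * η ^ 2)
    (φ : S → ℝ) (hφ : ∀ s, 0 ≤ φ s ∧ φ s ≤ 1) :
    |μ.E (fun x => avg (t * r) (fun l => φ (runSteps f r t (start x) l))) -
        ∑ x, w x / mass w * φ (enc x)| ≤ es + ε + η := by
  classical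
  have h1 := warm hw hm hK hr hp hc hc0 hc1 he hH (startLaw μ st) ρ (startLaw_nonneg μ st)
    (startLaw_sum μ st) hdom hρ0 hρ hε t (φ := fun a => φ (enc a)) (fun a => (hφ _).1)
    (fun a => (hφ _).2)
  have h2 := sqrt_err_le hc0 hc1 hm hη hL ht hec
  have h3 : |μ.E (fun x => avg (t * r) (fun l => φ (runSteps f r t (start x) l))) -
      ∑ y, law K (startLaw μ st) t y * φ (enc y)| ≤ es := by
    rw [law_eq_sum_pt, ← μ.E_sub]
    refine (μ.abs_E_le _).trans ?_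
    rw [← μ.E_const es]
    refine μ.E_mono fun x hx => ?_
    rw [← hst x hx]
    exact hI (st x) φ hφ
  have h4 := abs_sub_le (μ.E (fun x => avg (t * r) (fun l => φ (runSteps f r t (start x) l))))
    (∑ y, law K (startLaw μ st) t y * φ (enc y)) (∑ x, w x / mass w * φ (enc x))
  linarith

/-- the start: `μ ≤ 2 om / Z`, put at the perfect states `st x` which have weight `f x`, is dominated by
`8 π` up to a mass `4 ε₁`. -/
theorem startdom [DecidableEq α] {S' : Type*} (μ : Law S') (st : S' → α)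
    (hinj : Set.InjOn st μ.supp) {w : α → ℝ} (hw : ∀ x, 0 ≤ w x) (hm : 0 < mass w)
    {f om : S' → ℝ} {Z ε₁ : ℝ} (hZ : 0 < Z) (hM : mass w ≤ 2 * Z)
    (hwt : ∀ x ∈ μ.supp, μ.wt x ≤ 2 * (om x / Z)) (hf : ∀ x ∈ μ.supp, w (st x) = f x)
    (hom : ∀ x ∈ μ.supp, 0 ≤ om x)
    (hsum : ∑ x ∈ μ.supp, |f x - om x| ≤ ε₁ * Z) :
    ∃ ρ : α → ℝ, (∀ a, 0 ≤ ρ a) ∧ ∑ a, ρ a ≤ 4 * ε₁ ∧
      ∀ a, startLaw μ st a ≤ 8 * (w a / mass w) + ρ a := by
  classical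
  set ρ : α → ℝ := fun a => ∑ x ∈ μ.supp.filter (fun x => st x = a), 4 * |f x - om x| / Z with hρ
  refine ⟨ρ, fun a => sum_nonneg fun x _ => by positivity, ?_, ?_⟩
  · rw [hρ]
    simp only
    rw [sum_fiberwise, ← sum_div, ← mul_sum, div_le_iff₀ hZ]
    linarith
  · intro a
    by_cases h : ∃ x ∈ μ.supp, st x = a
    · obtain ⟨x, hx, rfl⟩ := h
      have hfil : μ.supp.filter (fun y => st y = st x) = {x} := by
        ext y
        simp only [mem_filter, mem_singleton]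
        constructor
        · rintro ⟨hy, hyx⟩
          exact hinj (by exact_mod_cast hy) (by exact_mod_cast hx) hyx
        · rintro rfl; exact ⟨hx, rfl⟩
      simp only [startLaw, hρ, hfil, sum_singleton]
      have h1 := hwt x hx
      have h2 := hf x hx
      have h3 := hom x hx
      have hfx : 0 ≤ f x := h2 ▸ hw _
      rw [h2]
      rcases le_total (om x) (2 * f x) with h4 | h4
      · have h5 : 2 * (om x / Z) ≤ 8 * (f x / mass w) := by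
          have h6 : f x / (2 * Z) ≤ f x / mass w := by gcongr
          have h7 : om x / Z ≤ 2 * f x / Z := by gcongr
          have h8 : 8 * (f x / (2 * Z)) = 2 * (2 * f x / Z) := by field_simp; ring
          linarith
        have : 0 ≤ 4 * |f x - om x| / Z := by positivity
        linarith
      · have h5 : om x ≤ 2 * |f x - om x| := by
          have := neg_abs_le (f x - om x)
          linarith
        have h6 : 2 * (om x / Z) ≤ 4 * |f x - om x| / Z := by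
          rw [← mul_div_assoc, div_le_div_iff_of_pos_right hZ]; linarith
        have : 0 ≤ 8 * (f x / mass w) := by positivity
        linarith
    · push Not at h
      have hfil : μ.supp.filter (fun y => st y = a) = ∅ := by
        ext y
        simp only [mem_filter, notMem_empty, iff_false, not_and]
        exact fun hy => h y hy
      simp only [startLaw, hρ, hfil, sum_empty]
      have : 0 ≤ w a / mass w := div_nonneg (hw a) hm.le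
      linarith

/-- **`conv`** for one stage and one gauge: from a Poincaré inequality with defect, the comparison `μ ≤ 2 ν`, the
mass of the perfect states and the one-run law of the program. -/
theorem conv_of [DecidableEq α] {S S' : Type*} [DecidableEq S] {g : S → List Bool → S} {r : ℕ} {enc : α → S}
    {K : α → α → ℝ} {w : α → ℝ} (hw : ∀ x, 0 ≤ w x) (hm : 0 < mass w)
    (hK : IsKer K) (hr : Rev w K) (hp : PSD w K) {c e : ℝ} (hc : PoincD w K c e) (hc0 : 0 < c)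
    (hc1 : c ≤ 1) (he : 0 ≤ e) {η es : ℝ} (hη : 0 ≤ η) (μ : Law S') (start : S' → S)
    (st : S' → α) (hst : ∀ x ∈ μ.supp, enc (st x) = start x) (hinj : Set.InjOn st μ.supp)
    {f om : S' → ℝ} {Z ε₁ : ℝ} (hZ : 0 < Z) (hM : mass w ≤ 2 * Z)
    (hwt : ∀ x ∈ μ.supp, μ.wt x ≤ 2 * (om x / Z)) (hf : ∀ x ∈ μ.supp, w (st x) = f x)
    (hom : ∀ x ∈ μ.supp, 0 ≤ om x)
    (hsum : ∑ x ∈ μ.supp, |f x - om x| ≤ ε₁ * Z) (hε₁ : ε₁ ≤ 1 / 8) {t L : ℕ}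
    (hI : ∀ a, ∀ φ : S → ℝ, (∀ s, 0 ≤ φ s ∧ φ s ≤ 1) →
      |avg (t * r) (fun l => φ (runSteps g r t (enc a) l)) - ∑ y, law K (pt a) t y * φ (enc y)| ≤ es)
    (hL : 8 ≤ η ^ 2 * 2 ^ L) (ht : (L : ℝ) ≤ c * t) (hec : 128 * e ≤ c * mass w * η ^ 2)
    (φ : S → ℝ) (hφ : ∀ s, 0 ≤ φ s ∧ φ s ≤ 1) :
    |μ.E (fun x => avg (t * r) (fun l => φ (runSteps g r t (start x) l))) -
        (stat w hw hm enc).E φ| ≤ es + 4 * ε₁ + η := by
  obtain ⟨ρ, hρ0, hρ, hdom⟩ := startdom μ st hinj hw hm hZ hM hwt hf hom hsum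
  rw [stat_E]
  exact one_particle' hw hm hK hr hp hc hc0 hc1 he (by norm_num : (0 : ℝ) ≤ 8) hη μ start st hst ρ hρ0
    hρ (by linarith) hdom hI hL ht (by linarith) φ hφ

/-- **`perf`**: the output of a stationary state has almost the law `om / Z`. -/
theorem perf_of {S T : Type*} [DecidableEq T] [DecidableEq S] {w : α → ℝ} (hw : ∀ x, 0 ≤ w x)
    (hm : 0 < mass w) (enc : α → S) (out : S → Option T) (ν : Law T) (P : Finset T) {f om : T → ℝ}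
    {Z ε₁ ε₂ : ℝ} (hZ : 0 < Z)
    (hf0 : ∀ x ∈ P, 0 ≤ f x) (hsum : ∑ x ∈ P, |f x - om x| ≤ ε₁ * Z) (hM : |mass w - Z| ≤ ε₂ * Z)
    (hν : ∀ φ : T → ℝ, ν.E φ = ∑ x ∈ P, om x / Z * φ x)
    (hout : ∀ φ : T → ℝ, ∑ a, w a * (out (enc a)).elim 0 φ = ∑ x ∈ P, f x * φ x)
    (φ : T → ℝ) (hφ : ∀ x, 0 ≤ φ x ∧ φ x ≤ 1) (d : T) :
    |(stat w hw hm enc).E (fun y => φ ((out y).getD d)) - ν.E φ| ≤ 2 * (ε₁ + ε₂) := by
  refine output_close (stat w hw hm enc) ν out (ε₁ + ε₂) (fun φ hφ => ?_) φ hφ d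
  rw [stat_E, hν]
  have h1 : ∑ x, w x / mass w * (out (enc x)).elim 0 φ = (∑ x ∈ P, f x * φ x) / mass w := by
    rw [← hout φ, sum_div]
    exact sum_congr rfl fun x _ => by ring
  have h2 : ∑ x ∈ P, om x / Z * φ x = (∑ x ∈ P, om x * φ x) / Z := by
    rw [sum_div]; exact sum_congr rfl fun x _ => by ring
  rw [h1, h2]
  set A := ∑ x ∈ P, f x * φ x with hA
  set B := ∑ x ∈ P, om x * φ x with hB
  have hA0 : 0 ≤ A := sum_nonneg fun x hx => mul_nonneg (hf0 x hx) (hφ x).1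
  have hAM : A ≤ mass w := by
    rw [hA, ← hout φ]
    unfold mass
    refine sum_le_sum fun a _ => ?_
    have : (out (enc a)).elim 0 φ ≤ 1 := by
      cases out (enc a) with
      | none => simp
      | some x => simpa using (hφ x).2
    nlinarith [hw a]
  have hAB : |A - B| ≤ ε₁ * Z := by
    refine le_trans ?_ hsum
    rw [hA, hB, ← sum_sub_distrib]
    refine (abs_sum_le_sum_abs _ _).trans (sum_le_sum fun x _ => ?_)
    rw [← sub_mul, abs_mul, abs_of_nonneg (hφ x).1]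
    exact mul_le_of_le_one_right (abs_nonneg _) (hφ x).2
  have h3 : A / mass w - B / Z = (A - B) / Z + (A / mass w) * ((Z - mass w) / Z) := by
    field_simp
    ring
  rw [h3]
  refine (abs_add_le _ _).trans ?_
  have h4 : |(A - B) / Z| ≤ ε₁ := by
    rw [abs_div, abs_of_pos hZ, div_le_iff₀ hZ]; exact hAB
  have h5 : |(A / mass w) * ((Z - mass w) / Z)| ≤ ε₂ := by
    rw [abs_mul, abs_div (Z - mass w), abs_of_pos hZ, abs_of_nonneg (div_nonneg hA0 hm.le)]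
    have a1 : A / mass w ≤ 1 := (div_le_one hm).mpr hAM
    have a2 : |Z - mass w| / Z ≤ ε₂ := by
      rw [div_le_iff₀ hZ, abs_sub_comm]; exact hM
    calc A / mass w * (|Z - mass w| / Z) ≤ 1 * ε₂ :=
          mul_le_mul a1 a2 (by positivity) (by norm_num)
      _ = ε₂ := one_mul _
  linarith

/-- **`rat`**: the one-link event of weight `2^(-m) q s` (`q` = gauge factor, `s` = soft count, `N` = exact
count). -/
theorem rat_of {S : Type*} [DecidableEq S] {w : α → ℝ} (hw : ∀ x, 0 ≤ w x)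
    (hm : 0 < mass w) (enc : α → S) (E : S → Prop) {m : ℕ} {q s N Z : ℝ} (hq : 0 ≤ q) (hN : 0 ≤ N)
    (hZ : 0 < Z) (hE : ∑ a, w a * ind (E (enc a)) = (1 / 2 ^ m) * q * s)
    (hs : |s - N| ≤ 1 / 16 * N) (hM : |mass w - Z| ≤ 1 / 8 * Z) :
    |2 ^ m * (stat w hw hm enc).E (fun y => ind (E y)) - q * N / Z| ≤ 1 / 4 * (q * N / Z) := by
  rw [stat_E]
  have h1 : ∑ x, w x / mass w * ind (E (enc x)) = (1 / 2 ^ m) * q * s / mass w := by
    rw [← hE, sum_div]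
    exact sum_congr rfl fun x _ => by ring
  rw [h1]
  have h2 : (2 : ℝ) ^ m * ((1 / 2 ^ m) * q * s / mass w) = q * (s / mass w) := by
    field_simp
  rw [h2]
  have h3 : q * N / Z = q * (N / Z) := by ring
  rw [h3, ← mul_sub, abs_mul, abs_of_nonneg hq]
  have h4 : |s / mass w - N / Z| ≤ 1 / 4 * (N / Z) := by
    obtain ⟨s1, s2⟩ := abs_le.mp hs
    obtain ⟨m1, m2⟩ := abs_le.mp hM
    have b1 : s / mass w ≤ 5 / 4 * (N / Z) := by
      rw [div_le_iff₀ hm]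
      have : 7 / 8 * Z ≤ mass w := by linarith
      have c1 : 5 / 4 * (N / Z) * (7 / 8 * Z) ≤ 5 / 4 * (N / Z) * mass w := by gcongr
      have c2 : 5 / 4 * (N / Z) * (7 / 8 * Z) = 35 / 32 * N := by field_simp; ring
      linarith
    have b2 : 3 / 4 * (N / Z) ≤ s / mass w := by
      rw [le_div_iff₀ hm]
      have : mass w ≤ 9 / 8 * Z := by linarith
      have c1 : 3 / 4 * (N / Z) * mass w ≤ 3 / 4 * (N / Z) * (9 / 8 * Z) := by gcongr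
      have c2 : 3 / 4 * (N / Z) * (9 / 8 * Z) = 27 / 32 * N := by field_simp; ring
      linarith
    rw [abs_le]; constructor <;> linarith
  calc q * |s / mass w - N / Z| ≤ q * (1 / 4 * (N / Z)) := mul_le_mul_of_nonneg_left h4 hq
    _ = _ := by ring

end Crest.Agent.R302.Loop
end

-- ▼ part R302/Fields536
section

/-!
R302 (helper536), STAGE: the loop fields `conv`, `move`, `rat` of one stage, generic in `D : SD (Fin n)`.

* `PP D = J₁ ∩ J₂`, `MF 𝒜 t D ε₁ ε₂` : mass facts, `Rat 𝒜 t D` : one-link masses;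
* `conv_stage`, `perf_stage`, `move_stage`, `rat_stage`.
-/

set_option autoImplicit false
set_option linter.unusedSectionVars false

namespace Crest.Agent.R302.Fields

open Finset Crest.Agent.R302.Inst Crest.Agent.R302.Stage Crest.Agent.R302.AnnBox
open Crest.Agent.R302.Loop Crest.Agent.R302.Mix Crest.Agent.R302.Step Crest.Agent.R302.Prog
open Crest.Agent.R302.Slk
open Crest.Agent.R302.Lor (ev)
open Crest.Agent.R309.MC Crest.Agent.R309.Tape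

variable {n : ℕ}

/-- perfect points of a stage -/
noncomputable def PP (D : SD (Fin n)) : Finset (Fin n → ℤ) := D.S₁.J ∩ D.S₂.J

theorem mem_PP {D : SD (Fin n)} {x : Fin n → ℤ} : x ∈ PP D ↔ x ∈ D.S₁.J ∧ x ∈ D.S₂.J := by
  unfold PP; rw [mem_inter]

/-- mass facts of one stage -/
structure MF (𝒜 : AnnData n) (t : ℕ) (D : SD (Fin n)) (ε₁ ε₂ : ℝ) : Prop where
  ok : D.OK
  sub : PP D ⊆ 𝒜.PH 0
  out : ∀ x ∈ 𝒜.PH 0, x ∉ PP D → stW 𝒜.L 𝒜.x₀ 0 t x = 0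
  inb : ∀ x ∈ PP D, D.pf x ∈ D.bx
  s1 : ∑ x ∈ PP D, |D.nuG (D.pf x) - stW 𝒜.L 𝒜.x₀ 0 t x| ≤ ε₁ * 𝒜.Z t
  s2 : |∑ σ ∈ D.bx, D.nuG σ - 𝒜.Z t| ≤ ε₂ * 𝒜.Z t

open Classical in
/-- one-link masses of one stage -/
def Rat (𝒜 : AnnData n) (t : ℕ) (D : SD (Fin n)) : Prop :=
  ∀ u v : Fin n, ∃ s : ℝ, ∑ σ ∈ D.bx.filter (D.EvG u v), D.nuG σ =
    (1 / 2) ^ (2 * D.a) * 2 ^ (D.ell u - D.ell v) * s ∧
      |s - 𝒜.Nst t v u| ≤ 1 / 16 * 𝒜.Nst t v u

variable {𝒜 : AnnData n} {t : ℕ} {D : SD (Fin n)} {ε₁ ε₂ : ℝ}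

/-- the perfect points as lists -/
noncomputable def PPL (D : SD (Fin n)) : Finset (List ℤ) :=
  (PP D).map ⟨List.ofFn, List.ofFn_injective⟩

theorem mem_PPL {l : List ℤ} : l ∈ PPL D ↔ ∃ x ∈ PP D, List.ofFn x = l := by
  unfold PPL
  rw [mem_map]
  rfl

theorem sum_PPL (F : List ℤ → ℝ) : ∑ l ∈ PPL D, F l = ∑ x ∈ PP D, F (List.ofFn x) := by
  unfold PPL
  rw [sum_map]
  rfl

theorem MF.mass_pos (h : MF 𝒜 t D ε₁ ε₂) (hε : ε₂ < 1) : 0 < mass (fun σ : D.bx => D.nuG σ) := by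
  rw [SD.mass_nuG]
  have h1 := (abs_le.1 h.s2).1
  have h2 := 𝒜.Z_pos t
  nlinarith

/-- `stLaw` as a sum over the perfect points of the stage -/
theorem MF.E_eq (h : MF 𝒜 (t + 1) D ε₁ ε₂) {t' : ℕ} (ht : t' = t ∨ t' = t + 1) (φ : List ℤ → ℝ) :
    (𝒜.stLaw t').E φ =
      ∑ l ∈ PPL D, stW 𝒜.L 𝒜.x₀ 0 t' (AnnData.toV n l) / 𝒜.Z t' * φ l := by
  rw [𝒜.stLaw_E, sum_PPL, sum_div]
  have hz : ∀ x ∈ 𝒜.PH 0, x ∉ PP D → stW 𝒜.L 𝒜.x₀ 0 t' x = 0 := by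
    intro x hx hx'
    have h1 := h.out x hx hx'
    rcases ht with rfl | rfl
    · exact le_antisymm ((stW_mono 𝒜.L 𝒜.x₀ 0 t' x).trans h1.le) (stW_nonneg _ _ _ _ _)
    · exact h1
  rw [← sum_subset h.sub (f := fun x => stW 𝒜.L 𝒜.x₀ 0 t' x * φ (List.ofFn x) / 𝒜.Z t')
    (fun x hx hx' => by rw [hz x hx hx', zero_mul, zero_div])]
  refine sum_congr rfl fun x _ => ?_
  rw [AnnData.toV_ofFn]
  ring

/-- the law of the present stage, on the perfect points of the next stage -/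
noncomputable def lawP (h : MF 𝒜 (t + 1) D ε₁ ε₂) : Law (List ℤ) where
  supp := PPL D
  wt := fun l => stW 𝒜.L 𝒜.x₀ 0 t (AnnData.toV n l) / 𝒜.Z t
  nonneg := fun _ _ => div_nonneg (stW_nonneg _ _ _ _ _) (𝒜.Z_pos t).le
  sum_eq := by
    have h1 := h.E_eq (t' := t) (Or.inl rfl) (fun _ => 1)
    rw [Law.E_const] at h1
    rw [h1]
    exact sum_congr rfl fun l _ => (mul_one _).symm

theorem lawP_E (h : MF 𝒜 (t + 1) D ε₁ ε₂) (φ : List ℤ → ℝ) :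
    (lawP h).E φ = (𝒜.stLaw t).E φ := by
  rw [h.E_eq (Or.inl rfl)]
  rfl

variable {Pm : Prm} {w : List ℤ → ℤ} {mem₁ mem₂ : List ℤ → Bool}

/-- **convergence of one run** -/
theorem conv_stage (h : MF 𝒜 (t + 1) D ε₁ ε₂) (hε₁ : ε₁ ≤ 1 / 8) (hε₂ : ε₂ ≤ 1 / 8)
    (hc : Code D Pm w mem₁ mem₂) {kmax N B : ℕ}
    (hB₁ : ∀ k ∈ Pm.ks₁, slkLen k N ≤ B) (hB₂ : ∀ k ∈ Pm.ks₂, slkLen k N ≤ B)
    (hm : 0 < mass (fun σ : D.bx => D.nuG σ)) {c e η : ℝ}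
    (hP : PoincD (fun σ : D.bx => D.nuG σ) D.Kch c e) (hc0 : 0 < c) (hc1 : c ≤ 1) (he : 0 ≤ e)
    (hη : 0 ≤ η) {T L : ℕ} (hL : 8 ≤ η ^ 2 * 2 ^ L) (hT : (L : ℝ) ≤ c * T)
    (hec : 128 * e ≤ c * mass (fun σ : D.bx => D.nuG σ) * η ^ 2) (φ : St → ℝ)
    (hφ : ∀ s, 0 ≤ φ s ∧ φ s ≤ 1) :
    |(𝒜.stLaw t).E (fun x => avg (T * stepBits n Pm kmax B) (fun l =>
        φ (runSteps (stepL n Pm w mem₁ mem₂ kmax N B) (stepBits n Pm kmax B) T
          (pfL n Pm.par₁ Pm.par₂ Pm.sub₁ Pm.sub₂ x) l))) -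
      (stat (fun σ : D.bx => D.nuG σ) (fun σ => SD.nuG_nonneg h.ok σ.1) hm
        (fun σ => enc D σ.1)).E φ| ≤
      T * ((1 / 2) ^ kmax + (n * (1 / 2 ^ N) + n * (1 / 2 ^ N))) + 4 * ε₁ + η := by
  classical
  obtain ⟨k1, k2, k3⟩ := SD.kch_facts h.ok
  -- a point of the box
  obtain ⟨σ₀⟩ : Nonempty D.bx := by
    by_contra hne
    rw [not_nonempty_iff] at hne
    unfold mass at hm
    rw [Finset.univ_eq_empty, Finset.sum_empty] at hm
    exact lt_irrefl _ hm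
  set st : List ℤ → D.bx := fun l =>
    if hl : D.pf (AnnData.toV n l) ∈ D.bx then ⟨D.pf (AnnData.toV n l), hl⟩ else σ₀ with hst
  have hst1 : ∀ (x : Fin n → ℤ) (hx : x ∈ PP D), st (List.ofFn x) = ⟨D.pf x, h.inb x hx⟩ := by
    intro x hx
    have h1 := h.inb x hx
    simp only [hst, AnnData.toV_ofFn]
    rw [dif_pos h1]
  rw [← lawP_E h]
  have hZ := 𝒜.Z_pos (t + 1)
  refine conv_of (w := fun σ : D.bx => D.nuG σ) (enc := fun σ : D.bx => enc D σ.1) (K := D.Kch)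
    (fun σ => SD.nuG_nonneg h.ok σ.1) hm k1 k2 k3 hP hc0 hc1 he hη (lawP h)
    (pfL n Pm.par₁ Pm.par₂ Pm.sub₁ Pm.sub₂) st ?_ ?_
    (f := fun l => D.nuG (D.pf (AnnData.toV n l)))
    (om := fun l => stW 𝒜.L 𝒜.x₀ 0 (t + 1) (AnnData.toV n l)) (Z := 𝒜.Z (t + 1)) hZ ?_ ?_ ?_ ?_ ?_
    hε₁ (hc.run h.ok hB₁ hB₂ T) hL hT hec φ hφ
  · intro l hl
    obtain ⟨x, hx, rfl⟩ := mem_PPL.1 hl
    rw [hst1 x hx, hc.pfL]
  · intro l hl l' hl' hll
    obtain ⟨x, hx, rfl⟩ := mem_PPL.1 hl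
    obtain ⟨x', hx', rfl⟩ := mem_PPL.1 hl'
    rw [hst1 x hx, hst1 x' hx'] at hll
    have := congrArg (fun σ : D.bx => σ.1.1) hll
    simp only [SD.pf] at this
    rw [this]
  · rw [SD.mass_nuG]
    have h1 := (abs_le.1 h.s2).2
    nlinarith
  · intro l hl
    exact 𝒜.stLaw_wt_le t l
  · intro l hl
    obtain ⟨x, hx, rfl⟩ := mem_PPL.1 hl
    simp only [hst1 x hx, AnnData.toV_ofFn]
  · intro l _
    exact stW_nonneg _ _ _ _ _
  · show ∑ l ∈ PPL D, _ ≤ _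
    rw [sum_PPL]
    simp only [AnnData.toV_ofFn]
    exact h.s1

/-- the output of a coded state -/
theorem outL_enc (hc : Code D Pm w mem₁ mem₂) (σ : Stage.St D) :
    outL n Pm.par₁ Pm.par₂ Pm.sub₁ Pm.sub₂ mem₁ mem₂ (enc D σ) =
      (D.outG σ).map List.ofFn := by
  classical
  have e1 : (enc D σ).1 = List.ofFn σ.1 := rfl
  unfold outL SD.outG
  rw [e1, hc.pfL]
  by_cases hp : D.IsPf σ
  · rw [if_pos hp]
    obtain ⟨h1, h2, h3⟩ := hp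
    rw [← h1, (hc.s₁.mem _).2 h2, (hc.s₂.mem _).2 h3]
    simp
  · rw [if_neg hp, if_neg]
    · rfl
    · intro hh
      rw [Bool.and_eq_true, Bool.and_eq_true, decide_eq_true_iff] at hh
      exact hp ⟨(enc_injective D hh.1).symm, (hc.s₁.mem _).1 hh.2.1, (hc.s₂.mem _).1 hh.2.2⟩

/-- **the output law** -/
theorem perf_stage (h : MF 𝒜 (t + 1) D ε₁ ε₂) (hc : Code D Pm w mem₁ mem₂)
    (hm : 0 < mass (fun σ : D.bx => D.nuG σ)) (φ : List ℤ → ℝ) (hφ : ∀ y, 0 ≤ φ y ∧ φ y ≤ 1)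
    (d : List ℤ) :
    |(stat (fun σ : D.bx => D.nuG σ) (fun σ => SD.nuG_nonneg h.ok σ.1) hm
        (fun σ => enc D σ.1)).E
        (fun y => φ ((outL n Pm.par₁ Pm.par₂ Pm.sub₁ Pm.sub₂ mem₁ mem₂ y).getD d)) -
      (𝒜.stLaw (t + 1)).E φ| ≤ 2 * (ε₁ + ε₂) := by
  classical
  refine perf_of (w := fun σ : D.bx => D.nuG σ) (fun σ => SD.nuG_nonneg h.ok σ.1) hm
    (fun σ : D.bx => enc D σ.1) (outL n Pm.par₁ Pm.par₂ Pm.sub₁ Pm.sub₂ mem₁ mem₂)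
    (𝒜.stLaw (t + 1)) (PPL D) (f := fun l => D.nuG (D.pf (AnnData.toV n l)))
    (om := fun l => stW 𝒜.L 𝒜.x₀ 0 (t + 1) (AnnData.toV n l)) (Z := 𝒜.Z (t + 1))
    (𝒜.Z_pos (t + 1)) ?_ ?_ ?_ ?_ ?_ φ hφ d
  · intro l _
    exact SD.nuG_nonneg h.ok _
  · rw [sum_PPL]
    simp only [AnnData.toV_ofFn]
    exact h.s1
  · rw [SD.mass_nuG]
    exact h.s2
  · intro ψ
    exact h.E_eq (Or.inr rfl) ψ
  · intro ψ
    rw [sum_PPL]
    simp only [AnnData.toV_ofFn]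
    have e1 : ∑ a : D.bx, D.nuG a * (outL n Pm.par₁ Pm.par₂ Pm.sub₁ Pm.sub₂ mem₁ mem₂
        (enc D a)).elim 0 ψ =
        ∑ σ ∈ D.bx, D.nuG σ * (outL n Pm.par₁ Pm.par₂ Pm.sub₁ Pm.sub₂ mem₁ mem₂
        (enc D σ)).elim 0 ψ :=
      Finset.sum_coe_sort D.bx (fun σ => D.nuG σ * (outL n Pm.par₁ Pm.par₂ Pm.sub₁ Pm.sub₂ mem₁
        mem₂ (enc D σ)).elim 0 ψ)
    rw [e1]
    have e2 : ∀ σ : Stage.St D, D.nuG σ * (outL n Pm.par₁ Pm.par₂ Pm.sub₁ Pm.sub₂ mem₁ mem₂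
        (enc D σ)).elim 0 ψ = if D.IsPf σ then D.nuG σ * ψ (List.ofFn σ.1) else 0 := by
      intro σ
      rw [outL_enc hc]
      unfold SD.outG
      split_ifs <;> simp
    simp only [e2]
    rw [← sum_filter]
    symm
    refine sum_bij (fun x _ => D.pf x) (fun x hx => ?_) (fun x _ y _ hxy => congrArg Prod.fst hxy)
      (fun σ hσ => ?_) (fun x _ => rfl)
    · rw [mem_filter]
      exact ⟨h.inb x hx, rfl, (mem_PP.1 hx).1, (mem_PP.1 hx).2⟩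
    · obtain ⟨_, h1, h2, h3⟩ := mem_filter.1 hσ
      exact ⟨σ.1, mem_PP.2 ⟨h2, h3⟩, h1.symm⟩

/-- adding a unit vector -/
theorem addE_ofFn (x : Fin n → ℤ) (u : Fin n) :
    addE n (List.ofFn x) u = List.ofFn (x + ev u) := by
  unfold addE
  refine map_range_eq_ofFn _ _ fun a => ?_
  rw [Step.getD_ofFn]
  simp only [ev, Pi.add_apply, Pi.single_apply]
  by_cases hau : a = u
  · subst hau; simp
  · rw [if_neg hau, if_neg (fun e => hau (Fin.ext e))]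

/-- the one-link event of a coded state -/
theorem evL_enc (hc : Code D Pm w mem₁ mem₂) (u v : Fin n) (σ : Stage.St D) :
    evL n Pm.par₁ Pm.par₂ Pm.sub₁ Pm.sub₂ u v (enc D σ) = true ↔ D.EvG u v σ := by
  have e1 : (enc D σ).1 = List.ofFn σ.1 := rfl
  have e2 : (enc D σ).2.1 = encB D.S₁ σ.2.1 := rfl
  have e3 : (enc D σ).2.2 = encB D.S₂ σ.2.2 := rfl
  unfold evL SD.EvG
  rw [Bool.and_eq_true, decide_eq_true_iff, decide_eq_true_iff, e1, e2, e3, addE_ofFn, addE_ofFn,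
    hc.s₁.blkL, hc.s₂.blkL]
  constructor
  · rintro ⟨h1, h2⟩
    exact ⟨(encB_injective _ h1).symm, (encB_injective _ h2).symm⟩
  · rintro ⟨h1, h2⟩
    rw [h1, h2]
    exact ⟨rfl, rfl⟩

/-- **the one-link estimates** -/
theorem rat_stage (h : MF 𝒜 (t + 1) D ε₁ ε₂) (hε₂ : ε₂ ≤ 1 / 8) (hr : Rat 𝒜 (t + 1) D)
    (hc : Code D Pm w mem₁ mem₂) (hm : 0 < mass (fun σ : D.bx => D.nuG σ)) (u v : Fin n) :
    |2 ^ (2 * D.a) * (stat (fun σ : D.bx => D.nuG σ) (fun σ => SD.nuG_nonneg h.ok σ.1) hm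
        (fun σ => enc D σ.1)).E
        (fun y => ind (evL n Pm.par₁ Pm.par₂ Pm.sub₁ Pm.sub₂ u v y = true)) -
      𝒜.Nst (t + 1) v u * (2 : ℝ) ^ (D.ell u) / (𝒜.Z (t + 1) * (2 : ℝ) ^ (D.ell v))| ≤
      1 / 4 * (𝒜.Nst (t + 1) v u * (2 : ℝ) ^ (D.ell u) / (𝒜.Z (t + 1) * (2 : ℝ) ^ (D.ell v))) := by
  classical
  obtain ⟨s, hs1, hs2⟩ := hr u v
  have hZ := 𝒜.Z_pos (t + 1)
  have e0 : 𝒜.Nst (t + 1) v u * (2 : ℝ) ^ (D.ell u) / (𝒜.Z (t + 1) * (2 : ℝ) ^ (D.ell v)) =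
      2 ^ (D.ell u - D.ell v) * 𝒜.Nst (t + 1) v u / 𝒜.Z (t + 1) := by
    rw [zpow_sub₀ (by norm_num)]
    field_simp
  rw [e0]
  refine rat_of (w := fun σ : D.bx => D.nuG σ) (fun σ => SD.nuG_nonneg h.ok σ.1) hm
    (fun σ : D.bx => enc D σ.1)
    (fun y => evL n Pm.par₁ Pm.par₂ Pm.sub₁ Pm.sub₂ u v y = true)
    (m := 2 * D.a) (q := 2 ^ (D.ell u - D.ell v)) (s := s) (by positivity)
    (𝒜.Nst_nonneg (t + 1) v u) hZ ?_ hs2 ?_
  · have e1 : (1 : ℝ) / 2 ^ (2 * D.a) = (1 / 2) ^ (2 * D.a) := by rw [one_div_pow]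
    rw [e1, ← hs1, sum_filter, ← Finset.sum_coe_sort D.bx]
    refine sum_congr rfl fun σ _ => ?_
    by_cases he : D.EvG u v σ.1
    · rw [if_pos he, ind_of ((evL_enc hc u v σ.1).2 he), mul_one]
    · rw [if_neg he, ind_of_not (fun e => he ((evL_enc hc u v σ.1).1 e)), mul_zero]
  · rw [SD.mass_nuG]
    refine h.s2.trans ?_
    exact mul_le_mul_of_nonneg_right hε₂ hZ.le

end Crest.Agent.R302.Fields
end

-- ▼ part R302/Gau970E
section

/-!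
R302 (helper970), block GAUGE, part E: the triangle inequality of the (weighted) one-link counts of
the stages, `ChainOK.tri`.
-/

set_option autoImplicit false
set_option linter.unusedSectionVars false

namespace Crest.Agent.R302.Gau

open Finset Crest.Agent.R302.Lor Crest.Agent.R302.AnnBox
open Crest.Agent.R302.Facet (MemJ SubM)

variable {n : ℕ} (𝒜 : AnnData n)

open Classical in
/-- weighted indicator of side 1 of stage `t` -/
noncomputable def w1 (t : ℕ) (x : Fin n → ℤ) : ℝ :=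
  if MemJ (𝒜.stR 𝒜.r₁ t) 𝒜.R x then stOm n 𝒜.L t 𝒜.x₀ x else 0

open Classical in
/-- indicator of side 2 of stage `t` -/
noncomputable def w2 (t : ℕ) (x : Fin n → ℤ) : ℝ :=
  if MemJ (𝒜.stR 𝒜.r₂ t) 𝒜.R x then 1 else 0

theorem w1_lz (t : ℕ) : Lz 𝒜.R (w1 𝒜 t) := by
  refine Lz_base_of (𝒜.stR_sub 𝒜.sub₁ 𝒜.mem₁ t) (ω := fun v k => stOm1 n 𝒜.L t v (𝒜.x₀ v) k)
    (fun v k => stOm1_pos _ _ _ _ _ _) (fun v k => stOm1_lc _ _ _ _ _ _) (fun z hz => ?_)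
    (fun z hz => ?_)
  · unfold w1; rw [if_pos hz]; rfl
  · unfold w1; rw [if_neg hz]

theorem w2_lz (t : ℕ) : Lz (-𝒜.R) (fun p => w2 𝒜 t (-p)) := by
  have := Lz.memJ_reflect (𝒜.stR_sub 𝒜.sub₂ 𝒜.mem₂ t) 0 (c := fun p => w2 𝒜 t (-p))
    (fun z hz => by
      rw [zero_sub] at hz
      show w2 𝒜 t (-z) = 1
      unfold w2; rw [if_pos hz])
    (fun z hz => by
      rw [zero_sub] at hz
      show w2 𝒜 t (-z) = 0
      unfold w2; rw [if_neg hz])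
  simpa using this

/-- the window of stage `t` -/
noncomputable def bxA (t : ℕ) : Finset (Fin n → ℤ) :=
  Fintype.piFinset fun v => Icc (𝒜.x₀ v - stQ n 𝒜.L t)
    ((𝒜.x₀ v - stQ n 𝒜.L t) + ((2 * stQ n 𝒜.L t : ℕ) : ℤ))

theorem pairA_eq (t : ℕ) (u v : Fin n) :
    pairA (bxA 𝒜 t) (w1 𝒜 t) (w2 𝒜 t) (ev (Sum.inr v) - ev (Sum.inr u)) = 𝒜.Nst t u v := by
  classical
  set P : Finset (Fin n → ℤ) := (bxA 𝒜 t).filter fun x =>
    MemJ (𝒜.stR 𝒜.r₁ t) 𝒜.R x ∧ MemJ (𝒜.stR 𝒜.r₂ t) 𝒜.R (fun w => x w + hs u v w) with hP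
  have hPm : ∀ x, x ∈ P ↔ MemJ (𝒜.stR 𝒜.r₁ t) 𝒜.R x ∧
      MemJ (𝒜.stR 𝒜.r₂ t) 𝒜.R (fun w => x w + hs u v w) := by
    intro x
    rw [hP, mem_filter]
    constructor
    · exact fun h => h.2
    · intro h
      refine ⟨?_, h⟩
      have hc := ((𝒜.mem_stR 𝒜.sub₁ t x).1 h.1).2
      unfold bxA
      rw [Fintype.mem_piFinset]
      intro e
      have := hc e
      rw [mem_Icc]
      push_cast
      constructor <;> linarith [this.1, this.2]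
  unfold AnnData.Nst
  rw [𝒜.Ns_eq (hs u v) t P hPm, hP, Finset.sum_filter]
  unfold pairA
  refine Finset.sum_congr rfl fun x _ => ?_
  have e1 : (x + fun e => (ev (Sum.inr v) - ev (Sum.inr u) : Fin n ⊕ Fin n → ℤ) (Sum.inl e)) = x := by
    funext e
    have a1 : ev (Sum.inr v : Fin n ⊕ Fin n) (Sum.inl e) = 0 := ev_ne (by simp)
    have a2 : ev (Sum.inr u : Fin n ⊕ Fin n) (Sum.inl e) = 0 := ev_ne (by simp)
    simp [a1, a2]
  have e2 : (x - fun e => (ev (Sum.inr v) - ev (Sum.inr u) : Fin n ⊕ Fin n → ℤ) (Sum.inr e)) =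
      fun w => x w + hs u v w := by
    funext e
    have a1 : ev (Sum.inr v : Fin n ⊕ Fin n) (Sum.inr e) = ev v e := ev_inr_apply _ _
    have a2 : ev (Sum.inr u : Fin n ⊕ Fin n) (Sum.inr e) = ev u e := ev_inr_apply _ _
    rw [Pi.sub_apply, Pi.sub_apply, a1, a2]
    unfold hs ev
    simp only [Pi.single_apply]
    ring
  rw [e1, e2]
  unfold w1 w2
  by_cases h1 : MemJ (𝒜.stR 𝒜.r₁ t) 𝒜.R x
  · by_cases h2 : MemJ (𝒜.stR 𝒜.r₂ t) 𝒜.R (fun w => x w + hs u v w)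
    · simp only [h1, h2, if_true, and_self, mul_one]
    · simp only [h1, h2, if_true, if_false, and_false, mul_zero]
  · simp only [h1, if_false, false_and, zero_mul]

/-- **triangle inequality of the one-link counts** -/
theorem tri_Nst (t : ℕ) (u v w : Fin n) :
    𝒜.Nst t u v * 𝒜.Nst t v w ≤ 2 * 𝒜.Z t * 𝒜.Nst t u w := by
  have hb1 : ∀ p, w1 𝒜 t p ≤ 1 := by
    intro p
    unfold w1
    split_ifs
    · exact stOm_le_one _ _ _ _ _
    · exact zero_le_one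
  have hb2 : ∀ p, w2 𝒜 t p ≤ 1 := by
    intro p
    unfold w2
    split_ifs
    · exact le_rfl
    · exact zero_le_one
  have hL : Lz 0 (pairA (bxA 𝒜 t) (w1 𝒜 t) (w2 𝒜 t)) :=
    (Lz_pair (w1_lz 𝒜 t) (w2_lz 𝒜 t) hb1 hb2 (fun v => 𝒜.x₀ v - stQ n 𝒜.L t)
      (fun _ => 2 * stQ n 𝒜.L t)).1
  have hl : LorN (pairA (bxA 𝒜 t) (w1 𝒜 t) (w2 𝒜 t)) := fun β => hL.af [] (by simp) β
  have h := cyc hl hL.nonneg (Sum.inr w) (Sum.inr v) (Sum.inr u)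
  rw [pairA_eq, pairA_eq, pairA_eq] at h
  have h0 : pairA (bxA 𝒜 t) (w1 𝒜 t) (w2 𝒜 t) 0 = 𝒜.Z t := by
    have := pairA_eq 𝒜 t u u
    rw [sub_self, 𝒜.Nst_self] at this
    exact this
  rw [h0] at h
  linarith

/-- the same in helper272's orientation `N u v := Nst t v u` -/
theorem tri_Nst' (t : ℕ) (u v w : Fin n) :
    𝒜.Nst t v u * 𝒜.Nst t w v ≤ 2 * 𝒜.Z t * 𝒜.Nst t w u := by
  have := tri_Nst 𝒜 t w v u
  linarith

end Crest.Agent.R302.Gau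
end

-- ▼ part R302/Stage536Y
section

/-!
R302 (helper536), STAGE: `ChainOK` of the concrete program at one stage, from the mass facts and the mixing of
the two concrete chains (`D` = estimators with link exponent `aE`, movers with link exponent `aM`).
-/

set_option autoImplicit false
set_option linter.unusedSectionVars false

namespace Crest.Agent.R302.Fields

open Finset Crest.Agent.R302.Inst Crest.Agent.R302.Stage Crest.Agent.R302.AnnBox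
open Crest.Agent.R302.Loop Crest.Agent.R302.Mix Crest.Agent.R302.Step Crest.Agent.R302.Prog
open Crest.Agent.R302.Slk Crest.Agent.R302.Smp Crest.Agent.R302.Top Crest.Agent.R302.Facet
open Crest.Agent.R302.Conc (sdA sdOf parOf ellOf jF mem_jF mA code_prg mem_ks₁ mem_ks₂ matT₁ matT₂)
open Crest.Agent.R302.Lor (ev)
open Crest.Agent.R302.ORAM
open Crest.Agent.R309.MC Crest.Agent.R309.Tape

variable {n : ℕ}

/-- the point mass -/
noncomputable def ptL {S : Type*} (s : S) : Law S where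
  supp := {s}
  wt := fun _ => 1
  nonneg := fun _ _ => zero_le_one
  sum_eq := by simp

/-- input of one stage: the mass facts and the mixing of the chain in `T` steps -/
structure StIn (𝒜 : AnnData n) (t : ℕ) (D : SD (Fin n)) (T : ℕ) (ε₁ ε₂ η : ℝ) : Prop where
  mf : MF 𝒜 (t + 1) D ε₁ ε₂
  mix : ∃ (c e : ℝ) (L : ℕ), 0 < c ∧ c ≤ 1 ∧ 0 ≤ e ∧
    PoincD (fun σ : D.bx => D.nuG σ) D.Kch c e ∧
    128 * e ≤ c * mass (fun σ : D.bx => D.nuG σ) * η ^ 2 ∧ 8 ≤ η ^ 2 * 2 ^ L ∧ (L : ℝ) ≤ c * T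

/-- the mass facts of `sdA` from the sums over all perfect points -/
theorem MF.of_sdA {𝒜 : AnnData n} {t : ℕ} {P : Conc.Par} {ell : Fin n → ℤ} {ε₁ ε₂ : ℝ}
    (hOK : (sdA 𝒜 t P ell).OK)
    (inb : ∀ x ∈ 𝒜.PH 0, (sdA 𝒜 t P ell).pf x ∈ (sdA 𝒜 t P ell).bx)
    (s1 : ∑ x ∈ 𝒜.PH 0, |(sdA 𝒜 t P ell).nuG ((sdA 𝒜 t P ell).pf x) -
      stW 𝒜.L 𝒜.x₀ 0 t x| ≤ ε₁ * 𝒜.Z t)
    (s2 : |∑ σ ∈ (sdA 𝒜 t P ell).bx, (sdA 𝒜 t P ell).nuG σ - 𝒜.Z t| ≤ ε₂ * 𝒜.Z t) :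
    MF 𝒜 t (sdA 𝒜 t P ell) ε₁ ε₂ := by
  have hmem : ∀ x, x ∈ PP (sdA 𝒜 t P ell) ↔
      (MemJ 𝒜.r₁ 𝒜.R x ∧ InCube 𝒜.x₀ (stQ n 𝒜.L t) x) ∧
        (MemJ 𝒜.r₂ 𝒜.R x ∧ InCube 𝒜.x₀ (stQ n 𝒜.L t) x) := by
    intro x
    rw [mem_PP, ← 𝒜.mem_stR 𝒜.sub₁, ← 𝒜.mem_stR 𝒜.sub₂, ← mem_jF 𝒜 𝒜.sub₁, ← mem_jF 𝒜 𝒜.sub₂]
    rfl
  have hsub : PP (sdA 𝒜 t P ell) ⊆ 𝒜.PH 0 := by
    intro x hx
    obtain ⟨⟨h1, _⟩, h2, _⟩ := (hmem x).1 hx
    exact (𝒜.mem_P x).2 ⟨h1, h2⟩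
  refine ⟨hOK, hsub, fun x hx hx' => ?_, fun x hx => inb x (hsub hx), ?_, s2⟩
  · unfold stW
    rw [if_neg]
    rintro ⟨hc, _⟩
    obtain ⟨h1, h2⟩ := (𝒜.mem_P x).1 hx
    exact hx' ((hmem x).2 ⟨⟨h1, hc⟩, h2, hc⟩)
  · exact (sum_le_sum_of_subset_of_nonneg hsub fun x _ _ => abs_nonneg _).trans s1

section prg

variable {P : Prog.Par} {R m : ℕ} {r₁ r₂ : Finset (Fin n) → ℕ} {lo hi : Fin n → ℤ}
  {𝒜 : AnnData n}

/-- **`ChainOK` of the concrete program at one stage** -/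
theorem chainOK_prg (h : IsInst (Prog.prg P) n R m r₁ r₂ lo hi 𝒜) {t : ℕ}
    (ht : t < (Prog.prg P).T (inp n R m lo hi)) {ε₁ εE εM η es : ℝ} (hrp : P.rp = Rep646.repL)
    (hε₁ : ε₁ ≤ 1 / 8) (hεE : εE ≤ 1 / 8) (hεM : εM ≤ 1 / 8) (hη : 0 ≤ η)
    (hw : 16 * n * Facet.kap n + (4 * n + 2) ≤ (P.w₁ (inp n R m lo hi) : ℤ))
    (hw' : (cA n : ℤ) < P.w₁ (inp n R m lo hi))
    (hB₁ : ∀ e : Fin n, slkLen (StageL.kV (P.dk (inp n R m lo hi))
      (GeoSpec.nnForest (mA 𝒜 𝒜.r₁ (t + 1)) (P.w₁ (inp n R m lo hi))) (mA 𝒜 𝒜.r₁ (t + 1)) e)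
      (P.N (inp n R m lo hi)) ≤ P.B (inp n R m lo hi))
    (hB₂ : ∀ e : Fin n, slkLen (StageL.kV (P.dk (inp n R m lo hi))
      (GeoSpec.nnForest (mA 𝒜 𝒜.r₂ (t + 1)) (P.w₁ (inp n R m lo hi))) (mA 𝒜 𝒜.r₂ (t + 1)) e)
      (P.N (inp n R m lo hi)) ≤ P.B (inp n R m lo hi))
    (hesE : P.TE (inp n R m lo hi) * ((1 / 2 : ℝ) ^ P.kmax (inp n R m lo hi) +
        (n * (1 / 2 ^ P.N (inp n R m lo hi)) + n * (1 / 2 ^ P.N (inp n R m lo hi)))) ≤ es)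
    (hesM : P.TM (inp n R m lo hi) * ((1 / 2 : ℝ) ^ P.kmax (inp n R m lo hi) +
        (n * (1 / 2 ^ P.N (inp n R m lo hi)) + n * (1 / 2 ^ P.N (inp n R m lo hi)))) ≤ es)
    (HE : ∀ g : List ℤ,
      GoodR n (Prog.repT P (rq r₁ r₂) (inp n R m lo hi) t) (Smp.NN 𝒜 (t + 1)) (𝒜.Z (t + 1)) 64 g →
      StIn 𝒜 t (sdA 𝒜 (t + 1) (parOf P (inp n R m lo hi) (P.aE (inp n R m lo hi)))
        (ellOf P (rq r₁ r₂) (inp n R m lo hi) t g)) (P.TE (inp n R m lo hi)) ε₁ εE η ∧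
      Rat 𝒜 (t + 1) (sdA 𝒜 (t + 1) (parOf P (inp n R m lo hi) (P.aE (inp n R m lo hi)))
        (ellOf P (rq r₁ r₂) (inp n R m lo hi) t g)))
    (HM : ∀ g : List ℤ,
      GoodR n (Prog.repT P (rq r₁ r₂) (inp n R m lo hi) t) (Smp.NN 𝒜 (t + 1)) (𝒜.Z (t + 1)) 64 g →
      StIn 𝒜 t (sdA 𝒜 (t + 1) (parOf P (inp n R m lo hi) (P.aM (inp n R m lo hi)))
        (ellOf P (rq r₁ r₂) (inp n R m lo hi) t g)) (P.TM (inp n R m lo hi)) ε₁ εM η) :
    ∃ π : List ℤ → Law Step.St,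
      ChainOK ((Prog.prg P).ch (rq r₁ r₂) (inp n R m lo hi)) n t (𝒜.stLaw t) (𝒜.stLaw (t + 1)) π
        (Smp.NN 𝒜 t) (Smp.NN 𝒜 (t + 1)) (𝒜.Z t) (𝒜.Z (t + 1)) 2 2 (es + 4 * ε₁ + η)
        (es + 4 * ε₁ + η + 2 * (ε₁ + εM)) := by
  classical
  set s := inp n R m lo hi with hs
  set Q := rq r₁ r₂ with hQ
  -- the law of the estimators
  let G : List ℤ → Prop := fun g =>
    GoodR n (Prog.repT P Q s t) (Smp.NN 𝒜 (t + 1)) (𝒜.Z (t + 1)) 64 g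
  let DE : List ℤ → SD (Fin n) := fun g => sdA 𝒜 (t + 1) (parOf P s (P.aE s)) (ellOf P Q s t g)
  let DM : List ℤ → SD (Fin n) := fun g => sdA 𝒜 (t + 1) (parOf P s (P.aM s)) (ellOf P Q s t g)
  have posE : ∀ g, G g → 0 < mass (fun σ : (DE g).bx => (DE g).nuG σ) := fun g hg =>
    (HE g hg).1.mf.mass_pos (by linarith)
  have posM : ∀ g, G g → 0 < mass (fun σ : (DM g).bx => (DM g).nuG σ) := fun g hg =>
    (HM g hg).mf.mass_pos (by linarith)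
  let π : List ℤ → Law Step.St := fun g =>
    if hg : G g then stat (fun σ : (DE g).bx => (DE g).nuG σ)
      (fun σ => SD.nuG_nonneg (HE g hg).1.mf.ok σ.1) (posE g hg) (fun σ => Step.enc (DE g) σ.1)
    else ptL ([], [], [])
  have hπ : ∀ g (hg : G g), π g = stat (fun σ : (DE g).bx => (DE g).nuG σ)
      (fun σ => SD.nuG_nonneg (HE g hg).1.mf.ok σ.1) (posE g hg)
      (fun σ => Step.enc (DE g) σ.1) := fun g hg => dif_pos hg
  -- components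
  have hMM : ∀ b, Prog.matT P Q s t b = Rep646.stMat Q s 𝒜.L b (t + 1) := by
    intro b
    unfold Prog.matT Rep646.stMat Prog.loT Prog.hiT
    rw [Conc.tt_eq P ht, h.AL]
    rfl
  have hrep : ∀ u, Prog.repT P Q s t u = (Rep646.repL n (P.w₁ s)
      (Rep646.stMat Q s 𝒜.L false (t + 1)) (Rep646.stMat Q s 𝒜.L true (t + 1))).getD u 0 := by
    intro u
    unfold Prog.repT
    rw [hrp, hMM, hMM]
    rfl
  obtain ⟨b1, b2⟩ := Rep646.blk_inst h hw hw' (t + 1)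
  have hM₁ : ∀ a b : Fin n, ((Rep646.stMat Q s 𝒜.L false (t + 1)).getD a []).getD b 0 =
      Rep646.stM 𝒜 𝒜.r₁ (t + 1) a b := fun a b => by
    have := Rep646.stMat_getD h false (t + 1) a b
    simpa using this
  have hM₂ : ∀ a b : Fin n, ((Rep646.stMat Q s 𝒜.L true (t + 1)).getD a []).getD b 0 =
      Rep646.stM 𝒜 𝒜.r₂ (t + 1) a b := fun a b => by
    have := Rep646.stMat_getD h true (t + 1) a b
    simpa using this
  have rlt : ∀ u < n, Prog.repT P Q s t u < n := fun u hu => by rw [hrep]; exact b1 u hu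
  have ridem : ∀ u < n, Prog.repT P Q s t (Prog.repT P Q s t u) = Prog.repT P Q s t u := by
    intro u hu
    rw [hrep, hrep]
    exact Rep646.repL_idem hM₁ hM₂ hu
  -- lengths of the slacks
  have kB₁ : ∀ (a : ℕ) (g : List ℤ), ∀ k ∈ (Prog.prm P Q s t a g).ks₁,
      slkLen k (P.N s) ≤ P.B s := fun a g k hk => by
    obtain ⟨e, rfl⟩ := mem_ks₁ h ht a g hk; exact hB₁ e
  have kB₂ : ∀ (a : ℕ) (g : List ℤ), ∀ k ∈ (Prog.prm P Q s t a g).ks₂,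
      slkLen k (P.N s) ≤ P.B s := fun a g k hk => by
    obtain ⟨e, rfl⟩ := mem_ks₂ h ht a g hk; exact hB₂ e
  refine ⟨π, chainOK_ann rlt ?_ ?_ ?_ ?_ ?_⟩
  · -- conv
    intro g hg φ hφ
    have hg' : G g := hg
    obtain ⟨⟨mf, c, e, L, c0, c1, e0, hP, hec, hL, hT⟩, _⟩ := HE g hg'
    have key := conv_stage (kmax := P.kmax s) mf hε₁ hεE (code_prg h ht (P.aE s) g) (kB₁ _ g) (kB₂ _ g)
      (posE g hg') hP c0 c1 e0 hη hL hT hec φ hφ
    rw [hπ g hg']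
    refine le_trans (le_of_eq ?_) (key.trans ?_)
    · rfl
    · linarith [hesE]
  · -- rat
    intro g hg u hu v hv
    have hg' : G g := hg
    obtain ⟨⟨mf, _⟩, hr⟩ := HE g hg'
    have key := rat_stage mf hεE hr (code_prg h ht (P.aE s) g) (posE g hg')
      ⟨Prog.repT P Q s t u, rlt u hu⟩ ⟨Prog.repT P Q s t v, rlt v hv⟩
    rw [hπ g hg']
    have e1 : ∀ w (hw : w < n), (DE g).ell ⟨Prog.repT P Q s t w, rlt w hw⟩ =
        g.getD (Prog.repT P Q s t w) 0 := by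
      intro w hw
      show ellOf P Q s t g _ = _
      unfold ellOf
      rw [ridem w hw]
    have e2 := e1 u hu
    have e3 := e1 v hv
    have e4 := Smp.NN_eq 𝒜 (t + 1) ⟨Prog.repT P Q s t u, rlt u hu⟩ ⟨Prog.repT P Q s t v, rlt v hv⟩
    rw [← e4] at key
    have key' : |2 ^ (2 * (DE g).a) * (stat (fun σ : (DE g).bx => (DE g).nuG σ)
        (fun σ => SD.nuG_nonneg mf.ok σ.1) (posE g hg') (fun σ => Step.enc (DE g) σ.1)).E
        (fun y => ind (Prog.evT P Q s t (Prog.repT P Q s t u) (Prog.repT P Q s t v) y = true)) -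
        Smp.NN 𝒜 (t + 1) (Prog.repT P Q s t u) (Prog.repT P Q s t v) *
          (2 : ℝ) ^ ((DE g).ell ⟨Prog.repT P Q s t u, rlt u hu⟩) /
          (𝒜.Z (t + 1) * (2 : ℝ) ^ ((DE g).ell ⟨Prog.repT P Q s t v, rlt v hv⟩))| ≤
        1 / 4 * (Smp.NN 𝒜 (t + 1) (Prog.repT P Q s t u) (Prog.repT P Q s t v) *
          (2 : ℝ) ^ ((DE g).ell ⟨Prog.repT P Q s t u, rlt u hu⟩) /
          (𝒜.Z (t + 1) * (2 : ℝ) ^ ((DE g).ell ⟨Prog.repT P Q s t v, rlt v hv⟩))) := key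
    rw [e2, e3] at key'
    exact key'
  · -- move
    intro g hg φ hφ d hd
    have hg' : G g := hg
    obtain ⟨mf, c, e, L, c0, c1, e0, hP, hec, hL, hT⟩ := HM g hg'
    refine move_of (run := fun x l => Prog.runT P Q s t (P.aM s) (P.TM s) g x l)
      (π₂ := stat (fun σ : (DM g).bx => (DM g).nuG σ)
      (fun σ => SD.nuG_nonneg mf.ok σ.1) (posM g hg') (fun σ => Step.enc (DM g) σ.1))
      (out := fun y => Prog.outT P Q s t y) (ρ := P.TM s * Prog.bitsS P s)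
      (fun ψ hψ => ?_) (fun ψ hψ d' _ => ?_) φ hφ d hd
    · have key := conv_stage (kmax := P.kmax s) mf hε₁ hεM (code_prg h ht (P.aM s) g) (kB₁ _ g) (kB₂ _ g)
        (posM g hg') hP c0 c1 e0 hη hL hT hec ψ hψ
      refine le_trans (le_of_eq ?_) (key.trans ?_)
      · rfl
      · linarith [hesM]
    · exact perf_stage mf (code_prg h ht (P.aM s) g) (posM g hg') ψ hψ d'
  · exact Gau.tri_Nst' 𝒜 (t + 1)
  · intro u hu v hv
    have := b2 u hu v hv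
    rw [← hrep u, ← hrep v] at this
    exact this

end prg

end Crest.Agent.R302.Fields
end

-- ▼ part R302/ConcFacts342B

/-!
R302 (helper342): `Spec`, hence `LInst.Facts`, for the stage data `sdA 𝒜 t P ell` of annealing data.

* `Lam 𝒜 P t ell` : what is used of the gauge (`ell` constant on the fat links);
* `lam_sprL` : the spread list of the program;
* `spec_sdA`, `facts_sdA`.
-/

set_option autoImplicit false
set_option linter.unusedSectionVars false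

namespace Crest.Agent.R302.ConcF

open Finset Crest.Agent.R302.Lor Crest.Agent.R302.Inst Crest.Agent.R302.Stage
open Crest.Agent.R302.GeoSpec Crest.Agent.R302.StageL Crest.Agent.R302.AnnBox
open Crest.Agent.R302.Facet Crest.Agent.R302.Conc Crest.Agent.R302.EDM

variable {n : ℕ}

/-- block sums of a nonnegative point of total mass `R` -/
theorem bs_abs_le {T : MP3.Forest (Fin n)} {z : Fin n → ℤ} {R : ℤ} (h0 : ∀ v, 0 ≤ z v)
    (hR : ∑ v, z v = R) (a : Fin n) : |bs T z a| ≤ R := by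
  have h1 : 0 ≤ bs T z a := Finset.sum_nonneg fun v _ => h0 v
  have h2 : bs T z a ≤ R := by
    rw [← hR]
    exact Finset.sum_le_sum_of_subset_of_nonneg (Finset.subset_univ _) fun v _ _ => h0 v
  rw [abs_of_nonneg h1]
  exact h2

/-- the gauge is a function of the representatives -/
def RepC (𝒜 : AnnData n) (P : Conc.Par) (t : ℕ) (rep : Fin n → Fin n) : Prop :=
  (∀ a b, (nnForest (mA 𝒜 𝒜.r₁ t) P.w₁).par a = some b → rep a = rep b) ∧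
  (∀ a b, (nnForest (mA 𝒜 𝒜.r₂ t) P.w₁).par a = some b → rep a = rep b)

/-- what the numerical parameters of the stage satisfy -/
structure ParOK (𝒜 : AnnData n) (P : Conc.Par) : Prop where
  w : (cA n : ℤ) < P.w₁
  dk0 : 0 < P.dk
  big : 4 * n * (P.dk : ℤ) ≤ P.w₁
  Lb : 𝒜.R ≤ P.Lb
  pos₁ : ∀ z, MemJ 𝒜.r₁ 𝒜.R z → ∀ v, 0 ≤ z v
  pos₂ : ∀ z, MemJ 𝒜.r₂ 𝒜.R z → ∀ v, 0 ≤ z v

variable {𝒜 : AnnData n} {P : Conc.Par} {t : ℕ} {ell : Fin n → ℤ} {rep : Fin n → Fin n}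

theorem x₀_stR₁ (𝒜 : AnnData n) (t : ℕ) : MemJ (𝒜.stR 𝒜.r₁ t) 𝒜.R 𝒜.x₀ :=
  (𝒜.mem_stR 𝒜.sub₁ t _).2 ⟨𝒜.mem₁, fun v => by constructor <;> simp⟩

theorem x₀_stR₂ (𝒜 : AnnData n) (t : ℕ) : MemJ (𝒜.stR 𝒜.r₂ t) 𝒜.R 𝒜.x₀ :=
  (𝒜.mem_stR 𝒜.sub₂ t _).2 ⟨𝒜.mem₂, fun v => by constructor <;> simp⟩

/-- **the concrete stage satisfies `Spec`** -/
theorem spec_sdA (hP : ParOK 𝒜 P) (hr : RepC 𝒜 P t rep) (hl : ∃ f : Fin n → ℤ, ∀ e, ell e = f (rep e)) :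
    Spec (sdA 𝒜 t P ell) (mA 𝒜 𝒜.r₁ t) (mA 𝒜 𝒜.r₂ t) P.w₁ P.dk 𝒜.L t 𝒜.x₀
      (𝒜.stR 𝒜.r₁ t) (𝒜.stR 𝒜.r₂ t) 𝒜.R rep where
  T₁ := rfl
  T₂ := rfl
  sub₁ := 𝒜.stR_sub 𝒜.sub₁ 𝒜.mem₁ t
  sub₂ := 𝒜.stR_sub 𝒜.sub₂ 𝒜.mem₂ t
  J₁ := fun z => mem_jF 𝒜 𝒜.sub₁ t z
  J₂ := fun z => mem_jF 𝒜 𝒜.sub₂ t z
  g₁ := fun _ => rfl
  g₂ := fun _ => rfl
  κ₁ := fun _ _ => rfl
  κ₂ := fun _ _ => rfl
  w := fun _ => rfl
  thin := fun ht a => (Rep646.nnForest_thin 𝒜 hP.w ht.le a).1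
  x0₁ := x₀_stR₁ 𝒜 t
  x0₂ := x₀_stR₂ 𝒜 t
  rep₁ := hr.1
  rep₂ := hr.2
  ell := hl
  lb₁ := fun z hz a => (bs_abs_le (hP.pos₁ z ((𝒜.mem_stR 𝒜.sub₁ t z).1 hz).1) hz.2 a).trans hP.Lb
  lb₂ := fun z hz a => (bs_abs_le (hP.pos₂ z ((𝒜.mem_stR 𝒜.sub₂ t z).1 hz).1) hz.2 a).trans hP.Lb
  dk0 := hP.dk0
  big := hP.big

/-- the slopes of side 1 -/
noncomputable def bA (𝒜 : AnnData n) (P : Conc.Par) (t : ℕ) (r : Finset (Fin n) → ℤ) : Fin n → ℝ :=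
  bK P.dk (nnForest (mA 𝒜 r t) P.w₁) (mA 𝒜 r t)

/-- the second differences -/
noncomputable def dA (𝒜 : AnnData n) (P : Conc.Par) (t : ℕ) (r : Finset (Fin n) → ℤ) : Fin n → ℝ :=
  dK P.dk (nnForest (mA 𝒜 r t) P.w₁) (mA 𝒜 r t)

/-- **the official facts for `sdA`** -/
theorem facts_sdA (hP : ParOK 𝒜 P) (hr : RepC 𝒜 P t rep)
    (hl : ∃ f : Fin n → ℤ, ∀ e, ell e = f (rep e)) :
    LInst.Facts (sdA 𝒜 t P ell) (bA 𝒜 P t 𝒜.r₁) (dA 𝒜 P t 𝒜.r₁) (bA 𝒜 P t 𝒜.r₂)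
      (dA 𝒜 P t 𝒜.r₂) 1 (𝒜.stR 𝒜.r₁ t) (𝒜.stR 𝒜.r₂ t) 𝒜.R 𝒜.R
      (fun v k => stOm1 n 𝒜.L t v (𝒜.x₀ v) k) (fun _ _ => 1) :=
  (spec_sdA hP hr hl).facts



/-! ### the gauge of the program -/

section gauge

variable {M₁ M₂ : List (List ℤ)} (hM₁ : ∀ a b : Fin n, (M₁.getD a []).getD b 0 = mA 𝒜 𝒜.r₁ t a b)
    (hM₂ : ∀ a b : Fin n, (M₂.getD a []).getD b 0 = mA 𝒜 𝒜.r₂ t a b)




end gauge


/-! ### the instances of the sampler -/

section inst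

open Crest.Polymatroid Crest.Agent.R302.Smp Crest.Agent.R302.Top Crest.Agent.R302.ORAM

variable {Ω : Type*} {Pr : Prg Ω} {R m : ℕ} {r₁ r₂ : Finset (Fin n) → ℕ} {lo hi : Fin n → ℤ}

theorem inst_pos₁ (h : IsInst Pr n R m r₁ r₂ lo hi 𝒜) (z : Fin n → ℤ) (hz : MemJ 𝒜.r₁ 𝒜.R z)
    (v : Fin n) : 0 ≤ z v := by
  rw [h.A₁, h.AR, memJ_boxR (zr_subM h.pr₁ h.e₁)] at hz
  exact (h.box v).1.trans (hz.2 v).1

theorem inst_pos₂ (h : IsInst Pr n R m r₁ r₂ lo hi 𝒜) (z : Fin n → ℤ) (hz : MemJ 𝒜.r₂ 𝒜.R z)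
    (v : Fin n) : 0 ≤ z v := by
  rw [h.A₂, h.AR, memJ_boxR (zr_subM h.pr₂ h.e₂)] at hz
  exact (h.box v).1.trans (hz.2 v).1

/-- the parameter conditions for an instance -/
theorem parOK_inst (h : IsInst Pr n R m r₁ r₂ lo hi 𝒜) (w : (cA n : ℤ) < P.w₁) (dk0 : 0 < P.dk)
    (big : 4 * n * (P.dk : ℤ) ≤ P.w₁) (Lb : (R : ℤ) ≤ P.Lb) : ParOK 𝒜 P :=
  ⟨w, dk0, big, by rw [h.AR]; exact Lb, inst_pos₁ h, inst_pos₂ h⟩

end inst

end Crest.Agent.R302.ConcF
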