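import Crest.Agent.R302.AFTree674
import Crest.Agent.R302.Cut550

/-!
R302 (helper674): the analytic hypotheses of helper893's stage theorem (`MSP893C/D/E`) for the
weights `AFC.FF`, from hypotheses on the one-dimensional kernels.

* `Ker f b C` : positive log-concave kernel, ratios `≤ 1 + b` both ways, second differences
  `≤ C b²`;
* `Ker.of_slope` : slopes alone give `C = 9` when `b ≥ 1` (thin edges), `ker_thin`;
* `ker_fat` : the two-fold geometric kernel `q^|t| (|t| + (1+q²)/(1-q²))`, `b = 1/q - 1`, `C = 2`;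
* `FF_kappa`, `FF_b`, `FF_s` : the hypotheses `hκ`, `hb`, `hs`.
-/

set_option autoImplicit false
set_option linter.unusedSectionVars false

namespace Crest.Agent.R302.AFC

open Finset Crest.Agent.R302.Lor
open Crest.Agent.R302.Tree (RTree)
open Crest.Agent.R302.Tree.RTree
open Crest.Agent.R302.Cut (dvec)

/-! ### kernels -/

/-- one-dimensional kernel with two-sided slope `b` and second order constant `C` -/
structure Ker (f : ℤ → ℝ) (b C : ℝ) : Prop where
  pos : ∀ k, 0 < f k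
  lc : ∀ k, f (k - 1) * f (k + 1) ≤ f k ^ 2
  b0 : 0 ≤ b
  up : ∀ k, f (k + 1) ≤ (1 + b) * f k
  down : ∀ k, f k ≤ (1 + b) * f (k + 1)
  sec : ∀ k, |f (k + 2) - 2 * f (k + 1) + f k| ≤ C * b ^ 2 * f (k + 2)

theorem Ker.smul {f : ℤ → ℝ} {b C : ℝ} (h : Ker f b C) {a : ℝ} (ha : 0 < a) :
    Ker (fun k => a * f k) b C := by
  refine ⟨fun k => mul_pos ha (h.pos k), fun k => ?_, h.b0, fun k => ?_, fun k => ?_, fun k => ?_⟩
  · have := mul_le_mul_of_nonneg_left (h.lc k) (mul_nonneg ha.le ha.le)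
    nlinarith
  · have := mul_le_mul_of_nonneg_left (h.up k) ha.le
    linarith
  · have := mul_le_mul_of_nonneg_left (h.down k) ha.le
    linarith
  · have := mul_le_mul_of_nonneg_left (h.sec k) ha.le
    rw [show a * f (k + 2) - 2 * (a * f (k + 1)) + a * f k
      = a * (f (k + 2) - 2 * f (k + 1) + f k) by ring, abs_mul, abs_of_pos ha]
    linarith

theorem Ker.mono {f : ℤ → ℝ} {b C b' C' : ℝ} (h : Ker f b C) (hC0 : 0 ≤ C) (hb : b ≤ b')
    (hC : C ≤ C') : Ker f b' C' := by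
  have hb0 := h.b0
  refine ⟨h.pos, h.lc, hb0.trans hb, fun k => ?_, fun k => ?_, fun k => ?_⟩
  · exact (h.up k).trans (mul_le_mul_of_nonneg_right (by linarith) (h.pos k).le)
  · exact (h.down k).trans (mul_le_mul_of_nonneg_right (by linarith) (h.pos _).le)
  · refine (h.sec k).trans (mul_le_mul_of_nonneg_right ?_ (h.pos _).le)
    have h1 : b ^ 2 ≤ b' ^ 2 := pow_le_pow_left₀ hb0 hb 2
    calc C * b ^ 2 ≤ C * b' ^ 2 := mul_le_mul_of_nonneg_left h1 hC0
      _ ≤ C' * b' ^ 2 := mul_le_mul_of_nonneg_right hC (sq_nonneg _)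

/-- reflection -/
theorem Ker.refl {f : ℤ → ℝ} {b C : ℝ} (h : Ker f b C)
    (hs : ∀ k, f (-k) = f k) : Ker (fun k => f (-k)) b C := by
  have : (fun k => f (-k)) = f := funext hs
  rw [this]; exact h




/-- the constant of the fat kernel -/
noncomputable def fc (q : ℝ) : ℝ := (1 + q ^ 2) / (1 - q ^ 2)

/-- the two-fold geometric kernel -/
noncomputable def fk (q : ℝ) (t : ℤ) : ℝ := q ^ t.natAbs * (t.natAbs + fc q)


theorem fc_pos {q : ℝ} (h0 : 0 < q) (h1 : q < 1) : 1 < fc q := by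
  unfold fc
  have : 0 < 1 - q ^ 2 := by nlinarith
  rw [lt_div_iff₀ this]
  nlinarith [sq_pos_of_pos h0]

theorem fc_eq {q : ℝ} (h0 : 0 < q) (h1 : q < 1) : fc q * (1 - q ^ 2) = 1 + q ^ 2 := by
  unfold fc
  have : 1 - q ^ 2 ≠ 0 := by nlinarith
  field_simp

theorem ker_fat {q : ℝ} (h0 : 0 < q) (h1 : q < 1) : Ker (fk q) (1 / q - 1) 2 := by
  set c := fc q with hc
  have hc1 : 1 < c := fc_pos h0 h1
  have hce : c * (1 - q ^ 2) = 1 + q ^ 2 := fc_eq h0 h1
  have hpos : ∀ k, 0 < fk q k := fun k => by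
    unfold fk
    have : (0 : ℝ) ≤ (k.natAbs : ℝ) := Nat.cast_nonneg _
    exact mul_pos (pow_pos h0 _) (by linarith)
  -- values on naturals
  set φ : ℕ → ℝ := fun n => q ^ n * (n + c) with hφ
  have hval : ∀ k : ℤ, fk q k = φ k.natAbs := fun k => rfl
  have hφpos : ∀ n, 0 < φ n := fun n => by
    have : (0 : ℝ) ≤ (n : ℝ) := Nat.cast_nonneg _
    exact mul_pos (pow_pos h0 _) (by linarith)
  have hdec : ∀ n, φ (n + 1) ≤ φ n := by
    intro n
    have hn : (0 : ℝ) ≤ (n : ℝ) := Nat.cast_nonneg _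
    simp only [hφ]
    push_cast
    rw [pow_succ]
    have h2 : q * (n + 1 + c) ≤ n + c := by
      -- (1-q)(n+c) ≥ q ; c ≥ ... from hce
      have h3 : q ≤ (1 - q) * c := by
        have h4 : (1 - q) * c * (1 + q) = 1 + q ^ 2 := by rw [← hce]; ring
        nlinarith
      nlinarith
    calc q ^ n * q * (n + 1 + c) = q ^ n * (q * (n + 1 + c)) := by ring
      _ ≤ q ^ n * (n + c) := mul_le_mul_of_nonneg_left h2 (pow_pos h0 _).le
  have hinc : ∀ n, φ n ≤ 1 / q * φ (n + 1) := by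
    intro n
    have hn : (0 : ℝ) ≤ (n : ℝ) := Nat.cast_nonneg _
    simp only [hφ]
    push_cast
    rw [pow_succ]
    have : 1 / q * (q ^ n * q * (n + 1 + c)) = q ^ n * (n + 1 + c) := by
      field_simp
    rw [this]
    exact mul_le_mul_of_nonneg_left (by linarith) (pow_pos h0 _).le
  have h1q : 1 ≤ 1 / q := by rw [le_div_iff₀ h0]; linarith
  have hb0 : 0 ≤ 1 / q - 1 := by linarith
  have hone : (1 : ℝ) + (1 / q - 1) = 1 / q := by ring
  have hcmp : ∀ a b : ℕ, a = b + 1 ∨ b = a + 1 → φ a ≤ 1 / q * φ b := by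
    rintro a b (rfl | rfl)
    · exact (hdec b).trans (le_mul_of_one_le_left (hφpos b).le h1q)
    · exact hinc a
  have hlc : ∀ n, φ n * φ (n + 2) ≤ φ (n + 1) ^ 2 := by
    intro n
    simp only [hφ]
    push_cast
    have : q ^ n * (n + c) * (q ^ (n + 2) * (n + 2 + c))
        = (q ^ (n + 1)) ^ 2 * ((n + c) * (n + 2 + c)) := by ring
    rw [this, mul_pow]
    apply mul_le_mul_of_nonneg_left _ (sq_nonneg _)
    nlinarith
  -- second difference on naturals
  have hsec : ∀ n, |φ (n + 2) - 2 * φ (n + 1) + φ n| ≤ 2 * (1 / q - 1) ^ 2 * φ (n + 2) := by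
    intro n
    have hn : (0 : ℝ) ≤ (n : ℝ) := Nat.cast_nonneg _
    have e1 : φ (n + 2) - 2 * φ (n + 1) + φ n
        = q ^ n * ((1 - q) * ((1 - q) * (n + 1 + c) - (1 + q))) := by
      simp only [hφ]; push_cast; ring
    have e2 : 2 * (1 / q - 1) ^ 2 * φ (n + 2) = q ^ n * (2 * (1 - q) ^ 2 * (n + 2 + c)) := by
      simp only [hφ]; push_cast
      field_simp
      ring
    rw [e1, e2, abs_mul, abs_of_pos (pow_pos h0 n)]
    apply mul_le_mul_of_nonneg_left _ (pow_pos h0 n).le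
    have hA : (1 - q) * c * (1 + q) = 1 + q ^ 2 := by rw [← hce]; ring
    have hB : 1 + q ≤ 2 * ((1 - q) * c) := by
      have h5 : (1 + q) * (1 + q) ≤ 2 * ((1 - q) * c) * (1 + q) := by nlinarith [sq_nonneg (1 - q)]
      exact le_of_mul_le_mul_right h5 (by linarith)
    have h1q' : 0 < 1 - q := by linarith
    rw [abs_mul, abs_of_pos h1q']
    have h6 : |(1 - q) * (n + 1 + c) - (1 + q)| ≤ 2 * (1 - q) * (n + 2 + c) := by
      rw [abs_le]
      constructor <;> nlinarith [mul_nonneg h1q'.le hn]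
    calc (1 - q) * |(1 - q) * (n + 1 + c) - (1 + q)| ≤ (1 - q) * (2 * (1 - q) * (n + 2 + c)) :=
          mul_le_mul_of_nonneg_left h6 h1q'.le
      _ = 2 * (1 - q) ^ 2 * (n + 2 + c) := by ring
  have hmid : |φ 1 - 2 * φ 0 + φ 1| ≤ 2 * (1 / q - 1) ^ 2 * φ 1 := by
    have e1 : φ 1 - 2 * φ 0 + φ 1 = -(2 * ((1 - q) * c - q)) := by
      simp only [hφ]; push_cast; ring
    have hA : (1 - q) * c * (1 + q) = 1 + q ^ 2 := by rw [← hce]; ring
    have e2 : ((1 - q) * c - q) * (1 + q) = 1 - q := by nlinarith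
    have h1q' : 0 < 1 - q := by linarith
    have e3 : 0 ≤ (1 - q) * c - q := by
      by_contra hcon
      push Not at hcon
      nlinarith
    rw [e1, abs_neg, abs_of_nonneg (by linarith)]
    have e4 : 2 * (1 / q - 1) ^ 2 * φ 1 = 2 * ((1 - q) ^ 2 * (1 + c)) / q := by
      simp only [hφ]; push_cast
      field_simp
    rw [e4, le_div_iff₀ h0]
    -- ((1-q)c - q) q ≤ (1-q)^2 (1+c); multiply by (1+q)
    have h7 : ((1 - q) * c - q) * q * (1 + q) ≤ ((1 - q) ^ 2 * (1 + c)) * (1 + q) := by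
      have e5 : ((1 - q) * c - q) * q * (1 + q) = (1 - q) * q := by
        calc ((1 - q) * c - q) * q * (1 + q) = (((1 - q) * c - q) * (1 + q)) * q := by ring
          _ = _ := by rw [e2]
      have e6 : ((1 - q) ^ 2 * (1 + c)) * (1 + q) = (1 - q) * ((1 - q) * (1 + q) + (1 + q ^ 2)) := by
        rw [← hA]; ring
      rw [e5, e6]
      apply mul_le_mul_of_nonneg_left _ h1q'.le
      nlinarith
    have h8 := le_of_mul_le_mul_right h7 (by linarith)
    linarith
  refine ⟨hpos, ?_, hb0, ?_, ?_, ?_⟩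
  · intro k
    rw [hval, hval, hval]
    rcases lt_trichotomy k 0 with hk | hk | hk
    · obtain ⟨n, hn⟩ : ∃ n : ℕ, k = -((n : ℤ) + 1) := ⟨(-k - 1).toNat, by omega⟩
      have e1 : (k - 1).natAbs = n + 2 := by omega
      have e2 : (k + 1).natAbs = n := by omega
      have e3 : k.natAbs = n + 1 := by omega
      rw [e1, e2, e3, mul_comm]
      exact hlc n
    · subst hk
      have e1 : ((0 : ℤ) - 1).natAbs = 1 := by norm_num
      have e2 : ((0 : ℤ) + 1).natAbs = 1 := by norm_num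
      have e3 : (0 : ℤ).natAbs = 0 := rfl
      rw [e1, e2, e3, sq]
      exact mul_le_mul (hdec 0) (hdec 0) (hφpos 1).le (hφpos 0).le
    · obtain ⟨n, hn⟩ : ∃ n : ℕ, k = (n : ℤ) + 1 := ⟨(k - 1).toNat, by omega⟩
      have e1 : (k - 1).natAbs = n := by omega
      have e2 : (k + 1).natAbs = n + 2 := by omega
      have e3 : k.natAbs = n + 1 := by omega
      rw [e1, e2, e3]
      exact hlc n
  · intro k
    rw [hone, hval, hval]
    exact hcmp _ _ (by omega)
  · intro k
    rw [hone, hval, hval]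
    exact hcmp _ _ (by omega)
  · intro k
    rw [hval, hval, hval]
    rcases lt_trichotomy (k + 1) 0 with hk | hk | hk
    · obtain ⟨n, hn⟩ : ∃ n : ℕ, k + 1 = -((n : ℤ) + 1) := ⟨(-k - 2).toNat, by omega⟩
      have e1 : (k + 2).natAbs = n := by omega
      have e2 : (k + 1).natAbs = n + 1 := by omega
      have e3 : k.natAbs = n + 2 := by omega
      rw [e1, e2, e3]
      have h9 : φ n - 2 * φ (n + 1) + φ (n + 2) = φ (n + 2) - 2 * φ (n + 1) + φ n := by ring
      rw [h9]
      refine (hsec n).trans (mul_le_mul_of_nonneg_left ?_ (by positivity))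
      exact (hdec (n + 1)).trans (hdec n)
    · have e1 : (k + 2).natAbs = 1 := by omega
      have e2 : (k + 1).natAbs = 0 := by omega
      have e3 : k.natAbs = 1 := by omega
      rw [e1, e2, e3]
      exact hmid
    · obtain ⟨n, hn⟩ : ∃ n : ℕ, k = (n : ℤ) := ⟨k.toNat, by omega⟩
      have e1 : (k + 2).natAbs = n + 2 := by omega
      have e2 : (k + 1).natAbs = n + 1 := by omega
      have e3 : k.natAbs = n := by omega
      rw [e1, e2, e3]
      exact hsec n

/-! ### the hypotheses of the stage theorem -/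

section Hyps

variable {V : Type*} [Fintype V] [DecidableEq V]
variable {T : RTree V} {f : V → ℤ → ℝ} {J : Finset (V → ℤ)} {c : (V → ℤ) → ℝ} {b : V → ℝ} {C : ℝ}




variable (hf : ∀ p, Ker (f p) (b p) C) (hc : ∀ z ∈ J, 0 ≤ c z)






end Hyps

end Crest.Agent.R302.AFC
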