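import Mathlib
import Crest.Agent.R302.Gau970D
import Crest.Agent.R302.Stage536B

/-!
R302 (helper970), block GAUGE, part F: the far mass of helper536's `farM`, and the total mass of the
chain.
-/

set_option autoImplicit false
set_option linter.unusedSectionVars false

namespace Crest.Agent.R302.Gau

open Finset Crest.Agent.R302.Lor Crest.Agent.R302.Inst Crest.Agent.R302.Stage
open Crest.Agent.R302.Joint (farM InW)

variable {E : Type*} [Fintype E] [DecidableEq E] {D : SD E}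

theorem sum_sh (s : Lk D → ℤ) :
    (∑ e, sh D s (Sum.inl e)) + ∑ e, sh D s (Sum.inr e) = ∑ i, s i := by
  rw [← Fintype.sum_sum_type (f := sh D s)]
  unfold sh
  simp only [Finset.sum_apply]
  rw [Finset.sum_comm]
  exact Finset.sum_congr rfl fun i _ => sum_smul_ev (s i) (tok D i)

/-- the links of a state of positive weight are balanced -/
theorem balanced (h : LzD D) {σ : St D} (hσ : D.nuG σ ≠ 0) : ups (sv D σ) = downs (sv D σ) := by
  rw [nuG_sv h.gauge₁ h.gauge₂] at hσ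
  have h1 := right_ne_zero_of_mul hσ
  obtain ⟨R, l1, l2⟩ := h.lz
  have d1 := l1.deg _ (left_ne_zero_of_mul h1)
  have d2 : F₂ D (-(-(σ.1 - fun e => sh D (sv D σ) (Sum.inr e)))) ≠ 0 := by
    rw [neg_neg]; exact right_ne_zero_of_mul h1
  have d3 := l2.deg _ d2
  simp only [Pi.add_apply, Finset.sum_add_distrib] at d1
  simp only [Pi.neg_apply, Pi.sub_apply, Finset.sum_neg_distrib, Finset.sum_sub_distrib] at d3
  have d4 := sum_sh (D := D) (sv D σ)
  have d5 := ups_sub_downs (sv D σ)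
  omega

theorem natAbs_le_ups {s : Lk D → ℤ} (h : ups s = downs s) (i : Lk D) : (s i).natAbs ≤ ups s := by
  have h1 : (s i).toNat ≤ ups s := Finset.single_le_sum (f := fun i => (s i).toNat)
    (fun _ _ => Nat.zero_le _) (mem_univ i)
  have h2 : (-s i).toNat ≤ downs s := Finset.single_le_sum (f := fun i => (-s i).toNat)
    (fun _ _ => Nat.zero_le _) (mem_univ i)
  omega


/-- nonnegativity of the weight -/
theorem nuG_nonneg' (h : LzD D) (σ : St D) : 0 ≤ D.nuG σ := by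
  rw [nuG_sv h.gauge₁ h.gauge₂]
  exact mul_nonneg (mul_nonneg (pow_nonneg (θ_pos D).le _)
    (Finset.prod_nonneg fun i _ => (zpow_pos (wt_pos D i) _).le))
    (mul_nonneg (h.nonneg₁ _) (h.nonneg₂ _))

/-- **far mass** -/
theorem farM_le (h : LzD D) (hpos : 0 < AA D 0) {K : ℝ}
    (hK : ∑ i : Lk D, ∑ j : Lk D, wt D i / wt D j * AA D (ev (tok D i) - ev (tok D j)) ≤
      K * AA D 0) (hq : D.θ ^ 2 * K < 1) (Kw : ℕ) :
    farM D.Bx D.a₁ D.a₂ D.Λ₁ D.Λ₂ D.S₁.blk D.S₂.blk Kw ≤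
      (D.θ ^ 2 * K) ^ (Kw + 1) / (1 - D.θ ^ 2 * K) * AA D 0 := by
  classical
  refine le_trans ?_ (stage_links h hpos hK hq (Kw + 1))
  unfold farM
  rw [← SD.bx_eq, ← SD.nuG_eq_joint]
  rw [← Finset.sum_filter_ne_zero]
  refine Finset.sum_le_sum_of_subset_of_nonneg ?_ fun σ _ _ => nuG_nonneg' h σ
  intro σ hσ
  rw [mem_filter, mem_filter] at hσ
  obtain ⟨⟨hb, hfar⟩, hne⟩ := hσ
  rw [mem_filter]
  refine ⟨hb, ?_⟩
  have hbal := balanced h hne
  unfold lks
  rw [not_and_or] at hfar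
  unfold InW at hfar
  push Not at hfar
  rcases hfar with ⟨r, hr⟩ | ⟨r, hr⟩
  · have h1 := natAbs_le_ups hbal (Sum.inl r)
    have h2 : sv D σ (Sum.inl r) = σ.2.1 r - D.S₁.blk σ.1 r := rfl
    rw [h2] at h1
    rw [Int.abs_eq_natAbs] at hr
    omega
  · have h1 := natAbs_le_ups hbal (Sum.inr r)
    have h2 : sv D σ (Sum.inr r) = -(σ.2.2 r - D.S₂.blk σ.1 r) := rfl
    rw [h2, Int.natAbs_neg] at h1
    rw [Int.abs_eq_natAbs] at hr
    omega

/-- far mass through the number of links on the two sides -/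
theorem links_tail (h : LzD D) (hpos : 0 < AA D 0) {K : ℝ}
    (hK : ∑ i : Lk D, ∑ j : Lk D, wt D i / wt D j * AA D (ev (tok D i) - ev (tok D j)) ≤
      K * AA D 0) (hq : D.θ ^ 2 * K < 1) (h₀ : ℕ) :
    ∑ σ ∈ D.bx.filter (fun σ => 2 * h₀ ≤ (∑ r, (σ.2.1 r - D.S₁.blk σ.1 r).natAbs) +
        ∑ r, (σ.2.2 r - D.S₂.blk σ.1 r).natAbs), D.nuG σ ≤
      (D.θ ^ 2 * K) ^ h₀ / (1 - D.θ ^ 2 * K) * AA D 0 := by
  classical
  refine le_trans ?_ (stage_links h hpos hK hq h₀)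
  rw [← Finset.sum_filter_ne_zero]
  refine Finset.sum_le_sum_of_subset_of_nonneg ?_ fun σ _ _ => nuG_nonneg' h σ
  intro σ hσ
  rw [mem_filter, mem_filter] at hσ
  obtain ⟨⟨hb, hfar⟩, hne⟩ := hσ
  rw [mem_filter]
  refine ⟨hb, ?_⟩
  have hbal := balanced h hne
  have h1 := ups_add_downs (sv D σ)
  have h2 : ∑ i, (sv D σ i).natAbs = (∑ r, (σ.2.1 r - D.S₁.blk σ.1 r).natAbs) +
        ∑ r, (σ.2.2 r - D.S₂.blk σ.1 r).natAbs := by
    rw [Fintype.sum_sum_type]
    congr 1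
    refine Finset.sum_congr rfl fun r _ => ?_
    show (-(σ.2.2 r - D.S₂.blk σ.1 r)).natAbs = _
    rw [Int.natAbs_neg]
  unfold lks
  omega

open Classical in
/-- **total mass** : the states without link and the link mass -/
theorem mass_upper (h : LzD D) (hpos : 0 < AA D 0) {K : ℝ}
    (hK : ∑ i : Lk D, ∑ j : Lk D, wt D i / wt D j * AA D (ev (tok D i) - ev (tok D j)) ≤
      K * AA D 0) (hq : D.θ ^ 2 * K < 1) :
    ∑ σ ∈ D.bx, D.nuG σ ≤ (1 + D.θ ^ 2 * K / (1 - D.θ ^ 2 * K)) * AA D 0 := by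
  have h1 := stage_links' h hpos hK hq
  rw [← Finset.sum_filter_add_sum_filter_not D.bx (fun σ => sv D σ ≠ 0)]
  have h2 : ∑ σ ∈ D.bx.filter (fun σ => ¬ sv D σ ≠ 0), D.nuG σ ≤ AA D 0 := by
    rw [AA_zero]
    have hinj : Set.InjOn (fun σ : St D => σ.1)
        (D.bx.filter (fun σ => ¬ sv D σ ≠ 0) : Finset (St D)) := by
      intro σ hσ σ' hσ' hx
      have a1 := (Finset.mem_filter.1 (Finset.mem_coe.1 hσ)).2
      have a2 := (Finset.mem_filter.1 (Finset.mem_coe.1 hσ')).2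
      rw [not_not, sv_eq_zero_iff] at a1 a2
      have hx' : σ.1 = σ'.1 := hx
      rw [a1, a2, hx']
    have e1 : ∀ σ ∈ D.bx.filter (fun σ => ¬ sv D σ ≠ 0), D.nuG σ = F₁ D σ.1 * F₂ D σ.1 := by
      intro σ hσ
      have a1 := (Finset.mem_filter.1 hσ).2
      rw [not_not, sv_eq_zero_iff] at a1
      conv_lhs => rw [a1]
      exact nuG_pf h.gauge₁ h.gauge₂ σ.1
    rw [Finset.sum_congr rfl e1, ← Finset.sum_image (f := fun x => F₁ D x * F₂ D x) hinj]
    refine Finset.sum_le_sum_of_subset_of_nonneg ?_ fun x _ _ =>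
      mul_nonneg (h.nonneg₁ _) (h.nonneg₂ _)
    intro x hx
    obtain ⟨σ, hσ, rfl⟩ := Finset.mem_image.1 hx
    exact (Finset.mem_product.1 (Finset.mem_filter.1 hσ).1).1
  linarith

/-- lower bound of the total mass by any set of perfect states inside the windows -/
theorem mass_lower (h : LzD D) (P : Finset (E → ℤ)) (hP : ∀ x ∈ P, D.pf x ∈ D.bx) :
    ∑ x ∈ P, F₁ D x * F₂ D x ≤ ∑ σ ∈ D.bx, D.nuG σ := by
  classical
  have hinj : Set.InjOn (fun x => D.pf x) (P : Set (E → ℤ)) := by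
    intro x _ y _ hxy
    exact (Prod.ext_iff.1 hxy).1
  calc ∑ x ∈ P, F₁ D x * F₂ D x = ∑ x ∈ P, D.nuG (D.pf x) :=
        Finset.sum_congr rfl fun x _ => (nuG_pf h.gauge₁ h.gauge₂ x).symm
    _ = ∑ σ ∈ P.image (fun x => D.pf x), D.nuG σ := (Finset.sum_image hinj).symm
    _ ≤ _ := by
        refine Finset.sum_le_sum_of_subset_of_nonneg ?_ fun σ _ _ => nuG_nonneg' h σ
        intro σ hσ
        obtain ⟨x, hx, rfl⟩ := Finset.mem_image.1 hσ
        exact hP x hx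

end Crest.Agent.R302.Gau
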