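import Mathlib
import Crest.Agent.R302.Gau970F

/-!
R302 (helper970), block GAUGE, part G: masses of the chain from the soft counts.

`MassIn D Z N Γ e` : soft counts of the pairs of type `(u, v)` at most `(1 + e) N u v`, mass of the
perfect states at least `(1 - e) Z`, `N u u = Z`, good gauge with constant `Γ`.  Output:
* `MassIn.hK` : the one-link constant `K = 2 Γ |Lk|²`;
* `MassIn.mass_close` : `|mass - Z| ≤ (e + 4 θ² K) Z`;
* `MassIn.farM_le`, `MassIn.tail`.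
-/

set_option autoImplicit false
set_option linter.unusedSectionVars false

namespace Crest.Agent.R302.Gau

open Finset Crest.Agent.R302.Lor Crest.Agent.R302.Inst Crest.Agent.R302.Stage
open Crest.Agent.R302.Joint (farM InW)

variable {E : Type*} [Fintype E] [DecidableEq E]

/-- number of tokens -/
theorem card_Lk (D : SD E) : Fintype.card (Lk D) ≤ 2 * Fintype.card E := by
  rw [Fintype.card_sum]
  have h1 : Fintype.card D.S₁.Blk ≤ Fintype.card E := Fintype.card_subtype_le _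
  have h2 : Fintype.card D.S₂.Blk ≤ Fintype.card E := Fintype.card_subtype_le _
  omega

/-- input of the mass bounds -/
structure MassIn (D : SD E) (Z : ℝ) (N : E → E → ℝ) (Γ e : ℝ) : Prop where
  lz : LzD D
  Z0 : 0 < Z
  e0 : 0 ≤ e
  e1 : e ≤ 1 / 4
  upp : ∀ u v : E, ∀ B : Finset (E → ℤ),
    ∑ x ∈ B, F₁ D (x + ev u) * F₂ D (x + ev v) ≤ (1 + e) * N u v
  diag : ∀ u, N u u = Z
  low : ∃ P : Finset (E → ℤ), (∀ x ∈ P, D.pf x ∈ D.bx) ∧
    (1 - e) * Z ≤ ∑ x ∈ P, F₁ D x * F₂ D x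
  good : ∀ u v : E, N u v * D.μ u ≤ Γ * Z * D.μ v

namespace MassIn

variable {D : SD E} {Z : ℝ} {N : E → E → ℝ} {Γ e : ℝ}

theorem pf_window {x : E → ℤ} (h : D.pf x ∈ D.bx) : x ∈ bx1 D := (Finset.mem_product.1 h).1

theorem AA_low (h : MassIn D Z N Γ e) : (1 - e) * Z ≤ AA D 0 := by
  obtain ⟨P, hP, hl⟩ := h.low
  rw [AA_zero]
  exact hl.trans (Finset.sum_le_sum_of_subset_of_nonneg (fun x hx => pf_window (hP x hx))
    fun x _ _ => mul_nonneg (h.lz.nonneg₁ _) (h.lz.nonneg₂ _))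

theorem AA_pos' (h : MassIn D Z N Γ e) : 0 < AA D 0 := by
  have h1 := h.AA_low
  have h2 := h.e1
  have h3 := h.Z0
  nlinarith

theorem AA_upp [Nonempty E] (h : MassIn D Z N Γ e) : AA D 0 ≤ (1 + e) * Z := by
  obtain ⟨u⟩ := ‹Nonempty E›
  have h1 := h.upp u u ((bx1 D).image fun x => x - ev u)
  rw [h.diag, Finset.sum_image (fun a _ b _ hab => sub_left_injective hab)] at h1
  rw [AA_zero]
  refine le_trans (le_of_eq (Finset.sum_congr rfl fun x _ => ?_)) h1
  rw [sub_add_cancel]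

theorem Γ0 [Nonempty E] (h : MassIn D Z N Γ e) : 1 ≤ Γ := by
  obtain ⟨u⟩ := ‹Nonempty E›
  have h1 := h.good u u
  rw [h.diag] at h1
  have h2 : 0 < D.μ u := h.lz.gauge₁.1 u
  have h3 := mul_pos h.Z0 h2
  by_contra hlt
  push Not at hlt
  nlinarith

/-- **the one-link constant** -/
theorem hK [Nonempty E] (h : MassIn D Z N Γ e) :
    ∑ i : Lk D, ∑ j : Lk D, wt D i / wt D j * AA D (ev (tok D i) - ev (tok D j)) ≤
      (2 * Γ * (2 * Fintype.card E) ^ 2) * AA D 0 := by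
  have hl := h.AA_low
  have hp := h.AA_pos'
  have hG0 : 0 ≤ Γ := zero_le_one.trans h.Γ0
  have h1 := oneLink_le h.lz (Γ := 2 * Γ) (Nb := fun u v => (1 + e) * N u v) h.upp (fun i j => by
    have h2 := h.good (el D i) (el D j)
    have hj : 0 < D.μ (el D j) := h.lz.gauge₁.1 _
    have e0 := h.e0
    have e1 := h.e1
    have hZ := h.Z0
    calc (1 + e) * N (el D i) (el D j) * D.μ (el D i)
        = (1 + e) * (N (el D i) (el D j) * D.μ (el D i)) := by ring
      _ ≤ (1 + e) * (Γ * Z * D.μ (el D j)) := mul_le_mul_of_nonneg_left h2 (by linarith)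
      _ = Γ * ((1 + e) * Z) * D.μ (el D j) := by ring
      _ ≤ Γ * (2 * ((1 - e) * Z)) * D.μ (el D j) := by
          apply mul_le_mul_of_nonneg_right _ hj.le
          apply mul_le_mul_of_nonneg_left _ hG0
          nlinarith
      _ ≤ Γ * (2 * AA D 0) * D.μ (el D j) := by
          apply mul_le_mul_of_nonneg_right _ hj.le
          apply mul_le_mul_of_nonneg_left _ hG0
          linarith
      _ = _ := by ring)
  refine h1.trans ?_
  apply mul_le_mul_of_nonneg_right _ hp.le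
  have hc : (Fintype.card (Lk D) : ℝ) ≤ 2 * Fintype.card E := by
    exact_mod_cast card_Lk D
  have : (Fintype.card (Lk D) : ℝ) ^ 2 ≤ (2 * Fintype.card E) ^ 2 := by gcongr
  apply mul_le_mul_of_nonneg_left this
  linarith

/-- **total mass** -/
theorem mass_close [Nonempty E] (h : MassIn D Z N Γ e) {q : ℝ}
    (hq : D.θ ^ 2 * (2 * Γ * (2 * Fintype.card E) ^ 2) ≤ q) (hq1 : q ≤ 1 / 2) :
    |∑ σ ∈ D.bx, D.nuG σ - Z| ≤ (e + 4 * q) * Z := by
  have hp := h.AA_pos'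
  have hq0 : 0 ≤ D.θ ^ 2 * (2 * Γ * (2 * Fintype.card E) ^ 2) := by
    have : 0 ≤ Γ := zero_le_one.trans h.Γ0
    positivity
  have h1 := mass_upper h.lz hp h.hK (by linarith)
  obtain ⟨P, hP, hl⟩ := h.low
  have h2 := mass_lower h.lz P hP
  have hZ := h.Z0
  have hA := h.AA_upp
  have e0 := h.e0
  have e1 := h.e1
  set k := D.θ ^ 2 * (2 * Γ * (2 * Fintype.card E) ^ 2) with hk
  have h3 : k / (1 - k) ≤ 2 * k := by
    rw [div_le_iff₀ (by linarith)]
    nlinarith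
  have h4 : ∑ σ ∈ D.bx, D.nuG σ ≤ (1 + 2 * k) * ((1 + e) * Z) := by
    refine h1.trans ?_
    calc (1 + k / (1 - k)) * AA D 0 ≤ (1 + 2 * k) * AA D 0 :=
          mul_le_mul_of_nonneg_right (by linarith) hp.le
      _ ≤ _ := mul_le_mul_of_nonneg_left hA (by linarith)
  have h5 : (1 + 2 * k) * (1 + e) ≤ 1 + e + 4 * q := by nlinarith
  have h6 : (1 + 2 * k) * ((1 + e) * Z) ≤ (1 + e + 4 * q) * Z := by
    rw [← mul_assoc]
    exact mul_le_mul_of_nonneg_right h5 hZ.le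
  have h7 : 0 ≤ q := hq0.trans hq
  rw [abs_le]
  constructor
  · nlinarith [mul_nonneg h7 hZ.le]
  · linarith

/-- the mass is at least `Z / 2` and at most `4 Z` -/
theorem half_mass [Nonempty E] (h : MassIn D Z N Γ e) : Z / 2 ≤ ∑ σ ∈ D.bx, D.nuG σ := by
  obtain ⟨P, hP, hl⟩ := h.low
  have h2 := mass_lower h.lz P hP
  have hZ := h.Z0
  have e1 := h.e1
  nlinarith

/-- far mass -/
theorem farM_le' [Nonempty E] (h : MassIn D Z N Γ e) {q : ℝ}
    (hq : D.θ ^ 2 * (2 * Γ * (2 * Fintype.card E) ^ 2) ≤ q) (hq1 : q ≤ 1 / 2) (Kw : ℕ) :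
    farM D.Bx D.a₁ D.a₂ D.Λ₁ D.Λ₂ D.S₁.blk D.S₂.blk Kw ≤ 4 * q ^ (Kw + 1) * Z := by
  have hp := h.AA_pos'
  have hq0 : 0 ≤ D.θ ^ 2 * (2 * Γ * (2 * Fintype.card E) ^ 2) := by
    have : 0 ≤ Γ := zero_le_one.trans h.Γ0
    positivity
  have h1 := farM_le h.lz hp h.hK (by linarith) Kw
  have hA := h.AA_upp
  have hZ := h.Z0
  have e1 := h.e1
  set k := D.θ ^ 2 * (2 * Γ * (2 * Fintype.card E) ^ 2) with hk
  refine h1.trans ?_
  have h2 : k ^ (Kw + 1) / (1 - k) ≤ 2 * q ^ (Kw + 1) := by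
    rw [div_le_iff₀ (by linarith)]
    have h3 : k ^ (Kw + 1) ≤ q ^ (Kw + 1) := pow_le_pow_left₀ hq0 hq _
    have h4 : 0 ≤ q ^ (Kw + 1) := pow_nonneg (hq0.trans hq) _
    nlinarith
  calc k ^ (Kw + 1) / (1 - k) * AA D 0 ≤ 2 * q ^ (Kw + 1) * ((1 + e) * Z) := by
        apply mul_le_mul h2 hA hp.le
        have : 0 ≤ q ^ (Kw + 1) := pow_nonneg (hq0.trans hq) _
        linarith
    _ ≤ _ := by
        have h4 : 0 ≤ q ^ (Kw + 1) := pow_nonneg (hq0.trans hq) _
        nlinarith [mul_nonneg h4 hZ.le]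


end MassIn

end Crest.Agent.R302.Gau
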