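import Crest.Agent.R302.MSP893A
import Crest.Agent.R302.Base151
import Crest.Agent.R302.Lz151
import Crest.Agent.R302.Mart675
import Crest.Agent.R302.Macro541
import Crest.Agent.R302.Ann425B
import Crest.Agent.R302.MacroB541

-- ▼ part R302/Link342
section

/-!
R302 (helper342): LINK lemma, part A.

Poincaré inequality for the unit exchange walk of a weight `c : (V → ℤ) → ℝ` on a hyperplane
satisfying `AF` at every point, restricted to a box `[x, x+m]^L` of contents (the content of `b0` is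
determined by the others).  No smoothness and no comparability of neighbouring weights is needed.
-/

set_option autoImplicit false
set_option linter.unusedSectionVars false

namespace Crest.Agent.R302.Link

open Finset Lor T893

variable {V : Type*} [Fintype V] [DecidableEq V]

/-! ### monotonicity of `en` along an invariant -/

theorem en_mono_inv {E : Type*} [DecidableEq E] {m : ℕ} {Y X : E → V} {F : (E → ℤ) → V → ℝ}
    (I : List E → (E → ℤ) → (V → ℝ) → Prop)
    (hI : ∀ k cs x v, I (k :: cs) x v → ∀ s, s ≤ m →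
      I cs (x + Pi.single k (s : ℤ)) (nxt m Y X F cs k x v s))
    {Φ Φ' : (E → ℤ) → (V → ℝ) → ℝ} (h : ∀ y v, I [] y v → Φ y v ≤ Φ' y v) :
    ∀ {cs : List E} {x : E → ℤ} {v : V → ℝ}, I cs x v →
      en m Y X F Φ cs x v ≤ en m Y X F Φ' cs x v := by
  intro cs
  induction cs with
  | nil => intro x v hv; exact h x v hv
  | cons k cs ih =>
    intro x v hv
    rw [en_cons, en_cons]
    refine Finset.sum_le_sum fun s hs => ?_
    exact ih (hI k cs x v hv s (Nat.lt_succ_iff.1 (Finset.mem_range.1 hs)))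

/-! ### the system -/

/-- the load of the contents `y` -/
def Pt (b0 : V) (β y : V → ℤ) : V → ℤ := β + y - (∑ v, y v) • ev b0


theorem Pt_single (b0 : V) (β y : V → ℤ) (k : V) (s : ℤ) :
    Pt b0 β (y + Pi.single k s) = Pt b0 β y + s • (ev k - ev b0) := by
  unfold Pt
  have h1 : ∑ v, (y + Pi.single k s : V → ℤ) v = ∑ v, y v + s := by
    simp [Finset.sum_add_distrib]
  rw [h1]
  have h2 : (Pi.single k s : V → ℤ) = s • ev k := by
    funext v
    simp only [ev, Pi.smul_apply, smul_eq_mul]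
    by_cases hv : v = k
    · subst hv; simp
    · simp [Pi.single_apply, hv]
  rw [h2, smul_sub, add_smul]
  abel

theorem Pt_one (b0 : V) (β y : V → ℤ) (k : V) :
    Pt b0 β (y + Pi.single k 1) = Pt b0 β y + ev k - ev b0 := by
  rw [Pt_single, one_smul]; abel

theorem Pt_sum (b0 : V) (β y : V → ℤ) : ∑ v, Pt b0 β y v = ∑ v, β v := by
  unfold Pt
  simp only [Pi.sub_apply, Pi.add_apply, Finset.sum_sub_distrib, Finset.sum_add_distrib,
    Pi.smul_apply, smul_eq_mul, ← Finset.mul_sum, sum_ev]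
  ring

/-- one-token weight -/
def Fk (c : (V → ℤ) → ℝ) (b0 : V) (β : V → ℤ) (y : V → ℤ) (p : V) : ℝ :=
  c (Pt b0 β y - ev b0 + ev p)

theorem Fk_b0 (c : (V → ℤ) → ℝ) (b0 : V) (β y : V → ℤ) : Fk c b0 β y b0 = c (Pt b0 β y) := by
  unfold Fk; congr 1; abel

theorem Fk_inv (c : (V → ℤ) → ℝ) (b0 : V) (β y : V → ℤ) (k : V) :
    Fk c b0 β y k = Fk c b0 β (y + Pi.single k 1) b0 := by
  rw [Fk_b0, Pt_one]; unfold Fk; congr 1; abel

/-- local exchange energy at the content `y` -/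
noncomputable def Jl (c h : (V → ℤ) → ℝ) (b0 : V) (β y : V → ℤ) : ℝ :=
  ∑ p, ∑ q, min (Fk c b0 β y p) (Fk c b0 β y q) *
    (h (Pt b0 β y - ev b0 + ev p) - h (Pt b0 β y - ev b0 + ev q)) ^ 2

theorem Jl_nonneg {c h : (V → ℤ) → ℝ} (hc : ∀ γ, 0 ≤ c γ) (b0 : V) (β y : V → ℤ) :
    0 ≤ Jl c h b0 β y :=
  Finset.sum_nonneg fun _ _ => Finset.sum_nonneg fun _ _ =>
    mul_nonneg (le_min (hc _) (hc _)) (sq_nonneg _)

/-! ### the concave weight -/

/-- concave parabola on `[τ, τ+M+2]`, zero outside -/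
noncomputable def om (M : ℕ) (τ t : ℤ) : ℝ :=
  if τ ≤ t ∧ t ≤ τ + M + 2 then ((t : ℝ) - τ) * (τ + M + 2 - t) / 2 else 0

theorem om_nonneg (M : ℕ) (τ t : ℤ) : 0 ≤ om M τ t := by
  unfold om
  split_ifs with h
  · have h1 : (0 : ℝ) ≤ (t : ℝ) - τ := by
      have : (τ : ℝ) ≤ t := by exact_mod_cast h.1
      linarith
    have h2 : (0 : ℝ) ≤ (τ : ℝ) + M + 2 - t := by
      have : (t : ℝ) ≤ (τ : ℝ) + M + 2 := by exact_mod_cast h.2
      linarith
    positivity
  · exact le_rfl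

theorem om_le (M : ℕ) (τ t : ℤ) : om M τ t ≤ ((M : ℝ) + 2) ^ 2 / 2 := by
  unfold om
  split_ifs with h
  · have h1 : (0 : ℝ) ≤ (t : ℝ) - τ := by
      have : (τ : ℝ) ≤ t := by exact_mod_cast h.1
      linarith
    have h2 : (0 : ℝ) ≤ (τ : ℝ) + M + 2 - t := by
      have : (t : ℝ) ≤ (τ : ℝ) + M + 2 := by exact_mod_cast h.2
      linarith
    have h3 : (t : ℝ) - τ ≤ M + 2 := by linarith
    have h4 : (τ : ℝ) + M + 2 - t ≤ M + 2 := by linarith
    have : ((t : ℝ) - τ) * (τ + M + 2 - t) ≤ (M + 2) * (M + 2) :=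
      mul_le_mul h3 h4 h2 (by positivity)
    nlinarith
  · positivity

theorem om_zero (M : ℕ) (τ : ℤ) : om M τ τ = 0 := by
  unfold om
  split_ifs <;> simp

theorem om_diff (M : ℕ) (τ t : ℤ) (h1 : τ ≤ t) (h2 : t ≤ τ + M) :
    om M τ t - 2 * om M τ (t + 1) + om M τ (t + 2) = -1 := by
  unfold om
  rw [if_pos ⟨h1, by omega⟩, if_pos ⟨by omega, by omega⟩, if_pos ⟨by omega, by omega⟩]
  push_cast
  ring

/-! ### pointwise inequality at a leaf -/

/-- two-token functional -/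
noncomputable def Gk (c : (V → ℤ) → ℝ) (b0 : V) (β : V → ℤ) (p : V) (ω : ℤ → ℝ) (y : V → ℤ)
    (q q' : V) : ℝ :=
  ω ((Pt b0 β y - ev b0 + ev q + ev q') p) * c (Pt b0 β y - ev b0 - ev p + ev q + ev q')

theorem Gk_symm (c : (V → ℤ) → ℝ) (b0 : V) (β : V → ℤ) (p : V) (ω : ℤ → ℝ) (y : V → ℤ)
    (q q' : V) : Gk c b0 β p ω y q q' = Gk c b0 β p ω y q' q := by
  unfold Gk
  rw [add_right_comm _ (ev q) (ev q'), add_right_comm _ (ev q) (ev q')]

theorem Gk_inv (c : (V → ℤ) → ℝ) (b0 : V) (β : V → ℤ) (p : V) (ω : ℤ → ℝ) (y : V → ℤ)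
    (k q : V) : Gk c b0 β p ω y k q = Gk c b0 β p ω (y + Pi.single k 1) b0 q := by
  unfold Gk
  rw [Pt_one]
  congr 2
  · congr 1; abel
  · abel

theorem ev_apply' (p q : V) : (ev q : V → ℤ) p = if p = q then 1 else 0 := by
  simp [ev, Pi.single_apply]

theorem leaf_form (c : (V → ℤ) → ℝ) (b0 : V) (β : V → ℤ) (p : V) (ω : ℤ → ℝ) (y : V → ℤ)
    (v : V → ℝ) (hbal : ∑ q, v q * Fk c b0 β y q = 0) :
    Q (fun q q' => Gk c b0 β p ω y q q') v v =
      ω ((Pt b0 β y - ev b0) p) *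
        Q (fun q q' => c ((Pt b0 β y - ev b0 - ev p) + ev q + ev q')) v v +
      (ω ((Pt b0 β y - ev b0) p) - 2 * ω ((Pt b0 β y - ev b0) p + 1)
        + ω ((Pt b0 β y - ev b0) p + 2)) * (v p ^ 2 * Fk c b0 β y p) := by
  set t := (Pt b0 β y - ev b0) p with ht
  set A : V → V → ℝ := fun q q' => c ((Pt b0 β y - ev b0 - ev p) + ev q + ev q') with hA
  have hGA : ∀ q q', Gk c b0 β p ω y q q' =
      (ω t + (if p = q then (ω (t + 1) - ω t) else 0) + (if p = q' then (ω (t + 1) - ω t) else 0)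
        + (if p = q then (if p = q' then (ω t - 2 * ω (t + 1) + ω (t + 2)) else 0) else 0))
        * A q q' := by
    intro q q'
    unfold Gk
    have e : (Pt b0 β y - ev b0 + ev q + ev q') p =
        t + (if p = q then 1 else 0) + (if p = q' then 1 else 0) := by
      rw [ht]
      simp only [Pi.add_apply, Pi.sub_apply, ev_apply']
    rw [e]
    by_cases h1 : p = q
    · by_cases h2 : p = q'
      · simp only [h1, h2, if_true]
        have : p = q := h1
        subst h1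
        subst h2
        simp only [if_true]
        rw [show t + 1 + 1 = t + 2 by ring]
        ring
      · simp only [h1, if_true]
        subst h1
        simp only [if_neg h2, if_true]
        rw [add_zero]
        ring
    · by_cases h2 : p = q'
      · subst h2
        simp only [if_neg h1, if_true]
        rw [add_zero]
        ring
      · simp only [if_neg h1, if_neg h2, add_zero]
        rfl
  have hrow : ∑ q, v q * A q p = 0 := by
    rw [← hbal]
    refine Finset.sum_congr rfl fun q _ => ?_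
    rw [hA]
    unfold Fk
    congr 2
    abel
  have hAs : ∀ q q', A q q' = A q' q := by
    intro q q'
    rw [hA]
    show c _ = c _
    congr 1
    abel
  have hrow' : ∑ q, v q * A p q = 0 := by
    rw [← hrow]
    exact Finset.sum_congr rfl fun q _ => by rw [hAs]
  have hpp : A p p = Fk c b0 β y p := by
    rw [hA]
    unfold Fk
    show c _ = c _
    congr 1
    abel
  unfold Q
  have e1 : ∀ q q', v q * v q' * Gk c b0 β p ω y q q' =
      ω t * (v q * v q' * A q q')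
      + (if p = q then (ω (t + 1) - ω t) * (v q * (v q' * A q q')) else 0)
      + (if p = q' then (ω (t + 1) - ω t) * (v q' * (v q * A q q')) else 0)
      + (if p = q then (if p = q' then (ω t - 2 * ω (t + 1) + ω (t + 2)) *
          (v q * v q' * A q q') else 0) else 0) := by
    intro q q'
    rw [hGA]
    split_ifs <;> ring
  simp only [e1, Finset.sum_add_distrib, ← Finset.mul_sum]
  have e2 : ∑ q, ∑ q', (if p = q then (ω (t + 1) - ω t) * (v q * (v q' * A q q')) else 0) = 0 := by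
    rw [Finset.sum_comm]
    have : ∀ q', ∑ q, (if p = q then (ω (t + 1) - ω t) * (v q * (v q' * A q q')) else 0) =
        (ω (t + 1) - ω t) * v p * (v q' * A p q') := by
      intro q'
      rw [Finset.sum_ite_eq]
      simp only [Finset.mem_univ, if_true]
      ring
    simp only [this, ← Finset.mul_sum, hrow', mul_zero]
  have e3 : ∑ q, ∑ q', (if p = q' then (ω (t + 1) - ω t) * (v q' * (v q * A q q')) else 0) = 0 := by
    have : ∀ q, ∑ q', (if p = q' then (ω (t + 1) - ω t) * (v q' * (v q * A q q')) else 0) =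
        (ω (t + 1) - ω t) * v p * (v q * A q p) := by
      intro q
      rw [Finset.sum_ite_eq]
      simp only [Finset.mem_univ, if_true]
      ring
    simp only [this, ← Finset.mul_sum, hrow, mul_zero]
  have e4 : ∑ q, ∑ q', (if p = q then (if p = q' then (ω t - 2 * ω (t + 1) + ω (t + 2)) *
          (v q * v q' * A q q') else 0) else 0) =
      (ω t - 2 * ω (t + 1) + ω (t + 2)) * (v p ^ 2 * A p p) := by
    rw [Finset.sum_eq_single p]
    · rw [Finset.sum_eq_single p]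
      · simp only [if_true]; ring
      · intro b _ hb
        simp [Ne.symm hb]
      · intro h; exact absurd (Finset.mem_univ _) h
    · intro b _ hb
      simp [Ne.symm hb]
    · intro h; exact absurd (Finset.mem_univ _) h
  rw [e2, e3, e4, hpp]
  simp only [add_zero]

theorem leaf_ineq {c : (V → ℤ) → ℝ} (hAF : ∀ γ, AF (fun u v => c (γ + ev u + ev v)))
    (b0 : V) (β : V → ℤ) (p : V) (M : ℕ) (τ : ℤ) (y : V → ℤ) (v : V → ℝ)
    (hpos : 0 < Fk c b0 β y p)
    (hbal : ∑ q, v q * Fk c b0 β y q = 0)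
    (h1 : τ ≤ (Pt b0 β y - ev b0) p) (h2 : (Pt b0 β y - ev b0) p ≤ τ + M) :
    v p ^ 2 * Fk c b0 β y p ≤ - Q (fun q q' => Gk c b0 β p (om M τ) y q q') v v := by
  rw [leaf_form c b0 β p (om M τ) y v hbal, om_diff M τ _ h1 h2]
  set A : V → V → ℝ := fun q q' => c ((Pt b0 β y - ev b0 - ev p) + ev q + ev q') with hA
  have hneg : Q A v v ≤ 0 := by
    have hpp : Q A (Pi.single p 1) (Pi.single p 1) = Fk c b0 β y p := by
      rw [Q_single_left, row_single, hA]
      unfold Fk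
      show c _ = c _
      congr 1
      abel
    have hz : Q A v (Pi.single p 1) = 0 := by
      rw [Q_eq_row]
      rw [← hbal]
      refine Finset.sum_congr rfl fun q _ => ?_
      rw [row_single, hA]
      unfold Fk
      congr 2
      abel
    have := hAF (Pt b0 β y - ev b0 - ev p) v (Pi.single p 1) (by rw [hpp]; exact hpos.le)
    change Q A v v * Q A (Pi.single p 1) (Pi.single p 1) ≤ Q A v (Pi.single p 1) ^ 2 at this
    rw [hz, hpp] at this
    by_contra hcon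
    rw [not_le] at hcon
    have := mul_pos hcon hpos
    nlinarith
  have h0 := om_nonneg M τ ((Pt b0 β y - ev b0) p)
  nlinarith [mul_nonneg h0 (neg_nonneg.2 hneg)]

/-! ### invariant of the flow -/

/-- invariant: remaining cells are distinct and at their start value, contents are in the windows,
velocities are supported on `S0`, balance -/
def Inv (c : (V → ℤ) → ℝ) (b0 : V) (β : V → ℤ) (m : ℕ) (S0 : Finset V) (x0 : V → ℤ)
    (cs0 : List V) (cs : List V) (x : V → ℤ) (v : V → ℝ) : Prop :=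
  cs.Nodup ∧ (∀ k ∈ cs, k ∈ cs0 ∧ x k = x0 k) ∧ (∀ k, x0 k ≤ x k ∧ x k ≤ x0 k + m) ∧
    (∀ k, k ∉ cs0 → x k = x0 k) ∧ (∀ p, p ∉ S0 → v p = 0) ∧
    Bal m (Fk c b0 β) cs x v

variable {c : (V → ℤ) → ℝ} {b0 : V} {β : V → ℤ} {m : ℕ}

theorem Inv_step {S0 : Finset V} {x0 : V → ℤ} {cs0 : List V}
    (hpos : ∀ y, 0 < Fk c b0 β y b0) (hb0 : b0 ∈ S0) (hcs0 : ∀ k ∈ cs0, k ∈ S0)
    (k : V) (cs : List V) (x : V → ℤ) (v : V → ℝ)
    (h : Inv c b0 β m S0 x0 cs0 (k :: cs) x v) (s : ℕ) (hs : s ≤ m) :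
    Inv c b0 β m S0 x0 cs0 cs (x + Pi.single k (s : ℤ))
      (nxt m (fun _ => b0) (fun k => k) (Fk c b0 β) cs k x v s) := by
  obtain ⟨h1, h2, h3, h4, h5, h6⟩ := h
  have hk := h2 k List.mem_cons_self
  rw [List.nodup_cons] at h1
  refine ⟨h1.2, ?_, ?_, ?_, ?_, ?_⟩
  · intro j hj
    have hjk : j ≠ k := fun e => h1.1 (e ▸ hj)
    refine ⟨(h2 j (List.mem_cons_of_mem _ hj)).1, ?_⟩
    simp only [Pi.add_apply, Pi.single_apply, hjk, if_false, add_zero]
    exact (h2 j (List.mem_cons_of_mem _ hj)).2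
  · intro j
    by_cases hjk : j = k
    · subst hjk
      simp only [Pi.add_apply, Pi.single_eq_same]
      rw [hk.2]
      constructor
      · linarith [Int.natCast_nonneg s]
      · have : (s : ℤ) ≤ m := by exact_mod_cast hs
        linarith
    · simp only [Pi.add_apply, Pi.single_apply, hjk, if_false, add_zero]
      exact h3 j
  · intro j hj
    have hjk : j ≠ k := fun e => hj (e ▸ hk.1)
    simp only [Pi.add_apply, Pi.single_apply, hjk, if_false, add_zero]
    exact h4 j hj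
  · intro p hp
    have hpk : p ≠ k := fun e => hp (e ▸ hcs0 k hk.1)
    have hpb : p ≠ b0 := fun e => hp (e ▸ hb0)
    unfold nxt
    simp [hpk, hpb, h5 p hp]
  · exact bal_nxt (Y := fun _ => b0) (X := fun k => k) (fun y => hpos y)
      (fun y => Fk_inv c b0 β y k) s

/-! ### energy of one token -/

/-- energy of the token `p` -/
theorem token_energy (hc0 : ∀ γ, 0 ≤ c γ)
    (hAF : ∀ γ, AF (fun u v => c (γ + ev u + ev v)))
    (hpos : ∀ y p, 0 < Fk c b0 β y p)
    {S0 : Finset V} {x0 : V → ℤ} {cs : List V} (hb0 : b0 ∈ S0) (hcs0 : ∀ k ∈ cs, k ∈ S0)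
    {v : V → ℝ} (hI : Inv c b0 β m S0 x0 cs cs x0 v) (p : V) (M : ℕ) (τ : ℤ)
    (hτ : ∀ y : V → ℤ, (∀ k, x0 k ≤ y k ∧ y k ≤ x0 k + m) → (∀ k, k ∉ cs → y k = x0 k) →
      τ ≤ (Pt b0 β y - ev b0) p ∧ (Pt b0 β y - ev b0) p ≤ τ + M) :
    en m (fun _ => b0) (fun k => k) (Fk c b0 β)
      (fun y v => v p ^ 2 * Fk c b0 β y p) cs x0 v ≤
      - Q (fun q q' => csum m (fun y => Gk c b0 β p (om M τ) y q q') cs x0) v v := by
  have hbal : Bal m (Fk c b0 β) cs x0 v := hI.2.2.2.2.2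
  have h1 : en m (fun _ => b0) (fun k => k) (Fk c b0 β)
      (fun y v => v p ^ 2 * Fk c b0 β y p) cs x0 v ≤
      en m (fun _ => b0) (fun k => k) (Fk c b0 β)
      (fun y v => - 1 * Q (fun q q' => Gk c b0 β p (om M τ) y q q') v v) cs x0 v := by
    refine en_mono_inv (Inv c b0 β m S0 x0 cs)
      (fun k cs' x v h s hs => Inv_step (fun y => hpos y b0) hb0 hcs0 k cs' x v h s hs)
      ?_ hI
    intro y v hy
    obtain ⟨-, -, h3, h4, -, h6⟩ := hy
    have hb : ∑ q, v q * Fk c b0 β y q = 0 := h6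
    have := leaf_ineq hAF b0 β p M τ y v (hpos y p) hb (hτ y h3 h4).1 (hτ y h3 h4).2
    linarith
  refine h1.trans ?_
  rw [en_smul]
  have h2 := en_quad (m := m) (Y := fun _ => b0) (X := fun k => k) (F := Fk c b0 β)
    (G := Gk c b0 β p (om M τ)) (cs := cs) (x := x0) (v := v)
    (fun k _ y => hpos y b0) (fun k _ y => Fk_inv c b0 β y k)
    (fun y q q' => mul_nonneg (om_nonneg _ _ _) (hc0 _))
    (fun y q q' => Gk_symm c b0 β p _ y q q')
    (fun k _ y q => Gk_inv c b0 β p _ y k q) hbal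
  linarith

/-! ### root term -/

theorem Q_root {A : V → V → ℝ} (hA : ∀ a b, A a b = A b a) (i b0 : V) (α γ : ℝ) :
    Q A (fun p => (if p = b0 then α else 0) - (if p = i then γ else 0))
      (fun p => (if p = b0 then α else 0) - (if p = i then γ else 0)) =
      α ^ 2 * A b0 b0 - 2 * α * γ * A b0 i + γ ^ 2 * A i i := by
  unfold Q
  simp only [sub_mul, mul_sub, ite_mul, zero_mul, mul_ite, mul_zero, Finset.sum_sub_distrib,
    Finset.sum_ite_eq', Finset.sum_ite_eq, Finset.mem_univ, if_true]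
  rw [hA i b0]
  ring

theorem csum_nonpos_of_fix {m : ℕ} {G : (V → ℤ) → ℝ} {k : V} {t : ℤ}
    (hG : ∀ y : V → ℤ, y k = t → G y ≤ 0) :
    ∀ {cs : List V} {x : V → ℤ}, k ∉ cs → x k = t → csum m G cs x ≤ 0 := by
  intro cs
  induction cs with
  | nil => intro x _ hx; exact hG x hx
  | cons j cs ih =>
    intro x hk hx
    rw [csum_cons]
    refine Finset.sum_nonpos fun s _ => ih (fun h => hk (List.mem_cons_of_mem _ h)) ?_
    have : k ≠ j := fun e => hk (e ▸ List.mem_cons_self)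
    simp [Pi.single_apply, this, hx]

theorem csum_shift_le {m : ℕ} {G G' : (V → ℤ) → ℝ} {k : V} {t : ℤ}
    (hG : ∀ y : V → ℤ, y k = t → G y ≤ 0) (hG' : ∀ y, 0 ≤ G' y)
    (hGG : ∀ y : V → ℤ, G (y + Pi.single k 1) ≤ G' y) :
    ∀ {cs : List V} {x : V → ℤ}, cs.Nodup → k ∈ cs → x k = t →
      csum m G cs x ≤ csum m G' cs x := by
  intro cs
  induction cs with
  | nil => intro x _ hk; simp at hk
  | cons j cs ih =>
    intro x hnd hk hx
    rw [List.nodup_cons] at hnd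
    by_cases hjk : k = j
    · subst hjk
      rw [csum_cons, csum_cons, Finset.sum_range_succ' _ m]
      have h0 : csum m G cs (x + Pi.single k ((0 : ℕ) : ℤ)) ≤ 0 :=
        csum_nonpos_of_fix hG hnd.1 (by simpa using hx)
      have h1 : ∑ s ∈ range m, csum m G cs (x + Pi.single k ((s + 1 : ℕ) : ℤ)) ≤
          ∑ s ∈ range m, csum m G' cs (x + Pi.single k (s : ℤ)) := by
        refine Finset.sum_le_sum fun s _ => ?_
        rw [single_succ, ← add_assoc, ← csum_shift]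
        exact csum_mono hGG _ _
      have h2 : ∑ s ∈ range m, csum m G' cs (x + Pi.single k (s : ℤ)) ≤
          ∑ s ∈ range (m + 1), csum m G' cs (x + Pi.single k (s : ℤ)) := by
        refine Finset.sum_le_sum_of_subset_of_nonneg ?_ fun s _ _ => csum_nonneg hG' _ _
        exact Finset.range_subset_range.2 (Nat.le_succ m)
      linarith
    · rw [csum_cons, csum_cons]
      refine Finset.sum_le_sum fun s _ => ih hnd.2 ?_ ?_
      · rcases List.mem_cons.1 hk with h | h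
        · exact absurd h hjk
        · exact h
      · simp [Pi.single_apply, hjk, hx]

theorem Pt_apply_ne (b0 : V) (β y : V → ℤ) {k : V} (hk : k ≠ b0) : Pt b0 β y k = β k + y k := by
  unfold Pt
  simp [ev_apply', hk]

theorem Pt_apply_b0 (b0 : V) (β y : V → ℤ) :
    Pt b0 β y b0 = β b0 + y b0 - ∑ v, y v := by
  unfold Pt
  simp [ev_apply']

/-- partition function of the class `x` -/
noncomputable def Zc (c : (V → ℤ) → ℝ) (b0 : V) (β : V → ℤ) (m : ℕ) (cs : List V) (x : V → ℤ) : ℝ :=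
  csum m (fun y => c (Pt b0 β y)) cs x

theorem csum_Fk_b0 (cs : List V) (x : V → ℤ) :
    csum m (fun y => Fk c b0 β y b0) cs x = Zc c b0 β m cs x := by
  unfold Zc
  exact csum_congr (fun y => Fk_b0 c b0 β y) cs x

theorem csum_Fk_i (i : V) (cs : List V) (x : V → ℤ) :
    csum m (fun y => Fk c b0 β y i) cs x = Zc c b0 β m cs (x + Pi.single i 1) := by
  unfold Zc
  rw [← csum_shift]
  exact csum_congr (fun y => by rw [Fk_inv, Fk_b0]) cs x

theorem root_bound (hc0 : ∀ γ, 0 ≤ c γ) {i : V} {cs : List V} (hnd : cs.Nodup)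
    (hi : i ∉ cs) (hib : i ≠ b0) (hb : b0 ∉ cs) {x0 : V → ℤ} {p : V}
    (hp : p = b0 ∨ p = i ∨ p ∈ cs) (M : ℕ) (τ : ℤ) (hτ : p ∈ cs → τ = β p + x0 p) :
    csum m (fun y => Gk c b0 β p (om M τ) y b0 i) cs x0 ≤
      ((M : ℝ) + 2) ^ 2 / 2 * max (Zc c b0 β m cs x0) (Zc c b0 β m cs (x0 + Pi.single i 1)) := by
  have hW : (0 : ℝ) ≤ ((M : ℝ) + 2) ^ 2 / 2 := by positivity
  rcases hp with rfl | rfl | hp
  · refine le_trans (b := ((M : ℝ) + 2) ^ 2 / 2 * Zc c p β m cs (x0 + Pi.single i 1)) ?_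
      (mul_le_mul_of_nonneg_left (le_max_right _ _) hW)
    rw [← csum_Fk_i, ← csum_smul]
    refine csum_mono (fun y => ?_) _ _
    unfold Gk
    have e : Pt p β y - ev p - ev p + ev p + ev i = Pt p β y - ev p + ev i := by abel
    rw [e]
    exact mul_le_mul_of_nonneg_right (om_le _ _ _) (hc0 _)
  · refine le_trans (b := ((M : ℝ) + 2) ^ 2 / 2 * Zc c b0 β m cs x0) ?_
      (mul_le_mul_of_nonneg_left (le_max_left _ _) hW)
    rw [← csum_Fk_b0, ← csum_smul]
    refine csum_mono (fun y => ?_) _ _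
    rw [Fk_b0]
    unfold Gk
    have e : Pt b0 β y - ev b0 - ev p + ev b0 + ev p = Pt b0 β y := by abel
    rw [e]
    exact mul_le_mul_of_nonneg_right (om_le _ _ _) (hc0 _)
  · refine le_trans (b := ((M : ℝ) + 2) ^ 2 / 2 * Zc c b0 β m cs (x0 + Pi.single i 1)) ?_
      (mul_le_mul_of_nonneg_left (le_max_right _ _) hW)
    rw [← csum_Fk_i, ← csum_smul]
    have hpb : p ≠ b0 := fun e => hb (e ▸ hp)
    have hpi : p ≠ i := fun e => hi (e ▸ hp)
    refine csum_shift_le (k := p) (t := x0 p) ?_ (fun y => mul_nonneg hW (hc0 _)) ?_ hnd hp rfl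
    · intro y hy
      unfold Gk
      have e : (Pt b0 β y - ev b0 + ev b0 + ev i) p = τ := by
        simp only [Pi.add_apply, Pi.sub_apply, ev_apply', hpb, hpi, if_false]
        rw [Pt_apply_ne _ _ _ hpb, hy, hτ hp]
        ring
      rw [e, om_zero, zero_mul]
    · intro y
      unfold Gk
      rw [Pt_one]
      have e : Pt b0 β y + ev p - ev b0 - ev b0 - ev p + ev b0 + ev i =
          Pt b0 β y - ev b0 + ev i := by abel
      rw [e]
      exact mul_le_mul_of_nonneg_right (om_le _ _ _) (hc0 _)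

/-! ### total energy -/

theorem Zc_pos (hpos : ∀ y p, 0 < Fk c b0 β y p) (cs : List V) (x : V → ℤ) :
    0 < Zc c b0 β m cs x := by
  rw [← csum_Fk_b0]
  exact csum_pos (fun y => hpos y b0) _ _

/-- the root velocity -/
noncomputable def vroot (b0 i : V) (za zb : ℝ) (p : V) : ℝ :=
  (if p = b0 then 1 / za else 0) - (if p = i then 1 / zb else 0)

theorem bal_root (hpos : ∀ y p, 0 < Fk c b0 β y p) (i : V) (cs : List V) (x0 : V → ℤ) :
    Bal m (Fk c b0 β) cs x0
      (vroot b0 i (Zc c b0 β m cs x0) (Zc c b0 β m cs (x0 + Pi.single i 1))) := by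
  unfold Bal vroot
  simp only [sub_mul, ite_mul, zero_mul, Finset.sum_sub_distrib, Finset.sum_ite_eq',
    Finset.mem_univ, if_true]
  rw [csum_Fk_b0, csum_Fk_i, one_div, one_div, inv_mul_cancel₀ (Zc_pos hpos _ _).ne',
    inv_mul_cancel₀ (Zc_pos hpos _ _).ne', sub_self]

theorem token_energy_le (hc0 : ∀ γ, 0 ≤ c γ)
    (hAF : ∀ γ, AF (fun u v => c (γ + ev u + ev v)))
    (hpos : ∀ y p, 0 < Fk c b0 β y p) {i : V} {cs : List V} (hnd : cs.Nodup)
    (hi : i ∉ cs) (hib : i ≠ b0) (hb : b0 ∉ cs) (x0 : V → ℤ) (p : V) :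
    min (Zc c b0 β m cs x0) (Zc c b0 β m cs (x0 + Pi.single i 1)) *
      en m (fun _ => b0) (fun k => k) (Fk c b0 β) (fun y v => v p ^ 2 * Fk c b0 β y p) cs x0
        (vroot b0 i (Zc c b0 β m cs x0) (Zc c b0 β m cs (x0 + Pi.single i 1))) ≤
      (((m * Fintype.card V : ℕ) : ℝ) + 2) ^ 2 := by
  set za := Zc c b0 β m cs x0 with hza
  set zb := Zc c b0 β m cs (x0 + Pi.single i 1) with hzb
  have hza0 : 0 < za := Zc_pos hpos _ _
  have hzb0 : 0 < zb := Zc_pos hpos _ _
  have hmin0 : 0 < min za zb := lt_min hza0 hzb0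
  set S0 : Finset V := insert b0 (insert i cs.toFinset) with hS0
  have hb0 : b0 ∈ S0 := by simp [hS0]
  have hcs0 : ∀ k ∈ cs, k ∈ S0 := by intro k hk; simp [hS0, hk]
  have hI : Inv c b0 β m S0 x0 cs cs x0 (vroot b0 i za zb) := by
    refine ⟨hnd, fun k hk => ⟨hk, rfl⟩, fun k => ⟨le_rfl, ?_⟩, fun k _ => rfl, ?_, ?_⟩
    · linarith [Int.natCast_nonneg m]
    · intro q hq
      have h1 : q ≠ b0 := fun e => hq (e ▸ hb0)
      have h2 : q ≠ i := fun e => hq (by rw [e, hS0]; simp)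
      simp [vroot, h1, h2]
    · exact bal_root hpos i cs x0
  by_cases hp : p = b0 ∨ p = i ∨ p ∈ cs
  · -- window of the content of `p`
    set M : ℕ := m * Fintype.card V with hM
    have hcard : 1 ≤ Fintype.card V := Fintype.card_pos_iff.2 ⟨b0⟩
    have hmM : (m : ℤ) ≤ (M : ℤ) := by
      have : m ≤ M := by rw [hM]; exact Nat.le_mul_of_pos_right m hcard
      exact_mod_cast this
    obtain ⟨τ, hτ, hτcs⟩ : ∃ τ : ℤ, (∀ y : V → ℤ, (∀ k, x0 k ≤ y k ∧ y k ≤ x0 k + m) →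
        (∀ k, k ∉ cs → y k = x0 k) →
        τ ≤ (Pt b0 β y - ev b0) p ∧ (Pt b0 β y - ev b0) p ≤ τ + M) ∧
        (p ∈ cs → τ = β p + x0 p) := by
      by_cases hpb : p = b0
      · subst hpb
        refine ⟨β p + x0 p - ∑ v, x0 v - 1 - M, ?_, fun h => absurd h hb⟩
        intro y hy hy'
        have e1 : (Pt p β y - ev p) p = β p + x0 p - ∑ v, y v - 1 := by
          rw [Pi.sub_apply, Pt_apply_b0, ev_apply', if_pos rfl, hy' p hb]
        have e2 : ∑ v, x0 v ≤ ∑ v, y v := Finset.sum_le_sum fun v _ => (hy v).1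
        have e3 : ∑ v, y v ≤ ∑ v, x0 v + M := by
          calc ∑ v, y v ≤ ∑ v, (x0 v + m) := Finset.sum_le_sum fun v _ => (hy v).2
            _ = ∑ v, x0 v + M := by
              rw [Finset.sum_add_distrib, Finset.sum_const, hM]
              simp [mul_comm]
        rw [e1]
        constructor <;> linarith
      · refine ⟨β p + x0 p, ?_, fun _ => rfl⟩
        intro y hy hy'
        have e1 : (Pt b0 β y - ev b0) p = β p + y p := by
          rw [Pi.sub_apply, Pt_apply_ne _ _ _ hpb, ev_apply', if_neg hpb, sub_zero]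
        rw [e1]
        have := hy p
        constructor <;> linarith
    have h1 := token_energy (m := m) hc0 hAF hpos hb0 hcs0 hI p M τ hτ
    have h2 := root_bound (m := m) (β := β) hc0 hnd hi hib hb (x0 := x0) hp M τ hτcs
    have h3 : - Q (fun q q' => csum m (fun y => Gk c b0 β p (om M τ) y q q') cs x0)
        (vroot b0 i za zb) (vroot b0 i za zb) ≤
        2 * (1 / za) * (1 / zb) * csum m (fun y => Gk c b0 β p (om M τ) y b0 i) cs x0 := by
      have := Q_root (A := fun q q' => csum m (fun y => Gk c b0 β p (om M τ) y q q') cs x0)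
        (fun q q' => csum_congr (fun y => Gk_symm c b0 β p _ y q q') cs x0) i b0 (1 / za) (1 / zb)
      unfold vroot
      rw [this]
      have n1 : 0 ≤ csum m (fun y => Gk c b0 β p (om M τ) y b0 b0) cs x0 :=
        csum_nonneg (fun y => mul_nonneg (om_nonneg _ _ _) (hc0 _)) _ _
      have n2 : 0 ≤ csum m (fun y => Gk c b0 β p (om M τ) y i i) cs x0 :=
        csum_nonneg (fun y => mul_nonneg (om_nonneg _ _ _) (hc0 _)) _ _
      have p1 : 0 ≤ (1 / za) ^ 2 * csum m (fun y => Gk c b0 β p (om M τ) y b0 b0) cs x0 := by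
        positivity
      have p2 : 0 ≤ (1 / zb) ^ 2 * csum m (fun y => Gk c b0 β p (om M τ) y i i) cs x0 := by
        positivity
      linarith
    have h4 := h1.trans h3
    have h5 : 2 * (1 / za) * (1 / zb) * csum m (fun y => Gk c b0 β p (om M τ) y b0 i) cs x0 ≤
        2 * (1 / za) * (1 / zb) * (((M : ℝ) + 2) ^ 2 / 2 * max za zb) :=
      mul_le_mul_of_nonneg_left h2 (by positivity)
    have h6 : min za zb * (2 * (1 / za) * (1 / zb) * (((M : ℝ) + 2) ^ 2 / 2 * max za zb)) =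
        ((M : ℝ) + 2) ^ 2 := by
      have : min za zb * max za zb = za * zb := min_mul_max za zb
      calc min za zb * (2 * (1 / za) * (1 / zb) * (((M : ℝ) + 2) ^ 2 / 2 * max za zb))
          = (min za zb * max za zb) * ((1 / za) * (1 / zb)) * ((M : ℝ) + 2) ^ 2 := by ring
        _ = ((M : ℝ) + 2) ^ 2 := by
          rw [this]; field_simp
    calc _ ≤ min za zb * (2 * (1 / za) * (1 / zb) * (((M : ℝ) + 2) ^ 2 / 2 * max za zb)) :=
          mul_le_mul_of_nonneg_left (h4.trans h5) hmin0.le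
      _ = _ := h6
  · have hpS : p ∉ S0 := by
      simp only [hS0, Finset.mem_insert, List.mem_toFinset]
      exact hp
    have h1 : en m (fun _ => b0) (fun k => k) (Fk c b0 β)
        (fun y v => v p ^ 2 * Fk c b0 β y p) cs x0 (vroot b0 i za zb) ≤
        en m (fun _ => b0) (fun k => k) (Fk c b0 β) (fun _ _ => (0 : ℝ)) cs x0
        (vroot b0 i za zb) := by
      refine en_mono_inv (Inv c b0 β m S0 x0 cs)
        (fun k cs' x v h s hs => Inv_step (fun y => hpos y b0) hb0 hcs0 k cs' x v h s hs)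
        ?_ hI
      intro y v hy
      have : v p = 0 := hy.2.2.2.2.1 p hpS
      rw [this]
      simp
    have h2 : en m (fun _ => b0) (fun k => k) (Fk c b0 β) (fun _ _ => (0 : ℝ)) cs x0
        (vroot b0 i za zb) = 0 := by
      have := en_smul (m := m) (Y := fun _ => b0) (X := fun k => k) (F := Fk c b0 β) 0
        (fun _ _ => (0 : ℝ)) cs x0 (vroot b0 i za zb)
      simpa using this
    have h3 := mul_le_mul_of_nonneg_left (h1.trans h2.le) hmin0.le
    rw [mul_zero] at h3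
    exact h3.trans (by positivity)

/-! ### one stage -/

theorem sq_le_of_forall {A B X : ℝ} (hA : 0 ≤ A) (hB : 0 ≤ B)
    (h : ∀ t : ℝ, 0 < t → 2 * |X| ≤ t * A + 1 / t * B) : X ^ 2 ≤ A * B := by
  by_contra hcon
  rw [not_le] at hcon
  have hX : 0 < |X| := by
    rw [abs_pos]
    rintro rfl
    have : 0 ≤ A * B := mul_nonneg hA hB
    nlinarith
  have hX2 : X ^ 2 = |X| ^ 2 := (sq_abs X).symm
  rcases hA.eq_or_lt with hA0 | hA0
  · have := h ((B + 1) / |X|) (by positivity)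
    rw [← hA0, mul_zero, zero_add, one_div, inv_div] at this
    have h2 : |X| / (B + 1) * B ≤ |X| := by
      rw [div_mul_eq_mul_div, div_le_iff₀ (by positivity)]
      nlinarith
    linarith
  · have := h (|X| / A) (by positivity)
    rw [div_mul_cancel₀ _ hA0.ne', one_div, inv_div] at this
    have h3 : |X| ≤ A / |X| * B := by linarith
    have h4 : |X| * |X| ≤ A * B := by
      have := mul_le_mul_of_nonneg_left h3 hX.le
      calc |X| * |X| ≤ |X| * (A / |X| * B) := this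
        _ = A * B := by field_simp
    nlinarith

/-- variance of the tokens at a leaf -/
theorem leaf_cs (F h v : V → ℝ) (hF : ∀ p, 0 < F p) (hv : ∑ p, v p * F p = 0) {t : ℝ} (ht : 0 < t)
    (b0 : V) :
    2 * |∑ p, v p * (F p * h p)| ≤
      t * ∑ p, v p ^ 2 * F p + 1 / t * (∑ p, ∑ q, min (F p) (F q) * (h p - h q) ^ 2 / 2) := by
  set S := ∑ p, F p with hS
  have hS0 : 0 < S := Finset.sum_pos (fun p _ => hF p) ⟨b0, Finset.mem_univ _⟩
  set hb := (∑ p, F p * h p) / S with hhb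
  have e1 : ∑ p, v p * (F p * h p) = ∑ p, v p * (F p * (h p - hb)) := by
    have : ∀ p, v p * (F p * (h p - hb)) = v p * (F p * h p) - hb * (v p * F p) := by
      intro p; ring
    simp only [this, Finset.sum_sub_distrib, ← Finset.mul_sum, hv, mul_zero, sub_zero]
  have e2 : ∑ p, F p * (h p - hb) ^ 2 ≤ ∑ p, ∑ q, min (F p) (F q) * (h p - h q) ^ 2 / 2 := by
    have e3 : S * ∑ p, F p * (h p - hb) ^ 2 = ∑ p, ∑ q, F p * F q * (h p - h q) ^ 2 / 2 := by
      have a1 : S * ∑ p, F p * (h p - hb) ^ 2 = S * ∑ p, F p * h p ^ 2 - (∑ p, F p * h p) ^ 2 := by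
        have b1 : ∀ p, F p * (h p - hb) ^ 2 =
            F p * h p ^ 2 - 2 * hb * (F p * h p) + hb ^ 2 * F p := by intro p; ring
        simp only [b1, Finset.sum_add_distrib, Finset.sum_sub_distrib, ← Finset.mul_sum]
        rw [← hS]
        have b2 : ∑ p, F p * h p = hb * S := by rw [hhb]; field_simp
        rw [b2]; ring
      have a2 : ∑ p, ∑ q, F p * F q * (h p - h q) ^ 2 / 2 =
          S * ∑ p, F p * h p ^ 2 - (∑ p, F p * h p) ^ 2 := by
        have b1 : ∀ p q, F p * F q * (h p - h q) ^ 2 / 2 =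
            (F p * h p ^ 2) * F q / 2 - (F p * h p) * (F q * h q) +
              F p * (F q * h q ^ 2) / 2 := by
          intro p q; ring
        simp only [b1, Finset.sum_add_distrib, Finset.sum_sub_distrib, ← Finset.mul_sum,
          ← Finset.sum_mul, ← Finset.sum_div]
        rw [← hS]; ring
      rw [a1, a2]
    have e4 : ∀ p q, F p * F q * (h p - h q) ^ 2 / 2 ≤
        S * (min (F p) (F q) * (h p - h q) ^ 2 / 2) := by
      intro p q
      have c1 : F p * F q ≤ S * min (F p) (F q) := by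
        rcases le_total (F p) (F q) with hpq | hpq
        · rw [min_eq_left hpq]
          have : F q ≤ S := Finset.single_le_sum (f := F) (fun p _ => (hF p).le) (Finset.mem_univ q)
          nlinarith [hF p]
        · rw [min_eq_right hpq]
          have : F p ≤ S := Finset.single_le_sum (f := F) (fun p _ => (hF p).le) (Finset.mem_univ p)
          nlinarith [hF q]
      have c2 : 0 ≤ (h p - h q) ^ 2 := sq_nonneg _
      nlinarith
    have e5 : S * ∑ p, F p * (h p - hb) ^ 2 ≤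
        S * ∑ p, ∑ q, min (F p) (F q) * (h p - h q) ^ 2 / 2 := by
      rw [e3]
      calc ∑ p, ∑ q, F p * F q * (h p - h q) ^ 2 / 2
          ≤ ∑ p, ∑ q, S * (min (F p) (F q) * (h p - h q) ^ 2 / 2) :=
            Finset.sum_le_sum fun p _ => Finset.sum_le_sum fun q _ => e4 p q
        _ = _ := by simp only [← Finset.mul_sum]
    exact le_of_mul_le_mul_left e5 hS0
  rw [e1]
  have e6 : 2 * |∑ p, v p * (F p * (h p - hb))| ≤
      ∑ p, (t * (v p ^ 2 * F p) + 1 / t * (F p * (h p - hb) ^ 2)) := by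
    calc 2 * |∑ p, v p * (F p * (h p - hb))| ≤ 2 * ∑ p, |v p * (F p * (h p - hb))| := by
          have := Finset.abs_sum_le_sum_abs (fun p => v p * (F p * (h p - hb))) univ
          linarith
      _ = ∑ p, 2 * |v p * (F p * (h p - hb))| := by rw [Finset.mul_sum]
      _ ≤ _ := by
        refine Finset.sum_le_sum fun p _ => ?_
        have hFp := hF p
        rw [abs_mul, abs_mul, abs_of_pos hFp]
        have k1 : 0 ≤ F p * (t * |v p| - |h p - hb|) ^ 2 := by positivity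
        have k2 : F p * (t * |v p| - |h p - hb|) ^ 2 =
            t * (t * (v p ^ 2 * F p) + 1 / t * (F p * (h p - hb) ^ 2)
              - 2 * (|v p| * (F p * |h p - hb|))) := by
          have s1 : |v p| ^ 2 = v p ^ 2 := sq_abs _
          have s2 : |h p - hb| ^ 2 = (h p - hb) ^ 2 := sq_abs _
          rw [← s1, ← s2]
          field_simp
          ring
        rw [k2] at k1
        have := nonneg_of_mul_nonneg_right k1 ht
        linarith
  refine e6.trans ?_
  rw [Finset.sum_add_distrib, ← Finset.mul_sum, ← Finset.mul_sum]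
  have : 0 ≤ 1 / t := by positivity
  linarith [mul_le_mul_of_nonneg_left e2 this]

/-- weighted sum of `h` over the class `x` -/
noncomputable def S1 (c h : (V → ℤ) → ℝ) (b0 : V) (β : V → ℤ) (m : ℕ) (cs : List V)
    (x : V → ℤ) : ℝ :=
  csum m (fun y => c (Pt b0 β y) * h (Pt b0 β y)) cs x

/-- constant of a stage -/
noncomputable def Kst (V : Type*) [Fintype V] (m : ℕ) : ℝ :=
  (Fintype.card V : ℝ) * (((m * Fintype.card V : ℕ) : ℝ) + 2) ^ 2 / 2

theorem Kst_nonneg (V : Type*) [Fintype V] (m : ℕ) : 0 ≤ Kst V m := by unfold Kst; positivity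

theorem stage (hc0 : ∀ γ, 0 ≤ c γ)
    (hAF : ∀ γ, AF (fun u v => c (γ + ev u + ev v)))
    (hpos : ∀ y p, 0 < Fk c b0 β y p) {i : V} {cs : List V} (hnd : cs.Nodup)
    (hi : i ∉ cs) (hib : i ≠ b0) (hb : b0 ∉ cs) (x0 : V → ℤ) (h : (V → ℤ) → ℝ) :
    min (Zc c b0 β m cs x0) (Zc c b0 β m cs (x0 + Pi.single i 1)) *
      (S1 c h b0 β m cs x0 / Zc c b0 β m cs x0 -
        S1 c h b0 β m cs (x0 + Pi.single i 1) / Zc c b0 β m cs (x0 + Pi.single i 1)) ^ 2 ≤
      Kst V m * csum m (fun y => Jl c h b0 β y) cs x0 := by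
  set za := Zc c b0 β m cs x0 with hza
  set zb := Zc c b0 β m cs (x0 + Pi.single i 1) with hzb
  have hza0 : 0 < za := Zc_pos hpos _ _
  have hzb0 : 0 < zb := Zc_pos hpos _ _
  have hmin0 : 0 < min za zb := lt_min hza0 hzb0
  set A := en m (fun _ => b0) (fun k => k) (Fk c b0 β) (fun y v => ∑ p, v p ^ 2 * Fk c b0 β y p)
    cs x0 (vroot b0 i za zb) with hA
  set B := csum m (fun y => Jl c h b0 β y) cs x0 with hB
  have hB0 : 0 ≤ B := csum_nonneg (fun y => Jl_nonneg hc0 _ _ _) _ _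
  have hA0 : 0 ≤ A := en_nonneg (fun y v => Finset.sum_nonneg fun p _ =>
    mul_nonneg (sq_nonneg _) (hpos y p).le) _ _ _
  -- the transport identity
  have hX : en m (fun _ => b0) (fun k => k) (Fk c b0 β)
      (fun y v => ∑ p, v p * (Fk c b0 β y p * h (Pt b0 β y - ev b0 + ev p))) cs x0
        (vroot b0 i za zb) = S1 c h b0 β m cs x0 / za - S1 c h b0 β m cs (x0 + Pi.single i 1) / zb := by
    rw [en_lin (m := m) (Y := fun _ => b0) (X := fun k => k) (F := Fk c b0 β)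
      (G := fun y p => Fk c b0 β y p * h (Pt b0 β y - ev b0 + ev p)) (cs := cs) (x := x0)
      (v := vroot b0 i za zb) (fun k _ y => hpos y b0) (fun k _ y => Fk_inv c b0 β y k) ?_
      (bal_root hpos i cs x0)]
    · unfold vroot
      simp only [sub_mul, ite_mul, zero_mul, Finset.sum_sub_distrib, Finset.sum_ite_eq',
        Finset.mem_univ, if_true]
      have e1 : csum m (fun y => Fk c b0 β y b0 * h (Pt b0 β y - ev b0 + ev b0)) cs x0 =
          S1 c h b0 β m cs x0 := by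
        unfold S1
        refine csum_congr (fun y => ?_) cs x0
        rw [Fk_b0]
        congr 2
        abel
      have e2 : csum m (fun y => Fk c b0 β y i * h (Pt b0 β y - ev b0 + ev i)) cs x0 =
          S1 c h b0 β m cs (x0 + Pi.single i 1) := by
        unfold S1
        rw [← csum_shift]
        refine csum_congr (fun y => ?_) cs x0
        rw [Fk_inv, Fk_b0, Pt_one]
        congr 2
        abel
      rw [e1, e2]
      ring
    · intro k _ y
      rw [Fk_inv, Pt_one]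
      congr 2
      abel
  set X := S1 c h b0 β m cs x0 / za - S1 c h b0 β m cs (x0 + Pi.single i 1) / zb with hXdef
  have key : ∀ t : ℝ, 0 < t → 2 * |X| ≤ t * A + 1 / t * (B / 2) := by
    intro t ht
    have hin : ∀ (σ : ℝ), (σ = 1 ∨ σ = -1) →
        en m (fun _ => b0) (fun k => k) (Fk c b0 β)
        (fun y v => (2 * σ) * ∑ p, v p * (Fk c b0 β y p * h (Pt b0 β y - ev b0 + ev p))) cs x0
        (vroot b0 i za zb) ≤
        en m (fun _ => b0) (fun k => k) (Fk c b0 β)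
        (fun y v => t * (∑ p, v p ^ 2 * Fk c b0 β y p) + 1 / t * (Jl c h b0 β y / 2)) cs x0
        (vroot b0 i za zb) := by
      intro σ hσ
      refine en_mono (m := m) (Y := fun _ => b0) (X := fun k => k) (F := Fk c b0 β) (cs := cs)
        (fun k _ y => hpos y b0) (fun k _ y => Fk_inv c b0 β y k) ?_ (bal_root hpos i cs x0)
      intro y v hv
      have := leaf_cs (fun p => Fk c b0 β y p) (fun p => h (Pt b0 β y - ev b0 + ev p)) v
        (fun p => hpos y p) hv ht b0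
      have e : (∑ p, ∑ q, min (Fk c b0 β y p) (Fk c b0 β y q) *
          (h (Pt b0 β y - ev b0 + ev p) - h (Pt b0 β y - ev b0 + ev q)) ^ 2 / 2) =
          Jl c h b0 β y / 2 := by
        unfold Jl
        simp only [Finset.sum_div]
      rw [e] at this
      refine le_trans ?_ this
      rcases hσ with rfl | rfl
      · have := le_abs_self (∑ p, v p * (Fk c b0 β y p * h (Pt b0 β y - ev b0 + ev p)))
        linarith
      · have := neg_abs_le (∑ p, v p * (Fk c b0 β y p * h (Pt b0 β y - ev b0 + ev p)))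
        linarith
    have e2 : en m (fun _ => b0) (fun k => k) (Fk c b0 β)
        (fun y v => t * (∑ p, v p ^ 2 * Fk c b0 β y p) + 1 / t * (Jl c h b0 β y / 2)) cs x0
        (vroot b0 i za zb) = t * A + 1 / t * (B / 2) := by
      rw [en_add, en_smul, en_const, ← hA]
      congr 1
      rw [hB, csum_smul]
      congr 1
      rw [← mul_one_div, mul_comm, ← csum_smul]
      exact csum_congr (fun y => by ring) _ _
    have h1 := hin 1 (Or.inl rfl)
    have h2 := hin (-1) (Or.inr rfl)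
    rw [e2, en_smul, hX] at h1 h2
    rcases abs_cases X with ⟨hx, _⟩ | ⟨hx, _⟩ <;> rw [hx] <;> linarith
  have h1 := sq_le_of_forall hA0 (by positivity) key
  have h2 : min za zb * A ≤ (Fintype.card V : ℝ) * (((m * Fintype.card V : ℕ) : ℝ) + 2) ^ 2 := by
    rw [hA, en_sum, Finset.mul_sum]
    calc ∑ p, min za zb * en m (fun _ => b0) (fun k => k) (Fk c b0 β)
          (fun y v => v p ^ 2 * Fk c b0 β y p) cs x0 (vroot b0 i za zb)
        ≤ ∑ _p : V, (((m * Fintype.card V : ℕ) : ℝ) + 2) ^ 2 :=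
          Finset.sum_le_sum fun p _ => token_energy_le hc0 hAF hpos hnd hi hib hb x0 p
      _ = _ := by rw [Finset.sum_const, nsmul_eq_mul]; rfl
  calc min za zb * X ^ 2 ≤ min za zb * (A * (B / 2)) := mul_le_mul_of_nonneg_left h1 hmin0.le
    _ = (min za zb * A) * (B / 2) := by ring
    _ ≤ ((Fintype.card V : ℝ) * (((m * Fintype.card V : ℕ) : ℝ) + 2) ^ 2) * (B / 2) :=
      mul_le_mul_of_nonneg_right h2 (by positivity)
    _ = Kst V m * B := by unfold Kst; ring

/-! ### one-dimensional Poincaré inequality -/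

theorem quasi {z : ℕ → ℝ} (hz : ∀ a, 0 < z a) (hlc : ∀ a, z a * z (a + 2) ≤ z (a + 1) ^ 2)
    {a j b : ℕ} (haj : a ≤ j) (hjb : j ≤ b) : min (z a) (z b) ≤ z j := by
  have hstep : ∀ k, z (k + 1) < z k → z (k + 2) < z (k + 1) := by
    intro k hk
    have h1 := hlc k
    have h2 := hz k
    have h3 := hz (k + 1)
    by_contra hcon
    rw [not_lt] at hcon
    nlinarith
  have hdec : ∀ k, z (k + 1) < z k → ∀ n, z (k + 1 + n + 1) < z (k + 1 + n) := by
    intro k hk n
    induction n with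
    | zero => exact hstep k hk
    | succ n ih => exact hstep (k + 1 + n) ih
  by_cases hall : ∀ k, a ≤ k → k < j → z k ≤ z (k + 1)
  · refine (min_le_left _ _).trans ?_
    clear hjb
    induction j with
    | zero =>
      have : a = 0 := Nat.le_zero.1 haj
      rw [this]
    | succ j ih =>
      rcases Nat.lt_or_ge a (j + 1) with h | h
      · exact (ih (Nat.lt_succ_iff.1 h) fun k h1 h2 => hall k h1 (h2.trans (Nat.lt_succ_self j))).trans
          (hall j (Nat.lt_succ_iff.1 h) (Nat.lt_succ_self j))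
      · have : a = j + 1 := le_antisymm haj h
        rw [this]
  · push Not at hall
    obtain ⟨k, hk1, hk2, hk3⟩ := hall
    refine (min_le_right _ _).trans ?_
    obtain ⟨n, rfl⟩ := Nat.exists_eq_add_of_le (Nat.succ_le_of_lt hk2)
    obtain ⟨n', rfl⟩ := Nat.exists_eq_add_of_le hjb
    clear haj hk1 hk2 hjb
    induction n' with
    | zero => exact le_rfl
    | succ n' ih =>
      have := hdec k hk3 (n + n')
      have e : k + 1 + (n + n') = k + 1 + n + n' := by ring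
      rw [e] at this
      have e2 : k.succ + n + (n' + 1) = k + 1 + n + n' + 1 := by
        rw [Nat.succ_eq_add_one]; ring
      rw [e2]
      exact this.le.trans ih

theorem pair_bound {z : ℕ → ℝ} (hz : ∀ a, 0 < z a) (hlc : ∀ a, z a * z (a + 2) ≤ z (a + 1) ^ 2)
    (F : ℕ → ℝ) (m : ℕ) {a b : ℕ} (hab : a ≤ b) (hb : b ≤ m) :
    z a * z b * (F a - F b) ^ 2 ≤ (z a + z b) * (m *
      ∑ j ∈ range m, min (z j) (z (j + 1)) * (F j - F (j + 1)) ^ 2) := by
  have h1 : F a - F b = ∑ j ∈ Ico a b, (F j - F (j + 1)) := by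
    rw [Finset.sum_Ico_eq_sum_range]
    have := Finset.sum_range_sub' (fun k => F (a + k)) (b - a)
    simp only [add_zero] at this
    rw [Nat.add_sub_cancel' hab] at this
    rw [← this]
    rfl
  have h2 : (F a - F b) ^ 2 ≤ m * ∑ j ∈ Ico a b, (F j - F (j + 1)) ^ 2 := by
    rw [h1]
    refine (sq_sum_le_card_mul_sum_sq).trans ?_
    refine mul_le_mul_of_nonneg_right ?_ (Finset.sum_nonneg fun j _ => sq_nonneg _)
    rw [Nat.card_Ico]
    have : b - a ≤ m := (Nat.sub_le _ _).trans hb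
    exact_mod_cast this
  have h3 : z a * z b = min (z a) (z b) * max (z a) (z b) := (min_mul_max _ _).symm
  have h4 : max (z a) (z b) ≤ z a + z b := by
    rcases le_total (z a) (z b) with h | h
    · rw [max_eq_right h]; linarith [hz a]
    · rw [max_eq_left h]; linarith [hz b]
  have hmin : 0 < min (z a) (z b) := lt_min (hz a) (hz b)
  have h5 : min (z a) (z b) * ∑ j ∈ Ico a b, (F j - F (j + 1)) ^ 2 ≤
      ∑ j ∈ range m, min (z j) (z (j + 1)) * (F j - F (j + 1)) ^ 2 := by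
    rw [Finset.mul_sum]
    calc ∑ j ∈ Ico a b, min (z a) (z b) * (F j - F (j + 1)) ^ 2
        ≤ ∑ j ∈ Ico a b, min (z j) (z (j + 1)) * (F j - F (j + 1)) ^ 2 := by
          refine Finset.sum_le_sum fun j hj => ?_
          rw [Finset.mem_Ico] at hj
          refine mul_le_mul_of_nonneg_right (le_min ?_ ?_) (sq_nonneg _)
          · exact quasi hz hlc hj.1 hj.2.le
          · exact quasi hz hlc (hj.1.trans (Nat.le_succ j)) (Nat.succ_le_of_lt hj.2)
      _ ≤ _ := by
          refine Finset.sum_le_sum_of_subset_of_nonneg ?_ fun j _ _ =>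
            mul_nonneg (le_min (hz _).le (hz _).le) (sq_nonneg _)
          intro j hj
          rw [Finset.mem_Ico] at hj
          exact Finset.mem_range.2 (hj.2.trans_le hb)
  have h6 : 0 ≤ ∑ j ∈ Ico a b, (F j - F (j + 1)) ^ 2 := Finset.sum_nonneg fun j _ => sq_nonneg _
  calc z a * z b * (F a - F b) ^ 2 ≤
        z a * z b * (m * ∑ j ∈ Ico a b, (F j - F (j + 1)) ^ 2) :=
        mul_le_mul_of_nonneg_left h2 (mul_pos (hz a) (hz b)).le
    _ = max (z a) (z b) * (m * (min (z a) (z b) * ∑ j ∈ Ico a b, (F j - F (j + 1)) ^ 2)) := by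
        rw [h3]; ring
    _ ≤ max (z a) (z b) * (m * ∑ j ∈ range m, min (z j) (z (j + 1)) * (F j - F (j + 1)) ^ 2) := by
        refine mul_le_mul_of_nonneg_left (mul_le_mul_of_nonneg_left h5 (Nat.cast_nonneg _)) ?_
        exact (hz a).le.trans (le_max_left _ _)
    _ ≤ _ := by
        refine mul_le_mul_of_nonneg_right h4 (mul_nonneg (Nat.cast_nonneg _)
          (Finset.sum_nonneg fun j _ => mul_nonneg (le_min (hz _).le (hz _).le) (sq_nonneg _)))

theorem one_dim {z : ℕ → ℝ} (hz : ∀ a, 0 < z a) (hlc : ∀ a, z a * z (a + 2) ≤ z (a + 1) ^ 2)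
    (F : ℕ → ℝ) (m : ℕ) :
    ∑ a ∈ range (m + 1), z a * F a ^ 2 -
      (∑ a ∈ range (m + 1), z a * F a) ^ 2 / ∑ a ∈ range (m + 1), z a ≤
      ((m : ℝ) + 1) ^ 2 * ∑ j ∈ range m, min (z j) (z (j + 1)) * (F j - F (j + 1)) ^ 2 := by
  set S := ∑ a ∈ range (m + 1), z a with hS
  have hS0 : 0 < S := Finset.sum_pos (fun a _ => hz a) ⟨0, Finset.mem_range.2 (Nat.succ_pos m)⟩
  set D := ∑ j ∈ range m, min (z j) (z (j + 1)) * (F j - F (j + 1)) ^ 2 with hD
  have hD0 : 0 ≤ D := Finset.sum_nonneg fun j _ =>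
    mul_nonneg (le_min (hz _).le (hz _).le) (sq_nonneg _)
  have h1 : ∑ a ∈ range (m + 1), ∑ b ∈ range (m + 1), z a * z b * (F a - F b) ^ 2 / 2 =
      S * ∑ a ∈ range (m + 1), z a * F a ^ 2 - (∑ a ∈ range (m + 1), z a * F a) ^ 2 := by
    have b1 : ∀ a b, z a * z b * (F a - F b) ^ 2 / 2 =
        (z a * F a ^ 2) * z b / 2 - (z a * F a) * (z b * F b) + z a * (z b * F b ^ 2) / 2 := by
      intro a b; ring
    simp only [b1, Finset.sum_add_distrib, Finset.sum_sub_distrib, ← Finset.mul_sum,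
      ← Finset.sum_mul, ← Finset.sum_div]
    rw [← hS]; ring
  have h2 : ∀ a ∈ range (m + 1), ∀ b ∈ range (m + 1),
      z a * z b * (F a - F b) ^ 2 / 2 ≤ (z a + z b) * (m * D) / 2 := by
    intro a ha b hb
    rw [Finset.mem_range, Nat.lt_succ_iff] at ha hb
    rcases le_total a b with hab | hab
    · have := pair_bound hz hlc F m hab hb
      linarith
    · have := pair_bound hz hlc F m hab ha
      have e : z a * z b * (F a - F b) ^ 2 = z b * z a * (F b - F a) ^ 2 := by ring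
      rw [e, add_comm (z a)]
      linarith
  have h3 : ∑ a ∈ range (m + 1), ∑ b ∈ range (m + 1), (z a + z b) * (m * D) / 2 =
      S * (((m : ℝ) + 1) * m * D) := by
    have b1 : ∀ a b, (z a + z b) * (m * D) / 2 = z a * (m * D / 2) + z b * (m * D / 2) := by
      intro a b; ring
    simp only [b1, Finset.sum_add_distrib, Finset.sum_const, Finset.card_range, nsmul_eq_mul,
      ← Finset.sum_mul, ← Finset.mul_sum]
    rw [← hS]
    push_cast
    ring
  have h4 : S * ∑ a ∈ range (m + 1), z a * F a ^ 2 - (∑ a ∈ range (m + 1), z a * F a) ^ 2 ≤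
      S * (((m : ℝ) + 1) * m * D) := by
    rw [← h1, ← h3]
    exact Finset.sum_le_sum fun a ha => Finset.sum_le_sum fun b hb => h2 a ha b hb
  have h5 : ∑ a ∈ range (m + 1), z a * F a ^ 2 -
      (∑ a ∈ range (m + 1), z a * F a) ^ 2 / S ≤ ((m : ℝ) + 1) * m * D := by
    have e : ∑ a ∈ range (m + 1), z a * F a ^ 2 - (∑ a ∈ range (m + 1), z a * F a) ^ 2 / S =
        (S * ∑ a ∈ range (m + 1), z a * F a ^ 2 - (∑ a ∈ range (m + 1), z a * F a) ^ 2) / S := by
      field_simp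
    rw [e, div_le_iff₀ hS0]
    linarith
  refine h5.trans ?_
  have : ((m : ℝ) + 1) * m ≤ ((m : ℝ) + 1) ^ 2 := by nlinarith [Nat.cast_nonneg (α := ℝ) m]
  exact mul_le_mul_of_nonneg_right this hD0

/-! ### log-concavity of the class masses -/

theorem Zc_lc (hc0 : ∀ γ, 0 ≤ c γ)
    (hAF : ∀ γ, AF (fun u v => c (γ + ev u + ev v)))
    (hpos : ∀ y p, 0 < Fk c b0 β y p) {i : V} (hib : i ≠ b0) (cs : List V) (x0 : V → ℤ) :
    Zc c b0 β m cs x0 * Zc c b0 β m cs (x0 + Pi.single i 1 + Pi.single i 1) ≤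
      Zc c b0 β m cs (x0 + Pi.single i 1) ^ 2 := by
  set za := Zc c b0 β m cs x0 with hza
  set zb := Zc c b0 β m cs (x0 + Pi.single i 1) with hzb
  set zc := Zc c b0 β m cs (x0 + Pi.single i 1 + Pi.single i 1) with hzc
  have hza0 : 0 < za := Zc_pos hpos _ _
  have hzb0 : 0 < zb := Zc_pos hpos _ _
  have hbal := bal_root (m := m) hpos i cs x0
  set G : (V → ℤ) → V → V → ℝ := fun y q q' => c (Pt b0 β y - ev b0 - ev b0 + ev q + ev q') with hG
  have hGs : ∀ y q q', G y q q' = G y q' q := by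
    intro y q q'
    simp only [hG]
    congr 1
    abel
  have h1 := en_quad (m := m) (Y := fun _ => b0) (X := fun k => k) (F := Fk c b0 β)
    (G := G) (cs := cs) (x := x0) (v := vroot b0 i za zb)
    (fun k _ y => hpos y b0) (fun k _ y => Fk_inv c b0 β y k)
    (fun y q q' => hc0 _) hGs
    (fun k _ y q => by simp only [hG]; rw [Pt_one]; congr 1; abel) hbal
  have h2 : en m (fun _ => b0) (fun k => k) (Fk c b0 β) (fun y v => Q (fun p q => G y p q) v v)
      cs x0 (vroot b0 i za zb) ≤ 0 := by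
    have h3 := en_mono (m := m) (Y := fun _ => b0) (X := fun k => k) (F := Fk c b0 β) (cs := cs)
      (Φ := fun y v => Q (fun p q => G y p q) v v) (Φ' := fun _ _ => (0 : ℝ))
      (fun k _ y => hpos y b0) (fun k _ y => Fk_inv c b0 β y k) ?_ hbal
    · have h4 : en m (fun _ => b0) (fun k => k) (Fk c b0 β) (fun _ _ => (0 : ℝ)) cs x0
          (vroot b0 i za zb) = 0 := by
        have := en_smul (m := m) (Y := fun _ => b0) (X := fun k => k) (F := Fk c b0 β) 0
          (fun _ _ => (0 : ℝ)) cs x0 (vroot b0 i za zb)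
        simpa using this
      exact h3.trans h4.le
    · intro y v hv
      have hpp : Q (fun p q => G y p q) (Pi.single b0 1) (Pi.single b0 1) = Fk c b0 β y b0 := by
        rw [Q_single_left, row_single]
        simp only [hG]
        unfold Fk
        congr 1
        abel
      have hz : Q (fun p q => G y p q) v (Pi.single b0 1) = 0 := by
        rw [Q_eq_row, ← hv]
        refine Finset.sum_congr rfl fun q _ => ?_
        rw [row_single]
        simp only [hG]
        unfold Fk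
        congr 2
        abel
      have h5 := hAF (Pt b0 β y - ev b0 - ev b0) v (Pi.single b0 1)
        (by change 0 ≤ Q (fun p q => G y p q) (Pi.single b0 1) (Pi.single b0 1)
            rw [hpp]; exact (hpos y b0).le)
      change Q (fun p q => G y p q) v v *
        Q (fun p q => G y p q) (Pi.single b0 1) (Pi.single b0 1) ≤
        Q (fun p q => G y p q) v (Pi.single b0 1) ^ 2 at h5
      rw [hz, hpp] at h5
      by_contra hcon
      rw [not_le] at hcon
      have := mul_pos hcon (hpos y b0)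
      nlinarith
  have h3 := h1.trans h2
  have h4 := Q_root (A := fun q q' => csum m (fun y => G y q q') cs x0)
    (fun q q' => csum_congr (fun y => hGs y q q') cs x0) i b0 (1 / za) (1 / zb)
  unfold vroot at h3
  rw [h4] at h3
  have e1 : csum m (fun y => G y b0 b0) cs x0 = za := by
    rw [hza]
    unfold Zc
    refine csum_congr (fun y => ?_) _ _
    simp only [hG]
    congr 1
    abel
  have e2 : csum m (fun y => G y b0 i) cs x0 = zb := by
    rw [hzb, ← csum_Fk_i]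
    refine csum_congr (fun y => ?_) _ _
    simp only [hG]
    unfold Fk
    congr 1
    abel
  have e3 : csum m (fun y => G y i i) cs x0 = zc := by
    rw [hzc]
    unfold Zc
    rw [add_assoc, ← csum_shift]
    refine csum_congr (fun y => ?_) _ _
    simp only [hG]
    rw [← add_assoc, Pt_one, Pt_one]
    congr 1
    abel
  rw [e1, e2, e3] at h3
  have h6 : (1 / za) ^ 2 * za - 2 * (1 / za) * (1 / zb) * zb + (1 / zb) ^ 2 * zc =
      (za * zc - zb ^ 2) / (za * zb ^ 2) := by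
    field_simp
    ring
  rw [h6] at h3
  have h7 : 0 < za * zb ^ 2 := by positivity
  have h8 : za * zc - zb ^ 2 ≤ 0 := by
    by_contra hcon
    rw [not_le] at hcon
    have := div_pos hcon h7
    linarith
  linarith

/-! ### the Poincaré inequality -/

/-- second moment -/
noncomputable def S2 (c h : (V → ℤ) → ℝ) (b0 : V) (β : V → ℤ) (m : ℕ) (cs : List V)
    (x : V → ℤ) : ℝ :=
  csum m (fun y => c (Pt b0 β y) * h (Pt b0 β y) ^ 2) cs x

theorem link_var (hc0 : ∀ γ, 0 ≤ c γ)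
    (hAF : ∀ γ, AF (fun u v => c (γ + ev u + ev v)))
    (hpos : ∀ y p, 0 < Fk c b0 β y p) (h : (V → ℤ) → ℝ) :
    ∀ (cs : List V) (x : V → ℤ), cs.Nodup → b0 ∉ cs →
      S2 c h b0 β m cs x - S1 c h b0 β m cs x ^ 2 / Zc c b0 β m cs x ≤
        ((m : ℝ) + 1) ^ 2 * Kst V m * cs.length * csum m (fun y => Jl c h b0 β y) cs x := by
  intro cs
  induction cs with
  | nil =>
    intro x _ _
    have hx : 0 < c (Pt b0 β x) := by
      have := hpos x b0
      rwa [Fk_b0] at this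
    simp only [S2, S1, Zc, csum_nil, List.length_nil, Nat.cast_zero, mul_zero, zero_mul]
    have : c (Pt b0 β x) * h (Pt b0 β x) ^ 2 -
        (c (Pt b0 β x) * h (Pt b0 β x)) ^ 2 / c (Pt b0 β x) = 0 := by
      field_simp
      ring
    rw [this]
  | cons i cs ih =>
    intro x hnd hb
    rw [List.nodup_cons] at hnd
    have hib : i ≠ b0 := fun e => hb (e ▸ List.mem_cons_self)
    have hb' : b0 ∉ cs := fun e => hb (List.mem_cons_of_mem _ e)
    set K := ((m : ℝ) + 1) ^ 2 * Kst V m with hK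
    have hK0 : 0 ≤ K := by rw [hK]; exact mul_nonneg (by positivity) (Kst_nonneg V m)
    set z : ℕ → ℝ := fun a => Zc c b0 β m cs (x + Pi.single i (a : ℤ)) with hz
    set F : ℕ → ℝ := fun a => S1 c h b0 β m cs (x + Pi.single i (a : ℤ)) /
      Zc c b0 β m cs (x + Pi.single i (a : ℤ)) with hF
    have hz0 : ∀ a, 0 < z a := fun a => Zc_pos hpos _ _
    have hsucc : ∀ a : ℕ, x + Pi.single i ((a + 1 : ℕ) : ℤ) =
        x + Pi.single i (a : ℤ) + Pi.single i 1 := by
      intro a; rw [single_succ, add_assoc]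
    have hlc : ∀ a, z a * z (a + 2) ≤ z (a + 1) ^ 2 := by
      intro a
      have := Zc_lc (m := m) hc0 hAF hpos hib cs (x + Pi.single i (a : ℤ))
      simp only [hz]
      rw [show a + 2 = (a + 1) + 1 from rfl, hsucc (a + 1), hsucc a]
      exact this
    have e1 : S1 c h b0 β m (i :: cs) x = ∑ a ∈ range (m + 1), z a * F a := by
      unfold S1
      rw [csum_cons]
      refine Finset.sum_congr rfl fun a _ => ?_
      simp only [hF, hz]
      rw [mul_div_cancel₀ _ (hz0 a).ne']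
      rfl
    have e2 : Zc c b0 β m (i :: cs) x = ∑ a ∈ range (m + 1), z a := by
      unfold Zc
      rw [csum_cons]
      rfl
    have e3 : S2 c h b0 β m (i :: cs) x =
        ∑ a ∈ range (m + 1), (S2 c h b0 β m cs (x + Pi.single i (a : ℤ)) -
          S1 c h b0 β m cs (x + Pi.single i (a : ℤ)) ^ 2 /
            Zc c b0 β m cs (x + Pi.single i (a : ℤ))) +
        ∑ a ∈ range (m + 1), z a * F a ^ 2 := by
      rw [← Finset.sum_add_distrib]
      unfold S2
      rw [csum_cons]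
      refine Finset.sum_congr rfl fun a _ => ?_
      simp only [hF, hz]
      have := (hz0 a).ne'
      simp only [hz] at this
      field_simp
      ring
    have e4 : csum m (fun y => Jl c h b0 β y) (i :: cs) x =
        ∑ a ∈ range (m + 1), csum m (fun y => Jl c h b0 β y) cs (x + Pi.single i (a : ℤ)) :=
      csum_cons _ _ _ _ _
    have h1 := one_dim hz0 hlc F m
    have h2 : ∑ a ∈ range (m + 1), (S2 c h b0 β m cs (x + Pi.single i (a : ℤ)) -
          S1 c h b0 β m cs (x + Pi.single i (a : ℤ)) ^ 2 /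
            Zc c b0 β m cs (x + Pi.single i (a : ℤ))) ≤
        K * cs.length * csum m (fun y => Jl c h b0 β y) (i :: cs) x := by
      rw [e4, Finset.mul_sum]
      exact Finset.sum_le_sum fun a _ => ih _ hnd.2 hb'
    have h3 : ∑ j ∈ range m, min (z j) (z (j + 1)) * (F j - F (j + 1)) ^ 2 ≤
        Kst V m * csum m (fun y => Jl c h b0 β y) (i :: cs) x := by
      rw [e4, Finset.mul_sum]
      calc ∑ j ∈ range m, min (z j) (z (j + 1)) * (F j - F (j + 1)) ^ 2
          ≤ ∑ j ∈ range m, Kst V m *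
              csum m (fun y => Jl c h b0 β y) cs (x + Pi.single i (j : ℤ)) := by
            refine Finset.sum_le_sum fun j _ => ?_
            have := stage (m := m) hc0 hAF hpos hnd.2 hnd.1 hib hb' (x + Pi.single i (j : ℤ)) h
            simp only [hz, hF]
            rw [hsucc j]
            exact this
        _ ≤ _ := by
            refine Finset.sum_le_sum_of_subset_of_nonneg
              (Finset.range_subset_range.2 (Nat.le_succ m)) fun j _ _ => ?_
            exact mul_nonneg (Kst_nonneg V m)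
              (csum_nonneg (fun y => Jl_nonneg hc0 _ _ _) _ _)
    have h4 : ((m : ℝ) + 1) ^ 2 * ∑ j ∈ range m, min (z j) (z (j + 1)) * (F j - F (j + 1)) ^ 2 ≤
        K * csum m (fun y => Jl c h b0 β y) (i :: cs) x := by
      rw [hK, mul_assoc]
      exact mul_le_mul_of_nonneg_left h3 (by positivity)
    rw [e3, e1, e2]
    have h5 := h1.trans h4
    have e5 : ((i :: cs).length : ℝ) = cs.length + 1 := by simp
    rw [e5]
    have : K * ((cs.length : ℝ) + 1) * csum m (fun y => Jl c h b0 β y) (i :: cs) x =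
      K * cs.length * csum m (fun y => Jl c h b0 β y) (i :: cs) x +
      K * csum m (fun y => Jl c h b0 β y) (i :: cs) x := by ring
    linarith

end Crest.Agent.R302.Link
end

-- ▼ part R302/Link342B
section

/-!
R302 (helper342): LINK for hard supports.  `link_fin`: for a finitely supported weight `c` which is
a limit of positive weights with the Alexandrov-Fenchel property (class `LA`, contains the bounded
Lorentzian weights `Lz`) the unit exchange walk satisfies a Poincaré inequality with a constant depending only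
on the dimension and the side of a box containing the support.
-/

set_option autoImplicit false
set_option linter.unusedSectionVars false

namespace Crest.Agent.R302.Link

open Finset Lor T893 Mart Macro

variable {V : Type*} [Fintype V] [DecidableEq V]

/-- the cells: all vertices but `b0` -/
noncomputable def csb (b0 : V) : List V := (univ.erase b0).toList

theorem csb_nodup (b0 : V) : (csb b0).Nodup := Finset.nodup_toList _

theorem mem_csb {b0 k : V} : k ∈ csb b0 ↔ k ≠ b0 := by simp [csb]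

theorem csb_length (b0 : V) : ((csb b0).length : ℝ) ≤ Fintype.card V := by
  have : (csb b0).length ≤ Fintype.card V := by
    rw [csb, Finset.length_toList]
    exact (Finset.card_le_univ _)
  exact_mod_cast this

/-- the box of contents -/
noncomputable def bx (m : ℕ) (b0 : V) (lo : V → ℤ) : Finset (V → ℤ) := Mart.box m (csb b0) lo

theorem mem_bx {m : ℕ} {b0 : V} {lo y : V → ℤ} :
    y ∈ bx m b0 lo ↔ y b0 = lo b0 ∧ ∀ k, k ≠ b0 → lo k ≤ y k ∧ y k ≤ lo k + m := by
  unfold bx Mart.box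
  rw [Fintype.mem_piFinset]
  constructor
  · intro h
    refine ⟨?_, fun k hk => ?_⟩
    · have := h b0
      rw [if_neg (by simp [mem_csb])] at this
      exact mem_singleton.1 this
    · have := h k
      rw [if_pos (mem_csb.2 hk)] at this
      exact mem_Icc.1 this
  · rintro ⟨h1, h2⟩ k
    by_cases hk : k = b0
    · subst hk
      rw [if_neg (by simp [mem_csb]), mem_singleton]
      exact h1
    · rw [if_pos (mem_csb.2 hk), mem_Icc]
      exact h2 k hk

theorem Pt_inj {m : ℕ} {b0 : V} {lo β : V → ℤ} {y y' : V → ℤ} (hy : y ∈ bx m b0 lo)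
    (hy' : y' ∈ bx m b0 lo) (h : Pt b0 β y = Pt b0 β y') : y = y' := by
  rw [mem_bx] at hy hy'
  funext k
  by_cases hk : k = b0
  · subst hk; rw [hy.1, hy'.1]
  · have := congrFun h k
    rw [Pt_apply_ne b0 β y hk, Pt_apply_ne b0 β y' hk] at this
    linarith

/-- positive case, sums over the box -/
theorem link_pos {c : (V → ℤ) → ℝ} {d : ℤ} (hc0 : ∀ γ, 0 ≤ c γ)
    (hAF : ∀ γ, AF (fun u v => c (γ + ev u + ev v)))
    (hpos : ∀ γ, ∑ v, γ v = d → 0 < c γ) (h : (V → ℤ) → ℝ) (b0 : V) (lo : V → ℤ) (m : ℕ) :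
    ∑ y ∈ bx m b0 lo, c (Pt b0 (d • ev b0) y) * h (Pt b0 (d • ev b0) y) ^ 2
      - (∑ y ∈ bx m b0 lo, c (Pt b0 (d • ev b0) y) * h (Pt b0 (d • ev b0) y)) ^ 2
        / ∑ y ∈ bx m b0 lo, c (Pt b0 (d • ev b0) y) ≤
      ((m : ℝ) + 1) ^ 2 * Kst V m * Fintype.card V
        * ∑ y ∈ bx m b0 lo, Jl c h b0 (d • ev b0) y := by
  have hs : ∀ y, ∑ v, Pt b0 (d • ev b0) y v = d := by
    intro y
    rw [Pt_sum]
    simp [ev_apply']
  have hp : ∀ y p, 0 < Fk c b0 (d • ev b0) y p := by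
    intro y p
    unfold Fk
    apply hpos
    have := hs y
    simp only [Pi.add_apply, Pi.sub_apply, Finset.sum_add_distrib, Finset.sum_sub_distrib, this,
      sum_ev]
    ring
  have h1 := link_var (m := m) hc0 hAF hp h (csb b0) lo (csb_nodup b0) (by simp [mem_csb])
  unfold S2 S1 Zc at h1
  rw [csum_eq_box_list m _ _ (csb_nodup b0), csum_eq_box_list m _ _ (csb_nodup b0),
    csum_eq_box_list m _ _ (csb_nodup b0), csum_eq_box_list m _ _ (csb_nodup b0)] at h1
  refine h1.trans ?_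
  refine mul_le_mul_of_nonneg_right ?_ (Finset.sum_nonneg fun y _ => Jl_nonneg hc0 _ _ _)
  refine mul_le_mul_of_nonneg_left (csb_length b0) ?_
  exact mul_nonneg (by positivity) (Kst_nonneg V m)

/-- weights of degree `d` which are limits of positive weights with the Alexandrov-Fenchel
property -/
structure LA (d : ℤ) (c : (V → ℤ) → ℝ) : Prop where
  nonneg : ∀ β, 0 ≤ c β
  deg : ∀ β, c β ≠ 0 → ∑ v, β v = d
  ex : ∃ cn : ℕ → (V → ℤ) → ℝ, (∀ n γ, 0 ≤ cn n γ) ∧
    (∀ n, ∀ γ, AF (fun u v => cn n (γ + ev u + ev v))) ∧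
    (∀ n γ, ∑ v, γ v = d → 0 < cn n γ) ∧
    ∀ γ, ∑ v, γ v = d → Filter.Tendsto (fun n => cn n γ) Filter.atTop (nhds (c γ))

/-- bounded Lorentzian weights -/
theorem _root_.Crest.Agent.R302.Lor.Lz.la {c : (V → ℤ) → ℝ} {d : ℤ} (hc : Lz d c) {C : ℝ}
    (hC : ∀ β, c β ≤ C) : LA d c := by
  refine ⟨hc.nonneg, hc.deg, ?_⟩
  have hε : ∀ n : ℕ, (0 : ℝ) < 1 / ((n : ℝ) + 1) := fun n => by positivity
  by_cases hz : ∀ β, c β = 0
  · refine ⟨fun n _ => 1 / ((n : ℝ) + 1), fun n _ => (hε n).le, fun n γ => ?_, fun n _ _ => hε n,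
      fun γ _ => ?_⟩
    · intro x y _
      have h : ∀ a b : V → ℝ, Q (fun _ _ : V => 1 / ((n : ℝ) + 1)) a b
          = 1 / ((n : ℝ) + 1) * ((∑ i, a i) * ∑ i, b i) := by
        intro a b
        unfold Q
        rw [Finset.sum_mul_sum, Finset.mul_sum]
        refine Finset.sum_congr rfl fun i _ => ?_
        rw [Finset.mul_sum]
        exact Finset.sum_congr rfl fun j _ => by ring
      rw [h, h, h]
      apply le_of_eq
      ring
    · rw [hz γ]
      exact tendsto_one_div_add_atTop_nhds_zero_nat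
  · push Not at hz
    obtain ⟨ξ, hξ⟩ := hz
    have hξ : 0 < c ξ := lt_of_le_of_ne (hc.nonneg _) (Ne.symm hξ)
    choose c' hc'1 hc'2 hc'3 hc'4 using fun n : ℕ => hc.perturb hC hξ (hε n)
    refine ⟨c', fun n => (hc'1 n).nonneg, fun n γ => (hc'1 n).af [] (by simp) γ, hc'2,
      fun γ _ => ?_⟩
    have h1 : Filter.Tendsto (fun n : ℕ => c γ + 1 / ((n : ℝ) + 1)) Filter.atTop
        (nhds (c γ + 0)) := tendsto_const_nhds.add tendsto_one_div_add_atTop_nhds_zero_nat
    rw [add_zero] at h1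
    exact tendsto_of_tendsto_of_tendsto_of_le_of_le tendsto_const_nhds h1
      (fun n => hc'3 n γ) (fun n => hc'4 n γ)

/-- hard supports, sums over the box -/
theorem link_box {c : (V → ℤ) → ℝ} {d : ℤ} (hc : LA d c)
    (h : (V → ℤ) → ℝ) (b0 : V) (lo : V → ℤ) (m : ℕ) :
    ∑ y ∈ bx m b0 lo, c (Pt b0 (d • ev b0) y) * h (Pt b0 (d • ev b0) y) ^ 2
      - (∑ y ∈ bx m b0 lo, c (Pt b0 (d • ev b0) y) * h (Pt b0 (d • ev b0) y)) ^ 2
        / ∑ y ∈ bx m b0 lo, c (Pt b0 (d • ev b0) y) ≤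
      ((m : ℝ) + 1) ^ 2 * Kst V m * Fintype.card V
        * ∑ y ∈ bx m b0 lo, Jl c h b0 (d • ev b0) y := by
  have hK : 0 ≤ ((m : ℝ) + 1) ^ 2 * Kst V m * Fintype.card V := by
    have := Kst_nonneg V m
    positivity
  by_cases hz : ∑ y ∈ bx m b0 lo, c (Pt b0 (d • ev b0) y) = 0
  · have h0 : ∀ y ∈ bx m b0 lo, c (Pt b0 (d • ev b0) y) = 0 :=
      (Finset.sum_eq_zero_iff_of_nonneg fun y _ => hc.nonneg _).1 hz
    have h1 : ∑ y ∈ bx m b0 lo, c (Pt b0 (d • ev b0) y) * h (Pt b0 (d • ev b0) y) ^ 2 = 0 :=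
      Finset.sum_eq_zero fun y hy => by rw [h0 y hy, zero_mul]
    rw [h1, hz, div_zero, sub_zero]
    exact mul_nonneg hK (Finset.sum_nonneg fun y _ => Jl_nonneg hc.nonneg _ _ _)
  · have hs : ∀ y, ∑ v, Pt b0 (d • ev b0) y v = d := by
      intro y
      rw [Pt_sum]
      simp [ev_apply']
    have hs' : ∀ (y : V → ℤ) (p : V), ∑ v, (Pt b0 (d • ev b0) y - ev b0 + ev p) v = d := by
      intro y p
      simp only [Pi.add_apply, Pi.sub_apply, Finset.sum_add_distrib, Finset.sum_sub_distrib, hs y,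
        sum_ev]
      ring
    obtain ⟨cn, h0, hAF, hpos, hlim⟩ := hc.ex
    have hL : Filter.Tendsto (fun n =>
        ∑ y ∈ bx m b0 lo, cn n (Pt b0 (d • ev b0) y) * h (Pt b0 (d • ev b0) y) ^ 2
        - (∑ y ∈ bx m b0 lo, cn n (Pt b0 (d • ev b0) y) * h (Pt b0 (d • ev b0) y)) ^ 2
          / ∑ y ∈ bx m b0 lo, cn n (Pt b0 (d • ev b0) y)) Filter.atTop
        (nhds (∑ y ∈ bx m b0 lo, c (Pt b0 (d • ev b0) y) * h (Pt b0 (d • ev b0) y) ^ 2
        - (∑ y ∈ bx m b0 lo, c (Pt b0 (d • ev b0) y) * h (Pt b0 (d • ev b0) y)) ^ 2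
          / ∑ y ∈ bx m b0 lo, c (Pt b0 (d • ev b0) y))) := by
      refine Filter.Tendsto.sub ?_ (Filter.Tendsto.div (Filter.Tendsto.pow ?_ 2) ?_ hz)
      · exact tendsto_finsetSum _ fun y _ => (hlim _ (hs y)).mul tendsto_const_nhds
      · exact tendsto_finsetSum _ fun y _ => (hlim _ (hs y)).mul tendsto_const_nhds
      · exact tendsto_finsetSum _ fun y _ => hlim _ (hs y)
    have hR : Filter.Tendsto (fun n => ((m : ℝ) + 1) ^ 2 * Kst V m * Fintype.card V
        * ∑ y ∈ bx m b0 lo, Jl (cn n) h b0 (d • ev b0) y) Filter.atTop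
        (nhds (((m : ℝ) + 1) ^ 2 * Kst V m * Fintype.card V
        * ∑ y ∈ bx m b0 lo, Jl c h b0 (d • ev b0) y)) := by
      refine Filter.Tendsto.mul tendsto_const_nhds ?_
      refine tendsto_finsetSum _ fun y _ => ?_
      unfold Jl Fk
      refine tendsto_finsetSum _ fun p _ => tendsto_finsetSum _ fun q _ => ?_
      exact ((hlim _ (hs' y p)).min (hlim _ (hs' y q))).mul tendsto_const_nhds
    exact le_of_tendsto_of_tendsto' hL hR fun n =>
      link_pos (h0 n) (hAF n) (hpos n) h b0 lo m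

/-- total constant of LINK -/
noncomputable def KL (V : Type*) [Fintype V] (m : ℕ) : ℝ :=
  ((m : ℝ) + 1) ^ 2 * Kst V m * Fintype.card V

theorem KL_nonneg (V : Type*) [Fintype V] (m : ℕ) : 0 ≤ KL V m := by
  have := Kst_nonneg V m
  unfold KL; positivity

theorem sum_box_eq {G : (V → ℤ) → ℝ} {Λ : Finset (V → ℤ)} {m : ℕ} {b0 : V} {lo : V → ℤ} {d : ℤ}
    (hG1 : ∀ γ, G γ ≠ 0 → γ ∈ Λ) (hG2 : ∀ γ, G γ ≠ 0 → ∑ v, γ v = d)
    (hG3 : ∀ γ, G γ ≠ 0 → ∀ k, lo k ≤ γ k ∧ γ k ≤ lo k + m) :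
    ∑ y ∈ bx m b0 lo, G (Pt b0 (d • ev b0) y) = ∑ γ ∈ Λ, G γ := by
  have h1 : ∑ y ∈ bx m b0 lo, G (Pt b0 (d • ev b0) y)
      = ∑ γ ∈ (bx m b0 lo).image (Pt b0 (d • ev b0)), G γ := by
    rw [Finset.sum_image]
    intro y hy y' hy' h
    exact Pt_inj hy hy' h
  rw [h1]
  have h2 : ∀ γ, G γ ≠ 0 → γ ∈ (bx m b0 lo).image (Pt b0 (d • ev b0)) := by
    intro γ hγ
    rw [mem_image]
    refine ⟨fun k => if k = b0 then lo b0 else γ k, ?_, ?_⟩
    · rw [mem_bx]
      refine ⟨by simp, fun k hk => ?_⟩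
      simp only [if_neg hk]
      exact hG3 γ hγ k
    · funext k
      have hdk : (d • ev b0 : V → ℤ) k = if k = b0 then d else 0 := by
        simp [ev_apply']
      by_cases hk : k = b0
      · subst hk
        rw [Pt_apply_b0, hdk, if_pos rfl]
        have h3 := hG2 γ hγ
        rw [← Finset.add_sum_erase _ _ (mem_univ k)] at h3 ⊢
        have h4 : ∑ x ∈ univ.erase k, (if x = k then lo k else γ x) = ∑ x ∈ univ.erase k, γ x :=
          Finset.sum_congr rfl fun x hx => by rw [if_neg (ne_of_mem_erase hx)]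
        rw [h4]
        simp only [if_true]
        linarith
      · rw [Pt_apply_ne _ _ _ hk, hdk, if_neg hk, if_neg hk, zero_add]
  calc ∑ γ ∈ (bx m b0 lo).image (Pt b0 (d • ev b0)), G γ
      = ∑ γ ∈ (bx m b0 lo).image (Pt b0 (d • ev b0)) ∪ Λ, G γ := by
        refine Finset.sum_subset subset_union_left fun γ _ hγ => ?_
        by_contra h
        exact hγ (h2 γ h)
    _ = ∑ γ ∈ Λ, G γ := by
        refine (Finset.sum_subset subset_union_right fun γ _ hγ => ?_).symm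
        by_contra h
        exact hγ (hG1 γ h)

theorem Jl_sum_le {c h : (V → ℤ) → ℝ} (hc : ∀ γ, 0 ≤ c γ) {Λ : Finset (V → ℤ)}
    (hΛ : ∀ γ, c γ ≠ 0 → γ ∈ Λ) (b0 : V) (lo β : V → ℤ) (m : ℕ) :
    ∑ y ∈ bx m b0 lo, Jl c h b0 β y ≤ ∑ p, ∑ q, Dm Λ c (ev q - ev p) 1 h := by
  unfold Jl
  rw [Finset.sum_comm]
  refine Finset.sum_le_sum fun p _ => ?_
  rw [Finset.sum_comm]
  refine Finset.sum_le_sum fun q _ => ?_
  unfold Dm
  simp only [one_smul]
  set T : (V → ℤ) → ℝ := fun γ => min (c γ) (c (γ + (ev q - ev p)))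
    * (h (γ + (ev q - ev p)) - h γ) ^ 2 with hT
  have hT0 : ∀ γ, 0 ≤ T γ := fun γ => mul_nonneg (le_min (hc _) (hc _)) (sq_nonneg _)
  have h1 : ∀ y, min (Fk c b0 β y p) (Fk c b0 β y q)
      * (h (Pt b0 β y - ev b0 + ev p) - h (Pt b0 β y - ev b0 + ev q)) ^ 2
      = T (Pt b0 β y - ev b0 + ev p) := by
    intro y
    simp only [hT, Fk]
    rw [show Pt b0 β y - ev b0 + ev p + (ev q - ev p) = Pt b0 β y - ev b0 + ev q by abel]
    ring
  rw [Finset.sum_congr rfl fun y _ => h1 y]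
  have h2 : ∑ y ∈ bx m b0 lo, T (Pt b0 β y - ev b0 + ev p)
      = ∑ γ ∈ (bx m b0 lo).image (fun y => Pt b0 β y - ev b0 + ev p), T γ := by
    rw [Finset.sum_image]
    intro y hy y' hy' hh
    refine Pt_inj hy hy' (β := β) ?_
    have := hh
    simp only at this
    exact sub_left_injective (add_left_injective _ this)
  rw [h2]
  set F := Λ.filter (fun x => x + (ev q - ev p) ∈ Λ) with hF
  have h3 : ∀ γ, T γ ≠ 0 → γ ∈ F := by
    intro γ hγ
    rw [hF, mem_filter]
    have hmin : min (c γ) (c (γ + (ev q - ev p))) ≠ 0 := by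
      intro h0; exact hγ (by simp only [hT, h0, zero_mul])
    constructor
    · refine hΛ _ fun h0 => hmin ?_
      rw [h0]; exact min_eq_left (hc _)
    · refine hΛ _ fun h0 => hmin ?_
      rw [h0]; exact min_eq_right (hc _)
  calc ∑ γ ∈ (bx m b0 lo).image (fun y => Pt b0 β y - ev b0 + ev p), T γ
      ≤ ∑ γ ∈ (bx m b0 lo).image (fun y => Pt b0 β y - ev b0 + ev p) ∪ F, T γ :=
        Finset.sum_le_sum_of_subset_of_nonneg subset_union_left fun γ _ _ => hT0 γ
    _ = ∑ γ ∈ F, T γ := by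
        refine (Finset.sum_subset subset_union_right fun γ _ hγ => ?_).symm
        by_contra h
        exact hγ (h3 γ h)

omit [Fintype V] in
theorem vr_eq {Λ : Finset (V → ℤ)} {c : (V → ℤ) → ℝ} (hc : ∀ γ, 0 ≤ c γ) (h : (V → ℤ) → ℝ) :
    vr Λ c h = ∑ γ ∈ Λ, c γ * h γ ^ 2 - (∑ γ ∈ Λ, c γ * h γ) ^ 2 / ∑ γ ∈ Λ, c γ := by
  by_cases hz : ∑ γ ∈ Λ, c γ = 0
  · have h0 : ∀ y ∈ Λ, c y = 0 := (Finset.sum_eq_zero_iff_of_nonneg fun y _ => hc _).1 hz
    rw [hz, div_zero, sub_zero]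
    unfold vr S
    rw [Finset.sum_eq_zero fun y hy => by rw [h0 y hy, zero_mul],
      Finset.sum_eq_zero fun y hy => by rw [h0 y hy, zero_mul]]
  · unfold vr mn S
    set Z := ∑ γ ∈ Λ, c γ with hZ
    set μ := (∑ γ ∈ Λ, c γ * h γ) / Z with hμ
    have hmu : ∑ γ ∈ Λ, c γ * h γ = Z * μ := by rw [hμ, mul_div_cancel₀ _ hz]
    have e : ∀ γ ∈ Λ, c γ * (h γ - μ) ^ 2
        = c γ * h γ ^ 2 - 2 * μ * (c γ * h γ) + μ ^ 2 * c γ := fun γ _ => by ring
    rw [Finset.sum_congr rfl e, Finset.sum_add_distrib, Finset.sum_sub_distrib, ← Finset.mul_sum,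
      ← Finset.mul_sum, ← hZ, hmu]
    field_simp
    ring

/-- **LINK**: Poincaré inequality for the unit exchange walk of a finitely supported Lorentzian
weight. -/
theorem link_fin {c : (V → ℤ) → ℝ} {d : ℤ} (hc : LA d c) {Λ : Finset (V → ℤ)}
    (hΛ : ∀ γ, c γ ≠ 0 → γ ∈ Λ) {lo : V → ℤ} {m : ℕ}
    (hbox : ∀ γ, c γ ≠ 0 → ∀ k, lo k ≤ γ k ∧ γ k ≤ lo k + m) (h : (V → ℤ) → ℝ) :
    vr Λ c h ≤ KL V m * ∑ p, ∑ q, Dm Λ c (ev q - ev p) 1 h := by
  rcases isEmpty_or_nonempty V with hV | ⟨⟨b0⟩⟩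
  · -- one point
    have hle : vr Λ c h = 0 := by
      rw [vr_eq hc.nonneg]
      have : ∀ γ : V → ℤ, γ = 0 := fun γ => Subsingleton.elim _ _
      have e2 : ∑ γ ∈ Λ, c γ * h γ ^ 2 = h 0 ^ 2 * ∑ γ ∈ Λ, c γ := by
        rw [Finset.mul_sum]
        exact Finset.sum_congr rfl fun γ _ => by rw [this γ]; ring
      have e1 : ∑ γ ∈ Λ, c γ * h γ = h 0 * ∑ γ ∈ Λ, c γ := by
        rw [Finset.mul_sum]
        exact Finset.sum_congr rfl fun γ _ => by rw [this γ]; ring
      rw [e1, e2]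
      by_cases hz : ∑ γ ∈ Λ, c γ = 0
      · rw [hz]; simp
      · field_simp
        ring
    rw [hle]
    simp
  · have h1 := link_box hc h b0 lo m
    rw [sum_box_eq (G := fun γ => c γ * h γ ^ 2) (Λ := Λ)
        (fun γ hγ => hΛ γ (left_ne_zero_of_mul hγ)) (fun γ hγ => hc.deg γ (left_ne_zero_of_mul hγ))
        (fun γ hγ => hbox γ (left_ne_zero_of_mul hγ)),
      sum_box_eq (G := fun γ => c γ * h γ) (Λ := Λ)
        (fun γ hγ => hΛ γ (left_ne_zero_of_mul hγ)) (fun γ hγ => hc.deg γ (left_ne_zero_of_mul hγ))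
        (fun γ hγ => hbox γ (left_ne_zero_of_mul hγ)),
      sum_box_eq (G := c) (Λ := Λ) hΛ hc.deg hbox, ← vr_eq hc.nonneg] at h1
    refine h1.trans ?_
    exact mul_le_mul_of_nonneg_left (Jl_sum_le hc.nonneg hΛ b0 lo _ m) (KL_nonneg V m)

/-! ### windows -/

/-- log-concave approximation of the indicator of `|t - s| ≤ K` -/
noncomputable def wn (K : ℕ) (s : ℤ) (n : ℕ) (t : ℤ) : ℝ := (1 / 2) ^ (n * ((t - s).natAbs - K))

omit [Fintype V] [DecidableEq V] in
theorem wn_pos (K : ℕ) (s : ℤ) (n : ℕ) (t : ℤ) : 0 < wn K s n t := by unfold wn; positivity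

theorem wn_lc (K : ℕ) (s : ℤ) (n : ℕ) (t : ℤ) :
    wn K s n t * wn K s n (t + 2) ≤ wn K s n (t + 1) ^ 2 := by
  unfold wn
  rw [← pow_add, ← pow_mul]
  apply pow_le_pow_of_le_one (by norm_num) (by norm_num)
  rw [← mul_add, mul_assoc]
  exact Nat.mul_le_mul_left _ (by omega)

theorem wn_lim (K : ℕ) (s t : ℤ) : Filter.Tendsto (fun n => wn K s n t) Filter.atTop
    (nhds (if |t - s| ≤ (K : ℤ) then 1 else 0)) := by
  by_cases h : |t - s| ≤ (K : ℤ)
  · rw [if_pos h]
    have h0 : (t - s).natAbs - K = 0 := by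
      rw [Int.abs_eq_natAbs] at h
      omega
    unfold wn
    simp [h0]
  · rw [if_neg h]
    have h0 : 0 < (t - s).natAbs - K := by
      rw [Int.abs_eq_natAbs] at h
      omega
    unfold wn
    have h1 : Filter.Tendsto (fun n : ℕ => ((1 / 2 : ℝ) ^ ((t - s).natAbs - K)) ^ n) Filter.atTop
        (nhds 0) := by
      apply tendsto_pow_atTop_nhds_zero_of_lt_one (by positivity)
      exact pow_lt_one₀ (by norm_num) (by norm_num) h0.ne'
    refine h1.congr fun n => ?_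
    rw [← pow_mul, mul_comm]

/-- the window around `s` of half-side `K` -/
def Near (K : ℕ) (s β : V → ℤ) : Prop := ∀ k, |β k - s k| ≤ (K : ℤ)

open Classical in
/-- restriction to a window -/
noncomputable def cut (K : ℕ) (s : V → ℤ) (c : (V → ℤ) → ℝ) (β : V → ℤ) : ℝ :=
  if Near K s β then c β else 0

theorem cut_le {c : (V → ℤ) → ℝ} (hc : ∀ β, 0 ≤ c β) (K : ℕ) (s β : V → ℤ) :
    cut K s c β ≤ c β := by
  unfold cut; split_ifs
  · exact le_rfl
  · exact hc β

theorem cut_nonneg {c : (V → ℤ) → ℝ} (hc : ∀ β, 0 ≤ c β) (K : ℕ) (s β : V → ℤ) :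
    0 ≤ cut K s c β := by
  unfold cut; split_ifs
  · exact hc β
  · exact le_rfl

theorem LA.cut {c : (V → ℤ) → ℝ} {d : ℤ} (hc : LA d c) (K : ℕ) (s : V → ℤ) :
    LA d (cut K s c) := by
  classical
  refine ⟨cut_nonneg hc.nonneg K s, fun β hβ => hc.deg β fun h0 => hβ ?_, ?_⟩
  · unfold Link.cut; rw [h0]; simp
  · obtain ⟨cn, h0, hAF, hpos, hlim⟩ := hc.ex
    have hw : ∀ n (β : V → ℤ), 0 < ∏ v, wn K (s v) n (β v) := fun n β =>
      Finset.prod_pos fun v _ => wn_pos _ _ _ _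
    refine ⟨fun n β => cn n β * ∏ v, wn K (s v) n (β v), fun n β => mul_nonneg (h0 n β) (hw n β).le,
      fun n β => ?_, fun n β hβ => mul_pos (hpos n β hβ) (hw n β), fun β hβ => ?_⟩
    · exact AnnBox.af_mul_sep (h0 n) (hAF n) (ω := fun v => wn K (s v) n)
        (fun v k => wn_pos _ _ _ _) (fun v k => wn_lc _ _ _ _) β
    · have h1 := (hlim β hβ).mul (tendsto_finsetProd (univ : Finset V) fun v _ =>
        wn_lim K (s v) (β v))
      have h2 : c β * ∏ v, (if |β v - s v| ≤ (K : ℤ) then (1 : ℝ) else 0) = Link.cut K s c β := by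
        unfold Link.cut Near
        by_cases hn : ∀ k, |β k - s k| ≤ (K : ℤ)
        · rw [if_pos hn, Finset.prod_congr rfl fun v _ => if_pos (hn v)]
          simp
        · rw [if_neg hn]
          push Not at hn
          obtain ⟨k, hk⟩ := hn
          rw [Finset.prod_eq_zero (mem_univ k) (if_neg (not_le.2 hk)), mul_zero]
      rw [h2] at h1
      exact h1

omit [Fintype V] [DecidableEq V] in
/-- restriction of the weight costs only the removed mass -/
theorem vr_restrict {Y : Type*} {Λ : Finset Y} {c c' : Y → ℝ} (h0 : ∀ y ∈ Λ, 0 ≤ c' y)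
    (hle : ∀ y ∈ Λ, c' y ≤ c y) {f : Y → ℝ} {M : ℝ} (hf : ∀ y, |f y| ≤ M) (hM : 0 ≤ M) :
    vr Λ c f ≤ vr Λ c' f + 4 * M ^ 2 * ∑ y ∈ Λ, (c y - c' y) := by
  set t := mn Λ c' f with ht
  have htM : |t| ≤ M := by
    rw [ht]
    unfold mn S
    by_cases hz : ∑ y ∈ Λ, c' y = 0
    · rw [hz, div_zero, abs_zero]; exact hM
    · have hZ : 0 < ∑ y ∈ Λ, c' y := lt_of_le_of_ne (Finset.sum_nonneg h0) (Ne.symm hz)
      rw [abs_div, abs_of_pos hZ, div_le_iff₀ hZ, Finset.mul_sum]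
      refine (Finset.abs_sum_le_sum_abs _ _).trans (Finset.sum_le_sum fun y hy => ?_)
      rw [abs_mul, abs_of_nonneg (h0 y hy), mul_comm]
      exact mul_le_mul_of_nonneg_right (hf _) (h0 y hy)
  have h1 : vr Λ c f ≤ ∑ y ∈ Λ, c y * (f y - t) ^ 2 := by
    by_cases hz : ∑ y ∈ Λ, c y = 0
    · have hc0 : ∀ y ∈ Λ, c y = 0 := (Finset.sum_eq_zero_iff_of_nonneg
        fun y hy => (h0 y hy).trans (hle y hy)).1 hz
      unfold vr S
      rw [Finset.sum_eq_zero fun y hy => by rw [hc0 y hy, zero_mul],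
        Finset.sum_eq_zero fun y hy => by rw [hc0 y hy, zero_mul]]
    · exact vr_le hz (fun y hy => (h0 y hy).trans (hle y hy)) f t
  have h2 : ∑ y ∈ Λ, c y * (f y - t) ^ 2
      = vr Λ c' f + ∑ y ∈ Λ, (c y - c' y) * (f y - t) ^ 2 := by
    unfold vr S
    rw [← ht, ← Finset.sum_add_distrib]
    exact Finset.sum_congr rfl fun y _ => by ring
  have h3 : ∑ y ∈ Λ, (c y - c' y) * (f y - t) ^ 2 ≤ 4 * M ^ 2 * ∑ y ∈ Λ, (c y - c' y) := by
    rw [Finset.mul_sum]
    refine Finset.sum_le_sum fun y hy => ?_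
    have h4 : (f y - t) ^ 2 ≤ 4 * M ^ 2 := by
      have h5 := hf y
      have h6 : |f y - t| ≤ 2 * M := (abs_sub _ _).trans (by linarith)
      have h7 := abs_nonneg (f y - t)
      nlinarith [sq_abs (f y - t)]
    have h5 : 0 ≤ c y - c' y := sub_nonneg.2 (hle y hy)
    nlinarith
  linarith

omit [Fintype V] [DecidableEq V] in
theorem Dm_mono {G : Type*} [AddCommGroup G] [DecidableEq G] {Λ : Finset G} {c c' : G → ℝ}
    (hle : ∀ y, c' y ≤ c y) (e : G) (s : ℕ) (f : G → ℝ) : Dm Λ c' e s f ≤ Dm Λ c e s f := by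
  unfold Dm
  exact Finset.sum_le_sum fun y _ =>
    mul_le_mul_of_nonneg_right (min_le_min (hle _) (hle _)) (sq_nonneg _)

/-- LINK for the weight restricted to a window -/
theorem link_cut {c : (V → ℤ) → ℝ} {d : ℤ} (hc : LA d c) {Λ : Finset (V → ℤ)}
    (hΛ : ∀ γ, c γ ≠ 0 → γ ∈ Λ) (K : ℕ) (s : V → ℤ) (h : (V → ℤ) → ℝ) :
    vr Λ (cut K s c) h ≤ KL V (2 * K) * ∑ p, ∑ q, Dm Λ (cut K s c) (ev q - ev p) 1 h := by
  have h0 : ∀ γ, cut K s c γ ≠ 0 → Near K s γ ∧ c γ ≠ 0 := by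
    intro γ hγ
    unfold cut at hγ
    by_cases hn : Near K s γ
    · rw [if_pos hn] at hγ; exact ⟨hn, hγ⟩
    · rw [if_neg hn] at hγ; exact absurd rfl hγ
  refine link_fin (hc.cut K s) (lo := fun k => s k - K) (m := 2 * K)
    (fun γ hγ => hΛ γ (h0 γ hγ).2) (fun γ hγ k => ?_) h
  have h1 := abs_le.1 ((h0 γ hγ).1 k)
  push_cast
  constructor <;> linarith [h1.1, h1.2]

open Classical in
/-- **LINK, windowed**: the constant depends only on the window -/
theorem link_win {c : (V → ℤ) → ℝ} {d : ℤ} (hc : LA d c) {Λ : Finset (V → ℤ)}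
    (hΛ : ∀ γ, c γ ≠ 0 → γ ∈ Λ) (K : ℕ) (s : V → ℤ) {h : (V → ℤ) → ℝ} {M : ℝ}
    (hM : 0 ≤ M) (hh : ∀ γ, |h γ| ≤ M) :
    vr Λ c h ≤ KL V (2 * K) * ∑ p, ∑ q, Dm Λ c (ev q - ev p) 1 h
      + 4 * M ^ 2 * ∑ γ ∈ Λ.filter (fun γ => ¬ Near K s γ), c γ := by
  have h1 := vr_restrict (Λ := Λ) (fun y _ => cut_nonneg hc.nonneg K s y)
    (fun y _ => cut_le hc.nonneg K s y) hh hM
  have h2 := link_cut hc hΛ K s h
  have h3 : ∑ p : V, ∑ q : V, Dm Λ (cut K s c) (ev q - ev p) 1 h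
      ≤ ∑ p, ∑ q, Dm Λ c (ev q - ev p) 1 h :=
    Finset.sum_le_sum fun p _ => Finset.sum_le_sum fun q _ =>
      Dm_mono (cut_le hc.nonneg K s) _ _ _
  have h4 : ∑ y ∈ Λ, (c y - cut K s c y) = ∑ γ ∈ Λ.filter (fun γ => ¬ Near K s γ), c γ := by
    rw [Finset.sum_filter]
    refine Finset.sum_congr rfl fun y _ => ?_
    unfold cut
    by_cases hn : Near K s y
    · rw [if_pos hn, if_neg (not_not.2 hn), sub_self]
    · rw [if_neg hn, if_pos hn, sub_zero]
  rw [h4] at h1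
  have h5 := mul_le_mul_of_nonneg_left h3 (KL_nonneg V (2 * K))
  linarith

end Crest.Agent.R302.Link
end

-- ▼ part R302/Joint342

/-!
R302 (helper342): JOINT.  From a Poincaré inequality with defect for the marginal `W` of the soft
weight on the `x`-space (MSP + MACRO) and the link inequalities (LINK) to a Poincaré inequality with
defect for the joint weight `ν (x, β₁, β₂) = a₁ x β₁ * a₂ x β₂`, for moves `x → x + s c`
(`β` fixed) and link moves `β_i → β_i + 1_q - 1_p` (`x` fixed).  Everything is unnormalised.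
-/

set_option autoImplicit false
set_option linter.unusedSectionVars false

namespace Crest.Agent.R302.Joint

open Finset Macro

section fibre

variable {X Y : Type*}

theorem vr_nonneg {Λ : Finset Y} {c : Y → ℝ} (hc : ∀ y ∈ Λ, 0 ≤ c y) (h : Y → ℝ) :
    0 ≤ vr Λ c h := by
  unfold vr S
  exact Finset.sum_nonneg fun y hy => mul_nonneg (hc y hy) (sq_nonneg _)

theorem sum_eq_zero_of {Λ : Finset Y} {c : Y → ℝ} (hc : ∀ y ∈ Λ, 0 ≤ c y)
    (hz : ∑ y ∈ Λ, c y = 0) (g : Y → ℝ) : ∑ y ∈ Λ, c y * g y = 0 := by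
  have h0 := (Finset.sum_eq_zero_iff_of_nonneg hc).1 hz
  exact Finset.sum_eq_zero fun y hy => by rw [h0 y hy, zero_mul]

theorem vr_eq {Λ : Finset Y} {c : Y → ℝ} (hc : ∀ y ∈ Λ, 0 ≤ c y) (h : Y → ℝ) :
    vr Λ c h = ∑ y ∈ Λ, c y * h y ^ 2 - (∑ y ∈ Λ, c y * h y) ^ 2 / ∑ y ∈ Λ, c y := by
  by_cases hz : ∑ y ∈ Λ, c y = 0
  · rw [hz, div_zero, sub_zero, sum_eq_zero_of hc hz]
    unfold vr S
    exact sum_eq_zero_of hc hz _
  · unfold vr mn S
    set Z := ∑ y ∈ Λ, c y with hZ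
    set μ := (∑ y ∈ Λ, c y * h y) / Z with hμ
    have hmu : ∑ y ∈ Λ, c y * h y = Z * μ := by rw [hμ, mul_div_cancel₀ _ hz]
    have e : ∀ y ∈ Λ, c y * (h y - μ) ^ 2
        = c y * h y ^ 2 - 2 * μ * (c y * h y) + μ ^ 2 * c y := fun y _ => by ring
    rw [Finset.sum_congr rfl e, Finset.sum_add_distrib, Finset.sum_sub_distrib, ← Finset.mul_sum,
      ← Finset.mul_sum, ← hZ, hmu]
    field_simp
    ring

/-- the mean minimises -/
theorem vr_le' {Λ : Finset Y} {c : Y → ℝ} (hc : ∀ y ∈ Λ, 0 ≤ c y) (h : Y → ℝ) (t : ℝ) :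
    vr Λ c h ≤ ∑ y ∈ Λ, c y * (h y - t) ^ 2 := by
  by_cases hz : ∑ y ∈ Λ, c y = 0
  · rw [vr_eq hc, hz, div_zero, sub_zero, sum_eq_zero_of hc hz, sum_eq_zero_of hc hz]
  · exact vr_le hz hc h t

theorem vr_smul {Λ : Finset Y} {c : Y → ℝ} (hc : ∀ y ∈ Λ, 0 ≤ c y) {k : ℝ} (hk : 0 ≤ k)
    (h : Y → ℝ) : vr Λ (fun y => k * c y) h = k * vr Λ c h := by
  rw [vr_eq (fun y hy => mul_nonneg hk (hc y hy)), vr_eq hc]
  have e2 : ∑ y ∈ Λ, k * c y * h y ^ 2 = k * ∑ y ∈ Λ, c y * h y ^ 2 := by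
    rw [Finset.mul_sum]; exact Finset.sum_congr rfl fun _ _ => by ring
  have e1 : ∑ y ∈ Λ, k * c y * h y = k * ∑ y ∈ Λ, c y * h y := by
    rw [Finset.mul_sum]; exact Finset.sum_congr rfl fun _ _ => by ring
  rw [e1, e2, ← Finset.mul_sum]
  rcases hk.eq_or_lt with rfl | hk
  · simp
  · rw [mul_pow, mul_sub]
    congr 1
    by_cases hz : ∑ y ∈ Λ, c y = 0
    · rw [hz]; simp
    · field_simp

/-- marginal of `ν` -/
noncomputable def mar (Λ : Finset Y) (ν : X × Y → ℝ) (x : X) : ℝ := ∑ y ∈ Λ, ν (x, y)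

/-- conditional mean -/
noncomputable def cm (Λ : Finset Y) (ν f : X × Y → ℝ) (x : X) : ℝ :=
  mn Λ (fun y => ν (x, y)) (fun y => f (x, y))

/-- conditional variance -/
noncomputable def cv (Λ : Finset Y) (ν f : X × Y → ℝ) (x : X) : ℝ :=
  vr Λ (fun y => ν (x, y)) (fun y => f (x, y))

theorem mar_cm {Λ : Finset Y} {ν : X × Y → ℝ} {x : X} (hν : ∀ y ∈ Λ, 0 ≤ ν (x, y)) (f : X × Y → ℝ) :
    mar Λ ν x * cm Λ ν f x = ∑ y ∈ Λ, ν (x, y) * f (x, y) := by
  unfold mar cm mn S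
  by_cases hz : ∑ y ∈ Λ, ν (x, y) = 0
  · rw [hz, zero_mul, sum_eq_zero_of hν hz]
  · rw [mul_div_cancel₀ _ hz]

/-- **fibre decomposition of the variance** -/
theorem vr_fibre {B : Finset X} {Λ : Finset Y} {ν : X × Y → ℝ}
    (hν : ∀ x ∈ B, ∀ y ∈ Λ, 0 ≤ ν (x, y)) (f : X × Y → ℝ) :
    vr (B ×ˢ Λ) ν f = vr B (mar Λ ν) (cm Λ ν f) + ∑ x ∈ B, cv Λ ν f x := by
  rw [vr_eq (c := ν) (fun p hp => hν p.1 (mem_product.1 hp).1 p.2 (mem_product.1 hp).2),
    vr_eq (c := mar Λ ν) (fun x hx => Finset.sum_nonneg (hν x hx))]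
  rw [Finset.sum_product, Finset.sum_product, Finset.sum_product]
  have e1 : ∑ x ∈ B, mar Λ ν x * cm Λ ν f x = ∑ x ∈ B, ∑ y ∈ Λ, ν (x, y) * f (x, y) :=
    Finset.sum_congr rfl fun x hx => mar_cm (hν x hx) f
  have e2 : ∀ x ∈ B, cv Λ ν f x
      = ∑ y ∈ Λ, ν (x, y) * f (x, y) ^ 2 - mar Λ ν x * cm Λ ν f x ^ 2 := by
    intro x hx
    unfold cv
    rw [vr_eq (hν x hx)]
    congr 1
    unfold mar cm mn S
    by_cases hz : ∑ y ∈ Λ, ν (x, y) = 0
    · rw [hz]; simp
    · field_simp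
  rw [Finset.sum_congr rfl e2, Finset.sum_sub_distrib, e1]
  unfold mar
  ring

/-- overlap: two fibres -/
theorem two_fibres {Λ : Finset Y} {a b : Y → ℝ} (ha : ∀ y ∈ Λ, 0 ≤ a y) (hb : ∀ y ∈ Λ, 0 ≤ b y)
    {δ : ℝ} (hδ1 : δ ≤ 1) (hδ0 : 0 ≤ δ) (hab : ∀ y ∈ Λ, δ * a y ≤ b y) (f g : Y → ℝ) :
    δ * (min (∑ y ∈ Λ, a y) (∑ y ∈ Λ, b y) * (mn Λ b g - mn Λ a f) ^ 2)
      ≤ 3 * (vr Λ a f + vr Λ b g + ∑ y ∈ Λ, min (a y) (b y) * (g y - f y) ^ 2) := by
  have h1 : δ * min (∑ y ∈ Λ, a y) (∑ y ∈ Λ, b y) ≤ ∑ y ∈ Λ, min (a y) (b y) := by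
    calc δ * min (∑ y ∈ Λ, a y) (∑ y ∈ Λ, b y) ≤ δ * ∑ y ∈ Λ, a y :=
          mul_le_mul_of_nonneg_left (min_le_left _ _) hδ0
      _ = ∑ y ∈ Λ, δ * a y := Finset.mul_sum _ _ _
      _ ≤ _ := Finset.sum_le_sum fun y hy => le_min (by nlinarith [ha y hy]) (hab y hy)
  have h2 : (∑ y ∈ Λ, min (a y) (b y)) * (mn Λ b g - mn Λ a f) ^ 2
      ≤ 3 * (vr Λ a f + vr Λ b g + ∑ y ∈ Λ, min (a y) (b y) * (g y - f y) ^ 2) := by
    rw [Finset.sum_mul]
    unfold vr S
    rw [← Finset.sum_add_distrib, ← Finset.sum_add_distrib, Finset.mul_sum]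
    refine Finset.sum_le_sum fun y hy => ?_
    set u := f y - mn Λ a f
    set v := g y - mn Λ b g
    set w := g y - f y
    have e : mn Λ b g - mn Λ a f = u + w - v := by simp only [u, v, w]; ring
    have e3 : (u + w - v) ^ 2 ≤ 3 * (u ^ 2 + v ^ 2 + w ^ 2) := by
      nlinarith [sq_nonneg (u - w), sq_nonneg (u + v), sq_nonneg (w + v)]
    have hm0 : 0 ≤ min (a y) (b y) := le_min (ha y hy) (hb y hy)
    have hma := min_le_left (a y) (b y)
    have hmb := min_le_right (a y) (b y)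
    rw [e]
    have h3 := mul_le_mul_of_nonneg_left e3 hm0
    have h4 := mul_le_mul_of_nonneg_right hma (sq_nonneg u)
    have h5 := mul_le_mul_of_nonneg_right hmb (sq_nonneg v)
    nlinarith
  calc δ * (min (∑ y ∈ Λ, a y) (∑ y ∈ Λ, b y) * (mn Λ b g - mn Λ a f) ^ 2)
      = (δ * min (∑ y ∈ Λ, a y) (∑ y ∈ Λ, b y)) * (mn Λ b g - mn Λ a f) ^ 2 := by ring
    _ ≤ (∑ y ∈ Λ, min (a y) (b y)) * (mn Λ b g - mn Λ a f) ^ 2 :=
        mul_le_mul_of_nonneg_right h1 (sq_nonneg _)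
    _ ≤ _ := h2

/-- convexity of the variance -/
theorem vr_convex {Λ₁ : Finset X} {Λ₂ : Finset Y} {a : X → ℝ} {b : Y → ℝ}
    (ha : ∀ x ∈ Λ₁, 0 ≤ a x) (hb : ∀ y ∈ Λ₂, 0 ≤ b y) (f : X → Y → ℝ) :
    (∑ y ∈ Λ₂, b y) * vr Λ₁ a (fun x => mn Λ₂ b (f x))
      ≤ ∑ y ∈ Λ₂, b y * vr Λ₁ a (fun x => f x y) := by
  by_cases hz : ∑ y ∈ Λ₂, b y = 0
  · rw [hz, zero_mul]
    exact Finset.sum_nonneg fun y hy => mul_nonneg (hb y hy) (vr_nonneg ha _)
  · set Z := ∑ y ∈ Λ₂, b y with hZ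
    have hZ0 : 0 < Z := lt_of_le_of_ne (Finset.sum_nonneg hb) (Ne.symm hz)
    set t : Y → ℝ := fun y => mn Λ₁ a (fun x => f x y) with ht
    have h1 := vr_le' ha (fun x => mn Λ₂ b (f x)) (mn Λ₂ b t)
    have h2 : ∀ x ∈ Λ₁, Z * (mn Λ₂ b (f x) - mn Λ₂ b t) ^ 2
        ≤ ∑ y ∈ Λ₂, b y * (f x y - t y) ^ 2 := by
      intro x _
      have e : mn Λ₂ b (f x) - mn Λ₂ b t = (∑ y ∈ Λ₂, b y * (f x y - t y)) / Z := by
        unfold mn S
        rw [← hZ, ← sub_div, ← Finset.sum_sub_distrib]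
        congr 1
        exact Finset.sum_congr rfl fun y _ => by ring
      have hcs : (∑ y ∈ Λ₂, b y * (f x y - t y)) ^ 2 ≤ Z * ∑ y ∈ Λ₂, b y * (f x y - t y) ^ 2 :=
        Finset.sum_sq_le_sum_mul_sum_of_sq_le_mul Λ₂ hb
          (fun y hy => mul_nonneg (hb y hy) (sq_nonneg _)) (fun y _ => le_of_eq (by ring))
      rw [e, div_pow]
      rw [show Z * ((∑ y ∈ Λ₂, b y * (f x y - t y)) ^ 2 / Z ^ 2)
        = (∑ y ∈ Λ₂, b y * (f x y - t y)) ^ 2 / Z by field_simp]
      rw [div_le_iff₀ hZ0]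
      linarith
    calc Z * vr Λ₁ a (fun x => mn Λ₂ b (f x))
        ≤ Z * ∑ x ∈ Λ₁, a x * (mn Λ₂ b (f x) - mn Λ₂ b t) ^ 2 :=
          mul_le_mul_of_nonneg_left h1 hZ0.le
      _ = ∑ x ∈ Λ₁, a x * (Z * (mn Λ₂ b (f x) - mn Λ₂ b t) ^ 2) := by
          rw [Finset.mul_sum]; exact Finset.sum_congr rfl fun _ _ => by ring
      _ ≤ ∑ x ∈ Λ₁, a x * ∑ y ∈ Λ₂, b y * (f x y - t y) ^ 2 :=
          Finset.sum_le_sum fun x hx => mul_le_mul_of_nonneg_left (h2 x hx) (ha x hx)
      _ = ∑ y ∈ Λ₂, b y * vr Λ₁ a (fun x => f x y) := by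
          unfold vr S
          simp only [Finset.mul_sum]
          rw [Finset.sum_comm]
          exact Finset.sum_congr rfl fun y _ => Finset.sum_congr rfl fun x _ => by
            simp only [ht]; ring

/-- **tensorisation** -/
theorem vr_tensor {Λ₁ : Finset X} {Λ₂ : Finset Y} {a : X → ℝ} {b : Y → ℝ}
    (ha : ∀ x ∈ Λ₁, 0 ≤ a x) (hb : ∀ y ∈ Λ₂, 0 ≤ b y) (f : X × Y → ℝ) :
    vr (Λ₁ ×ˢ Λ₂) (fun p => a p.1 * b p.2) f
      ≤ ∑ y ∈ Λ₂, b y * vr Λ₁ a (fun x => f (x, y))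
        + ∑ x ∈ Λ₁, a x * vr Λ₂ b (fun y => f (x, y)) := by
  rw [vr_fibre (ν := fun p : X × Y => a p.1 * b p.2)
    (fun x hx y hy => mul_nonneg (ha x hx) (hb y hy)) f]
  refine add_le_add ?_ (le_of_eq ?_)
  · have e1 : ∀ x, mar Λ₂ (fun p : X × Y => a p.1 * b p.2) x = (∑ y ∈ Λ₂, b y) * a x := by
      intro x
      unfold mar
      simp only
      rw [← Finset.mul_sum, mul_comm]
    have hmar : mar Λ₂ (fun p : X × Y => a p.1 * b p.2) = fun x => (∑ y ∈ Λ₂, b y) * a x :=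
      funext e1
    have e2 : vr Λ₁ (fun x => (∑ y ∈ Λ₂, b y) * a x) (cm Λ₂ (fun p : X × Y => a p.1 * b p.2) f)
        = (∑ y ∈ Λ₂, b y) * vr Λ₁ a (fun x => mn Λ₂ b (fun y => f (x, y))) := by
      rw [vr_smul ha (Finset.sum_nonneg hb)]
      congr 1
      rw [vr_eq ha, vr_eq ha]
      have e3 : ∀ x ∈ Λ₁, a x * cm Λ₂ (fun p : X × Y => a p.1 * b p.2) f x
          = a x * mn Λ₂ b (fun y => f (x, y)) := by
        intro x _
        by_cases hx : a x = 0
        · rw [hx, zero_mul, zero_mul]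
        · congr 1
          unfold cm mn S
          have h1 : ∑ y ∈ Λ₂, a x * b y * f (x, y) = a x * ∑ y ∈ Λ₂, b y * f (x, y) := by
            rw [Finset.mul_sum]; exact Finset.sum_congr rfl fun _ _ => by ring
          have h2 : ∑ y ∈ Λ₂, a x * b y = a x * ∑ y ∈ Λ₂, b y := by rw [Finset.mul_sum]
          simp only [h1, h2]
          rw [mul_div_mul_left _ _ hx]
      have e4 : ∀ x ∈ Λ₁, a x * cm Λ₂ (fun p : X × Y => a p.1 * b p.2) f x ^ 2
          = a x * mn Λ₂ b (fun y => f (x, y)) ^ 2 := by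
        intro x hx
        by_cases h0 : a x = 0
        · rw [h0, zero_mul, zero_mul]
        · have := mul_left_cancel₀ h0 (e3 x hx)
          rw [this]
      rw [Finset.sum_congr rfl e3, Finset.sum_congr rfl e4]
    rw [hmar, e2]
    exact vr_convex ha hb fun x y => f (x, y)
  · refine Finset.sum_congr rfl fun x hx => ?_
    unfold cv
    exact vr_smul hb (ha x hx) _

end fibre

section moves

variable {X Y : Type*} [AddCommGroup X] [DecidableEq X] [AddCommGroup Y] [DecidableEq Y]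

theorem Dm_fst (B : Finset X) (Λ : Finset Y) (ν f : X × Y → ℝ) (c : X) (s : ℕ) :
    Dm (B ×ˢ Λ) ν (c, 0) s f = ∑ x ∈ B.filter (fun x => x + s • c ∈ B), ∑ y ∈ Λ,
      min (ν (x, y)) (ν (x + s • c, y)) * (f (x + s • c, y) - f (x, y)) ^ 2 := by
  unfold Dm
  have h1 : (B ×ˢ Λ).filter (fun p => p + s • (c, (0 : Y)) ∈ B ×ˢ Λ)
      = (B.filter (fun x => x + s • c ∈ B)) ×ˢ Λ := by
    ext p
    simp only [mem_filter, mem_product, Prod.smul_mk, smul_zero, Prod.fst_add, Prod.snd_add,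
      add_zero]
    tauto
  rw [h1, Finset.sum_product]
  refine Finset.sum_congr rfl fun x _ => Finset.sum_congr rfl fun y _ => ?_
  simp only [Prod.smul_mk, smul_zero, Prod.mk_add_mk, add_zero]

theorem Dm_snd (B : Finset X) (Λ : Finset Y) (ν f : X × Y → ℝ) (c : Y) (s : ℕ) :
    Dm (B ×ˢ Λ) ν (0, c) s f = ∑ x ∈ B, Dm Λ (fun y => ν (x, y)) c s (fun y => f (x, y)) := by
  unfold Dm
  have h1 : (B ×ˢ Λ).filter (fun p => p + s • ((0 : X), c) ∈ B ×ˢ Λ)
      = B ×ˢ (Λ.filter (fun y => y + s • c ∈ Λ)) := by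
    ext p
    simp only [mem_filter, mem_product, Prod.smul_mk, smul_zero, Prod.fst_add, Prod.snd_add,
      add_zero]
    tauto
  rw [h1, Finset.sum_product]
  refine Finset.sum_congr rfl fun x _ => Finset.sum_congr rfl fun y _ => ?_
  simp only [Prod.smul_mk, smul_zero, Prod.mk_add_mk, add_zero]

theorem aDm_one {G : Type*} [AddCommGroup G] [DecidableEq G] (B : Finset G) (w : G → ℝ) (c : G)
    (f : G → ℝ) : aDm B w c 1 f = Dm B w c 1 f := by
  unfold aDm
  simp

variable {B : Finset X} {Λ : Finset Y} {ν : X × Y → ℝ}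

/-- one marginal move -/
theorem Dm_marginal (hν : ∀ x ∈ B, ∀ y ∈ Λ, 0 ≤ ν (x, y)) {c : X} {s : ℕ} {δ : ℝ} (hδ0 : 0 < δ)
    (hδ1 : δ ≤ 1)
    (hcmp : ∀ x ∈ B, x + s • c ∈ B → ∀ y ∈ Λ, δ * ν (x, y) ≤ ν (x + s • c, y)) (f : X × Y → ℝ) :
    Dm B (mar Λ ν) c s (cm Λ ν f)
      ≤ 3 / δ * (Dm (B ×ˢ Λ) ν (c, 0) s f + 2 * ∑ x ∈ B, cv Λ ν f x) := by
  rw [Dm_fst]
  have hcv : ∀ x ∈ B, 0 ≤ cv Λ ν f x := fun x hx => vr_nonneg (hν x hx) _
  have h1 : ∀ x ∈ B.filter (fun x => x + s • c ∈ B),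
      δ * (min (mar Λ ν x) (mar Λ ν (x + s • c)) * (cm Λ ν f (x + s • c) - cm Λ ν f x) ^ 2)
      ≤ 3 * (cv Λ ν f x + cv Λ ν f (x + s • c)
        + ∑ y ∈ Λ, min (ν (x, y)) (ν (x + s • c, y)) * (f (x + s • c, y) - f (x, y)) ^ 2) := by
    intro x hx
    have hx' := mem_filter.1 hx
    exact two_fibres (hν x hx'.1) (hν _ hx'.2) hδ1 hδ0.le (hcmp x hx'.1 hx'.2) _ _
  have h2 : ∑ x ∈ B.filter (fun x => x + s • c ∈ B), cv Λ ν f x ≤ ∑ x ∈ B, cv Λ ν f x :=
    Finset.sum_le_sum_of_subset_of_nonneg (filter_subset _ _) fun x hx _ => hcv x hx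
  have h3 : ∑ x ∈ B.filter (fun x => x + s • c ∈ B), cv Λ ν f (x + s • c)
      ≤ ∑ x ∈ B, cv Λ ν f x := by
    have : ∑ x ∈ B.filter (fun x => x + s • c ∈ B), cv Λ ν f (x + s • c)
        = ∑ x ∈ (B.filter (fun x => x + s • c ∈ B)).image (fun x => x + s • c), cv Λ ν f x := by
      rw [Finset.sum_image]
      intro x _ y _ h
      exact add_left_injective _ h
    rw [this]
    refine Finset.sum_le_sum_of_subset_of_nonneg ?_ fun x hx _ => hcv x hx
    intro x hx
    obtain ⟨y, hy, rfl⟩ := mem_image.1 hx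
    exact (mem_filter.1 hy).2
  have h4 : δ * Dm B (mar Λ ν) c s (cm Λ ν f) ≤ 3 * (2 * ∑ x ∈ B, cv Λ ν f x
      + ∑ x ∈ B.filter (fun x => x + s • c ∈ B), ∑ y ∈ Λ,
        min (ν (x, y)) (ν (x + s • c, y)) * (f (x + s • c, y) - f (x, y)) ^ 2) := by
    unfold Dm
    rw [Finset.mul_sum]
    refine (Finset.sum_le_sum h1).trans ?_
    rw [← Finset.mul_sum, Finset.sum_add_distrib, Finset.sum_add_distrib]
    linarith
  rw [div_mul_eq_mul_div, le_div_iff₀ hδ0]
  linarith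

/-- averages of marginal moves -/
theorem aDm_marginal (hν : ∀ x ∈ B, ∀ y ∈ Λ, 0 ≤ ν (x, y)) {c : X} {l : ℕ} (hl : 1 ≤ l) {δ : ℝ}
    (hδ0 : 0 < δ) (hδ1 : δ ≤ 1)
    (hcmp : ∀ s ≤ l, ∀ x ∈ B, x + s • c ∈ B → ∀ y ∈ Λ, δ * ν (x, y) ≤ ν (x + s • c, y))
    (f : X × Y → ℝ) :
    aDm B (mar Λ ν) c l (cm Λ ν f)
      ≤ 3 / δ * (aDm (B ×ˢ Λ) ν (c, 0) l f + 2 * ∑ x ∈ B, cv Λ ν f x) := by
  have hl0 : (0 : ℝ) < l := by exact_mod_cast hl
  unfold aDm
  rw [div_le_iff₀ hl0]
  have h1 : ∑ s ∈ range l, Dm B (mar Λ ν) c (s + 1) (cm Λ ν f)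
      ≤ ∑ s ∈ range l, 3 / δ * (Dm (B ×ˢ Λ) ν (c, 0) (s + 1) f + 2 * ∑ x ∈ B, cv Λ ν f x) :=
    Finset.sum_le_sum fun s hs => Dm_marginal hν hδ0 hδ1
      (fun x hx hx' y hy => hcmp (s + 1) (by have := mem_range.1 hs; omega) x hx hx' y hy) f
  refine h1.trans (le_of_eq ?_)
  rw [← Finset.mul_sum, Finset.sum_add_distrib, Finset.sum_const, card_range, nsmul_eq_mul]
  field_simp

end moves

section main

open Lor Link

variable {X V₁ V₂ : Type*} [AddCommGroup X] [DecidableEq X] [Fintype V₁] [DecidableEq V₁]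
  [Fintype V₂] [DecidableEq V₂]

/-- joint weight -/
def nu (a₁ : X → (V₁ → ℤ) → ℝ) (a₂ : X → (V₂ → ℤ) → ℝ) (p : X × ((V₁ → ℤ) × (V₂ → ℤ))) : ℝ :=
  a₁ p.1 p.2.1 * a₂ p.1 p.2.2

/-- link hypotheses: one side -/
structure LinkHyp {V : Type*} [Fintype V] [DecidableEq V] (B : Finset X)
    (a : X → (V → ℤ) → ℝ) (Λ : Finset (V → ℤ)) : Prop where
  la : ∀ x ∈ B, ∃ d : ℤ, LA d (a x)
  supp : ∀ x ∈ B, ∀ β, a x β ≠ 0 → β ∈ Λ

/-- energy of the link moves of side 1 -/
noncomputable def E₁ (B : Finset X) (Λ₁ : Finset (V₁ → ℤ)) (Λ₂ : Finset (V₂ → ℤ))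
    (ν f : X × ((V₁ → ℤ) × (V₂ → ℤ)) → ℝ) : ℝ :=
  ∑ p, ∑ q, Dm (B ×ˢ (Λ₁ ×ˢ Λ₂)) ν ((0 : X), (ev q - ev p, (0 : V₂ → ℤ))) 1 f

/-- energy of the link moves of side 2 -/
noncomputable def E₂ (B : Finset X) (Λ₁ : Finset (V₁ → ℤ)) (Λ₂ : Finset (V₂ → ℤ))
    (ν f : X × ((V₁ → ℤ) × (V₂ → ℤ)) → ℝ) : ℝ :=
  ∑ p, ∑ q, Dm (B ×ˢ (Λ₁ ×ˢ Λ₂)) ν ((0 : X), ((0 : V₁ → ℤ), ev q - ev p)) 1 f


variable {B : Finset X} {a₁ : X → (V₁ → ℤ) → ℝ} {a₂ : X → (V₂ → ℤ) → ℝ}
  {Λ₁ : Finset (V₁ → ℤ)} {Λ₂ : Finset (V₂ → ℤ)} {s₁ : X → V₁ → ℤ} {s₂ : X → V₂ → ℤ} {Kw : ℕ}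

theorem LinkHyp.nonneg {V : Type*} [Fintype V] [DecidableEq V] {a : X → (V → ℤ) → ℝ}
    {Λ : Finset (V → ℤ)} (h : LinkHyp B a Λ) {x : X} (hx : x ∈ B) (β : V → ℤ) :
    0 ≤ a x β := by
  obtain ⟨d, hd⟩ := h.la x hx
  exact hd.nonneg β


/-- a factor in a link energy -/
theorem Dm_mul {G : Type*} [AddCommGroup G] [DecidableEq G] (Λ : Finset G) {a : G → ℝ} {k : ℝ}
    (hk : 0 ≤ k) (c : G) (s : ℕ) (f : G → ℝ) :
    Dm Λ (fun y => k * a y) c s f = k * Dm Λ a c s f := by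
  unfold Dm
  rw [Finset.mul_sum]
  refine Finset.sum_congr rfl fun y _ => ?_
  rw [← mul_min_of_nonneg _ _ hk]
  ring




theorem cm_abs_le {Y : Type*} {Λ : Finset Y} {ν f : X × Y → ℝ} {M : ℝ} {x : X}
    (hν : ∀ y ∈ Λ, 0 ≤ ν (x, y)) (hf : ∀ p, |f p| ≤ M) (hM : 0 ≤ M) : |cm Λ ν f x| ≤ M := by
  unfold cm mn S
  by_cases hz : ∑ y ∈ Λ, ν (x, y) = 0
  · rw [hz, div_zero, abs_zero]; exact hM
  · have hZ : 0 < ∑ y ∈ Λ, ν (x, y) := lt_of_le_of_ne (Finset.sum_nonneg hν) (Ne.symm hz)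
    rw [abs_div, abs_of_pos hZ, div_le_iff₀ hZ, Finset.mul_sum]
    refine (Finset.abs_sum_le_sum_abs _ _).trans (Finset.sum_le_sum fun y hy => ?_)
    rw [abs_mul, abs_of_nonneg (hν y hy), mul_comm]
    exact mul_le_mul_of_nonneg_right (hf _) (hν y hy)



end main

end Crest.Agent.R302.Joint
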