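import Crest.Agent.R302.FHyp674
import Crest.Agent.R302.Ann425B
import Crest.Agent.R302.Joint342
import Crest.Agent.R302.Inst532D
import Crest.Agent.R302.Stage536

-- ▼ part R302/Hard674
section

/-!
R302 (helper674): base weights with separable log-concave factor (stage weights, gauge) and the
hard-support form (fat slack only).

* `hyp_base` : `an (viol r z) ∏ ω_v (z_v)` has the Alexandrov-Fenchel property;
* `hyp_FF_sep` : `FF` over the integer points of a base polytope with weight `∏ ω_v (z_v)`;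
* `FFp` : kernels only on the edges of `ps`, the other cuts are hard; `approx_FFp` : it is the
  pointwise limit (on the hyperplane) of everywhere positive weights with the Alexandrov-Fenchel
  property; `af_FFp`.
-/

set_option autoImplicit false
set_option linter.unusedSectionVars false

namespace Crest.Agent.R302.AFC

open Finset Crest.Agent.R302.Lor
open Crest.Agent.R302.Tree (RTree)
open Crest.Agent.R302.Tree.RTree

variable {V : Type*} [Fintype V] [DecidableEq V]

/-- separable factor -/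
noncomputable def sep (ω : V → ℤ → ℝ) (z : V → ℤ) : ℝ := ∏ v, ω v (z v)

theorem sep_pos {ω : V → ℤ → ℝ} (hω : ∀ v k, 0 < ω v k) (z : V → ℤ) : 0 < sep ω z :=
  Finset.prod_pos fun v _ => hω v _

theorem hyp_mul_sep {c : (V → ℤ) → ℝ} (hc : ∀ γ, 0 ≤ c γ) (hH : Hyp c) {ω : V → ℤ → ℝ}
    (hω : ∀ v k, 0 < ω v k) (hlc : ∀ v k, ω v k * ω v (k + 2) ≤ ω v (k + 1) ^ 2) :
    Hyp (fun z => c z * sep ω z) := fun β => AnnBox.af_mul_sep hc hH hω hlc β

theorem hyp_base {r : Finset V → ℤ} (hr : ∀ A B, r (A ∪ B) + r (A ∩ B) ≤ r A + r B)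
    {a : ℤ → ℝ} (ha0 : ∀ k, 0 ≤ a k) (ha1 : ∀ k, a (k + 1) ≤ a k)
    (ha2 : ∀ k, a k * a (k + 2) ≤ a (k + 1) ^ 2) {ω : V → ℤ → ℝ}
    (hω : ∀ v k, 0 < ω v k) (hlc : ∀ v k, ω v k * ω v (k + 2) ≤ ω v (k + 1) ^ 2) :
    Hyp (fun z => a (viol r z) * sep ω z) :=
  hyp_mul_sep (fun _ => ha0 _) (hyp_viol hr ha0 ha1 ha2) hω hlc


/-! ### hard cuts -/

/-- kernels on the edges of `ps` only -/
noncomputable def FFp (T : RTree V) (f : V → ℤ → ℝ) (ps : List V) (J : Finset (V → ℤ))
    (c : (V → ℤ) → ℝ) (g : V → ℤ) : ℝ :=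
  ∑ z ∈ J, c z * ∏ q ∈ univ.erase T.root,
    (if q ∈ ps then f q (icut T (g - z) q) else (if icut T (g - z) q = 0 then 1 else 0))

theorem wins_tendsto_FFp {T : RTree V} {f : V → ℤ → ℝ} {c0 : (V → ℤ) → ℝ} {R : ℤ}
    {J : Finset (V → ℤ)} (hJ : ∀ z ∈ J, ∑ a, z a = R)
    (hc0 : ∀ x, ∑ a, x a = R → x ∉ J → c0 x = 0) {ps : List V} (hnd : ps.Nodup)
    (hroot : ∀ p ∈ ps, p ≠ T.root) {g : V → ℤ} (hg : ∑ a, g a = R) :
    Filter.Tendsto (fun L : ℕ => wins T f L ps c0 g) Filter.atTop (nhds (FFp T f ps J c0 g)) := by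
  have h1 : ∀ L : ℕ, wins T f L ps c0 g
      = ∑ z ∈ J, c0 z * ∏ q ∈ univ.erase T.root, kk f L ps q (icut T (g - z) q) :=
    fun L => wins_eq (f := f) L hJ hc0 ps hnd hroot g hg
  simp only [h1]
  unfold FFp
  refine tendsto_finsetSum _ fun z _ => Filter.Tendsto.const_mul _ ?_
  refine tendsto_finsetProd _ fun q _ => ?_
  unfold kk
  by_cases hq : q ∈ ps
  · simp only [if_pos hq]
    refine tendsto_const_nhds.congr' ?_
    filter_upwards [Filter.eventually_ge_atTop (icut T (g - z) q).natAbs] with L hL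
    rw [if_pos]
    rw [Int.abs_eq_natAbs]
    exact_mod_cast hL
  · simp only [if_neg hq]
    exact tendsto_const_nhds

/-- approximation on finite sets gives a sequence -/
theorem exists_seq_of_finite_approx {R : ℤ} {F : (V → ℤ) → ℝ} {P : ((V → ℤ) → ℝ) → Prop}
    (h : ∀ (S : Finset (V → ℤ)), (∀ g ∈ S, ∑ a, g a = R) → ∀ ε : ℝ, 0 < ε →
      ∃ c, P c ∧ ∀ g ∈ S, |c g - F g| < ε) :
    ∃ ck : ℕ → (V → ℤ) → ℝ, (∀ k, P (ck k)) ∧ ∀ g, ∑ a, g a = R →
      Filter.Tendsto (fun k => ck k g) Filter.atTop (nhds (F g)) := by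
  classical
  obtain ⟨e, he⟩ := exists_surjective_nat (V → ℤ)
  set S : ℕ → Finset (V → ℤ) := fun k =>
    ((Finset.range k).image e).filter (fun g => ∑ a, g a = R) with hS
  have hε : ∀ k : ℕ, (0 : ℝ) < 1 / (k + 1) := fun k => by positivity
  choose ck hck1 hck2 using fun k : ℕ =>
    h (S k) (fun g hg => (Finset.mem_filter.1 hg).2) (1 / (k + 1)) (hε k)
  refine ⟨ck, hck1, fun g hg => ?_⟩
  obtain ⟨i, hi⟩ := he g
  rw [Metric.tendsto_atTop]
  intro ε hεpos
  obtain ⟨N, hN⟩ := exists_nat_one_div_lt hεpos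
  refine ⟨max N (i + 1), fun k hk => ?_⟩
  have hgS : g ∈ S k := by
    rw [hS]
    refine Finset.mem_filter.2 ⟨Finset.mem_image.2 ⟨i, Finset.mem_range.2 ?_, hi⟩, hg⟩
    have := le_max_right N (i + 1)
    omega
  have h1 := hck2 k g hgS
  rw [Real.dist_eq]
  refine h1.trans (lt_of_le_of_lt ?_ hN)
  apply one_div_le_one_div_of_le (by positivity)
  have : (N : ℝ) ≤ k := by exact_mod_cast (le_max_left N (i + 1)).trans hk
  linarith

/-- finite approximation of `FFp` by everywhere positive weights with the AF property -/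
theorem approx_FFp_finite {T : RTree V} {f : V → ℤ → ℝ} (hf : ∀ p s, 0 < f p s)
    (hlc : ∀ p s, f p (s - 1) * f p (s + 1) ≤ f p s ^ 2) {c : ℕ → (V → ℤ) → ℝ}
    (hc : ∀ n β, 0 < c n β) (hH : ∀ n, Hyp (c n)) {c0 : (V → ℤ) → ℝ}
    (hlim : ∀ x, Filter.Tendsto (fun n => c n x) Filter.atTop (nhds (c0 x)))
    {R : ℤ} {J : Finset (V → ℤ)} (hJ : ∀ z ∈ J, ∑ a, z a = R)
    (hc0 : ∀ x, ∑ a, x a = R → x ∉ J → c0 x = 0) {ps : List V} (hnd : ps.Nodup)
    (hroot : ∀ p ∈ ps, p ≠ T.root) (S : Finset (V → ℤ)) (hS : ∀ g ∈ S, ∑ a, g a = R) {ε : ℝ}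
    (hε : 0 < ε) : ∃ c' : (V → ℤ) → ℝ, ((∀ β, 0 < c' β) ∧ Hyp c') ∧
      ∀ g ∈ S, |c' g - FFp T f ps J c0 g| < ε := by
  have h1 : ∀ᶠ L : ℕ in Filter.atTop, ∀ g ∈ S, |wins T f L ps c0 g - FFp T f ps J c0 g| < ε / 2 := by
    rw [Filter.eventually_all_finset]
    intro g hg
    have := wins_tendsto_FFp (f := f) hJ hc0 hnd hroot (hS g hg)
    have h2 := (Metric.tendsto_nhds.1 this) (ε / 2) (by linarith)
    simpa [Real.dist_eq] using h2
  obtain ⟨L, hL⟩ := h1.exists
  have h2 : ∀ᶠ n : ℕ in Filter.atTop, ∀ g ∈ S, |wins T f L ps (c n) g - wins T f L ps c0 g| < ε / 2 := by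
    rw [Filter.eventually_all_finset]
    intro g hg
    have := wins_lim (T := T) (f := f) L hlim ps g
    have h2 := (Metric.tendsto_nhds.1 this) (ε / 2) (by linarith)
    simpa [Real.dist_eq] using h2
  obtain ⟨n, hn⟩ := h2.exists
  refine ⟨wins T f L ps (c n), ⟨wins_pos hf L (hc n) ps, wins_hyp hf hlc L (hc n) (hH n) ps⟩,
    fun g hg => ?_⟩
  have h3 := hL g hg
  have h4 := hn g hg
  calc |wins T f L ps (c n) g - FFp T f ps J c0 g|
      = |(wins T f L ps (c n) g - wins T f L ps c0 g)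
        + (wins T f L ps c0 g - FFp T f ps J c0 g)| := by congr 1; ring
    _ ≤ |wins T f L ps (c n) g - wins T f L ps c0 g|
        + |wins T f L ps c0 g - FFp T f ps J c0 g| := abs_add_le _ _
    _ < ε := by linarith

/-- **hard support form** for the integer points of a base polytope with separable weight -/
theorem approx_FFp {T : RTree V} {f : V → ℤ → ℝ} (hf : ∀ p s, 0 < f p s)
    (hlc : ∀ p s, f p (s - 1) * f p (s + 1) ≤ f p s ^ 2) {r : Finset V → ℤ} {R : ℤ}
    (hr : Facet.SubM r R) {ω : V → ℤ → ℝ} (hω : ∀ v k, 0 < ω v k)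
    (hωlc : ∀ v k, ω v k * ω v (k + 2) ≤ ω v (k + 1) ^ 2)
    {J : Finset (V → ℤ)} (hJ : ∀ z, z ∈ J ↔ Facet.MemJ r R z) {ps : List V} (hnd : ps.Nodup)
    (hroot : ∀ p ∈ ps, p ≠ T.root) :
    ∃ ck : ℕ → (V → ℤ) → ℝ, (∀ k, (∀ β, 0 < ck k β) ∧ Hyp (ck k)) ∧ ∀ g, ∑ a, g a = R →
      Filter.Tendsto (fun k => ck k g) Filter.atTop (nhds (FFp T f ps J (sep ω) g)) := by
  have ha := approx_indicator
  have e : ∀ g, FFp T f ps J (sep ω) g
      = FFp T f ps J (fun z => (if viol r z = 0 then (1 : ℝ) else 0) * sep ω z) g := by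
    intro g
    unfold FFp
    refine Finset.sum_congr rfl fun z hz => ?_
    have := (viol_eq_zero_iff hr.empty z).2 ((hJ z).1 hz).1
    simp only [if_pos this, one_mul]
  simp only [e]
  refine exists_seq_of_finite_approx (P := fun c' => (∀ β, 0 < c' β) ∧ Hyp c') ?_
  intro S hS ε hε
  refine approx_FFp_finite hf hlc
    (c := fun n z => ((1 : ℝ) / (n + 1)) ^ (viol r z) * sep ω z) ?_ ?_ ?_
    (R := R) (fun z hz => ((hJ z).1 hz).2) ?_ hnd hroot S hS hε
  · intro n β
    exact mul_pos (ha.pos n _) (sep_pos hω β)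
  · intro n
    exact hyp_base hr.sub (fun k => (ha.pos n k).le) (ha.anti n) (ha.lc n) hω hωlc
  · intro x
    exact (ha.lim _ (viol_nonneg hr.empty x)).mul_const _
  · intro x hx hxJ
    have : viol r x ≠ 0 := by
      intro h0
      exact hxJ ((hJ x).2 ⟨(viol_eq_zero_iff hr.empty x).1 h0, hx⟩)
    simp only [if_neg this, zero_mul]



end Crest.Agent.R302.AFC
end

-- ▼ part R302/LinkInst342

/-!
R302 (helper342): LINK and JOINT for the official soft sides (helper532's `Inst.Side`).

* `la_lw` : the link weight `β ↦ S.lw θ μ x β` is in the class `LA` (limits of positive weights with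
  the Alexandrov-Fenchel property), from helper674's `approx_FFp`;
* `linkHyp` : the link hypothesis of `Joint.joint`;
* `mar_nu` : the marginal of `nu` is `W₁ W₂`;
* `nu_cmp` : comparability of `nu` along `x`-moves;
* `side_joint` : MACRO + JOINT for a pair of sides.
-/

set_option autoImplicit false
set_option linter.unusedSectionVars false

namespace Crest.Agent.R302.LInst

open Finset Crest.Agent.R302.Lor Crest.Agent.R302.Inst Crest.Agent.R302.Link
open Crest.Agent.R302.Macro
open Crest.Agent.R302.Inst.Side (Gauge tcost fcost tcost_neg fcost_neg)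
open Crest.Agent.R302.Tree (RTree)
open Crest.Agent.R302.Tree.RTree

variable {E : Type*} [Fintype E] [DecidableEq E]

/-! ### the rooted tree of one side -/

/-- the rooted tree of one side: thin elements hang on the root `none` -/
def tr (T : MP3.Forest E) : RTree (Option E) where
  par := fun p => match p with
    | none => none
    | some e => T.par e
  root := none
  dep := fun p => match p with
    | none => 0
    | some e => T.dep e + 1
  dep_lt := by
    rintro (_ | e) hq
    · exact absurd rfl hq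
    · rcases h : T.par e with _ | b
      · simp [h]
      · simpa [h] using T.dep_lt e b h

/-- lift to `Option E` -/
def lift (x : E → ℤ) : Option E → ℤ := fun p => match p with
  | none => 0
  | some e => x e

theorem lift_injective : Function.Injective (lift (E := E)) := fun x y h => by
  funext e; exact congrFun h (some e)

theorem lift_add (x y : E → ℤ) : lift (x + y) = lift x + lift y := by
  funext p; rcases p with _ | e <;> simp [lift]

theorem lift_sub (x y : E → ℤ) : lift (x - y) = lift x - lift y := by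
  funext p; rcases p with _ | e <;> simp [lift]

theorem lift_ev (a : E) : lift (ev a) = ev (some a) := by
  funext p
  rcases p with _ | e
  · simp [lift, ev]
  · simp [lift, ev, Pi.single_apply]

theorem sum_lift (x : E → ℤ) (A : Finset (Option E)) :
    ∑ p ∈ A, lift x p = ∑ e ∈ univ.filter (fun e => some e ∈ A), x e := by
  have h1 : ∑ p ∈ A, lift x p = ∑ p, if p ∈ A then lift x p else 0 := by
    rw [← Finset.sum_filter, Finset.filter_mem_eq_inter, Finset.univ_inter]
  rw [h1, Fintype.sum_option, Finset.sum_filter]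
  simp [lift]

theorem sum_lift_univ (x : E → ℤ) : ∑ p, lift x p = ∑ e, x e := by
  rw [Fintype.sum_option]
  simp [lift]

theorem desc_tr (T : MP3.Forest E) (a : E) (q : Option E) :
    (tr T).Desc (some a) q ↔ ∃ b, q = some b ∧ T.Le b a := by
  constructor
  · intro h
    induction h with
    | refl => exact ⟨a, rfl, MP3.Forest.Le.refl T a⟩
    | step q hq _ ih =>
      obtain ⟨b', hb', hle⟩ := ih
      rcases q with _ | e
      · exact absurd rfl hq
      · exact ⟨e, rfl, (MP3.Forest.Le.of_par hb').trans hle⟩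
  · rintro ⟨b, rfl, h⟩
    unfold MP3.Forest.Le at h
    induction h using Relation.ReflTransGen.head_induction_on with
    | refl => exact RTree.Desc.refl
    | head hx _ ih =>
      refine RTree.Desc.step _ (by simp [tr]) ?_
      simpa [tr, hx] using ih

theorem icut_lift (T : MP3.Forest E) (x : E → ℤ) (a : E) :
    AFC.icut (tr T) (lift x) (some a) = bs T x a := by
  unfold AFC.icut bs
  rw [sum_lift]
  refine Finset.sum_congr ?_ fun _ _ => rfl
  ext b
  rw [mem_filter, RTree.mem_desc, desc_tr, MP3.Forest.mem_sub]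
  simp

/-! ### the lifted submodular function -/

/-- lifted rank function -/
def rl (r : Finset E → ℤ) (A : Finset (Option E)) : ℤ := r (univ.filter (fun e => some e ∈ A))

theorem rl_subM {r : Finset E → ℤ} {R : ℤ} (hr : Facet.SubM r R) : Facet.SubM (rl r) R where
  sub A B := by
    unfold rl
    have h1 : univ.filter (fun e : E => some e ∈ A ∪ B)
        = univ.filter (fun e => some e ∈ A) ∪ univ.filter (fun e => some e ∈ B) := by
      ext e; simp
    have h2 : univ.filter (fun e : E => some e ∈ A ∩ B)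
        = univ.filter (fun e => some e ∈ A) ∩ univ.filter (fun e => some e ∈ B) := by
      ext e; simp
    rw [h1, h2]
    exact hr.sub _ _
  empty := by
    unfold rl
    have : univ.filter (fun e : E => some e ∈ (∅ : Finset (Option E))) = ∅ := by ext e; simp
    rw [this]; exact hr.empty
  univ := by
    unfold rl
    have : univ.filter (fun e : E => some e ∈ (Finset.univ : Finset (Option E))) = Finset.univ := by
      ext e; simp
    rw [this]; exact hr.univ

theorem memJ_rl {r : Finset E → ℤ} {R : ℤ} (hr : Facet.SubM r R) (z' : Option E → ℤ) :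
    Facet.MemJ (rl r) R z' ↔ ∃ z, Facet.MemJ r R z ∧ lift z = z' := by
  constructor
  · rintro ⟨h1, h2⟩
    have hn : z' none ≤ 0 := by
      have := h1 {none}
      rw [sum_singleton] at this
      have e : rl r {none} = 0 := by
        unfold rl
        have : univ.filter (fun e : E => some e ∈ ({none} : Finset (Option E))) = ∅ := by
          ext e; simp
        rw [this]; exact hr.empty
      rwa [e] at this
    have hs : ∑ e, z' (some e) ≤ R := by
      have := h1 (univ.erase none)
      have e : rl r (univ.erase none) = R := by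
        unfold rl
        have : univ.filter (fun e : E => some e ∈ (Finset.univ : Finset (Option E)).erase none)
            = Finset.univ := by
          ext e; simp
        rw [this]; exact hr.univ
      rw [e] at this
      have h3 : ∑ a ∈ univ.erase none, z' a = ∑ e, z' (some e) := by
        have := Finset.add_sum_erase univ z' (mem_univ none)
        rw [Fintype.sum_option] at this
        linarith
      linarith
    have h2' := h2
    rw [Fintype.sum_option] at h2'
    have h0 : z' none = 0 := by linarith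
    have hz : lift (fun e => z' (some e)) = z' := by
      funext p; rcases p with _ | e
      · simp [lift, h0]
      · simp [lift]
    refine ⟨fun e => z' (some e), ⟨fun A => ?_, by linarith⟩, hz⟩
    have h4 := h1 (A.map Function.Embedding.some)
    have e1 : rl r (A.map Function.Embedding.some) = r A := by
      unfold rl
      congr 1
      ext e; simp
    rw [e1, Finset.sum_map] at h4
    exact h4
  · rintro ⟨z, ⟨h1, h2⟩, rfl⟩
    refine ⟨fun A => ?_, by rw [sum_lift_univ]; exact h2⟩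
    rw [sum_lift]
    exact h1 _

/-! ### the loads -/

variable {S : Side E}

theorem load_add (x : E → ℤ) (β : S.Blk → ℤ) (u : S.Blk) :
    S.load x (β + ev u) = S.load x β + ev (u : E) := by
  funext a
  unfold Side.load
  rw [Pi.add_apply]
  by_cases h : S.T.par a = none
  · simp only [dif_pos h, Pi.add_apply]
    have : (ev u : S.Blk → ℤ) ⟨a, h⟩ = (ev (u : E) : E → ℤ) a := by
      simp only [ev_apply']
      by_cases hu : a = (u : E)
      · rw [if_pos hu, if_pos (Subtype.ext hu)]
      · rw [if_neg hu, if_neg (fun h' => hu (congrArg Subtype.val h'))]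
    rw [this]
    ring
  · simp only [dif_neg h]
    have : (ev (u : E) : E → ℤ) a = 0 := by
      rw [ev_apply', if_neg]
      intro hu
      exact h (hu ▸ u.2)
    rw [this, add_zero]

theorem sum_thin (T : MP3.Forest E) (x : E → ℤ) :
    ∑ e, x e = ∑ r : {a : E // T.par a = none}, bs T x r := by
  have h1 := MP3.Forest.tele_all (F := T) (fun c => (x c : ℝ)) (fun _ => 1)
  have h2 : ∀ b, (∑ c ∈ T.sub b, (x c : ℝ)) * ((1 : ℝ) - (T.par b).elim 0 (fun _ => 1))
      = if T.par b = none then ((bs T x b : ℤ) : ℝ) else 0 := by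
    intro b
    rcases h : T.par b with _ | c
    · simp [bs]
    · simp
  simp only [mul_one, h2] at h1
  have h3 : ((∑ e, x e : ℤ) : ℝ) = ((∑ r : {a : E // T.par a = none}, bs T x r : ℤ) : ℝ) := by
    push_cast
    rw [h1, ← Finset.sum_filter]
    exact Finset.sum_subtype _ (fun a => by simp) (fun a => ((bs T x a : ℤ) : ℝ))
  exact_mod_cast h3

theorem sum_load (x : E → ℤ) (β : S.Blk → ℤ) : ∑ e, S.load x β e = ∑ r, β r := by
  rw [sum_thin S.T]
  refine Finset.sum_congr rfl fun r _ => ?_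
  rw [Side.bs_load, dif_pos r.2]

theorem sum_blk (z : E → ℤ) : ∑ r, S.blk z r = ∑ e, z e := (sum_thin S.T z).symm

/-! ### the link weight is in the class `LA` -/

variable {r : Finset E → ℤ} {R : ℤ} {ω : E → ℤ → ℝ}

theorem ff_support {x : E → ℤ} {β : S.Blk → ℤ} (h : S.ff x β ≠ 0) : ∃ z ∈ S.J, S.blk z = β := by
  by_contra hne
  push Not at hne
  apply h
  unfold Side.ff
  refine Finset.sum_eq_zero fun z hz => ?_
  have h1 := hne z hz
  have h2 : ∃ r : S.Blk, S.blk z r ≠ β r := by
    by_contra h3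
    push Not at h3
    exact h1 (funext h3)
  obtain ⟨r, hr⟩ := h2
  have h3 : S.fk x β z r = 0 := by
    unfold Side.fk
    rw [dif_pos r.2, if_neg]
    exact hr
  rw [Finset.prod_eq_zero (mem_univ (r : E)) h3, mul_zero]

theorem ff_eq_FFp (h : Shape S r R ω) (ps : List (Option E))
    (hps : ∀ p, p ∈ ps ↔ ∃ a, p = some a ∧ S.T.par a ≠ none) (x : E → ℤ) (β : S.Blk → ℤ) :
    S.ff x β = AFC.FFp (tr S.T)
      (fun p t => match p with
        | none => 1
        | some a => if S.T.par a = none then 1 else S.κ a (-t)) ps (S.J.image lift)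
      (AFC.sep (fun p k => match p with
        | none => 1
        | some a => ω a k)) (lift (S.load x β)) := by
  classical
  unfold Side.ff AFC.FFp
  rw [Finset.sum_image fun z _ z' _ hzz => lift_injective hzz]
  refine Finset.sum_congr rfl fun z hz => ?_
  have e1 : AFC.sep (fun (p : Option E) (k : ℤ) => match p with
        | none => (1 : ℝ)
        | some a => ω a k) (lift z) = S.g z := by
    rw [h.wt z hz]
    unfold AFC.sep
    rw [Fintype.prod_option]
    simp [lift]
  rw [e1]
  congr 1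
  have e2 : ∀ G : Option E → ℝ, ∏ q ∈ univ.erase (tr S.T).root, G q = ∏ a, G (some a) := by
    intro G
    have : (univ.erase (tr S.T).root : Finset (Option E)) = univ.map Function.Embedding.some := by
      ext p
      rcases p with _ | a
      · simp [tr]
      · simp [tr]
    rw [this, Finset.prod_map]
    rfl
  rw [e2]
  refine Finset.prod_congr rfl fun a _ => ?_
  rw [← lift_sub, icut_lift, bs_sub, Side.bs_load]
  unfold Side.fk
  by_cases ha : S.T.par a = none
  · have hnp : some a ∉ ps := by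
      rw [hps]
      rintro ⟨b, hb, hb'⟩
      exact hb' ((Option.some.inj hb) ▸ ha)
    rw [dif_pos ha, dif_pos ha, if_neg hnp]
    refine if_congr ?_ rfl rfl
    constructor
    · intro h1; rw [h1, sub_self]
    · intro h1; linarith
  · rw [dif_neg ha, dif_neg ha, if_pos ((hps _).2 ⟨a, rfl, ha⟩)]
    simp only [if_neg ha]
    congr 1
    ring

theorem theta_lc {θ : ℝ} (h0 : 0 < θ) (h1 : θ ≤ 1) (t k : ℤ) :
    θ ^ (k - t).natAbs * θ ^ (k + 2 - t).natAbs ≤ (θ ^ (k + 1 - t).natAbs) ^ 2 := by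
  rw [← pow_add, ← pow_mul]
  exact pow_le_pow_of_le_one h0.le h1 (by omega)

/-- **the link weight is a limit of positive AF weights** -/
theorem la_lw (h : Shape S r R ω) {θ : ℝ} (h0 : 0 < θ) (h1 : θ ≤ 1) {μ : E → ℝ}
    (hμ : ∀ a, 0 < μ a) (x : E → ℤ) : LA R (S.lw θ μ x) := by
  classical
  have hθμ : ∀ (β : S.Blk → ℤ),
      0 < (∏ r : S.Blk, θ ^ (β r - bs S.T x r).natAbs) * ∏ r : S.Blk, μ r ^ β r := fun β =>
    mul_pos (Finset.prod_pos fun r _ => pow_pos h0 _) (Finset.prod_pos fun r _ => zpow_pos (hμ _) _)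
  have hff0 : ∀ β, 0 ≤ S.ff x β := by
    intro β
    unfold Side.ff
    refine Finset.sum_nonneg fun z hz => mul_nonneg ?_ (Finset.prod_nonneg fun a _ => ?_)
    · rw [h.wt z hz]; exact Finset.prod_nonneg fun v _ => ((h.ωlc v).1 _).le
    · unfold Side.fk
      split_ifs with h2 h3
      · exact zero_le_one
      · exact le_rfl
      · exact ((h.κlc a h2).1 _).le
  refine ⟨fun β => mul_nonneg (hθμ β).le (hff0 β), fun β hβ => ?_, ?_⟩
  · obtain ⟨z, hz, rfl⟩ := ff_support (right_ne_zero_of_mul hβ)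
    rw [sum_blk]
    exact ((h.mem z).1 hz).2
  · set f : Option E → ℤ → ℝ := fun p t => match p with
        | none => 1
        | some a => if S.T.par a = none then 1 else S.κ a (-t) with hf
    set ω' : Option E → ℤ → ℝ := fun p k => match p with
        | none => 1
        | some a => ω a k with hω'
    set ps : List (Option E) := ((univ.filter (fun a => S.T.par a ≠ none)).map
      Function.Embedding.some).toList with hps
    have hmem : ∀ p, p ∈ ps ↔ ∃ a, p = some a ∧ S.T.par a ≠ none := by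
      intro p
      rw [hps, Finset.mem_toList, Finset.mem_map]
      constructor
      · rintro ⟨a, ha, rfl⟩
        exact ⟨a, rfl, (mem_filter.1 ha).2⟩
      · rintro ⟨a, rfl, ha⟩
        exact ⟨a, mem_filter.2 ⟨mem_univ _, ha⟩, rfl⟩
    have hfpos : ∀ p t, 0 < f p t := by
      intro p t
      rcases p with _ | a
      · simp [hf]
      · simp only [hf]
        split_ifs with ha
        · exact zero_lt_one
        · exact (h.κlc a ha).1 _
    have hflc : ∀ p t, f p (t - 1) * f p (t + 1) ≤ f p t ^ 2 := by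
      intro p t
      rcases p with _ | a
      · simp [hf]
      · simp only [hf]
        split_ifs with ha
        · norm_num
        · have := (h.κlc a ha).2 (-t - 1)
          rw [show -t - 1 + 2 = -t + 1 by ring, show -t - 1 + 1 = -t by ring] at this
          rw [show -(t - 1) = -t + 1 by ring, show -(t + 1) = -t - 1 by ring]
          linarith
    have hJ' : ∀ z', z' ∈ S.J.image lift ↔ Facet.MemJ (rl r) R z' := by
      intro z'
      rw [memJ_rl h.sub, Finset.mem_image]
      constructor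
      · rintro ⟨z, hz, rfl⟩; exact ⟨z, (h.mem z).1 hz, rfl⟩
      · rintro ⟨z, hz, rfl⟩; exact ⟨z, (h.mem z).2 hz, rfl⟩
    obtain ⟨ck, hck, hlim⟩ := AFC.approx_FFp (T := tr S.T) hfpos hflc (rl_subM h.sub)
      (ω := ω') (by
        intro p k
        rcases p with _ | a
        · simp [hω']
        · exact (h.ωlc a).1 k) (by
        intro p k
        rcases p with _ | a
        · simp [hω']
        · exact (h.ωlc a).2 k) hJ' (ps := ps) (Finset.nodup_toList _) (by
        intro p hp
        obtain ⟨a, rfl, _⟩ := (hmem p).1 hp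
        simp [tr])
    -- the separable factor on the blocks
    set ωB : S.Blk → ℤ → ℝ := fun r k => θ ^ (k - bs S.T x r).natAbs * μ r ^ k with hωB
    have hωBpos : ∀ r k, 0 < ωB r k := fun r k => mul_pos (pow_pos h0 _) (zpow_pos (hμ _) _)
    have hωBlc : ∀ r k, ωB r k * ωB r (k + 2) ≤ ωB r (k + 1) ^ 2 := by
      intro r k
      have e1 := theta_lc h0 h1 (bs S.T x r) k
      have e2 : μ r ^ k * μ r ^ (k + 2) = (μ r ^ (k + 1)) ^ 2 := by
        rw [← zpow_natCast, ← zpow_mul, ← zpow_add₀ (hμ r).ne']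
        congr 1
        push_cast; ring
      have e3 : 0 < (μ r ^ (k + 1)) ^ 2 := pow_pos (zpow_pos (hμ _) _) 2
      calc ωB r k * ωB r (k + 2) = (θ ^ (k - bs S.T x r).natAbs * θ ^ (k + 2 - bs S.T x r).natAbs)
            * (μ r ^ k * μ r ^ (k + 2)) := by simp only [hωB]; ring
        _ ≤ (θ ^ (k + 1 - bs S.T x r).natAbs) ^ 2 * (μ r ^ (k + 1)) ^ 2 := by
            rw [e2]; exact mul_le_mul_of_nonneg_right e1 e3.le
        _ = ωB r (k + 1) ^ 2 := by simp only [hωB]; ring
    have hsepB : ∀ β : S.Blk → ℤ, ∏ r, ωB r (β r)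
        = (∏ r : S.Blk, θ ^ (β r - bs S.T x r).natAbs) * ∏ r : S.Blk, μ r ^ β r := by
      intro β
      simp only [hωB, Finset.prod_mul_distrib]
    have hH : ∀ n, ∀ β : S.Blk → ℤ,
        AF (fun u v => ck n (lift (S.load x (β + ev u + ev v)))) := by
      intro n β
      have hAF := (hck n).2 (lift (S.load x β))
      refine hAF.pull (k := 1) zero_le_one
        (fun y p => match p with
          | none => 0
          | some a => if ha : S.T.par a = none then y ⟨a, ha⟩ else 0) ?_
      intro y y'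
      rw [one_mul]
      unfold Q
      rw [Fintype.sum_option]
      simp only [zero_mul, Finset.sum_const_zero, zero_add]
      have e4 : ∀ G : E → ℝ, (∀ a, S.T.par a ≠ none → G a = 0) →
          ∑ a, G a = ∑ r : S.Blk, G r := by
        intro G hG
        rw [← Finset.sum_subtype (univ.filter (fun a => S.T.par a = none)) (fun a => by simp) G,
          Finset.sum_filter]
        refine Finset.sum_congr rfl fun a _ => ?_
        split_ifs with ha
        · rfl
        · exact hG a ha
      rw [e4]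
      · refine Finset.sum_congr rfl fun u _ => ?_
        rw [Fintype.sum_option]
        simp only [mul_zero, zero_mul, zero_add]
        rw [e4]
        · refine Finset.sum_congr rfl fun v _ => ?_
          rw [dif_pos u.2, dif_pos v.2, load_add, load_add, lift_add, lift_add, lift_ev, lift_ev]
        · intro a ha
          rw [dif_neg ha]; ring
      · intro a ha
        simp only [dif_neg ha, zero_mul, Finset.sum_const_zero]
    refine ⟨fun n β => ck n (lift (S.load x β)) * ∏ r, ωB r (β r), fun n β => ?_, fun n β => ?_,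
      fun n β _ => ?_, fun β hβ => ?_⟩
    · exact mul_nonneg ((hck n).1 _).le (Finset.prod_nonneg fun r _ => (hωBpos r _).le)
    · exact AnnBox.af_mul_sep (c := fun β => ck n (lift (S.load x β)))
        (fun β => ((hck n).1 _).le) (hH n) hωBpos hωBlc β
    · exact mul_pos ((hck n).1 _) (Finset.prod_pos fun r _ => hωBpos r _)
    · have h5 := (hlim (lift (S.load x β)) (by rw [sum_lift_univ, sum_load]; exact hβ)).mul_const
        (∏ r, ωB r (β r))
      rw [← ff_eq_FFp h ps hmem x β] at h5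
      have e5 : S.ff x β * ∏ r, ωB r (β r) = S.lw θ μ x β := by
        rw [hsepB]; unfold Side.lw; ring
      rw [e5] at h5
      exact h5

/-! ### the link hypothesis, the marginal, comparability -/


variable {S₁ S₂ : Side E} {b₁ b₂ D₁ D₂ : E → ℝ} {θ : ℝ} {μ : E → ℝ} {β₀ : ℝ}

/-- the joint weight in the coordinates of `Joint` -/
noncomputable def jnu (S₁ S₂ : Side E) (θ : ℝ) (μ : E → ℝ) :
    (E → ℤ) × ((S₁.Blk → ℤ) × (S₂.Blk → ℤ)) → ℝ :=
  Joint.nu (fun x => S₁.lw θ μ x) (fun x => S₂.lw θ (fun e => (μ e)⁻¹) x)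


theorem gauge_inv (h : Gauge S₁ μ) : Gauge S₁ (fun e => (μ e)⁻¹) :=
  ⟨fun a => inv_pos.2 (h.1 a), fun a b hab => by simp only [h.2 a b hab]⟩

/-- the marginal -/
theorem mar_jnu (hG₁ : Gauge S₁ μ) (hG₂ : Gauge S₂ μ) {Λ₁ : Finset (S₁.Blk → ℤ)}
    {Λ₂ : Finset (S₂.Blk → ℤ)} (hΛ₁ : ∀ z ∈ S₁.J, S₁.blk z ∈ Λ₁) (hΛ₂ : ∀ z ∈ S₂.J, S₂.blk z ∈ Λ₂)
    (x : E → ℤ) : Joint.mar (Λ₁ ×ˢ Λ₂) (jnu S₁ S₂ θ μ) x
      = S₁.W θ μ x * S₂.W θ (fun e => (μ e)⁻¹) x := by
  rw [S₁.W_eq_sum_lw θ hG₁ x Λ₁ hΛ₁, S₂.W_eq_sum_lw θ (gauge_inv hG₂) x Λ₂ hΛ₂,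
    Finset.sum_mul_sum]
  unfold Joint.mar
  rw [Finset.sum_product]
  rfl

/-- cost of a move in the ratio of weights -/
noncomputable def rat (S₁ S₂ : Side E) (θ : ℝ) (b₁ b₂ : E → ℝ) (c : E → ℤ) : ℝ :=
  (θ⁻¹) ^ (tcost S₁.T c + tcost S₂.T c) * Real.exp (fcost S₁.T b₁ c + fcost S₂.T b₂ c)

theorem tcost_nsmul (T : MP3.Forest E) (s : ℕ) (c : E → ℤ) : tcost T (s • c) = s * tcost T c := by
  classical
  unfold tcost
  rw [Finset.mul_sum]
  refine Finset.sum_congr rfl fun a _ => ?_
  rw [show s • c = (s : ℤ) • c by simp, bs_smul, Int.natAbs_mul, Int.natAbs_natCast]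

theorem fcost_nsmul (T : MP3.Forest E) (b : E → ℝ) (s : ℕ) (c : E → ℤ) :
    fcost T b (s • c) = s * fcost T b c := by
  classical
  unfold fcost
  rw [Finset.mul_sum]
  refine Finset.sum_congr rfl fun a _ => ?_
  rw [show s • c = (s : ℤ) • c by simp, bs_smul, Int.natAbs_mul, Int.natAbs_natCast]
  push_cast
  ring

theorem fcost_nonneg {T : MP3.Forest E} {b : E → ℝ} (hb : ∀ a, T.par a ≠ none → 0 ≤ b a)
    (c : E → ℤ) : 0 ≤ fcost T b c := by
  classical
  unfold fcost
  refine Finset.sum_nonneg fun a ha => mul_nonneg (hb a (mem_filter.1 ha).2) (Nat.cast_nonneg _)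

theorem rat_mono (h : Pair S₁ S₂ b₁ D₁ b₂ D₂ θ μ β₀) {s l : ℕ} (hsl : s ≤ l) (c : E → ℤ) :
    rat S₁ S₂ θ b₁ b₂ (s • c) ≤ rat S₁ S₂ θ b₁ b₂ (l • c) := by
  have hi : 1 ≤ θ⁻¹ := (one_le_inv₀ h.θ0).2 h.θ1
  have f1 := fcost_nonneg (T := S₁.T) (b := b₁) (fun a ha => (h.ok₁.ke a ha).b_nonneg) c
  have f2 := fcost_nonneg (T := S₂.T) (b := b₂) (fun a ha => (h.ok₂.ke a ha).b_nonneg) c
  have hsl' : (s : ℝ) ≤ l := by exact_mod_cast hsl
  unfold rat
  simp only [tcost_nsmul, fcost_nsmul]
  refine mul_le_mul (pow_le_pow_right₀ hi ?_) (Real.exp_le_exp.2 ?_) (Real.exp_pos _).le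
    (by positivity)
  · exact Nat.add_le_add (Nat.mul_le_mul_right _ hsl) (Nat.mul_le_mul_right _ hsl)
  · nlinarith


/-- comparability of the joint weight along `x`-moves -/
theorem jnu_le (h : Pair S₁ S₂ b₁ D₁ b₂ D₂ θ μ β₀) (x c : E → ℤ)
    (y : (S₁.Blk → ℤ) × (S₂.Blk → ℤ)) :
    jnu S₁ S₂ θ μ (x, y) ≤ rat S₁ S₂ θ b₁ b₂ c * jnu S₁ S₂ θ μ (x + c, y) := by
  have h1 := h.ok₁.ok.lw_le h.θ0 h.θ1 h.μ0 (x + c) (-c) y.1
  have h2 := h.ok₂.ok.lw_le h.θ0 h.θ1 h.μi (x + c) (-c) y.2
  rw [add_neg_cancel_right, tcost_neg, fcost_neg] at h1 h2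
  have p1 := h.ok₁.ok.lw_nonneg h.θ0 h.μ0 x y.1
  have p2 := h.ok₂.ok.lw_nonneg h.θ0 h.μi x y.2
  have p3 := p1.trans h1
  calc jnu S₁ S₂ θ μ (x, y)
      = S₁.lw θ μ x y.1 * S₂.lw θ (fun e => (μ e)⁻¹) x y.2 := rfl
    _ ≤ ((θ⁻¹) ^ tcost S₁.T c * Real.exp (fcost S₁.T b₁ c) * S₁.lw θ μ (x + c) y.1)
        * ((θ⁻¹) ^ tcost S₂.T c * Real.exp (fcost S₂.T b₂ c)
          * S₂.lw θ (fun e => (μ e)⁻¹) (x + c) y.2) := mul_le_mul h1 h2 p2 p3
    _ = rat S₁ S₂ θ b₁ b₂ c * jnu S₁ S₂ θ μ (x + c, y) := by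
        unfold rat jnu Joint.nu
        rw [pow_add, Real.exp_add]
        ring




/-! ### the stage -/





end Crest.Agent.R302.LInst
private theorem rz_26b7bcfd08 : type_of% @_root_.Crest.Agent.R302.LInst.lift.eq_1 := @_root_.Crest.Agent.R302.LInst.lift.eq_1 -- L49
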