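import Crest.Agent.R302.Num272B
import Crest.Agent.R302.CParNum166
import Crest.Agent.R302.Code725B

/-!
# R302, numbers (helper166): lengths, exponents and tails for the concrete parameters

* `hlen_sdA`, `hexp_sdA` : number and exponents of the directions;
* `kV_le_cPar`, `hB_cPar` : the slack exponents and the bits of a slack;
* `qE_le`, `qM_le` : the geometric ratio of the links;
* `tau_le` : the bracket of `hsm_sdA`.
-/

set_option autoImplicit false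

namespace Crest.Agent.R302.Num

open Crest.Agent.R302.Smp Crest.Agent.R302.Top Crest.Agent.R302.Cst Crest.Agent.R302.AnnBox
open Crest.Agent.R302.Prog Crest.Agent.R302.T893 Crest.Agent.R302.Inst Crest.Agent.R302.StageL
open Crest.Agent.R302.GeoSpec Crest.Agent.R302.Stage Crest.Agent.R302.Slk Crest.Agent.R302.ORAM
open Crest.Agent.R302.Conc (sdA sdOf parOf ellOf jF mA)

/-! ### exponents -/



variable {n : ℕ}



section inst

variable {R m : ℕ} {r₁ r₂ : Finset (Fin n) → ℕ} {lo hi : Fin n → ℤ} {𝒜 : AnnData n}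





end inst

/-! ### the directions -/









/-! ### the ratio of the links -/

theorem snR (s : SIn) : (sn s : ℝ) ≤ XX s := by exact_mod_cast (Nat.le_succ _).trans (sn_le s)

/-- the ratio for the estimators -/
theorem qE_le (s : SIn) :
    ((1 / 2 : ℝ) ^ (2 * ss s)) ^ 2 * (2 * 128 * (2 * (sn s : ℝ)) ^ 2) ≤ 1 / (XX s : ℝ) := by
  have hX := XX_geR s
  have hn := snR s
  have hn0 : (0 : ℝ) ≤ sn s := Nat.cast_nonneg _
  rw [half_pow]
  generalize (XX s : ℝ) = X at hX hn ⊢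
  generalize (sn s : ℝ) = k at hn hn0 ⊢
  have hX0 : 0 < X := by linarith
  have e : (1 / X ^ 2) ^ 2 * (2 * 128 * (2 * k) ^ 2) = 1024 * k ^ 2 / X ^ 4 := by
    field_simp
    ring
  rw [e, div_le_div_iff₀ (by positivity) hX0]
  have h1 : k ^ 2 ≤ X ^ 2 := pow_le_pow_left₀ hn0 hn 2
  calc 1024 * k ^ 2 * X ≤ 1024 * X ^ 2 * X := by gcongr
    _ ≤ X * X ^ 2 * X := by gcongr; linarith
    _ = 1 * X ^ 4 := by ring

/-- the ratio for the movers -/
theorem qM_le (s : SIn) :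
    ((1 / 2 : ℝ) ^ (33 * ss s)) ^ 2 * (2 * 128 * (2 * (sn s : ℝ)) ^ 2) ≤ 1 / (XX s : ℝ) ^ 63 := by
  have hX := XX_geR s
  have hn := snR s
  have hn0 : (0 : ℝ) ≤ sn s := Nat.cast_nonneg _
  rw [half_pow]
  generalize (XX s : ℝ) = X at hX hn ⊢
  generalize (sn s : ℝ) = k at hn hn0 ⊢
  have hX0 : 0 < X := by linarith
  have e : (1 / X ^ 33) ^ 2 * (2 * 128 * (2 * k) ^ 2) = 1024 * k ^ 2 / X ^ 66 := by
    field_simp
    ring
  rw [e, div_le_div_iff₀ (by positivity) (by positivity)]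
  have h1 : k ^ 2 ≤ X ^ 2 := pow_le_pow_left₀ hn0 hn 2
  calc 1024 * k ^ 2 * X ^ 63 ≤ 1024 * X ^ 2 * X ^ 63 := by gcongr
    _ ≤ X * X ^ 2 * X ^ 63 := by gcongr; linarith
    _ = 1 * X ^ 66 := by ring

/-! ### exponentially small numbers -/

/-- `exp (- y) ≤ 2 ^ (- k)` for `k ≤ y` -/
theorem exp_neg_le {y : ℝ} {k : ℕ} (h : (k : ℝ) ≤ y) : Real.exp (-y) ≤ (1 / 2) ^ k := by
  have h1 : Real.exp (-1) ≤ 1 / 2 := by
    rw [Real.exp_neg, ← one_div]
    apply one_div_le_one_div_of_le (by norm_num)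
    have := Real.add_one_le_exp (1 : ℝ)
    linarith
  calc Real.exp (-y) ≤ Real.exp (-(k : ℝ)) := Real.exp_le_exp.2 (by linarith)
    _ = Real.exp (-1) ^ k := by
        rw [← Real.exp_nat_mul]
        congr 1
        ring
    _ ≤ (1 / 2) ^ k := pow_le_pow_left₀ (Real.exp_pos _).le h1 _

/-- the bracket, generic -/
theorem tau_aux {x n : ℕ} (hx : 2 ^ 16 ≤ x) (hn : n ≤ x) {y : ℝ} (hy : (x : ℝ) ^ 2 ≤ y) :
    4 * (1 / 2 : ℝ) ^ (x ^ 4) + 4 * (n : ℝ) * (Real.exp (-y) * (9 / 4) ^ (2 * n)) ≤ 1 / 2 ^ x := by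
  have hpos : (0 : ℝ) < 2 ^ x := by positivity
  -- the first term
  have h1 : 4 * (1 / 2 : ℝ) ^ (x ^ 4) ≤ (1 / 2) ^ (x + 1) := by
    have e : (1 / 2 : ℝ) ^ (x ^ 4) ≤ (1 / 2) ^ (x + 1 + 2) := by
      apply pow_le_pow_of_le_one (by norm_num) (by norm_num)
      have : x * 2 ≤ x * x ^ 3 := Nat.mul_le_mul_left _ (by
        calc 2 ≤ x := le_trans (by norm_num) hx
          _ = x ^ 1 := (pow_one x).symm
          _ ≤ x ^ 3 := Nat.pow_le_pow_right (by omega) (by norm_num))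
      have e2 : x * x ^ 3 = x ^ 4 := by ring
      omega
    rw [pow_add _ (x + 1) 2] at e
    linarith
  -- the second term
  have h2 : Real.exp (-y) ≤ (1 / 2) ^ (x ^ 2) := exp_neg_le (by push_cast; exact hy)
  have h3 : (9 / 4 : ℝ) ^ (2 * n) ≤ 2 ^ (4 * x) := by
    calc (9 / 4 : ℝ) ^ (2 * n) ≤ 4 ^ (2 * n) := pow_le_pow_left₀ (by norm_num) (by norm_num) _
      _ = 2 ^ (4 * n) := by
          rw [show (4 : ℝ) = 2 ^ 2 by norm_num, ← pow_mul]
          congr 1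
          ring
      _ ≤ 2 ^ (4 * x) := pow_le_pow_right₀ (by norm_num) (by omega)
  have h4 : 4 * (n : ℝ) ≤ 2 ^ (x + 2) := by
    have h5 : (n : ℝ) ≤ 2 ^ x := by
      have : n < 2 ^ x := lt_of_le_of_lt hn Nat.lt_two_pow_self
      exact_mod_cast this.le
    rw [pow_add]
    linarith
  have h6 : 4 * (n : ℝ) * (Real.exp (-y) * (9 / 4) ^ (2 * n)) ≤ (1 / 2) ^ (x + 1) := by
    calc 4 * (n : ℝ) * (Real.exp (-y) * (9 / 4) ^ (2 * n))
        ≤ 2 ^ (x + 2) * ((1 / 2) ^ (x ^ 2) * 2 ^ (4 * x)) := by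
          apply mul_le_mul h4 _ (by positivity) (by positivity)
          exact mul_le_mul h2 h3 (by positivity) (by positivity)
      _ = (1 / 2) ^ (x ^ 2) * 2 ^ (5 * x + 2) := by
          rw [show 5 * x + 2 = (x + 2) + 4 * x by ring, pow_add 2 (x + 2) (4 * x)]
          ring
      _ ≤ (1 / 2) ^ ((5 * x + 2) + (x + 1)) * 2 ^ (5 * x + 2) := by
          apply mul_le_mul_of_nonneg_right _ (by positivity)
          apply pow_le_pow_of_le_one (by norm_num) (by norm_num)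
          nlinarith
      _ = (1 / 2) ^ (x + 1) := by
          rw [pow_add, mul_right_comm, ← mul_pow]
          norm_num
  have e : (1 : ℝ) / 2 ^ x = (1 / 2) ^ (x + 1) + (1 / 2) ^ (x + 1) := by
    rw [pow_succ, one_div_pow]
    ring
  rw [e]
  exact add_le_add h1 h6

theorem dk_aux {X k κ : ℝ} (hX : 65536 ≤ X) (hk0 : 0 < k) (hk : k ≤ X) (hκ0 : 0 < κ)
    (hκ : κ ≤ X ^ 9) : X ^ 2 ≤ X ^ 75 / (16 * (64 * k * κ)) := by
  rw [le_div_iff₀ (by positivity)]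
  have hX1 : (1 : ℝ) ≤ X := by linarith
  calc X ^ 2 * (16 * (64 * k * κ)) ≤ X ^ 2 * (16 * (64 * X * X ^ 9)) := by gcongr
    _ = 1024 * X ^ 12 := by ring
    _ ≤ X * X ^ 12 := by gcongr; linarith
    _ = X ^ 13 := by ring
    _ ≤ X ^ 75 := pow_le_pow_right₀ hX1 (by norm_num)

theorem dk_cast (s : SIn) : (cPar.dk s : ℝ) = (XX s : ℝ) ^ 75 := by
  have h : cPar.dk s = XX s ^ 75 := rfl
  rw [h, Nat.cast_pow]

theorem kap_pos' {n : ℕ} (hn : 0 < n) : 0 < Facet.kap n := by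
  unfold Facet.kap
  positivity

/-- the exponent of the kernel tails -/
theorem dk_div (s : SIn) (hn : 0 < sn s) :
    (XX s : ℝ) ^ 2 ≤ (cPar.dk s : ℝ) / (16 * (64 * (sn s : ℝ) * (Facet.kap (sn s) : ℝ))) := by
  have hk : (Facet.kap (sn s) : ℝ) ≤ (XX s : ℝ) ^ 9 := by
    exact_mod_cast kap_le' (XX_ge s) (sn_le s)
  have hk0 : (0 : ℝ) < Facet.kap (sn s) := by exact_mod_cast kap_pos' hn
  have hn1 : (0 : ℝ) < sn s := by exact_mod_cast hn
  rw [dk_cast]
  exact dk_aux (XX_geR s) hn1 (snR s) hk0 hk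

/-- **the bracket of `hsm_sdA`** (`j = X ^ 4`) -/
theorem tau_le (s : SIn) (hn : 0 < sn s) {δ : ℝ} :
    4 * δ + 4 * (1 / 2 : ℝ) ^ (XX s ^ 4) + 4 * (sn s : ℝ) *
        (Real.exp (-((cPar.dk s : ℝ) / (16 * (64 * (sn s : ℝ) * (Facet.kap (sn s) : ℝ))))) *
          (9 / 4) ^ (2 * sn s)) ≤ 4 * δ + 1 / 2 ^ XX s := by
  have := tau_aux (XX_ge s) ((Nat.le_succ _).trans (sn_le s)) (dk_div s hn)
  linarith

end Crest.Agent.R302.Num
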