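import Crest.Agent.R302.S1x893C
import Crest.Agent.R302.LinkInst342
import Crest.Agent.R302.Stage536C
import Crest.Agent.R302.Inst532D
import Crest.Agent.R302.StageL725B

-- ▼ part R302/S1x893D
section

/-!
R302 (helper893), block (S1x), part D: the numeric hypotheses of `S1x` in terms of
`(wt, P, G, w1, θ)`.
-/

set_option autoImplicit false
set_option linter.unusedSectionVars false
set_option linter.unusedVariables false

namespace Crest.Agent.R302.T893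

open Finset Lor
open Crest.Agent.R302.Tree (RTree)
open Crest.Agent.R302.Inst

theorem exp_sub_one_le {x : ℝ} (h0 : 0 ≤ x) (h1 : x ≤ 1 / 2) : Real.exp x - 1 ≤ 2 * x := by
  have h2 := Real.add_one_le_exp (-x)
  have h3 : Real.exp (-x) * Real.exp x = 1 := by rw [← Real.exp_add]; simp
  have h4 := Real.exp_pos x
  nlinarith

variable {E : Type*} [Fintype E] [DecidableEq E]

/-- `none` is not a descendant of a token -/
theorem fat_of_desc (T₁ T₂ : MP3.Forest E) {p q : Tok E} (hp : p ≠ none)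
    (hq : q ∈ ((tree T₁ T₂).desc p).erase p) : (tree T₁ T₂).par q ≠ none := by
  rw [Finset.mem_erase] at hq
  have h1 : (tree T₁ T₂).Desc p ((tree T₁ T₂).par q) :=
    ((RTree.mem_desc.1 hq.2).cases_ne hq.1).2
  intro h2
  rw [h2] at h1
  by_cases h3 : (none : Tok E) = p
  · exact hp h3.symm
  · exact (h1.cases_ne h3).1 rfl

/-- the half-widths of the windows -/
noncomputable def LL (G : ℝ) (wt : Tok E → ℝ) (p : Tok E) : ℝ := G * wt p

/-- the centres of the windows -/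
noncomputable def cen (T₁ T₂ : MP3.Forest E) (c₀ : E → ℤ) (p : Tok E) : ℝ := lvl T₁ T₂ p c₀

/-- `PP` of `S1x` -/
noncomputable def PPn (N : ℕ) (κ G P w1 θ : ℝ) : ℝ := N * (4 * κ * G * (P + w1 / θ) + 1) ^ 2

/-- `A0` of `S1x` -/
noncomputable def A0n (n N : ℕ) (κ G P w1 θ : ℝ) : ℝ :=
  144 * (CC N κ (PPn N κ G P w1 θ) * (2 * G * (n * N ^ 2 * P)) ^ 2) + 18 * (n * N)
    + 6 * κ ^ 3 * (CC N κ (PPn N κ G P w1 θ) * (G * w1) ^ 2)

/-- `KS` of `S1x` -/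
noncomputable def KSn (n N : ℕ) (κ G P w1 θ mx : ℝ) : ℝ :=
  n * N * (CC N κ (PPn N κ G P w1 θ) * (G * mx) ^ 2)

/-- numeric data -/
structure Nm (S₁ S₂ : Side E) (b₁ D₁ b₂ D₂ : E → ℝ) (θ : ℝ) (wt : Tok E → ℝ) (l : Tok E → ℕ)
    (P G w1 mx : ℝ) : Prop where
  P1 : 1 ≤ P
  G1 : 1 ≤ G
  w11 : 1 ≤ w1
  ge : ∀ q, w1 ≤ wt q
  thin : ∀ q, (tree S₁.T S₂.T).par q = none → wt q = w1
  le : ∀ q, wt q ≤ mx
  tb : ∀ q, (tree S₁.T S₂.T).par q ≠ none → tb S₁ S₂ θ b₁ b₂ q * wt q ≤ P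
  tD : ∀ q, (tree S₁.T S₂.T).par q ≠ none → tD S₁ S₂ θ D₁ D₂ q * wt q ^ 2 ≤ P ^ 2
  small : 45 * Fintype.card (Tok E) * P ≤ θ * w1
  l1 : ∀ q, 1 ≤ l q
  lthin : ∀ q, (tree S₁.T S₂.T).par q = none → l q = 1
  lle : ∀ q, (tree S₁.T S₂.T).par q ≠ none →
    l q * (Fintype.card E * (Fintype.card (Tok E) : ℝ) ^ 2 * P) ≤ wt q
  lge : ∀ q, (tree S₁.T S₂.T).par q ≠ none →
    wt q ≤ 2 * (l q * (Fintype.card E * (Fintype.card (Tok E) : ℝ) ^ 2 * P))

variable {S₁ S₂ : Side E} {b₁ D₁ b₂ D₂ : E → ℝ} {θ : ℝ} {μ : E → ℝ} {wt : Tok E → ℝ}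
  {l : Tok E → ℕ} {P G w1 mx : ℝ}

theorem card_tok_pos : (1 : ℝ) ≤ Fintype.card (Tok E) := by
  rw [card_tok]; push_cast
  have : (0 : ℝ) ≤ Fintype.card E := Nat.cast_nonneg _
  linarith

theorem Nm.tb_le (h : Pair S₁ S₂ b₁ D₁ b₂ D₂ θ μ 1) (hn : Nm S₁ S₂ b₁ D₁ b₂ D₂ θ wt l P G w1 mx)
    (q : Tok E) (hq : (tree S₁.T S₂.T).par q ≠ none) : Inst.tb S₁ S₂ θ b₁ b₂ q ≤ 1 / 2 := by
  have h1 := hn.tb q hq
  have h2 := hn.ge q
  have h3 := hn.small
  have h4 : (1 : ℝ) ≤ Fintype.card (Tok E) := card_tok_pos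
  have h5 := hn.P1
  have h6 := h.tb_nonneg q
  have h7 : θ * w1 ≤ w1 := by nlinarith [h.θ1, hn.w11]
  have h8 : 45 * P ≤ w1 := by nlinarith
  have h9 : Inst.tb S₁ S₂ θ b₁ b₂ q * (45 * P) ≤ P := by nlinarith
  nlinarith

theorem Nm.tB_le (h : Pair S₁ S₂ b₁ D₁ b₂ D₂ θ μ 1) (hn : Nm S₁ S₂ b₁ D₁ b₂ D₂ θ wt l P G w1 mx)
    (q : Tok E) (hq : (tree S₁.T S₂.T).par q ≠ none) :
    tB S₁ S₂ θ b₁ b₂ q ≤ 2 * Inst.tb S₁ S₂ θ b₁ b₂ q :=
  exp_sub_one_le (h.tb_nonneg q) (hn.tb_le h q hq)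

theorem Nm.tB_thin (h : Pair S₁ S₂ b₁ D₁ b₂ D₂ θ μ 1) (q : Tok E)
    (hq : (tree S₁.T S₂.T).par q = none) : tB S₁ S₂ θ b₁ b₂ q ≤ θ⁻¹ := by
  have := be_thin h q hq
  unfold be at this
  unfold tB
  linarith

/-- (N2) -/
theorem Nm.hPP (h : Pair S₁ S₂ b₁ D₁ b₂ D₂ θ μ 1) (hn : Nm S₁ S₂ b₁ D₁ b₂ D₂ θ wt l P G w1 mx) :
    ∑ q ∈ univ.erase (none : Tok E),
      (2 * kap θ 1 * tB S₁ S₂ θ b₁ b₂ q + 1 / LL G wt q) ^ 2 * LL G wt q ^ 2 ≤
      PPn (Fintype.card (Tok E)) (kap θ 1) G P w1 θ := by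
  have hκ : 1 ≤ kap θ 1 := h.kap_ge
  have hθ := h.θ0
  have hP := hn.P1
  have hG := hn.G1
  have hw := hn.w11
  have key : ∀ q ∈ univ.erase (none : Tok E),
      (2 * kap θ 1 * tB S₁ S₂ θ b₁ b₂ q + 1 / LL G wt q) ^ 2 * LL G wt q ^ 2 ≤
      (4 * kap θ 1 * G * (P + w1 / θ) + 1) ^ 2 := by
    intro q _
    have hL : 0 < LL G wt q := by
      unfold LL
      have := hn.ge q
      exact mul_pos (by linarith) (by linarith)
    have e : (2 * kap θ 1 * tB S₁ S₂ θ b₁ b₂ q + 1 / LL G wt q) ^ 2 * LL G wt q ^ 2 =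
        (2 * kap θ 1 * (tB S₁ S₂ θ b₁ b₂ q * LL G wt q) + 1) ^ 2 := by
      field_simp
    rw [e]
    have h0 : 0 ≤ tB S₁ S₂ θ b₁ b₂ q * LL G wt q := mul_nonneg (h.tB_nonneg q) hL.le
    have hb : tB S₁ S₂ θ b₁ b₂ q * LL G wt q ≤ 2 * G * (P + w1 / θ) := by
      have hwθ : 0 ≤ w1 / θ := by positivity
      by_cases hq : (tree S₁.T S₂.T).par q = none
      · have h1 := Nm.tB_thin h q hq
        have h2 : LL G wt q = G * w1 := by unfold LL; rw [hn.thin q hq]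
        rw [h2]
        calc tB S₁ S₂ θ b₁ b₂ q * (G * w1) ≤ θ⁻¹ * (G * w1) :=
              mul_le_mul_of_nonneg_right h1 (by positivity)
          _ = G * (w1 / θ) := by field_simp
          _ ≤ _ := by nlinarith [mul_nonneg (by linarith : (0 : ℝ) ≤ G) hwθ]
      · have h1 := hn.tB_le h q hq
        have h2 := hn.tb q hq
        have h3 := hn.ge q
        calc tB S₁ S₂ θ b₁ b₂ q * LL G wt q ≤ (2 * Inst.tb S₁ S₂ θ b₁ b₂ q) * LL G wt q :=
              mul_le_mul_of_nonneg_right h1 hL.le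
          _ = 2 * G * (Inst.tb S₁ S₂ θ b₁ b₂ q * wt q) := by unfold LL; ring
          _ ≤ 2 * G * P := mul_le_mul_of_nonneg_left h2 (by linarith)
          _ ≤ _ := by nlinarith [mul_nonneg (by linarith : (0 : ℝ) ≤ G) hwθ]
    refine pow_le_pow_left₀ (by positivity) ?_ 2
    have := mul_le_mul_of_nonneg_left hb (by linarith : (0 : ℝ) ≤ 2 * kap θ 1)
    linarith
  calc _ ≤ ∑ _q ∈ univ.erase (none : Tok E), (4 * kap θ 1 * G * (P + w1 / θ) + 1) ^ 2 :=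
        Finset.sum_le_sum key
    _ = ((univ.erase (none : Tok E)).card : ℝ) * (4 * kap θ 1 * G * (P + w1 / θ) + 1) ^ 2 := by
        rw [Finset.sum_const, nsmul_eq_mul]
    _ ≤ _ := by
        unfold PPn
        refine mul_le_mul_of_nonneg_right ?_ (sq_nonneg _)
        exact_mod_cast (Finset.card_le_card (Finset.erase_subset _ _)).trans
          (le_of_eq Finset.card_univ)

theorem kap_one_le (hθ : 0 < θ) : 204 * kap θ 1 * θ ^ 2 ≤ 45 ^ 2 := by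
  unfold kap
  have h1 := Real.exp_one_lt_d9
  have h2 := Real.exp_pos 1
  have e : 204 * (θ⁻¹ * Real.exp 1) ^ 2 * θ ^ 2 = 204 * Real.exp 1 ^ 2 := by
    field_simp
  rw [e]
  nlinarith

/-- (N3) -/
theorem Nm.hsL (h : Pair S₁ S₂ b₁ D₁ b₂ D₂ θ μ 1) (hn : Nm S₁ S₂ b₁ D₁ b₂ D₂ θ wt l P G w1 mx)
    (p : Tok E) (hp : p ≠ none) :
    6 * (Fintype.card (Tok E) * ∑ q ∈ ((tree S₁.T S₂.T).desc p).erase p,
        ts S₁ S₂ θ b₁ b₂ D₁ D₂ 1 q * LL G wt q ^ 2) ≤ LL G wt p ^ 2 := by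
  set N : ℝ := ((Fintype.card (Tok E) : ℕ) : ℝ) with hN
  have hN1 : 1 ≤ N := card_tok_pos
  have hκ : 1 ≤ kap θ 1 := h.kap_ge
  have hθ := h.θ0
  have hP := hn.P1
  have hG := hn.G1
  have hw := hn.w11
  have key : ∀ q ∈ ((tree S₁.T S₂.T).desc p).erase p,
      ts S₁ S₂ θ b₁ b₂ D₁ D₂ 1 q * LL G wt q ^ 2 ≤ 34 * P ^ 2 * kap θ 1 * G ^ 2 := by
    intro q hq
    have hf := fat_of_desc _ _ hp hq
    set B := tB S₁ S₂ θ b₁ b₂ q with hB
    set t := Inst.tb S₁ S₂ θ b₁ b₂ q with ht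
    set d := Inst.tD S₁ S₂ θ D₁ D₂ q with hd
    have hB0 : 0 ≤ B := h.tB_nonneg q
    have ht0 : 0 ≤ t := h.tb_nonneg q
    have hd0 : 0 ≤ d := h.tD_nonneg q
    have hBt : B ≤ 2 * t := hn.tB_le h q hf
    have ht2 : t ≤ 1 / 2 := hn.tb_le h q hf
    have htw : t * wt q ≤ P := hn.tb q hf
    have hdw : d * wt q ^ 2 ≤ P ^ 2 := hn.tD q hf
    have hwq : 0 ≤ wt q := by linarith [hn.ge q]
    have e : ts S₁ S₂ θ b₁ b₂ D₁ D₂ 1 q * LL G wt q ^ 2 =
        (d * (1 + B) * wt q ^ 2 + 2 * (B * (1 + B) * wt q) ^ 2) * kap θ 1 * G ^ 2 := by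
      unfold ts LL
      rw [← hB, ← hd]
      ring
    rw [e]
    have h1 : d * (1 + B) * wt q ^ 2 ≤ 2 * P ^ 2 := by
      have : d * (1 + B) * wt q ^ 2 = (1 + B) * (d * wt q ^ 2) := by ring
      rw [this]
      have h2 : 0 ≤ d * wt q ^ 2 := by positivity
      nlinarith
    have h2 : B * (1 + B) * wt q ≤ 4 * P := by
      calc B * (1 + B) * wt q ≤ (2 * t) * 2 * wt q := by
            refine mul_le_mul_of_nonneg_right ?_ hwq
            refine mul_le_mul hBt (by linarith) (by linarith) (by linarith)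
        _ = 4 * (t * wt q) := by ring
        _ ≤ 4 * P := by linarith
    have h3 : (B * (1 + B) * wt q) ^ 2 ≤ (4 * P) ^ 2 :=
      pow_le_pow_left₀ (by positivity) h2 2
    have h4 : d * (1 + B) * wt q ^ 2 + 2 * (B * (1 + B) * wt q) ^ 2 ≤ 34 * P ^ 2 := by nlinarith
    refine mul_le_mul_of_nonneg_right (mul_le_mul_of_nonneg_right h4 (by linarith)) (sq_nonneg _)
  have hsum : ∑ q ∈ ((tree S₁.T S₂.T).desc p).erase p,
      ts S₁ S₂ θ b₁ b₂ D₁ D₂ 1 q * LL G wt q ^ 2 ≤ N * (34 * P ^ 2 * kap θ 1 * G ^ 2) := by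
    refine (Finset.sum_le_sum key).trans ?_
    rw [Finset.sum_const, nsmul_eq_mul]
    refine mul_le_mul_of_nonneg_right ?_ (by positivity)
    rw [hN]
    exact_mod_cast Finset.card_le_univ _
  have h5 := hn.small
  rw [← hN] at h5
  have h6 : (45 * N * P) ^ 2 ≤ (θ * w1) ^ 2 := pow_le_pow_left₀ (by positivity) h5 2
  have h7 := kap_one_le hθ
  have hNP : 0 ≤ N ^ 2 * P ^ 2 := by positivity
  have h8 : 204 * kap θ 1 * (N ^ 2 * P ^ 2) ≤ w1 ^ 2 := by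
    have h9 : θ ^ 2 * (204 * kap θ 1 * (N ^ 2 * P ^ 2)) ≤ θ ^ 2 * w1 ^ 2 := by
      calc θ ^ 2 * (204 * kap θ 1 * (N ^ 2 * P ^ 2))
          = (204 * kap θ 1 * θ ^ 2) * (N ^ 2 * P ^ 2) := by ring
        _ ≤ 45 ^ 2 * (N ^ 2 * P ^ 2) := mul_le_mul_of_nonneg_right h7 hNP
        _ = (45 * N * P) ^ 2 := by ring
        _ ≤ (θ * w1) ^ 2 := h6
        _ = _ := by ring
    exact le_of_mul_le_mul_left h9 (by positivity)
  have h10 : w1 ^ 2 ≤ wt p ^ 2 := pow_le_pow_left₀ (by linarith) (hn.ge p) 2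
  calc 6 * (N * ∑ q ∈ ((tree S₁.T S₂.T).desc p).erase p,
        ts S₁ S₂ θ b₁ b₂ D₁ D₂ 1 q * LL G wt q ^ 2)
      ≤ 6 * (N * (N * (34 * P ^ 2 * kap θ 1 * G ^ 2))) := by
        refine mul_le_mul_of_nonneg_left (mul_le_mul_of_nonneg_left hsum (by linarith)) (by norm_num)
    _ = (204 * kap θ 1 * (N ^ 2 * P ^ 2)) * G ^ 2 := by ring
    _ ≤ wt p ^ 2 * G ^ 2 := mul_le_mul_of_nonneg_right (h8.trans h10) (sq_nonneg _)
    _ = _ := by unfold LL; ring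

/-- (N4) -/
theorem Nm.hls (h : Pair S₁ S₂ b₁ D₁ b₂ D₂ θ μ 1) (hn : Nm S₁ S₂ b₁ D₁ b₂ D₂ θ wt l P G w1 mx) :
    (Fintype.card E * Fintype.card (Tok E) : ℝ) *
      ∑ p ∈ univ.filter (fun p => (tree S₁.T S₂.T).par p ≠ none),
        Inst.tb S₁ S₂ θ b₁ b₂ p * l p ≤ 1 := by
  set N : ℝ := ((Fintype.card (Tok E) : ℕ) : ℝ) with hN
  set n : ℝ := ((Fintype.card E : ℕ) : ℝ) with hnn
  have hN1 : 1 ≤ N := card_tok_pos
  have hn0 : 0 ≤ n := Nat.cast_nonneg _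
  have hP := hn.P1
  rw [Finset.mul_sum]
  have key : ∀ p ∈ univ.filter (fun p => (tree S₁.T S₂.T).par p ≠ none),
      n * N * (Inst.tb S₁ S₂ θ b₁ b₂ p * l p) ≤ 1 / N := by
    intro p hp
    have hf := (Finset.mem_filter.1 hp).2
    have h1 := hn.tb p hf
    have h2 := hn.lle p hf
    rw [← hN, ← hnn] at h2
    have h3 := h.tb_nonneg p
    have h4 : Inst.tb S₁ S₂ θ b₁ b₂ p * (l p * (n * N ^ 2 * P)) ≤ P :=
      (mul_le_mul_of_nonneg_left h2 h3).trans h1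
    have h5 : (n * N * (Inst.tb S₁ S₂ θ b₁ b₂ p * l p)) * N * P ≤ 1 * P := by
      calc _ = Inst.tb S₁ S₂ θ b₁ b₂ p * (l p * (n * N ^ 2 * P)) := by ring
        _ ≤ P := h4
        _ = 1 * P := by ring
    have h6 := le_of_mul_le_mul_right h5 (by linarith)
    rw [le_div_iff₀ (by linarith)]
    exact h6
  calc _ ≤ ∑ _p ∈ univ.filter (fun p : Tok E => (tree S₁.T S₂.T).par p ≠ none), 1 / N :=
        Finset.sum_le_sum key
    _ = ((univ.filter (fun p : Tok E => (tree S₁.T S₂.T).par p ≠ none)).card : ℝ) * (1 / N) := by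
        rw [Finset.sum_const, nsmul_eq_mul]
    _ ≤ N * (1 / N) := by
        refine mul_le_mul_of_nonneg_right ?_ (by positivity)
        rw [hN]
        exact_mod_cast Finset.card_le_univ _
    _ = 1 := by field_simp

/-- entries of the basic exchange vectors -/
theorem dq_abs (T : MP3.Forest E) (a e : E) : |dq T a e| ≤ 1 := by
  unfold dq
  rcases h : T.par a with _ | b
  · simp only [ev, Pi.single_apply]
    split_ifs <;> norm_num
  · have hne : a ≠ b := by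
      rintro rfl
      exact absurd (T.dep_lt _ _ h) (lt_irrefl _)
    simp only [Pi.sub_apply, ev, Pi.single_apply]
    by_cases h1 : e = a
    · subst h1
      rw [if_pos rfl, if_neg hne]; norm_num
    · rw [if_neg h1]
      split_ifs <;> norm_num

/-- the coordinates are controlled by the levels of side 1 -/
theorem coord_le (T : MP3.Forest E) (y c₀ : E → ℤ) (e : E) :
    |(y e : ℝ) - c₀ e| ≤ ∑ a, |(bs T y a : ℝ) - bs T c₀ a| := by
  have h1 := congrFun (eq_sum_dq T (y - c₀)) e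
  have h2 : ((y e : ℝ) - c₀ e) = ∑ a, ((bs T y a : ℝ) - bs T c₀ a) * (dq T a e : ℝ) := by
    have h3 : ((y e - c₀ e : ℤ) : ℝ) = ((∑ a, (bs T y a - bs T c₀ a) * dq T a e : ℤ) : ℝ) := by
      congr 1
      rw [Pi.sub_apply] at h1
      rw [h1, Finset.sum_apply]
      refine Finset.sum_congr rfl fun a _ => ?_
      rw [Pi.smul_apply, smul_eq_mul, bs_sub]
    push_cast at h3
    exact h3
  rw [h2]
  refine (Finset.abs_sum_le_sum_abs _ _).trans (Finset.sum_le_sum fun a _ => ?_)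
  rw [abs_mul]
  have h4 : |(dq T a e : ℝ)| ≤ 1 := by
    have := dq_abs T a e
    exact_mod_cast this
  calc _ ≤ |(bs T y a : ℝ) - bs T c₀ a| * 1 := mul_le_mul_of_nonneg_left h4 (abs_nonneg _)
    _ = _ := mul_one _

/-- (N8) -/
theorem Nm.hwin (hn : Nm S₁ S₂ b₁ D₁ b₂ D₂ θ wt l P G w1 mx) (c₀ : E → ℤ) {M lm : ℕ}
    (hM : Fintype.card E * (G * mx) + 2 * lm ≤ M) (y : E → ℤ)
    (hy : ∀ p : Tok E, p ≠ none →
      |lvl S₁.T S₂.T p y - cen S₁.T S₂.T c₀ p| ≤ LL G wt p - 2) (e : E) :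
    (c₀ e - M) + 2 * lm ≤ y e ∧ y e + 2 * lm ≤ (c₀ e - M) + (2 * M : ℕ) := by
  have h1 := coord_le S₁.T y c₀ e
  have hG := hn.G1
  have h2 : ∑ a, |(bs S₁.T y a : ℝ) - bs S₁.T c₀ a| ≤ Fintype.card E * (G * mx) := by
    calc _ ≤ ∑ _a : E, G * mx := by
          refine Finset.sum_le_sum fun a _ => ?_
          have h3 := hy (tX a) (by simp [tX])
          have h4 : LL G wt (tX a) ≤ G * mx :=
            mul_le_mul_of_nonneg_left (hn.le _) (by linarith)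
          have h5 : |(bs S₁.T y a : ℝ) - bs S₁.T c₀ a| =
              |lvl S₁.T S₂.T (tX a) y - cen S₁.T S₂.T c₀ (tX a)| := rfl
          rw [h5]
          linarith
      _ = _ := by rw [Finset.sum_const, Finset.card_univ, nsmul_eq_mul]
  have h6 : |(y e : ℝ) - c₀ e| ≤ M - 2 * lm := by linarith
  rw [abs_le] at h6
  have h7 : ((c₀ e - M + 2 * lm : ℤ) : ℝ) ≤ ((y e : ℤ) : ℝ) := by push_cast; linarith [h6.1]
  have h8 : ((y e + 2 * lm : ℤ) : ℝ) ≤ (((c₀ e - M) + (2 * M : ℕ) : ℤ) : ℝ) := by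
    push_cast; linarith [h6.2]
  constructor
  · exact_mod_cast h7
  · exact_mod_cast h8

/-- **(S1x) with numbers** -/
theorem S1x_num {r₁ r₂ : Finset E → ℤ} {RR : ℤ} {ω₁ ω₂ : E → ℤ → ℝ}
    (h : Pair S₁ S₂ b₁ D₁ b₂ D₂ θ μ 1)
    (hAF : ∀ d, AF (fun p q => FF S₁ S₂ θ μ 0 (d + ev p + ev q)))
    (hn : Nm S₁ S₂ b₁ D₁ b₂ D₂ θ wt l P G w1 mx)
    {order : List E} (hnd : order.Nodup) (hall : ∀ e, e ∈ order)
    {R : E → Tok E → E → ℤ} {b' : Tok E → ℝ}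
    (hRep : Rep (tree S₁.T S₂.T) tX tY b' order R)
    (hmono : ∀ p q, (tree S₁.T S₂.T).par p ≠ none → q ≠ none → b' q ≤ b' p →
      Inst.tb S₁ S₂ θ b₁ b₂ q ≤ Inst.tb S₁ S₂ θ b₁ b₂ p)
    (c₀ : E → ℤ) (M : ℕ) {lm : ℕ} (hlm : ∀ p, l p ≤ lm)
    (hM : Fintype.card E * (G * mx) + 2 * lm ≤ M)
    (f : (E → ℤ) → ℝ) {A : ℝ} (hf : ∀ y, |f y| ≤ A) :
    Macro.vr (Fintype.piFinset fun e => Icc (c₀ e - M) (c₀ e + M)) (ww S₁ S₂ θ μ) f ≤
      A0n (Fintype.card E) (Fintype.card (Tok E)) (kap θ 1) G P w1 θ *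
        ∑ i, ∑ p ∈ univ.erase (none : Tok E),
          Macro.aDm (Fintype.piFinset fun e => Icc (c₀ e - M) (c₀ e + M)) (ww S₁ S₂ θ μ)
            (cdir (tree S₁.T S₂.T) R i p) (l p) f
      + CD (Fintype.card E) (Fintype.card (Tok E)) (2 * M) (kap θ 1)
          (KSn (Fintype.card E) (Fintype.card (Tok E)) (kap θ 1) G P w1 θ mx) * A ^ 2 *
        badm S₁.T S₂.T (LL G wt) (cen S₁.T S₂.T c₀) (ww S₁ S₂ θ μ)
          (Fintype.piFinset fun e => Icc (c₀ e - M - 1) (c₀ e + M + 1)) := by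
  have hκ : 1 ≤ kap θ 1 := h.kap_ge
  have hP := hn.P1
  have hG := hn.G1
  have hw := hn.w11
  have hθ := h.θ0
  have hPP0 : 0 ≤ PPn (Fintype.card (Tok E)) (kap θ 1) G P w1 θ := by
    unfold PPn; positivity
  have hCC : 0 ≤ CC (Fintype.card (Tok E)) (kap θ 1)
      (PPn (Fintype.card (Tok E)) (kap θ 1) G P w1 θ) := CC_nonneg hκ hPP0
  have hL1 : ∀ p, 1 ≤ LL G wt p := by
    intro p
    unfold LL
    have := hn.ge p
    nlinarith
  refine S1x (c := cen S₁.T S₂.T c₀) h hAF hL1 (hn.hPP h) (hn.hsL h) hnd hall hRep hmono hn.l1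
    hn.lthin (hn.hls h) (fun e => c₀ e - M) (2 * M) _ _ ?_ ?_ hlm
    (fun y hy e => hn.hwin c₀ hM y hy e) ?_ ?_ ?_ f hf
  · congr 1
    ext e z
    rw [Finset.mem_Icc, Finset.mem_Icc]
    push_cast
    constructor <;> intro hh <;> constructor <;> linarith [hh.1, hh.2]
  · congr 1
    ext e z
    rw [Finset.mem_Icc, Finset.mem_Icc]
    push_cast
    constructor <;> intro hh <;> constructor <;> linarith [hh.1, hh.2]
  · intro p hp
    have h1 := hn.lge p hp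
    have hl : (1 : ℝ) ≤ l p := by exact_mod_cast hn.l1 p
    have h2 : LL G wt p / l p ≤
        2 * G * (Fintype.card E * (Fintype.card (Tok E) : ℝ) ^ 2 * P) := by
      rw [div_le_iff₀ (by linarith)]
      unfold LL
      calc G * wt p ≤ G * (2 * (l p * (Fintype.card E * (Fintype.card (Tok E) : ℝ) ^ 2 * P))) :=
            mul_le_mul_of_nonneg_left h1 (by linarith)
        _ = _ := by ring
    have h3 : (LL G wt p / l p) ^ 2 ≤
        (2 * G * (Fintype.card E * (Fintype.card (Tok E) : ℝ) ^ 2 * P)) ^ 2 :=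
      pow_le_pow_left₀ (div_nonneg (by linarith [hL1 p]) (by linarith)) h2 2
    unfold A0n
    have h4 := mul_le_mul_of_nonneg_left h3 hCC
    rw [div_pow] at h4
    have h5 : 0 ≤ 6 * kap θ 1 ^ 3 * (CC (Fintype.card (Tok E)) (kap θ 1)
      (PPn (Fintype.card (Tok E)) (kap θ 1) G P w1 θ) * (G * w1) ^ 2) := by positivity
    rw [mul_div_assoc]
    linarith
  · intro p hp0 hp
    have h1 : LL G wt p = G * w1 := by unfold LL; rw [hn.thin p hp]
    rw [h1]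
    unfold A0n
    have h5 : 0 ≤ 144 * (CC (Fintype.card (Tok E)) (kap θ 1)
      (PPn (Fintype.card (Tok E)) (kap θ 1) G P w1 θ) *
      (2 * G * (Fintype.card E * (Fintype.card (Tok E) : ℝ) ^ 2 * P)) ^ 2) := by positivity
    have h6 : (0 : ℝ) ≤ 18 * (Fintype.card E * Fintype.card (Tok E)) := by positivity
    linarith
  · unfold KSn
    have h1 : ∀ p ∈ univ.erase (none : Tok E), CC (Fintype.card (Tok E)) (kap θ 1)
      (PPn (Fintype.card (Tok E)) (kap θ 1) G P w1 θ) * LL G wt p ^ 2 ≤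
      CC (Fintype.card (Tok E)) (kap θ 1)
      (PPn (Fintype.card (Tok E)) (kap θ 1) G P w1 θ) * (G * mx) ^ 2 := by
      intro p _
      refine mul_le_mul_of_nonneg_left ?_ hCC
      refine pow_le_pow_left₀ (by linarith [hL1 p]) ?_ 2
      exact mul_le_mul_of_nonneg_left (hn.le p) (by linarith)
    have h2 := Finset.sum_le_sum h1
    rw [Finset.sum_const, nsmul_eq_mul] at h2
    have h3 : ((univ.erase (none : Tok E)).card : ℝ) ≤ Fintype.card (Tok E) := by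
      exact_mod_cast (Finset.card_le_card (Finset.erase_subset _ _)).trans
        (le_of_eq Finset.card_univ)
    rw [Finset.sum_const, Finset.card_univ, nsmul_eq_mul, mul_assoc]
    refine mul_le_mul_of_nonneg_left (h2.trans ?_) (Nat.cast_nonneg _)
    exact mul_le_mul_of_nonneg_right h3 (by positivity)

end Crest.Agent.R302.T893
end

-- ▼ part R302/S1Full893
section

/-!
R302 (helper893): block (S1), full composition: Poincare inequality with defect for the joint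
weight `nuG` of one stage (`Stage.SD.stage_poinc` of helper536) from (S1x), helper342's link
inequality and helper532's names.
-/

set_option autoImplicit false
set_option linter.unusedSectionVars false
set_option linter.unusedVariables false

namespace Crest.Agent.R302.T893

open Finset Lor
open Crest.Agent.R302.Tree (RTree)
open Crest.Agent.R302.Inst Crest.Agent.R302.Stage Crest.Agent.R302.Macro
open Crest.Agent.R302.Inst.Side (Gauge tcost fcost tcost_neg fcost_neg)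

variable {E : Type*} [Fintype E] [DecidableEq E]

/-! ### block sums of a direction from its route -/

/-- cut sums of an exchange vector -/
theorem cut_xch {V : Type*} [Fintype V] [DecidableEq V] (T : RTree V) (lam : V → ℤ)
    (hlam : lam T.root = 0) {p : V} (hp : p ≠ T.root) :
    ∑ v ∈ T.desc p, xch T lam v = lam p := by
  unfold xch
  rw [Finset.sum_comm]
  rw [Finset.sum_eq_single p]
  · rw [← Finset.mul_sum, Finset.sum_sub_distrib]
    have h1 : ∑ v ∈ T.desc p, ev p v = 1 := by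
      simp only [ev, Pi.single_apply]
      rw [Finset.sum_ite_eq' (T.desc p) p (fun _ => (1 : ℤ)), if_pos (RTree.self_mem_desc p)]
    have h2 : ∑ v ∈ T.desc p, ev (T.par p) v = 0 := by
      simp only [ev, Pi.single_apply]
      rw [Finset.sum_ite_eq' (T.desc p) (T.par p) (fun _ => (1 : ℤ)), if_neg]
      intro h3
      have h4 := (RTree.mem_desc.1 h3).dep_le
      have h5 := T.dep_lt p hp
      omega
    rw [h1, h2]; ring
  · intro q _ hq
    by_cases hqr : q = T.root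
    · rw [hqr, hlam]; simp
    · rw [← Finset.mul_sum, Finset.sum_sub_distrib]
      have h1 : ∑ v ∈ T.desc p, ev q v = if q ∈ T.desc p then (1 : ℤ) else 0 := by
        simp only [ev, Pi.single_apply]
        rw [Finset.sum_ite_eq' (T.desc p) q (fun _ => (1 : ℤ))]
      have h2 : ∑ v ∈ T.desc p, ev (T.par q) v = if T.par q ∈ T.desc p then (1 : ℤ) else 0 := by
        simp only [ev, Pi.single_apply]
        rw [Finset.sum_ite_eq' (T.desc p) (T.par q) (fun _ => (1 : ℤ))]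
      rw [h1, h2]
      have h3 : q ∈ T.desc p ↔ T.par q ∈ T.desc p :=
        ⟨fun h => RTree.mem_desc_par h hq, fun h => RTree.mem_desc_of_par hqr h⟩
      simp only [h3, sub_self, mul_zero]
  · intro h; exact absurd (Finset.mem_univ _) h

theorem disp_tX (c : E → ℤ) (e : E) : disp tX tY c (tX e) = c e := by
  unfold disp
  rw [Finset.sum_eq_single e]
  · simp [ev, tX, tY]
  · intro k _ hk
    have h1 : (tX e : Tok E) ≠ tX k := fun h => hk (tX_inj h).symm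
    have h2 : (tX e : Tok E) ≠ tY k := tX_ne_tY e k
    simp only [ev, Pi.single_apply, if_neg h1, if_neg h2, sub_zero, mul_zero]
  · intro h; exact absurd (Finset.mem_univ _) h

theorem disp_tY (c : E → ℤ) (e : E) : disp tX tY c (tY e) = -c e := by
  unfold disp
  rw [Finset.sum_eq_single e]
  · simp [ev, tX, tY]
  · intro k _ hk
    have h1 : (tY e : Tok E) ≠ tY k := fun h => hk (tY_inj h).symm
    have h2 : (tY e : Tok E) ≠ tX k := fun h => tX_ne_tY k e h.symm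
    simp only [ev, Pi.single_apply, if_neg h1, if_neg h2, sub_zero, mul_zero]
  · intro h; exact absurd (Finset.mem_univ _) h

theorem lam_tX (T₁ T₂ : MP3.Forest E) (c : E → ℤ) (lam : Tok E → ℤ) (hlam : lam none = 0)
    (hr : ∀ v, disp tX tY c v = xch (tree T₁ T₂) lam v) (e : E) : lam (tX e) = bs T₁ c e := by
  rw [← cut_xch (tree T₁ T₂) lam hlam (p := tX e) (by simp [tX, tree]), desc_tX, Finset.sum_map]
  unfold bs
  refine Finset.sum_congr rfl fun b _ => ?_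
  rw [← hr]
  exact disp_tX c b

theorem lam_tY (T₁ T₂ : MP3.Forest E) (c : E → ℤ) (lam : Tok E → ℤ) (hlam : lam none = 0)
    (hr : ∀ v, disp tX tY c v = xch (tree T₁ T₂) lam v) (e : E) : lam (tY e) = -bs T₂ c e := by
  rw [← cut_xch (tree T₁ T₂) lam hlam (p := tY e) (by simp [tY, tree]), desc_tY, Finset.sum_map]
  unfold bs
  rw [← Finset.sum_neg_distrib]
  refine Finset.sum_congr rfl fun b _ => ?_
  rw [← hr]
  exact disp_tY c b

theorem prod_tok' (f : Tok E → ℝ) : ∏ p, f p = f none * ((∏ e, f (tX e)) * ∏ e, f (tY e)) := by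
  rw [Fintype.prod_option, Fintype.prod_sum_type]
  rfl

theorem side_rat (S : Side E) {θ : ℝ} (h0 : 0 < θ) (b : E → ℝ) (c : E → ℤ) :
    (θ⁻¹) ^ tcost S.T c * Real.exp (fcost S.T b c)
      = ∏ a, Real.exp (S.bb θ b a * ((bs S.T c a).natAbs : ℝ)) := by
  classical
  unfold tcost fcost Side.bb
  rw [Real.exp_sum, ← Finset.prod_pow_eq_pow_sum, Finset.prod_filter, Finset.prod_filter,
    ← Finset.prod_mul_distrib]
  refine Finset.prod_congr rfl fun a _ => ?_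
  by_cases ha : S.T.par a = none
  · simp only [ha, if_true, ne_eq, not_true_eq_false, if_false, mul_one]
    rw [mul_comm (-Real.log θ), Real.exp_nat_mul, Real.exp_neg, Real.exp_log h0]
  · simp [ha]

/-- helper342's ratio is the product of the slopes along the route -/
theorem rat_eq {S₁ S₂ : Side E} {θ : ℝ} (h0 : 0 < θ) {b₁ b₂ : E → ℝ} (c : E → ℤ)
    (lam : Tok E → ℤ) (hlam : lam none = 0)
    (hr : ∀ v, disp tX tY c v = xch (tree S₁.T S₂.T) lam v) :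
    LInst.rat S₁ S₂ θ b₁ b₂ c = ∏ q, be S₁ S₂ θ b₁ b₂ q ^ (lam q).natAbs := by
  classical
  rw [prod_tok', hlam, Int.natAbs_zero, pow_zero, one_mul]
  unfold LInst.rat
  have e1 : ∏ e, be S₁ S₂ θ b₁ b₂ (tX e) ^ (lam (tX e)).natAbs =
      ∏ a, Real.exp (S₁.bb θ b₁ a * ((bs S₁.T c a).natAbs : ℝ)) := by
    refine Finset.prod_congr rfl fun a _ => ?_
    rw [lam_tX S₁.T S₂.T c lam hlam hr a]
    unfold be
    rw [← Real.exp_nat_mul, mul_comm]
    rfl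
  have e2 : ∏ e, be S₁ S₂ θ b₁ b₂ (tY e) ^ (lam (tY e)).natAbs =
      ∏ a, Real.exp (S₂.bb θ b₂ a * ((bs S₂.T c a).natAbs : ℝ)) := by
    refine Finset.prod_congr rfl fun a _ => ?_
    rw [lam_tY S₁.T S₂.T c lam hlam hr a, Int.natAbs_neg]
    unfold be
    rw [← Real.exp_nat_mul, mul_comm]
    rfl
  rw [e1, e2, ← side_rat S₁ h0, ← side_rat S₂ h0, pow_add, Real.exp_add]
  ring

section Ratio

variable {S₁ S₂ : Side E} {b₁ D₁ b₂ D₂ : E → ℝ} {θ : ℝ} {μ : E → ℝ} {β₀ : ℝ}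
  {order : List E} {R : E → Tok E → E → ℤ} {b' : Tok E → ℝ}

theorem rat_nsmul (c : E → ℤ) (s : ℕ) :
    LInst.rat S₁ S₂ θ b₁ b₂ (s • c) = LInst.rat S₁ S₂ θ b₁ b₂ c ^ s := by
  unfold LInst.rat
  rw [LInst.tcost_nsmul, LInst.tcost_nsmul, LInst.fcost_nsmul, LInst.fcost_nsmul, mul_pow,
    ← pow_mul, ← Real.exp_nat_mul]
  congr 1
  · congr 1; ring
  · congr 1; ring

theorem rat_zero : LInst.rat S₁ S₂ θ b₁ b₂ (0 : E → ℤ) = 1 := by
  have := rat_nsmul (S₁ := S₁) (S₂ := S₂) (θ := θ) (b₁ := b₁) (b₂ := b₂) (0 : E → ℤ) 0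
  simpa using this

/-- ratio bound along a fat move -/
theorem rat_fat (h : Pair S₁ S₂ b₁ D₁ b₂ D₂ θ μ β₀)
    (hRep : Rep (tree S₁.T S₂.T) tX tY b' order R) (i : E) (p : Tok E) (hp : p ≠ none)
    (hmono : ∀ q, q ≠ none → b' q ≤ b' p → tb S₁ S₂ θ b₁ b₂ q ≤ tb S₁ S₂ θ b₁ b₂ p) (s : ℕ) :
    LInst.rat S₁ S₂ θ b₁ b₂ (s • cdir (tree S₁.T S₂.T) R i p) ≤
      Real.exp (Fintype.card (Tok E) * tb S₁ S₂ θ b₁ b₂ p * s) := by
  have ht := h.tb_nonneg p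
  rcases hRep.edge i p hp with h1 | ⟨lam, l1, l2, l3⟩
  · have e : cdir (tree S₁.T S₂.T) R i p = 0 := by unfold cdir; rw [h1, sub_self]
    rw [e, smul_zero, rat_zero]
    exact Real.one_le_exp (by positivity)
  · have hl0 : lam none = 0 := by
      by_contra hne
      exact (l2 _ hne).1 rfl
    rw [rat_nsmul, rat_eq h.θ0 (cdir (tree S₁.T S₂.T) R i p) lam hl0 l3]
    have h3 : ∏ q, be S₁ S₂ θ b₁ b₂ q ^ (lam q).natAbs ≤
        Real.exp (tb S₁ S₂ θ b₁ b₂ p) ^ Fintype.card (Tok E) := by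
      rw [← Finset.card_univ, ← Finset.prod_const]
      refine Finset.prod_le_prod (fun q _ => pow_nonneg (by linarith [be_ge h q]) _) fun q _ => ?_
      by_cases hq : lam q = 0
      · rw [hq, Int.natAbs_zero, pow_zero]
        exact Real.one_le_exp ht
      · have hn1 : (lam q).natAbs ≤ 1 := by
          have := l1 q
          rw [← Int.natCast_natAbs] at this
          exact_mod_cast this
        calc be S₁ S₂ θ b₁ b₂ q ^ (lam q).natAbs ≤ be S₁ S₂ θ b₁ b₂ q ^ 1 :=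
              pow_le_pow_right₀ (be_ge h q) hn1
          _ = be S₁ S₂ θ b₁ b₂ q := pow_one _
          _ ≤ _ := Real.exp_le_exp.2 (hmono q (l2 q hq).1 (l2 q hq).2)
    calc (∏ q, be S₁ S₂ θ b₁ b₂ q ^ (lam q).natAbs) ^ s
        ≤ (Real.exp (tb S₁ S₂ θ b₁ b₂ p) ^ Fintype.card (Tok E)) ^ s :=
          pow_le_pow_left₀ (Finset.prod_nonneg fun q _ => pow_nonneg (by linarith [be_ge h q]) _)
            h3 s
      _ = _ := by
          rw [← Real.exp_nat_mul, ← Real.exp_nat_mul]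
          congr 1
          ring

/-- ratio bound along any move -/
theorem rat_any (h : Pair S₁ S₂ b₁ D₁ b₂ D₂ θ μ β₀)
    (hRep : Rep (tree S₁.T S₂.T) tX tY b' order R) (i : E) (p : Tok E) (hp : p ≠ none) :
    LInst.rat S₁ S₂ θ b₁ b₂ (cdir (tree S₁.T S₂.T) R i p) ≤ kap θ β₀ ^ 3 := by
  have hθ1 : 1 ≤ θ⁻¹ := (one_le_inv₀ h.θ0).2 h.θ1
  have hk := h.kap_ge
  obtain ⟨mu, m1, m2, m3, m4⟩ := hRep.route i p
  obtain ⟨nu, n1, n2, n3, n4⟩ := hRep.route i ((tree S₁.T S₂.T).par p)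
  set lam : Tok E → ℤ := Pi.single p 1 - (mu - nu) with hlamdef
  have hkap : Real.exp β₀ ^ 2 * θ⁻¹ ^ 2 = kap θ β₀ := by unfold kap; ring
  have hmu := prod_route_le (tree S₁.T S₂.T) (be_ge h) (be_thin h) hθ1 (be_fat h) mu m1 m3
  have hnu := prod_route_le (tree S₁.T S₂.T) (be_ge h) (be_thin h) hθ1 (be_fat h) nu n1 n3
  have hsg := prod_route_le (tree S₁.T S₂.T) (be_ge h) (be_thin h) hθ1 (be_fat h)
    (Pi.single p 1 : Tok E → ℤ) (fun q => by
      by_cases hq : q = p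
      · subst hq; simp
      · rw [Pi.single_eq_of_ne hq]; norm_num) (by
      have : ∑ q ∈ univ.filter (fun q => (tree S₁.T S₂.T).par q = (tree S₁.T S₂.T).root),
          |(Pi.single p 1 : Tok E → ℤ) q| ≤ ∑ q, |(Pi.single p 1 : Tok E → ℤ) q| :=
        Finset.sum_le_sum_of_subset_of_nonneg (Finset.subset_univ _) fun _ _ _ => abs_nonneg _
      refine this.trans ?_
      rw [Finset.sum_eq_single p]
      · simp
      · intro q _ hq; rw [Pi.single_eq_of_ne hq]; simp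
      · intro h; exact absurd (Finset.mem_univ _) h)
  rw [hkap] at hmu hnu hsg
  have hroot : (tree S₁.T S₂.T).root = none := rfl
  have hl0 : lam none = 0 := by
    rw [hlamdef, Pi.sub_apply, Pi.sub_apply, Pi.single_eq_of_ne (Ne.symm hp)]
    rw [hroot] at m2 n2
    rw [m2, n2]; ring
  have hdisp : ∀ v, disp tX tY (cdir (tree S₁.T S₂.T) R i p) v = xch (tree S₁.T S₂.T) lam v := by
    intro v
    unfold cdir
    rw [disp_sub, hlamdef, xch_sub, xch_sub]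
    have h1 := m4 v
    have h2 := n4 v
    have h3 := congrFun (xch_single (tree S₁.T S₂.T) p 1) v
    simp only [Pi.smul_apply, Pi.sub_apply, smul_eq_mul, one_mul] at h3
    rw [h3]
    linarith
  rw [rat_eq h.θ0 _ lam hl0 hdisp]
  have hb0 : ∀ q, 0 ≤ be S₁ S₂ θ b₁ b₂ q := fun q => by linarith [be_ge h q]
  calc ∏ q, be S₁ S₂ θ b₁ b₂ q ^ (lam q).natAbs
      ≤ ∏ q, (be S₁ S₂ θ b₁ b₂ q ^ ((Pi.single p 1 : Tok E → ℤ) q).natAbs *
        (be S₁ S₂ θ b₁ b₂ q ^ (mu q).natAbs * be S₁ S₂ θ b₁ b₂ q ^ (nu q).natAbs)) := by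
        refine Finset.prod_le_prod (fun q _ => pow_nonneg (hb0 q) _) fun q _ => ?_
        rw [← pow_add, ← pow_add]
        refine pow_le_pow_right₀ (be_ge h q) ?_
        rw [hlamdef, Pi.sub_apply, Pi.sub_apply]
        omega
    _ = (∏ q, be S₁ S₂ θ b₁ b₂ q ^ ((Pi.single p 1 : Tok E → ℤ) q).natAbs) *
        ((∏ q, be S₁ S₂ θ b₁ b₂ q ^ (mu q).natAbs) *
          ∏ q, be S₁ S₂ θ b₁ b₂ q ^ (nu q).natAbs) := by
        rw [Finset.prod_mul_distrib, Finset.prod_mul_distrib]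
    _ ≤ kap θ β₀ * (kap θ β₀ * kap θ β₀) := by
        refine mul_le_mul hsg (mul_le_mul hmu hnu
          (Finset.prod_nonneg fun q _ => pow_nonneg (hb0 q) _) (by linarith))
          (mul_nonneg (Finset.prod_nonneg fun q _ => pow_nonneg (hb0 q) _)
            (Finset.prod_nonneg fun q _ => pow_nonneg (hb0 q) _)) (by linarith)
    _ = _ := by ring

end Ratio

/-! ### the class `LA` from helper532's `Shape` -/

theorem la_shape {S : Side E} {r : Finset E → ℤ} {R : ℤ} {ω : E → ℤ → ℝ} (h : Shape S r R ω)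
    {θ : ℝ} (h0 : 0 < θ) (h1 : θ ≤ 1) {μ : E → ℝ} (hμ : ∀ a, 0 < μ a) (x : E → ℤ) :
    Link.LA R (S.lw θ μ x) := LInst.la_lw h h0 h1 hμ x

/-! ### the full composition -/

section Full

variable (D : SD E) {b₁ D₁ b₂ D₂ : E → ℝ} {order : List E} {R : E → Tok E → E → ℤ}
  {b' : Tok E → ℝ} {wt : Tok E → ℝ} {P G w1 mx : ℝ}

/-- **(S1)**: the Poincare inequality with defect for the joint weight of one stage. -/
theorem S1_full {r₁ r₂ : Finset E → ℤ} {RR : ℤ} {ω₁ ω₂ : E → ℤ → ℝ}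
    (h : Pair D.S₁w D.S₂ b₁ D₁ b₂ D₂ D.θ D.μ 1)
    (hs₁ : Shape D.S₁w r₁ RR ω₁) (hs₂ : Shape D.S₂ r₂ RR ω₂)
    (hG₁ : Gauge D.S₁w D.μ) (hG₂ : Gauge D.S₂ D.μ)
    (hΛ₁ : ∀ z ∈ D.S₁.J, D.S₁.blk z ∈ D.Λ₁) (hΛ₂ : ∀ z ∈ D.S₂.J, D.S₂.blk z ∈ D.Λ₂)
    (hlk₁ : ∀ p q : D.S₁.Blk, p ≠ q → (q, p) ∈ D.lk₁)
    (hlk₂ : ∀ p q : D.S₂.Blk, p ≠ q → (q, p) ∈ D.lk₂)
    (e : Tok E → ℕ) (hn : Nm D.S₁w D.S₂ b₁ D₁ b₂ D₂ D.θ wt (fun p => 2 ^ e p) P G w1 mx)
    (hnd : order.Nodup) (hall : ∀ a, a ∈ order)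
    (hRep : Rep (tree D.S₁.T D.S₂.T) tX tY b' order R)
    (hmono : ∀ p q, (tree D.S₁.T D.S₂.T).par p ≠ none → q ≠ none → b' q ≤ b' p →
      tb D.S₁w D.S₂ D.θ b₁ b₂ q ≤ tb D.S₁w D.S₂ D.θ b₁ b₂ p)
    (hmv : ∀ F : (E → ℤ) × ℕ → ℝ, (∀ m, 0 ≤ F m) →
      ∑ i, ∑ p ∈ univ.erase (none : Tok E), F (cdir (tree D.S₁.T D.S₂.T) R i p, e p) ≤
        (D.mv.map F).sum)
    (hmv' : ∀ m ∈ D.mv, ∃ i p, p ≠ none ∧ m = (cdir (tree D.S₁.T D.S₂.T) R i p, e p))
    {lm : ℕ} (hlm : ∀ p, 2 ^ e p ≤ lm) (hM : Fintype.card E * (G * mx) + 2 * lm ≤ D.M)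
    (Kw : ℕ) {A : ℝ}
    (hA1 : 3 * A0n (Fintype.card E) (Fintype.card (Tok E)) (kap D.θ 1) G P w1 D.θ *
      kap D.θ 1 ^ 3 ≤ A)
    (hA2 : (1 + D.mv.length * (6 * A0n (Fintype.card E) (Fintype.card (Tok E)) (kap D.θ 1) G P w1
      D.θ * kap D.θ 1 ^ 3)) * Link.KL D.S₁.Blk (2 * Kw) ≤ A)
    (hA3 : (1 + D.mv.length * (6 * A0n (Fintype.card E) (Fintype.card (Tok E)) (kap D.θ 1) G P w1
      D.θ * kap D.θ 1 ^ 3)) * Link.KL D.S₂.Blk (2 * Kw) ≤ A)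
    (f : St D → ℝ) {M : ℝ} (hM0 : 0 ≤ M) (hf : ∀ p, |f p| ≤ M) :
    vr D.bx D.nuG f ≤ A * D.enG f +
      (CD (Fintype.card E) (Fintype.card (Tok E)) (2 * D.M) (kap D.θ 1)
          (KSn (Fintype.card E) (Fintype.card (Tok E)) (kap D.θ 1) G P w1 D.θ mx) *
        badm D.S₁.T D.S₂.T (LL G wt) (cen D.S₁.T D.S₂.T D.c) D.Wx
          (Fintype.piFinset fun a => Icc (D.c a - D.M - 1) (D.c a + D.M + 1))
      + (1 + D.mv.length * (6 * A0n (Fintype.card E) (Fintype.card (Tok E)) (kap D.θ 1) G P w1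
          D.θ * kap D.θ 1 ^ 3)) *
        (8 * Joint.farM D.Bx D.a₁ D.a₂ D.Λ₁ D.Λ₂ D.S₁.blk D.S₂.blk Kw)) * M ^ 2 := by
  classical
  have hκ : 1 ≤ kap D.θ 1 := h.kap_ge
  have hκ3 : 1 ≤ kap D.θ 1 ^ 3 := one_le_pow₀ hκ
  have hG := hn.G1
  have hP := hn.P1
  have hw := hn.w11
  have hθ := h.θ0
  have hPP0 : 0 ≤ PPn (Fintype.card (Tok E)) (kap D.θ 1) G P w1 D.θ := by
    unfold PPn; positivity
  have hCC : 0 ≤ CC (Fintype.card (Tok E)) (kap D.θ 1)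
      (PPn (Fintype.card (Tok E)) (kap D.θ 1) G P w1 D.θ) := CC_nonneg hκ hPP0
  have hA0 : 0 ≤ A0n (Fintype.card E) (Fintype.card (Tok E)) (kap D.θ 1) G P w1 D.θ := by
    unfold A0n; positivity
  have key := D.stage_poinc (δ := (kap D.θ 1 ^ 3)⁻¹)
    (Kx := A0n (Fintype.card E) (Fintype.card (Tok E)) (kap D.θ 1) G P w1 D.θ)
    (ε := CD (Fintype.card E) (Fintype.card (Tok E)) (2 * D.M) (kap D.θ 1)
          (KSn (Fintype.card E) (Fintype.card (Tok E)) (kap D.θ 1) G P w1 D.θ mx) *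
        badm D.S₁.T D.S₂.T (LL G wt) (cen D.S₁.T D.S₂.T D.c) D.Wx
          (Fintype.piFinset fun a => Icc (D.c a - D.M - 1) (D.c a + D.M + 1)))
    (M := M) (A := A) ?_ ?_ ?_ hlk₁ hlk₂ (by positivity) (inv_le_one_of_one_le₀ hκ3) ?_ hA0 hM0
    ?_ Kw ?_ ?_ ?_ hf
  · simp only [div_inv_eq_mul] at key
    exact key
  · -- link class, side 1
    refine ⟨fun x _ => ⟨RR, la_shape hs₁ h.θ0 h.θ1 h.μ0 x⟩, fun x _ β hβ => ?_⟩
    have h1 : D.S₁w.ff x β ≠ 0 := right_ne_zero_of_mul hβ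
    obtain ⟨z, hz, rfl⟩ := LInst.ff_support h1
    exact hΛ₁ z hz
  · refine ⟨fun x _ => ⟨RR, la_shape hs₂ h.θ0 h.θ1 h.μi x⟩, fun x _ β hβ => ?_⟩
    have h1 : D.S₂.ff x β ≠ 0 := right_ne_zero_of_mul hβ
    obtain ⟨z, hz, rfl⟩ := LInst.ff_support h1
    exact hΛ₂ z hz
  · -- marginal
    intro x _
    exact LInst.mar_jnu (S₁ := D.S₁w) (S₂ := D.S₂) (θ := D.θ) hG₁ hG₂ hΛ₁ hΛ₂ x
  · -- comparison
    intro m hm s hs x _ _ y _
    obtain ⟨i, p, hp, rfl⟩ := hmv' m hm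
    have hj := LInst.jnu_le h x (s • cdir (tree D.S₁.T D.S₂.T) R i p) y
    have hnu : ∀ σ, D.nuG σ = LInst.jnu D.S₁w D.S₂ D.θ D.μ σ := fun σ => D.nuG_eq σ
    rw [hnu, hnu, inv_mul_le_iff₀ (by positivity)]
    refine hj.trans ?_
    have hpos : 0 ≤ LInst.jnu D.S₁w D.S₂ D.θ D.μ
        (x + s • cdir (tree D.S₁.T D.S₂.T) R i p, y) := by
      have p1 := h.ok₁.ok.lw_nonneg h.θ0 h.μ0 (x + s • cdir (tree D.S₁.T D.S₂.T) R i p) y.1
      have p2 := h.ok₂.ok.lw_nonneg h.θ0 h.μi (x + s • cdir (tree D.S₁.T D.S₂.T) R i p) y.2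
      exact mul_nonneg p1 p2
    refine mul_le_mul_of_nonneg_right ?_ hpos
    by_cases hf' : (tree D.S₁.T D.S₂.T).par p = none
    · -- thin
      have hl : (2 : ℕ) ^ e p = 1 := hn.lthin p hf'
      have hs1 : s ≤ 1 := by
        have : s ≤ 2 ^ e p := hs
        omega
      refine (LInst.rat_mono h hs1 _).trans ?_
      rw [one_smul]
      exact rat_any h hRep i p hp
    · refine (rat_fat h hRep i p hp (fun q hq hbq => hmono p q hf' hq hbq) s).trans ?_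
      have h1 : Fintype.card (Tok E) * tb D.S₁w D.S₂ D.θ b₁ b₂ p * s ≤ 1 := by
        have h2 := hn.hls h
        have h3 : (1 : ℝ) ≤ Fintype.card E := by
          have : 0 < Fintype.card E := Fintype.card_pos_iff.2 ⟨i⟩
          exact_mod_cast this
        have hN : (1 : ℝ) ≤ Fintype.card (Tok E) := card_tok_pos
        have h4 : tb D.S₁w D.S₂ D.θ b₁ b₂ p * (2 ^ e p : ℕ) ≤
            ∑ p ∈ univ.filter (fun p => (tree D.S₁w.T D.S₂.T).par p ≠ none),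
              tb D.S₁w D.S₂ D.θ b₁ b₂ p * ((fun p => 2 ^ e p) p : ℕ) :=
          Finset.single_le_sum (f := fun p => tb D.S₁w D.S₂ D.θ b₁ b₂ p *
            (((fun p => 2 ^ e p) p : ℕ) : ℝ)) (fun q _ => mul_nonneg (h.tb_nonneg q)
              (Nat.cast_nonneg _)) (Finset.mem_filter.2 ⟨Finset.mem_univ _, hf'⟩)
        have h5 : (s : ℝ) ≤ ((2 ^ e p : ℕ) : ℝ) := by exact_mod_cast hs
        have h6 := h.tb_nonneg p
        have h7 : tb D.S₁w D.S₂ D.θ b₁ b₂ p * s ≤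
            tb D.S₁w D.S₂ D.θ b₁ b₂ p * ((2 ^ e p : ℕ) : ℝ) := mul_le_mul_of_nonneg_left h5 h6
        set Ss := ∑ p ∈ univ.filter (fun p => (tree D.S₁w.T D.S₂.T).par p ≠ none),
              tb D.S₁w D.S₂ D.θ b₁ b₂ p * (((fun p => 2 ^ e p) p : ℕ) : ℝ) with hSs
        have h8 : 0 ≤ Ss := Finset.sum_nonneg fun q _ => mul_nonneg (h.tb_nonneg q)
          (Nat.cast_nonneg _)
        calc (Fintype.card (Tok E) : ℝ) * tb D.S₁w D.S₂ D.θ b₁ b₂ p * s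
            = Fintype.card (Tok E) * (tb D.S₁w D.S₂ D.θ b₁ b₂ p * s) := by ring
          _ ≤ Fintype.card (Tok E) * Ss :=
              mul_le_mul_of_nonneg_left (h7.trans h4) (by linarith)
          _ = 1 * (Fintype.card (Tok E) * Ss) := by ring
          _ ≤ Fintype.card E * (Fintype.card (Tok E) * Ss) :=
              mul_le_mul_of_nonneg_right h3 (by positivity)
          _ = (Fintype.card E * Fintype.card (Tok E) : ℝ) * Ss := by ring
          _ ≤ 1 := h2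
      have h9 : Real.exp 1 ≤ kap D.θ 1 := by
        unfold kap
        have h10 : 1 ≤ D.θ⁻¹ := (one_le_inv₀ h.θ0).2 h.θ1
        have h11 : 1 ≤ Real.exp 1 := Real.one_le_exp zero_le_one
        have h12 : Real.exp 1 ≤ D.θ⁻¹ * Real.exp 1 := by nlinarith
        nlinarith
      calc Real.exp (Fintype.card (Tok E) * tb D.S₁w D.S₂ D.θ b₁ b₂ p * s)
          ≤ Real.exp 1 := Real.exp_le_exp.2 h1
        _ ≤ kap D.θ 1 := h9
        _ ≤ kap D.θ 1 ^ 3 := by nlinarith [sq_nonneg (kap D.θ 1)]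
  · -- the x-part
    intro g hg
    have hx := S1x_num (r₁ := r₁) (r₂ := r₂) (RR := RR) (ω₁ := ω₁) (ω₂ := ω₂) h
      (fun d => hyp_FF hs₁ hs₂ h.θ0 h.θ1 h.μ0 0 d) hn hnd hall hRep hmono D.c D.M
      (lm := lm) hlm hM g hg
    have hWx : ww D.S₁w D.S₂ D.θ D.μ = D.Wx := rfl
    rw [hWx] at hx
    have hW0 : ∀ y ∈ D.Bx, 0 ≤ D.Wx y := fun y _ => (ww_pos h y).le
    have h1 := hmv (fun m => aDm D.Bx D.Wx m.1 (2 ^ m.2) g)
      (fun m => Macro.aDm_nonneg hW0 _ g)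
    refine hx.trans ?_
    refine add_le_add (mul_le_mul_of_nonneg_left h1 hA0) (le_of_eq ?_)
    have hT : D.S₁w.T = D.S₁.T := rfl
    rw [hT]
    ring
  · rw [div_inv_eq_mul]; exact hA1
  · rw [div_inv_eq_mul]; exact hA2
  · rw [div_inv_eq_mul]; exact hA3

end Full

end Crest.Agent.R302.T893
end

-- ▼ part R302/S1Prog893

/-!
R302 (helper893): block (S1) for the objects of the program (`E = Fin n`, forests `nnForest`,
repair maps `Rst`, slack exponents `lgE dk key`, length exponents `elE w₁ dl key`).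
-/

set_option autoImplicit false
set_option linter.unusedSectionVars false
set_option linter.unusedVariables false

namespace Crest.Agent.R302.T893

open Finset Lor
open Crest.Agent.R302.Tree (RTree)
open Crest.Agent.R302.Inst Crest.Agent.R302.Stage Crest.Agent.R302.Macro
open Crest.Agent.R302.Inst.Side (Gauge)
open Crest.Agent.R302.GeoSpec Crest.Agent.R302.StageL Crest.Agent.R302.TreeNN

variable {n : ℕ}

theorem keyV_thin {m₁ m₂ : Fin n → Fin n → ℤ} {w₁ : ℤ} {q : Tok (Fin n)}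
    (hq : (tree (nnForest m₁ w₁) (nnForest m₂ w₁)).par q = none) :
    keyV m₁ m₂ w₁ q = w₁ - 1 := by
  rcases q with _ | a | a
  · rfl
  · have h : (nnForest m₁ w₁).par a = none := by
      rcases hp : (nnForest m₁ w₁).par a with _ | b
      · rfl
      · simp [tree, hp] at hq
    unfold keyV
    simp only [h]
  · have h : (nnForest m₂ w₁).par a = none := by
      rcases hp : (nnForest m₂ w₁).par a with _ | b
      · rfl
      · simp [tree, hp] at hq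
    unfold keyV
    simp only [h]

theorem keyV_fat {m₁ m₂ : Fin n → Fin n → ℤ} {w₁ : ℤ} {q : Tok (Fin n)}
    (hq : (tree (nnForest m₁ w₁) (nnForest m₂ w₁)).par q ≠ none) :
    w₁ ≤ keyV m₁ m₂ w₁ q := by
  rcases q with _ | a | a
  · exact absurd rfl hq
  · rcases hp : (nnForest m₁ w₁).par a with _ | b
    · simp [tree, hp] at hq
    · unfold keyV
      simp only [hp]
      exact (nn_nnForest m₁ w₁).ge a b hp
  · rcases hp : (nnForest m₂ w₁).par a with _ | b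
    · simp [tree, hp] at hq
    · unfold keyV
      simp only [hp]
      exact (nn_nnForest m₂ w₁).ge a b hp

theorem keyV_le {m₁ m₂ : Fin n → Fin n → ℤ} {w₁ : ℤ} {mx : ℤ} (h1 : ∀ a b, m₁ a b ≤ mx)
    (h2 : ∀ a b, m₂ a b ≤ mx) (hw : w₁ ≤ mx) (q : Tok (Fin n)) : keyV m₁ m₂ w₁ q ≤ mx := by
  rcases q with _ | a | a
  · show w₁ - 1 ≤ mx
    linarith
  · unfold keyV
    rcases hp : (nnForest m₁ w₁).par a with _ | b
    · simp only [hp]; linarith
    · simp only [hp]; exact h1 a b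
  · unfold keyV
    rcases hp : (nnForest m₂ w₁).par a with _ | b
    · simp only [hp]; linarith
    · simp only [hp]; exact h2 a b

/-- weights of the tokens -/
noncomputable def wtV (m₁ m₂ : Fin n → Fin n → ℤ) (w₁ : ℤ) (q : Tok (Fin n)) : ℝ :=
  ((max (keyV m₁ m₂ w₁ q) w₁ : ℤ) : ℝ)

/-- length exponents -/
def eV (m₁ m₂ : Fin n → Fin n → ℤ) (w₁ : ℤ) (dl : ℕ) (q : Tok (Fin n)) : ℕ :=
  elE w₁ dl (keyV m₁ m₂ w₁ q)

/-- the facts of the stage data used by the analysis -/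
structure PFacts (D : SD (Fin n)) (m₁ m₂ : Fin n → Fin n → ℤ) (w₁ : ℤ) (M₁ M₂ : List (List ℤ))
    (dk dl : ℕ) (b₁ D₁ b₂ D₂ : Fin n → ℝ) : Prop where
  T₁ : D.S₁.T = nnForest m₁ w₁
  T₂ : D.S₂.T = nnForest m₂ w₁
  hM₁ : ∀ a b : Fin n, (M₁.getD a []).getD b 0 = m₁ a b
  hM₂ : ∀ a b : Fin n, (M₂.getD a []).getD b 0 = m₂ a b
  b₁e : ∀ a b, (nnForest m₁ w₁).par a = some b → b₁ a = 2 * (1 / 2) ^ lgE dk (m₁ a b)
  b₂e : ∀ a b, (nnForest m₂ w₁).par a = some b → b₂ a = 2 * (1 / 2) ^ lgE dk (m₂ a b)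
  D₁e : ∀ a b, (nnForest m₁ w₁).par a = some b → D₁ a = 16 * (1 / 4) ^ lgE dk (m₁ a b)
  D₂e : ∀ a b, (nnForest m₂ w₁).par a = some b → D₂ a = 16 * (1 / 4) ^ lgE dk (m₂ a b)
  mv : D.mv = mvV m₁ m₂ w₁ M₁ M₂ (elE w₁ dl)
  lk₁ : D.lk₁ = pairsV D.S₁.T
  lk₂ : D.lk₂ = pairsV D.S₂.T

variable {D : SD (Fin n)} {m₁ m₂ : Fin n → Fin n → ℤ} {w₁ : ℤ} {M₁ M₂ : List (List ℤ)}
  {dk dl : ℕ} {b₁ D₁ b₂ D₂ : Fin n → ℝ}

theorem PFacts.tree_eq (hf : PFacts D m₁ m₂ w₁ M₁ M₂ dk dl b₁ D₁ b₂ D₂) :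
    tree D.S₁.T D.S₂.T = tree (nnForest m₁ w₁) (nnForest m₂ w₁) := by
  rw [hf.T₁, hf.T₂]

theorem PFacts.tb_eq (hf : PFacts D m₁ m₂ w₁ M₁ M₂ dk dl b₁ D₁ b₂ D₂) (q : Tok (Fin n))
    (hq : (tree D.S₁.T D.S₂.T).par q ≠ none) :
    tb D.S₁w D.S₂ D.θ b₁ b₂ q = 2 * (1 / 2) ^ lgE dk (keyV m₁ m₂ w₁ q) := by
  rw [hf.tree_eq] at hq
  rcases q with _ | a | a
  · exact absurd rfl hq
  · rcases hp : (nnForest m₁ w₁).par a with _ | b
    · simp [tree, hp] at hq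
    · have h1 : D.S₁w.T.par a ≠ none := by
        show D.S₁.T.par a ≠ none
        rw [hf.T₁, hp]; simp
      show D.S₁w.bb D.θ b₁ a = _
      unfold Side.bb keyV
      rw [if_neg h1]
      simp only [hp]
      exact hf.b₁e a b hp
  · rcases hp : (nnForest m₂ w₁).par a with _ | b
    · simp [tree, hp] at hq
    · have h1 : D.S₂.T.par a ≠ none := by
        rw [hf.T₂, hp]; simp
      show D.S₂.bb D.θ b₂ a = _
      unfold Side.bb keyV
      rw [if_neg h1]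
      simp only [hp]
      exact hf.b₂e a b hp

theorem PFacts.tD_eq (hf : PFacts D m₁ m₂ w₁ M₁ M₂ dk dl b₁ D₁ b₂ D₂) (q : Tok (Fin n))
    (hq : (tree D.S₁.T D.S₂.T).par q ≠ none) :
    tD D.S₁w D.S₂ D.θ D₁ D₂ q = 16 * (1 / 4) ^ lgE dk (keyV m₁ m₂ w₁ q) := by
  rw [hf.tree_eq] at hq
  rcases q with _ | a | a
  · exact absurd rfl hq
  · rcases hp : (nnForest m₁ w₁).par a with _ | b
    · simp [tree, hp] at hq
    · have h1 : D.S₁w.T.par a ≠ none := by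
        show D.S₁.T.par a ≠ none
        rw [hf.T₁, hp]; simp
      show D.S₁w.DD D.θ D₁ a = _
      unfold Side.DD keyV
      rw [if_neg h1]
      simp only [hp]
      exact hf.D₁e a b hp
  · rcases hp : (nnForest m₂ w₁).par a with _ | b
    · simp [tree, hp] at hq
    · have h1 : D.S₂.T.par a ≠ none := by
        rw [hf.T₂, hp]; simp
      show D.S₂.DD D.θ D₂ a = _
      unfold Side.DD keyV
      rw [if_neg h1]
      simp only [hp]
      exact hf.D₂e a b hp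

/-- the numeric conditions -/
structure PNum (n : ℕ) (a dk dl P : ℕ) (w₁ mx : ℤ) (G : ℝ) : Prop where
  dk1 : 1 ≤ dk
  P8 : 8 * dk ≤ P
  dl_eq : dl = n * (2 * n + 1) ^ 2 * P
  dlw : (dl : ℤ) ≤ w₁
  small : 45 * (2 * n + 1) * P * 2 ^ a ≤ w₁
  G1 : 1 ≤ G
  wmx : w₁ ≤ mx

theorem half_pow_mul {k dk : ℕ} {key : ℤ} (h : key < 2 ^ (k + 1) * (dk : ℤ)) :
    2 * (1 / 2 : ℝ) ^ k * key ≤ 4 * dk := by
  have h1 : (key : ℝ) ≤ 2 ^ (k + 1) * dk := by
    have : ((key : ℤ) : ℝ) ≤ ((2 ^ (k + 1) * (dk : ℤ) : ℤ) : ℝ) := by exact_mod_cast h.le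
    push_cast at this
    exact this
  have h2 : (1 / 2 : ℝ) ^ k * 2 ^ (k + 1) = 2 := by
    rw [pow_succ, ← mul_assoc, ← mul_pow]; norm_num
  calc 2 * (1 / 2 : ℝ) ^ k * key ≤ 2 * (1 / 2 : ℝ) ^ k * (2 ^ (k + 1) * dk) :=
        mul_le_mul_of_nonneg_left h1 (by positivity)
    _ = 2 * ((1 / 2 : ℝ) ^ k * 2 ^ (k + 1)) * dk := by ring
    _ = 4 * dk := by rw [h2]; ring

theorem PFacts.nm (hf : PFacts D m₁ m₂ w₁ M₁ M₂ dk dl b₁ D₁ b₂ D₂) {P : ℕ} {mx : ℤ} {G : ℝ}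
    (hN : PNum n D.a dk dl P w₁ mx G) (hm₁ : ∀ a b, m₁ a b ≤ mx) (hm₂ : ∀ a b, m₂ a b ≤ mx)
    (hn0 : 0 < n) :
    Nm D.S₁w D.S₂ b₁ D₁ b₂ D₂ D.θ (wtV m₁ m₂ w₁) (fun p => 2 ^ eV m₁ m₂ w₁ dl p) P G w₁ mx := by
  have hT : tree D.S₁w.T D.S₂.T = tree (nnForest m₁ w₁) (nnForest m₂ w₁) := hf.tree_eq
  have hcard : (Fintype.card (Tok (Fin n)) : ℝ) = 2 * n + 1 := by
    rw [card_tok, Fintype.card_fin]; push_cast; ring
  have hP1 : 1 ≤ P := by have := hN.P8; have := hN.dk1; omega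
  have hdl1 : 1 ≤ dl := by
    rw [hN.dl_eq]
    have : 0 < n * (2 * n + 1) ^ 2 * P := by positivity
    exact this
  have hw1 : (1 : ℤ) ≤ w₁ := by have := hN.dlw; have : (1 : ℤ) ≤ dl := by exact_mod_cast hdl1
                                linarith
  have hkeyw : ∀ q, (tree D.S₁w.T D.S₂.T).par q ≠ none → wtV m₁ m₂ w₁ q = keyV m₁ m₂ w₁ q := by
    intro q hq
    rw [hT] at hq
    unfold wtV
    rw [max_eq_left (keyV_fat hq)]
  have hdkw : ∀ q, (tree D.S₁w.T D.S₂.T).par q ≠ none → (dk : ℤ) ≤ keyV m₁ m₂ w₁ q := by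
    intro q hq
    rw [hT] at hq
    have h1 := keyV_fat hq
    have h2 : (dk : ℤ) ≤ w₁ := by
      refine le_trans ?_ hN.dlw
      have h3 : dk ≤ dl := by
        rw [hN.dl_eq]
        have h4 : 1 ≤ n * (2 * n + 1) ^ 2 := by
          have : 0 < n * (2 * n + 1) ^ 2 := by positivity
          exact this
        have h5 := hN.P8
        nlinarith
      exact_mod_cast h3
    linarith
  refine ⟨by exact_mod_cast hP1, hN.G1, by exact_mod_cast hw1, fun q => ?_, fun q hq => ?_,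
    fun q => ?_, fun q hq => ?_, fun q hq => ?_, ?_, fun q => Nat.one_le_two_pow, fun q hq => ?_,
    fun q hq => ?_, fun q hq => ?_⟩
  · unfold wtV
    exact_mod_cast le_max_right _ _
  · rw [hT] at hq
    unfold wtV
    rw [keyV_thin hq, max_eq_right (by linarith)]
  · unfold wtV
    exact_mod_cast max_le (keyV_le hm₁ hm₂ hN.wmx q) hN.wmx
  · rw [hkeyw q hq, hf.tb_eq q hq]
    refine (half_pow_mul (lt_lgE hN.dk1 (hdkw q hq))).trans ?_
    have h1 := hN.P8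
    have h2 : 4 * dk ≤ P := by omega
    exact_mod_cast h2
  · rw [hkeyw q hq, hf.tD_eq q hq]
    have h1 := half_pow_mul (lt_lgE hN.dk1 (hdkw q hq))
    have h2 : (0 : ℝ) ≤ (1 / 2 : ℝ) ^ lgE dk (keyV m₁ m₂ w₁ q) * keyV m₁ m₂ w₁ q := by
      have h3 : (0 : ℝ) ≤ keyV m₁ m₂ w₁ q := by
        have := hdkw q hq
        have h4 : (0 : ℤ) ≤ keyV m₁ m₂ w₁ q := le_trans (by positivity) this
        exact_mod_cast h4
      positivity
    have h5 : 16 * (1 / 4 : ℝ) ^ lgE dk (keyV m₁ m₂ w₁ q) * (keyV m₁ m₂ w₁ q : ℝ) ^ 2 =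
        (4 * ((1 / 2 : ℝ) ^ lgE dk (keyV m₁ m₂ w₁ q) * keyV m₁ m₂ w₁ q)) ^ 2 := by
      rw [mul_pow, mul_pow, ← pow_mul, mul_comm (lgE dk (keyV m₁ m₂ w₁ q)) 2, pow_mul]
      norm_num
      ring
    rw [h5]
    refine pow_le_pow_left₀ (by positivity) ?_ 2
    have h6 := hN.P8
    have h7 : (8 * dk : ℝ) ≤ P := by exact_mod_cast h6
    linarith
  · rw [hcard]
    have h1 := hN.small
    have h2 : (45 * (2 * n + 1) * P * 2 ^ D.a : ℝ) ≤ w₁ := by exact_mod_cast h1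
    have h3 : D.θ * (45 * (2 * n + 1) * P * 2 ^ D.a) = 45 * (2 * n + 1) * P := by
      unfold SD.θ
      rw [show (1 / 2 : ℝ) ^ D.a * (45 * (2 * n + 1) * P * 2 ^ D.a) =
        45 * (2 * n + 1) * P * ((1 / 2 : ℝ) ^ D.a * 2 ^ D.a) by ring, ← mul_pow]
      norm_num
    rw [← h3]
    refine mul_le_mul_of_nonneg_left h2 ?_
    unfold SD.θ; positivity
  · rw [hT] at hq
    show 2 ^ eV m₁ m₂ w₁ dl q = 1
    unfold eV elE
    rw [keyV_thin hq, if_pos (by linarith), pow_zero]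
  · rw [hkeyw q hq, hcard, Fintype.card_fin]
    have h1 : w₁ ≤ keyV m₁ m₂ w₁ q := by rw [hT] at hq; exact keyV_fat hq
    have h2 := lgE_le (d := dl) (by omega) (hN.dlw.trans h1)
    have h3 : (2 ^ lgE dl (keyV m₁ m₂ w₁ q) * (dl : ℝ)) ≤ keyV m₁ m₂ w₁ q := by
      exact_mod_cast h2
    have h4 : (dl : ℝ) = n * (2 * n + 1) ^ 2 * P := by rw [hN.dl_eq]; push_cast; ring
    unfold eV elE
    rw [if_neg (not_lt.2 h1)]
    push_cast
    rw [← h4]
    exact h3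
  · rw [hkeyw q hq, hcard, Fintype.card_fin]
    have h1 : w₁ ≤ keyV m₁ m₂ w₁ q := by rw [hT] at hq; exact keyV_fat hq
    have h2 := lt_lgE (d := dl) (by omega) (hN.dlw.trans h1)
    have h3 : (keyV m₁ m₂ w₁ q : ℝ) ≤ 2 ^ (lgE dl (keyV m₁ m₂ w₁ q) + 1) * (dl : ℝ) := by
      exact_mod_cast h2.le
    have h4 : (dl : ℝ) = n * (2 * n + 1) ^ 2 * P := by rw [hN.dl_eq]; push_cast; ring
    unfold eV elE
    rw [if_neg (not_lt.2 h1)]
    push_cast
    rw [← h4]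
    rw [pow_succ] at h3
    linarith

/-- sum over the moves -/
theorem sum_tdec (G : Tok (Fin n) → ℝ) :
    ∑ p ∈ univ.erase (none : Tok (Fin n)), G p = ∑ j ∈ range (2 * n), G (tdec n j) := by
  refine Finset.sum_nbij' (fun p => tcode p) (fun j => tdec n j) ?_ ?_ ?_ ?_ ?_
  · intro p hp
    exact Finset.mem_range.2 (tcode_lt (Finset.ne_of_mem_erase hp))
  · intro j hj
    exact Finset.mem_erase.2 ⟨tdec_ne_none (Finset.mem_range.1 hj), Finset.mem_univ _⟩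
  · intro p _; exact tdec_tcode p
  · intro j hj; exact tcode_tdec (Finset.mem_range.1 hj)
  · intro p _; rw [tdec_tcode]

theorem PFacts.cdir_eq (hf : PFacts D m₁ m₂ w₁ M₁ M₂ dk dl b₁ D₁ b₂ D₂) (i : Fin n) (j : ℕ) :
    cdir (tree D.S₁.T D.S₂.T) (Rst m₁ m₂ w₁ M₁ M₂) i (tdec n j) = mvc m₁ m₂ w₁ M₁ M₂ i j := by
  rw [hf.tree_eq]
  rfl

theorem PFacts.hmv (hf : PFacts D m₁ m₂ w₁ M₁ M₂ dk dl b₁ D₁ b₂ D₂)
    (F : (Fin n → ℤ) × ℕ → ℝ) :
    ∑ i, ∑ p ∈ univ.erase (none : Tok (Fin n)),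
      F (cdir (tree D.S₁.T D.S₂.T) (Rst m₁ m₂ w₁ M₁ M₂) i p, eV m₁ m₂ w₁ dl p) =
      (D.mv.map F).sum := by
  rw [hf.mv]
  unfold mvV
  rw [List.map_flatMap, List.flatMap_def, List.sum_flatten, List.map_map]
  have e1 : ∀ g : Fin n → ℝ, ∑ i, g i = ((List.finRange n).map g).sum := by
    intro g
    rw [← List.ofFn_eq_map, List.sum_ofFn]
  have e2 : ∀ (k : ℕ) (g : ℕ → ℝ), ∑ j ∈ range k, g j = ((List.range k).map g).sum := by
    intro k g
    rfl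
  rw [e1]
  congr 1
  refine List.map_congr_left fun i _ => ?_
  rw [sum_tdec, e2]
  simp only [Function.comp]
  rw [List.map_map]
  congr 1
  refine List.map_congr_left fun j _ => ?_
  rw [hf.cdir_eq]
  rfl

theorem PFacts.hmv' (hf : PFacts D m₁ m₂ w₁ M₁ M₂ dk dl b₁ D₁ b₂ D₂) (m : (Fin n → ℤ) × ℕ)
    (hm : m ∈ D.mv) : ∃ i p, p ≠ none ∧
      m = (cdir (tree D.S₁.T D.S₂.T) (Rst m₁ m₂ w₁ M₁ M₂) i p, eV m₁ m₂ w₁ dl p) := by
  rw [hf.mv] at hm
  unfold mvV at hm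
  rw [List.mem_flatMap] at hm
  obtain ⟨i, _, hi⟩ := hm
  rw [List.mem_map] at hi
  obtain ⟨j, hj, rfl⟩ := hi
  refine ⟨i, tdec n j, tdec_ne_none (List.mem_range.1 hj), ?_⟩
  rw [hf.cdir_eq]
  rfl

theorem PFacts.length_mv (hf : PFacts D m₁ m₂ w₁ M₁ M₂ dk dl b₁ D₁ b₂ D₂) :
    D.mv.length = 2 * n ^ 2 := by
  rw [hf.mv]
  unfold mvV
  rw [List.length_flatMap]
  simp
  ring

/-- **(S1) for the program's objects** -/
theorem S1_prog {r₁ r₂ : Finset (Fin n) → ℤ} {RR : ℤ} {ω₁ ω₂ : Fin n → ℤ → ℝ}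
    (hf : PFacts D m₁ m₂ w₁ M₁ M₂ dk dl b₁ D₁ b₂ D₂)
    (h : Pair D.S₁w D.S₂ b₁ D₁ b₂ D₂ D.θ D.μ 1)
    (hs₁ : Shape D.S₁w r₁ RR ω₁) (hs₂ : Shape D.S₂ r₂ RR ω₂)
    (hG₁ : Gauge D.S₁w D.μ) (hG₂ : Gauge D.S₂ D.μ)
    (hΛ₁ : ∀ z ∈ D.S₁.J, ∀ r, |D.S₁.blk z r| ≤ D.Lb)
    (hΛ₂ : ∀ z ∈ D.S₂.J, ∀ r, |D.S₂.blk z r| ≤ D.Lb)
    (hn0 : 0 < n) {P : ℕ} {mx : ℤ} {G : ℝ}
    (hN : PNum n D.a dk dl P w₁ mx G) (hm₁ : ∀ a b, m₁ a b ≤ mx) (hm₂ : ∀ a b, m₂ a b ≤ mx)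
    (hM : n * (G * mx) + 2 * mx ≤ D.M)
    (Kw : ℕ) {A : ℝ}
    (hA1 : 3 * A0n n (2 * n + 1) (kap D.θ 1) G P w₁ D.θ * kap D.θ 1 ^ 3 ≤ A)
    (hA2 : (1 + (2 * n ^ 2 : ℕ) * (6 * A0n n (2 * n + 1) (kap D.θ 1) G P w₁
      D.θ * kap D.θ 1 ^ 3)) * Link.KL D.S₁.Blk (2 * Kw) ≤ A)
    (hA3 : (1 + (2 * n ^ 2 : ℕ) * (6 * A0n n (2 * n + 1) (kap D.θ 1) G P w₁
      D.θ * kap D.θ 1 ^ 3)) * Link.KL D.S₂.Blk (2 * Kw) ≤ A)
    (f : St D → ℝ) {M : ℝ} (hM0 : 0 ≤ M) (hfM : ∀ p, |f p| ≤ M) :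
    vr D.bx D.nuG f ≤ A * D.enG f +
      (CD n (2 * n + 1) (2 * D.M) (kap D.θ 1)
          (KSn n (2 * n + 1) (kap D.θ 1) G P w₁ D.θ mx) *
        badm D.S₁.T D.S₂.T (LL G (wtV m₁ m₂ w₁)) (cen D.S₁.T D.S₂.T D.c) D.Wx
          (Fintype.piFinset fun a => Icc (D.c a - D.M - 1) (D.c a + D.M + 1))
      + (1 + (2 * n ^ 2 : ℕ) * (6 * A0n n (2 * n + 1) (kap D.θ 1) G P w₁
          D.θ * kap D.θ 1 ^ 3)) *
        (8 * Joint.farM D.Bx D.a₁ D.a₂ D.Λ₁ D.Λ₂ D.S₁.blk D.S₂.blk Kw)) * M ^ 2 := by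
  have hcard : Fintype.card (Tok (Fin n)) = 2 * n + 1 := by rw [card_tok, Fintype.card_fin]
  have hdl1 : 1 ≤ dl := by
    rw [hN.dl_eq]
    have hP1 : 1 ≤ P := by have := hN.P8; have := hN.dk1; omega
    have : 0 < n * (2 * n + 1) ^ 2 * P := by positivity
    exact this
  have hw1 : (1 : ℤ) ≤ w₁ := by
    have := hN.dlw
    have : (1 : ℤ) ≤ dl := by exact_mod_cast hdl1
    linarith
  have hmx0 : 0 ≤ mx := by linarith [hN.wmx]
  have hlm : ∀ p, 2 ^ eV m₁ m₂ w₁ dl p ≤ mx.toNat := by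
    intro p
    have h1 : ((2 ^ eV m₁ m₂ w₁ dl p : ℕ) : ℤ) ≤ mx := by
      unfold eV elE
      by_cases hk : keyV m₁ m₂ w₁ p < w₁
      · rw [if_pos hk, pow_zero]
        push_cast
        linarith [hN.wmx]
      · rw [if_neg hk]
        have hk' := not_lt.1 hk
        have h2 := lgE_le (d := dl) (by omega) (hN.dlw.trans hk')
        have h3 := keyV_le hm₁ hm₂ hN.wmx p
        push_cast
        have h4 : (2 : ℤ) ^ lgE dl (keyV m₁ m₂ w₁ p) * 1 ≤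
            2 ^ lgE dl (keyV m₁ m₂ w₁ p) * (dl : ℤ) := by
          refine mul_le_mul_of_nonneg_left ?_ (by positivity)
          exact_mod_cast hdl1
        linarith
    omega
  have key := S1_full D (order := List.finRange n) (R := Rst m₁ m₂ w₁ M₁ M₂)
    (b' := fun p => -(keyV m₁ m₂ w₁ p : ℝ)) (r₁ := r₁) (r₂ := r₂) (RR := RR) (ω₁ := ω₁) (ω₂ := ω₂)
    h hs₁ hs₂ hG₁ hG₂
    (fun z hz => Fintype.mem_piFinset.2 fun r => mem_Icc.2 (abs_le.1 (hΛ₁ z hz r)))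
    (fun z hz => Fintype.mem_piFinset.2 fun r => mem_Icc.2 (abs_le.1 (hΛ₂ z hz r)))
    (fun p q hpq => by rw [hf.lk₁, mem_pairsV]; exact Ne.symm hpq)
    (fun p q hpq => by rw [hf.lk₂, mem_pairsV]; exact Ne.symm hpq)
    (eV m₁ m₂ w₁ dl) (hf.nm hN hm₁ hm₂ hn0) (List.nodup_finRange n)
    (fun a => List.mem_finRange a) ?_ ?_ (fun F _ => (hf.hmv F).le) hf.hmv' hlm ?_ Kw
    (A := A) ?_ ?_ ?_ f hM0 hfM
  · rw [Fintype.card_fin, hcard, hf.length_mv] at key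
    push_cast at key ⊢
    exact key
  · rw [hf.tree_eq]
    refine rep893_Rst w₁ hf.hM₁ hf.hM₂ ?_
    intro p q _ _ hk
    have : (keyV m₁ m₂ w₁ q : ℝ) ≤ keyV m₁ m₂ w₁ p := by exact_mod_cast hk
    linarith
  · intro p q hp hq hb
    have h1 : keyV m₁ m₂ w₁ p ≤ keyV m₁ m₂ w₁ q := by
      have : (keyV m₁ m₂ w₁ p : ℝ) ≤ keyV m₁ m₂ w₁ q := by linarith
      exact_mod_cast this
    have h2 : w₁ ≤ keyV m₁ m₂ w₁ p := by
      have hp' := hp
      rw [hf.tree_eq] at hp'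
      exact keyV_fat hp'
    have hq' : (tree D.S₁.T D.S₂.T).par q ≠ none := by
      intro h3
      rw [hf.tree_eq] at h3
      have := keyV_thin h3
      linarith
    rw [hf.tb_eq p hp, hf.tb_eq q hq']
    refine mul_le_mul_of_nonneg_left ?_ (by norm_num)
    exact pow_le_pow_of_le_one (by norm_num) (by norm_num) (lgE_mono dk h1)
  · rw [Fintype.card_fin]
    have : ((mx.toNat : ℕ) : ℝ) = mx := by
      have h1 : ((mx.toNat : ℕ) : ℤ) = mx := Int.toNat_of_nonneg hmx0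
      exact_mod_cast congrArg (fun z : ℤ => (z : ℝ)) h1
    rw [this]
    exact hM
  · rw [Fintype.card_fin, hcard]
    exact hA1
  · rw [Fintype.card_fin, hcard, hf.length_mv]
    push_cast at hA2 ⊢
    exact hA2
  · rw [Fintype.card_fin, hcard, hf.length_mv]
    push_cast at hA3 ⊢
    exact hA3

end Crest.Agent.R302.T893
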