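import Crest.Agent.R302.Ann425F
import Crest.Agent.R302.CPar272
import Crest.Agent.R302.S1Prog893
import Crest.Agent.R302.Rep646B

-- ▼ part R302/Ann425G
section

/-!
# R302, block ANN (helper425), part G: numeric bounds for the constants
-/

set_option autoImplicit false

namespace Crest.Agent.R302.AnnBox

open Crest.Agent.R302.Facet

theorem zBn_le {n : ℕ} (hn : 1 ≤ n) : zBn n ≤ 4 * n ^ 3 := by
  unfold zBn
  calc n ^ 2 * (2 * n + 2) ≤ n ^ 2 * (4 * n) := Nat.mul_le_mul_left _ (by omega)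
    _ = 4 * n ^ 3 := by ring

theorem kap_le {n : ℕ} (hn : 1 ≤ n) : kap n ≤ 360 * n ^ 8 := by
  have h1 := zBn_le hn
  have h3 : 1 ≤ n ^ 3 := Nat.one_le_pow _ _ hn
  unfold kap
  calc 8 * (4 * n + 1) * n ^ 4 * (2 * zBn n + 1)
      ≤ 8 * (5 * n) * n ^ 4 * (9 * n ^ 3) := by
        apply Nat.mul_le_mul
        · apply Nat.mul_le_mul_right
          apply Nat.mul_le_mul_left
          omega
        · omega
    _ = 360 * n ^ 8 := by ring

theorem annC_le {n : ℕ} (hn : 1 ≤ n) : annC n ≤ 23040 * n ^ 11 := by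
  unfold annC
  calc 64 * n ^ 3 * kap n ≤ 64 * n ^ 3 * (360 * n ^ 8) := Nat.mul_le_mul_left _ (kap_le hn)
    _ = 23040 * n ^ 11 := by ring

theorem cA_le {n : ℕ} (hn : 1 ≤ n) : cA n ≤ 2 ^ 15 * n ^ 11 := by
  have h1 := annC_le hn
  have h3 : 1 ≤ n ^ 11 := Nat.one_le_pow _ _ hn
  unfold cA
  omega







end Crest.Agent.R302.AnnBox
end

-- ▼ part R302/Num272B

/-!
# R302, numbers B (helper272): the constants of the mixing theorem

* `stQ_le_mx` : the radii of the stages are at most `2 ^ (4 X)`;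
* `pnum` : `PNum` of `S1Prog893` for the concrete parameters;
* `A0_le`, `hA1`, `hA2` : the constants of `S1_prog` with `A = X ^ 1500`, `Kw = X ^ 4`;
* `CD_le` : `CD ≤ 2 ^ (17 X ^ 2)`;
* `hnum` : the final inequality of `poincD_final`.
-/

set_option autoImplicit false

namespace Crest.Agent.R302.Num

open Crest.Agent.R302.Smp Crest.Agent.R302.Top Crest.Agent.R302.Cst Crest.Agent.R302.AnnBox
open Crest.Agent.R302.Prog Crest.Agent.R302.T893 Crest.Agent.R302.Inst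

/-! ### radii -/

theorem rad_le_real (n i : ℕ) : (rad n i : ℝ) ≤ cA n * (1 + 1 / (cA n : ℝ)) ^ i := by
  have hc : (0 : ℝ) < cA n := by exact_mod_cast cA_pos n
  induction i with
  | zero => simp [rad]
  | succ i ih =>
    rw [rad_succ, pow_succ, ← mul_assoc]
    push_cast
    have h1 : ((rad n i / cA n : ℕ) : ℝ) ≤ (rad n i : ℝ) / cA n := Nat.cast_div_le
    have h2 : (rad n i : ℝ) + (rad n i : ℝ) / cA n = (rad n i : ℝ) * (1 + 1 / (cA n : ℝ)) := by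
      ring
    calc (rad n i : ℝ) + ((rad n i / cA n : ℕ) : ℝ) ≤ (rad n i : ℝ) * (1 + 1 / (cA n : ℝ)) := by
          linarith
      _ ≤ _ := mul_le_mul_of_nonneg_right ih (by positivity)

theorem rad_le_exp (n c : ℕ) : (rad n (2 * cA n * c) : ℝ) ≤ cA n * 8 ^ c := by
  have hc : (0 : ℝ) < cA n := by exact_mod_cast cA_pos n
  refine (rad_le_real n _).trans ?_
  apply mul_le_mul_of_nonneg_left _ hc.le
  have h1 : (1 + 1 / (cA n : ℝ)) ^ (cA n) ≤ 27183 / 10000 := by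
    have h2 : 1 + 1 / (cA n : ℝ) ≤ Real.exp (1 / (cA n : ℝ)) := by
      have := Real.add_one_le_exp (1 / (cA n : ℝ)); linarith
    calc (1 + 1 / (cA n : ℝ)) ^ (cA n) ≤ Real.exp (1 / (cA n : ℝ)) ^ (cA n) :=
          pow_le_pow_left₀ (by positivity) h2 _
      _ = Real.exp 1 := by
          rw [← Real.exp_nat_mul]
          congr 1
          field_simp
      _ ≤ 27183 / 10000 := by have := Real.exp_one_lt_d9; linarith
  have h3 : (1 + 1 / (cA n : ℝ)) ^ (2 * cA n * c) = (((1 + 1 / (cA n : ℝ)) ^ (cA n)) ^ 2) ^ c := by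
    rw [← pow_mul, ← pow_mul]
    congr 1
    ring
  rw [h3]
  apply pow_le_pow_left₀ (by positivity)
  calc ((1 + 1 / (cA n : ℝ)) ^ (cA n)) ^ 2 ≤ (27183 / 10000 : ℝ) ^ 2 :=
        pow_le_pow_left₀ (by positivity) h1 _
    _ ≤ 8 := by norm_num

theorem stQ_le8 (n L K t : ℕ) (ht : t ≤ nStages n L K) : stQ n L t ≤ cA n * 8 ^ Nat.clog 2 K := by
  unfold stQ
  have h1 : t - AnnBox.T0 n L ≤ 2 * cA n * Nat.clog 2 K := by
    unfold nStages at ht; omega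
  have h2 := rad_mono n h1
  have h3 := rad_le_exp n (Nat.clog 2 K)
  have h4 : rad n (2 * cA n * Nat.clog 2 K) ≤ cA n * 8 ^ Nat.clog 2 K := by exact_mod_cast h3
  exact h2.trans h4

/-- powers of `X` against `2 ^ X` -/
theorem pow_le_two_pow (s : SIn) {c : ℕ} (hc : c ≤ 50000) : XX s ^ c ≤ 2 ^ XX s := by
  rw [← two_pow_mul_ss]
  exact Nat.pow_le_pow_right (by norm_num) (c_mul_s_le hc)

theorem XX_ge20 (s : SIn) : 2 ^ 20 ≤ XX s := two20_le

theorem aux_8 {c x l : ℕ} (h1 : c ≤ 2 ^ x) (h2 : l ≤ x) : c * 8 ^ l ≤ 2 ^ (4 * x) := by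
  have e : (2 : ℕ) ^ (4 * x) = 2 ^ x * 8 ^ x := by
    have : (8 : ℕ) ^ x = 2 ^ (3 * x) := by rw [pow_mul]; norm_num
    rw [this, ← pow_add]
    congr 1
    omega
  rw [e]
  exact Nat.mul_le_mul h1 (Nat.pow_le_pow_right (by norm_num) h2)

theorem aux_M {n x : ℕ} (hn : n ≤ x) (h16 : 2 ^ 16 ≤ x) (h2 : 2 * x ^ 19 ≤ 2 ^ x) :
    n * (x ^ 18 * 2 ^ (4 * x)) + 2 * 2 ^ (4 * x) ≤ 2 ^ (5 * x) := by
  have hp : 2 ≤ x ^ 19 := by
    calc 2 ≤ x := le_trans (by norm_num) h16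
      _ = x ^ 1 := (pow_one _).symm
      _ ≤ x ^ 19 := Nat.pow_le_pow_right (by omega) (by norm_num)
  have e : (2 : ℕ) ^ (5 * x) = 2 ^ x * 2 ^ (4 * x) := by
    rw [← pow_add]
    congr 1
    omega
  rw [e]
  generalize 2 ^ (4 * x) = y
  calc n * (x ^ 18 * y) + 2 * y
      ≤ x * (x ^ 18 * y) + x ^ 19 * y :=
        Nat.add_le_add (Nat.mul_le_mul_right _ hn) (Nat.mul_le_mul_right _ hp)
    _ = (2 * x ^ 19) * y := by ring
    _ ≤ 2 ^ x * y := Nat.mul_le_mul_right _ h2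

/-- **the radii of the stages** -/
theorem stQ_le_mx (s : SIn) (L t : ℕ) (ht : t ≤ nStages (sn s) L (sR s)) :
    stQ (sn s) L t ≤ 2 ^ (4 * XX s) := by
  refine (stQ_le8 _ _ _ _ ht).trans ?_
  have h1 := cA_le (XX_ge s) (sn_le s)
  have h2 := clog_sR_le s
  have h3 := pow_le_two_pow s (c := 12) (by norm_num)
  exact aux_8 (h1.trans h3) h2


/-! ### `PNum` -/

/-- `mx` -/
def mx0 (s : SIn) : ℤ := 2 ^ (4 * XX s)

/-- `G` -/
noncomputable def G0 (s : SIn) : ℝ := (XX s : ℝ) ^ 18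

theorem two_n_le (s : SIn) : 2 * sn s + 1 ≤ 2 * XX s := by have := sn_le s; omega

theorem dl_le (s : SIn) : cPar.dl s ≤ XX s ^ 80 := by
  show sn s * (2 * sn s + 1) ^ 2 * XX s ^ 76 ≤ XX s ^ 80
  have h1 : sn s ≤ XX s := (Nat.le_succ _).trans (sn_le s)
  have h2 : (2 * sn s + 1) ^ 2 ≤ (2 * XX s) ^ 2 := Nat.pow_le_pow_left (two_n_le s) 2
  calc sn s * (2 * sn s + 1) ^ 2 * XX s ^ 76 ≤ XX s * (2 * XX s) ^ 2 * XX s ^ 76 :=
        Nat.mul_le_mul_right _ (Nat.mul_le_mul h1 h2)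
    _ = 4 * XX s ^ 79 := by ring
    _ ≤ XX s ^ 80 := c_mul_pw (XX_ge s) (by norm_num)

theorem one_le_XXpow (s : SIn) (c : ℕ) : 1 ≤ XX s ^ c := Nat.one_le_pow _ _ (by have := XX_ge s; omega)

theorem two_pow_a_le (s : SIn) {a : ℕ} (ha : a ≤ 33 * ss s) : 2 ^ a ≤ XX s ^ 33 := by
  rw [← two_pow_mul_ss]
  exact Nat.pow_le_pow_right (by norm_num) ha

theorem w1_le_mx (s : SIn) : (cPar.w₁ s : ℤ) ≤ mx0 s := by
  have h1 : cPar.w₁ s ≤ 2 ^ (4 * XX s) :=
    (pow_le_two_pow s (c := 112) (by norm_num)).trans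
      (Nat.pow_le_pow_right (by norm_num) (by omega))
  unfold mx0
  exact_mod_cast h1

/-- **`PNum`** -/
theorem pnum (s : SIn) {a : ℕ} (ha : a ≤ 33 * ss s) :
    PNum (sn s) a (cPar.dk s) (cPar.dl s) (XX s ^ 76) (cPar.w₁ s) (mx0 s) (G0 s) where
  dk1 := one_le_XXpow s 75
  P8 := c_mul_pw (XX_ge s) (by norm_num)
  dl_eq := rfl
  dlw := by
    have h1 : cPar.dl s ≤ cPar.w₁ s :=
      (dl_le s).trans (Nat.pow_le_pow_right (by have := XX_ge s; omega) (by norm_num))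
    exact_mod_cast h1
  small := by
    have h2 := two_pow_a_le s ha
    have h3 := two_n_le s
    have h4 : 45 * (2 * sn s + 1) * XX s ^ 76 * 2 ^ a ≤ XX s ^ 112 := by
      calc 45 * (2 * sn s + 1) * XX s ^ 76 * 2 ^ a ≤ 45 * (2 * XX s) * XX s ^ 76 * XX s ^ 33 :=
            Nat.mul_le_mul (Nat.mul_le_mul_right _ (Nat.mul_le_mul_left _ h3)) h2
        _ = 90 * XX s ^ 110 := by ring
        _ ≤ XX s ^ 112 := c_mul_pw' (XX_ge s) (by norm_num) (by norm_num)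
    exact_mod_cast h4
  G1 := by
    unfold G0
    exact_mod_cast one_le_XXpow s 18
  wmx := w1_le_mx s

theorem hM (s : SIn) : (sn s : ℝ) * (G0 s * (mx0 s : ℤ)) + 2 * (mx0 s : ℤ) ≤ (cPar.M s : ℕ) := by
  have h1 := aux_M ((Nat.le_succ _).trans (sn_le s)) (XX_ge s)
    ((c_mul_pw (XX_ge s) (by norm_num)).trans (pow_le_two_pow s (by norm_num)))
  have h2 : ((sn s * (XX s ^ 18 * 2 ^ (4 * XX s)) + 2 * 2 ^ (4 * XX s) : ℕ) : ℝ) ≤
      ((2 ^ (5 * XX s) : ℕ) : ℝ) := by exact_mod_cast h1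
  have e : cPar.M s = 2 ^ (5 * XX s) := rfl
  rw [e]
  unfold G0 mx0
  push_cast at h2 ⊢
  exact h2

end Crest.Agent.R302.Num
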