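import Crest.Agent.R302.S1Prog893
import Crest.Agent.R302.Conc725
import Crest.Agent.R302.KerR342
import Crest.Agent.R302.ConcFacts342
import Crest.Agent.R302.Rep646B
import Crest.Agent.R302.ConcFacts342B_Mg
import Crest.Agent.R302.Num272B
import Crest.Agent.R302.ConcFacts351
import Crest.Agent.R302.CParNum166
import Crest.Agent.R302.Num166
import Crest.Agent.R302.Center970B

-- ▼ part R302/S1Conc893
section

/-!
R302 (helper893): block (S1) for helper725's concrete stage data `sdOf`.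
-/

set_option autoImplicit false
set_option linter.unusedSectionVars false
set_option linter.unusedVariables false

namespace Crest.Agent.R302.T893

open Finset Lor
open Crest.Agent.R302.Tree (RTree)
open Crest.Agent.R302.Inst Crest.Agent.R302.Stage Crest.Agent.R302.Macro
open Crest.Agent.R302.Inst.Side (Gauge)
open Crest.Agent.R302.GeoSpec Crest.Agent.R302.StageL Crest.Agent.R302.TreeNN
open Crest.Agent.R302.Conc

variable {n : ℕ}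

/-- slope of the slack kernel -/
noncomputable def bK (dk : ℕ) (m : Fin n → Fin n → ℤ) (w₁ : ℤ) (a : Fin n) : ℝ :=
  2 * (1 / 2) ^ kV dk (nnForest m w₁) m a



variable (m₁ m₂ : Fin n → Fin n → ℤ) (J₁ J₂ : Finset (Fin n → ℤ)) (w : (Fin n → ℤ) → ℤ)
  (P : Conc.Par) (ell c : Fin n → ℤ)





end Crest.Agent.R302.T893
end

-- ▼ part R302/S1Ann893
section

/-!
R302 (helper893): block (S1) for the concrete stages, from helper342's `ConcF.Spec`.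
-/

set_option autoImplicit false
set_option linter.unusedSectionVars false
set_option linter.unusedVariables false

namespace Crest.Agent.R302.T893

open Finset Lor
open Crest.Agent.R302.Tree (RTree)
open Crest.Agent.R302.Inst Crest.Agent.R302.Stage Crest.Agent.R302.Macro
open Crest.Agent.R302.Inst.Side (Gauge)
open Crest.Agent.R302.GeoSpec Crest.Agent.R302.StageL Crest.Agent.R302.TreeNN
open Crest.Agent.R302.Conc Crest.Agent.R302.ConcF Crest.Agent.R302.AnnBox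
open Crest.Agent.R302.Facet (MemJ SubM cap slk sep)

/-! ### bounds of the capacities -/

section Cap

variable {V : Type*} [Fintype V] [DecidableEq V]

theorem cap_self (r : Finset V → ℤ) (x : V → ℤ) (a : V) : cap r x a a = 0 := by
  unfold Facet.cap
  rw [dif_neg]
  rintro ⟨A, hA⟩
  exact (Facet.mem_sep.1 hA).2 (Facet.mem_sep.1 hA).1


end Cap

variable {n : ℕ}


theorem mcap_self (r : Finset (Fin n) → ℤ) (x : Fin n → ℤ) (a : Fin n) : mcap r x a a = 0 := by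
  unfold mcap; rw [cap_self, min_self]

/-- capacities at stage `t` are at most the radius -/
theorem mA_le_stQ (𝒜 : AnnData n) {r : Finset (Fin n) → ℤ} (hr : SubM r 𝒜.R)
    (hx : MemJ r 𝒜.R 𝒜.x₀) (t : ℕ) (a b : Fin n) : mA 𝒜 r t a b ≤ stQ n 𝒜.L t := by
  by_cases hab : a = b
  · subst hab
    show mcap (𝒜.stR r t) 𝒜.x₀ a a ≤ _
    rw [mcap_self]; positivity
  · exact Rep646.stM_le 𝒜 hr hx t hab

/-- **(S1) from the specification of the concrete stage** -/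
theorem S1_spec {D : SD (Fin n)} {m₁ m₂ : Fin n → Fin n → ℤ} {w₁ : ℤ} {dk L t : ℕ}
    {x₀ : Fin n → ℤ} {r₁ r₂ : Finset (Fin n) → ℤ} {R : ℤ} {rep : Fin n → Fin n}
    (hS : Spec D m₁ m₂ w₁ dk L t x₀ r₁ r₂ R rep)
    {M₁ M₂ : List (List ℤ)} {dl : ℕ}
    (hM₁ : ∀ a b : Fin n, (M₁.getD a []).getD b 0 = m₁ a b)
    (hM₂ : ∀ a b : Fin n, (M₂.getD a []).getD b 0 = m₂ a b)
    (hmv : D.mv = mvV m₁ m₂ w₁ M₁ M₂ (elE w₁ dl))
    (hlk₁ : D.lk₁ = pairsV D.S₁.T) (hlk₂ : D.lk₂ = pairsV D.S₂.T)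
    (hn0 : 0 < n) {P : ℕ} {mx : ℤ} {G : ℝ}
    (hN : PNum n D.a dk dl P w₁ mx G) (hm₁ : ∀ a b, m₁ a b ≤ mx) (hm₂ : ∀ a b, m₂ a b ≤ mx)
    (hM : n * (G * mx) + 2 * mx ≤ D.M)
    (Kw : ℕ) {A : ℝ}
    (hA1 : 3 * A0n n (2 * n + 1) (kap D.θ 1) G P w₁ D.θ * kap D.θ 1 ^ 3 ≤ A)
    (hA2 : (1 + (2 * n ^ 2 : ℕ) * (6 * A0n n (2 * n + 1) (kap D.θ 1) G P w₁
      D.θ * kap D.θ 1 ^ 3)) * Link.KL D.S₁.Blk (2 * Kw) ≤ A)
    (hA3 : (1 + (2 * n ^ 2 : ℕ) * (6 * A0n n (2 * n + 1) (kap D.θ 1) G P w₁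
      D.θ * kap D.θ 1 ^ 3)) * Link.KL D.S₂.Blk (2 * Kw) ≤ A)
    (f : St D → ℝ) {M : ℝ} (hM0 : 0 ≤ M) (hfM : ∀ p, |f p| ≤ M) :
    vr D.bx D.nuG f ≤ A * D.enG f +
      (CD n (2 * n + 1) (2 * D.M) (kap D.θ 1)
          (KSn n (2 * n + 1) (kap D.θ 1) G P w₁ D.θ mx) *
        badm D.S₁.T D.S₂.T (LL G (wtV m₁ m₂ w₁)) (cen D.S₁.T D.S₂.T D.c) D.Wx
          (Fintype.piFinset fun a => Icc (D.c a - D.M - 1) (D.c a + D.M + 1))
      + (1 + (2 * n ^ 2 : ℕ) * (6 * A0n n (2 * n + 1) (kap D.θ 1) G P w₁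
          D.θ * kap D.θ 1 ^ 3)) *
        (8 * Joint.farM D.Bx D.a₁ D.a₂ D.Λ₁ D.Λ₂ D.S₁.blk D.S₂.blk Kw)) * M ^ 2 := by
  have hf : PFacts D m₁ m₂ w₁ M₁ M₂ dk dl (ConcF.bK dk D.S₁.T m₁) (ConcF.dK dk D.S₁.T m₁)
      (ConcF.bK dk D.S₂.T m₂) (ConcF.dK dk D.S₂.T m₂) :=
    { T₁ := hS.T₁
      T₂ := hS.T₂
      hM₁ := hM₁
      hM₂ := hM₂
      b₁e := fun a b h => by unfold ConcF.bK; rw [hS.T₁, kV_some h]
      b₂e := fun a b h => by unfold ConcF.bK; rw [hS.T₂, kV_some h]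
      D₁e := fun a b h => by unfold ConcF.dK; rw [hS.T₁, kV_some h]
      D₂e := fun a b h => by unfold ConcF.dK; rw [hS.T₂, kV_some h]
      mv := hmv
      lk₁ := hlk₁
      lk₂ := hlk₂ }
  have hF := hS.facts
  exact S1_prog hf hF.pair hF.sh₁ hF.sh₂ hF.ga₁ hF.ga₂ hF.lb₁ hF.lb₂ hn0 hN hm₁ hm₂ hM Kw
    hA1 hA2 hA3 f hM0 hfM

/-- **(S1) for the stages of the annealing data** -/
theorem S1_ann (𝒜 : AnnData n) (t : ℕ) (Pr : Conc.Par) (ell : Fin n → ℤ)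
    {r₁ r₂ : Finset (Fin n) → ℤ} {R : ℤ} {L' t' : ℕ} {x₀ : Fin n → ℤ} {rep : Fin n → Fin n}
    (hS : Spec (sdA 𝒜 t Pr ell) (mA 𝒜 𝒜.r₁ t) (mA 𝒜 𝒜.r₂ t) Pr.w₁ Pr.dk L' t' x₀ r₁ r₂ R rep)
    (hn0 : 0 < n) {P : ℕ} {mx : ℤ} {G : ℝ}
    (hN : PNum n Pr.a Pr.dk Pr.dl P Pr.w₁ mx G) (hmx : (stQ n 𝒜.L t : ℤ) ≤ mx)
    (hM : n * (G * mx) + 2 * mx ≤ Pr.M)
    (Kw : ℕ) {A : ℝ}
    (hA1 : 3 * A0n n (2 * n + 1) (kap ((1 / 2) ^ Pr.a) 1) G P Pr.w₁ ((1 / 2) ^ Pr.a) *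
      kap ((1 / 2) ^ Pr.a) 1 ^ 3 ≤ A)
    (hA2 : (1 + (2 * n ^ 2 : ℕ) * (6 * A0n n (2 * n + 1) (kap ((1 / 2) ^ Pr.a) 1) G P Pr.w₁
      ((1 / 2) ^ Pr.a) * kap ((1 / 2) ^ Pr.a) 1 ^ 3)) *
        Link.KL (sdA 𝒜 t Pr ell).S₁.Blk (2 * Kw) ≤ A)
    (hA3 : (1 + (2 * n ^ 2 : ℕ) * (6 * A0n n (2 * n + 1) (kap ((1 / 2) ^ Pr.a) 1) G P Pr.w₁
      ((1 / 2) ^ Pr.a) * kap ((1 / 2) ^ Pr.a) 1 ^ 3)) *
        Link.KL (sdA 𝒜 t Pr ell).S₂.Blk (2 * Kw) ≤ A)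
    (f : St (sdA 𝒜 t Pr ell) → ℝ) {M : ℝ} (hM0 : 0 ≤ M) (hfM : ∀ p, |f p| ≤ M) :
    vr (sdA 𝒜 t Pr ell).bx (sdA 𝒜 t Pr ell).nuG f ≤ A * (sdA 𝒜 t Pr ell).enG f +
      (CD n (2 * n + 1) (2 * Pr.M) (kap ((1 / 2) ^ Pr.a) 1)
          (KSn n (2 * n + 1) (kap ((1 / 2) ^ Pr.a) 1) G P Pr.w₁ ((1 / 2) ^ Pr.a) mx) *
        badm (sdA 𝒜 t Pr ell).S₁.T (sdA 𝒜 t Pr ell).S₂.T
          (LL G (wtV (mA 𝒜 𝒜.r₁ t) (mA 𝒜 𝒜.r₂ t) Pr.w₁))
          (cen (sdA 𝒜 t Pr ell).S₁.T (sdA 𝒜 t Pr ell).S₂.T 𝒜.x₀) (sdA 𝒜 t Pr ell).Wx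
          (Fintype.piFinset fun a => Icc (𝒜.x₀ a - Pr.M - 1) (𝒜.x₀ a + Pr.M + 1))
      + (1 + (2 * n ^ 2 : ℕ) * (6 * A0n n (2 * n + 1) (kap ((1 / 2) ^ Pr.a) 1) G P Pr.w₁
          ((1 / 2) ^ Pr.a) * kap ((1 / 2) ^ Pr.a) 1 ^ 3)) *
        (8 * Joint.farM (sdA 𝒜 t Pr ell).Bx (sdA 𝒜 t Pr ell).a₁ (sdA 𝒜 t Pr ell).a₂
          (sdA 𝒜 t Pr ell).Λ₁ (sdA 𝒜 t Pr ell).Λ₂ (sdA 𝒜 t Pr ell).S₁.blk
          (sdA 𝒜 t Pr ell).S₂.blk Kw)) * M ^ 2 := by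
  have h := S1_spec (D := sdA 𝒜 t Pr ell) hS (M₁ := ofMat (mA 𝒜 𝒜.r₁ t))
    (M₂ := ofMat (mA 𝒜 𝒜.r₂ t)) (dl := Pr.dl) (ofMat_getD _) (ofMat_getD _) rfl rfl rfl hn0 hN
    (fun a b => (mA_le_stQ 𝒜 𝒜.sub₁ 𝒜.mem₁ t a b).trans hmx)
    (fun a b => (mA_le_stQ 𝒜 𝒜.sub₂ 𝒜.mem₂ t a b).trans hmx) hM Kw hA1 hA2 hA3 f hM0 hfM
  exact h

end Crest.Agent.R302.T893
end

-- ▼ part R302/Mix536
section

/-!
R302 (helper536), STAGE: the mixing input of the two concrete chains.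

* `cs_length`, `cs_exp`, `kV_le` : number of directions, exponents of lengths and slacks;
* `mix_of` : `StIn.mix` from (S1), masses, numbers.
-/

set_option autoImplicit false
set_option linter.unusedSectionVars false

namespace Crest.Agent.R302.Fields

open Finset Crest.Agent.R302.Inst Crest.Agent.R302.Stage Crest.Agent.R302.AnnBox
open Crest.Agent.R302.Loop Crest.Agent.R302.Mix Crest.Agent.R302.Step Crest.Agent.R302.Prog
open Crest.Agent.R302.Slk Crest.Agent.R302.Smp Crest.Agent.R302.Top Crest.Agent.R302.Facet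
open Crest.Agent.R302.Macro
open Crest.Agent.R302.Conc (sdA sdOf parOf ellOf jF mem_jF mA code_prg mem_ks₁ mem_ks₂ matT₁ matT₂)
open Crest.Agent.R302.Lor (ev)
open Crest.Agent.R302.ORAM Crest.Agent.R302.StageL Crest.Agent.R302.GeoSpec
open Crest.Agent.R309.MC Crest.Agent.R309.Tape

variable {n : ℕ}

/-! ### the directions -/

theorem length_rootsV (T : MP3.Forest (Fin n)) : (rootsV T).length ≤ n := by
  unfold rootsV
  refine (List.length_filterMap_le _ _).trans ?_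
  rw [List.length_finRange]

theorem length_pairsV (T : MP3.Forest (Fin n)) : (pairsV T).length ≤ n * n := by
  unfold pairsV
  rw [List.length_flatMap]
  have h1 : ∀ x ∈ (rootsV T).map (fun r => (((rootsV T).filter fun r' =>
      decide (r'.1 ≠ r.1)).map fun r' => (r, r')).length), x ≤ n := by
    intro x hx
    obtain ⟨r, _, rfl⟩ := List.mem_map.1 hx
    rw [List.length_map]
    exact (List.length_filter_le _ _).trans (length_rootsV T)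
  refine (List.sum_le_card_nsmul _ n h1).trans ?_
  rw [List.length_map, smul_eq_mul]
  exact Nat.mul_le_mul_right _ (length_rootsV T)

theorem cs_length (𝒜 : AnnData n) (t : ℕ) (P : Conc.Par) (ell : Fin n → ℤ) :
    (sdA 𝒜 t P ell).cs.length ≤ 4 * n ^ 2 := by
  unfold SD.cs
  rw [List.length_append, List.length_append, List.length_map, List.length_map, List.length_map]
  have h1 : (sdA 𝒜 t P ell).mv.length = n * (2 * n) := by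
    show (mvV _ _ _ _ _ _).length = _
    unfold mvV
    rw [List.length_flatMap]
    simp
  have h2 : (sdA 𝒜 t P ell).lk₁.length ≤ n * n := length_pairsV _
  have h3 : (sdA 𝒜 t P ell).lk₂.length ≤ n * n := length_pairsV _
  nlinarith

theorem lgE_le_size' {d : ℕ} {key : ℤ} {K : ℕ} (h : key ≤ 2 ^ K) : lgE d key ≤ K := by
  unfold lgE
  have h1 : key.toNat / d ≤ 2 ^ K := by
    refine (Nat.div_le_self _ _).trans ?_
    have : key ≤ ((2 ^ K : ℕ) : ℤ) := by exact_mod_cast h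
    exact Int.toNat_le.2 this
  have h2 : (key.toNat / d).size ≤ K + 1 := by
    rw [Nat.size_le]
    exact lt_of_le_of_lt h1 (Nat.pow_lt_pow_right (by norm_num) (Nat.lt_succ_self K))
  omega

theorem cs_exp (𝒜 : AnnData n) (t : ℕ) (P : Conc.Par) (ell : Fin n → ℤ) {K : ℕ}
    (hw : P.w₁ ≤ 2 ^ K) (hs : stQ n 𝒜.L t ≤ 2 ^ K) :
    ∀ p ∈ (sdA 𝒜 t P ell).cs, p.2 ≤ K := by
  intro p hp
  have hs' : (stQ n 𝒜.L t : ℤ) ≤ 2 ^ K := by exact_mod_cast hs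
  have m1 : ∀ a b, mA 𝒜 𝒜.r₁ t a b ≤ 2 ^ K := fun a b =>
    (T893.mA_le_stQ 𝒜 𝒜.sub₁ 𝒜.mem₁ t a b).trans hs'
  have m2 : ∀ a b, mA 𝒜 𝒜.r₂ t a b ≤ 2 ^ K := fun a b =>
    (T893.mA_le_stQ 𝒜 𝒜.sub₂ 𝒜.mem₂ t a b).trans hs'
  unfold SD.cs at hp
  rw [List.mem_append, List.mem_append] at hp
  rcases hp with hp | hp | hp
  · obtain ⟨q, hq, rfl⟩ := List.mem_map.1 hp
    have hq' : q ∈ mvV (mA 𝒜 𝒜.r₁ t) (mA 𝒜 𝒜.r₂ t) P.w₁ (Conc.ofMat (mA 𝒜 𝒜.r₁ t))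
      (Conc.ofMat (mA 𝒜 𝒜.r₂ t)) (elE P.w₁ P.dl) := hq
    unfold mvV at hq'
    obtain ⟨i, _, hq2⟩ := List.mem_flatMap.1 hq'
    obtain ⟨j, _, rfl⟩ := List.mem_map.1 hq2
    show elE P.w₁ P.dl _ ≤ K
    unfold elE
    split_ifs
    · exact Nat.zero_le _
    · exact lgE_le_size' (T893.keyV_le m1 m2 hw _)
  · obtain ⟨q, _, rfl⟩ := List.mem_map.1 hp
    exact Nat.zero_le _
  · obtain ⟨q, _, rfl⟩ := List.mem_map.1 hp
    exact Nat.zero_le _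

theorem kV_le {m : Fin n → Fin n → ℤ} {T : MP3.Forest (Fin n)} {dk K : ℕ}
    (h : ∀ a b, m a b ≤ 2 ^ K) (a : Fin n) : kV dk T m a ≤ K := by
  unfold kV
  split
  · exact Nat.zero_le _
  · exact lgE_le_size' (h _ _)

/-- **`StIn.mix`** from (S1), the masses and numbers -/
theorem mix_of {D : SD (Fin n)} (hOK : D.OK) (hlen : D.cs.length ≤ 2 ^ D.qa)
    (hexp : ∀ p ∈ D.cs, p.2 ≤ D.qb) {A d : ℝ} (hA : 1 ≤ A)
    (hP : ∀ (f : Stage.St D → ℝ) (M : ℝ), 0 ≤ M → (∀ p, |f p| ≤ M) →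
      vr D.bx D.nuG f ≤ A * D.enG f + d * M ^ 2) {δ Z ρ τ η : ℝ} (hδ : 0 < δ) (hδ1 : δ ≤ 1)
    (hZ : 0 < Z) (hd0 : 0 ≤ d) (hd : d ≤ ρ * Z)
    (hsm : ∑ σ ∈ D.bx.filter (fun σ => D.FG σ < δ), D.nuG σ ≤ τ * Z)
    (hmass : Z / 2 ≤ ∑ σ ∈ D.bx, D.nuG σ)
    (hnum : 256 * ρ + 512 * (A * 2 ^ (D.qa + 2)) * τ ≤ η ^ 2) {T L : ℕ}
    (hL : 8 ≤ η ^ 2 * 2 ^ L) (hT : (L : ℝ) ≤ δ / (A * 2 ^ (D.qa + 2)) * T) :
    ∃ (c e : ℝ) (L : ℕ), 0 < c ∧ c ≤ 1 ∧ 0 ≤ e ∧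
      PoincD (fun σ : D.bx => D.nuG σ) D.Kch c e ∧
      128 * e ≤ c * mass (fun σ : D.bx => D.nuG σ) * η ^ 2 ∧ 8 ≤ η ^ 2 * 2 ^ L ∧
        (L : ℝ) ≤ c * T := by
  obtain ⟨e, he, h1, h2⟩ := SD.poincD_final hOK hlen hexp (by linarith) hP hδ hZ hd0 hd hsm hmass
    hnum
  refine ⟨δ / (A * 2 ^ (D.qa + 2)), e, L, by positivity, ?_, he, h1, h2, hL, hT⟩
  rw [div_le_one (by positivity)]
  have h3 : (1 : ℝ) ≤ 2 ^ (D.qa + 2) := one_le_pow₀ (by norm_num)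
  nlinarith

end Crest.Agent.R302.Fields
end

-- ▼ part R302/Inst536
section

/-!
R302 (helper536), STAGE: the facts without masses of the two concrete chains
`Dc = sdA 𝒜 (t + 1) (parOf cPar s a) (ellOf cPar Q s t g)`.
-/

set_option autoImplicit false
set_option linter.unusedSectionVars false

namespace Crest.Agent.R302.Fields

open Finset Crest.Agent.R302.Inst Crest.Agent.R302.Stage Crest.Agent.R302.AnnBox
open Crest.Agent.R302.Loop Crest.Agent.R302.Mix Crest.Agent.R302.Step Crest.Agent.R302.Prog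
open Crest.Agent.R302.Slk Crest.Agent.R302.Smp Crest.Agent.R302.Top Crest.Agent.R302.Facet
open Crest.Agent.R302.Macro Crest.Agent.R302.Cst
open Crest.Agent.R302.Conc (sdA sdOf parOf ellOf jF mem_jF mA code_prg mem_ks₁ mem_ks₂ matT₁ matT₂)
open Crest.Agent.R302.Lor (ev)
open Crest.Agent.R302.ORAM Crest.Agent.R302.StageL Crest.Agent.R302.GeoSpec
open Crest.Agent.R309.MC Crest.Agent.R309.Tape

/-! ### numbers -/

section num

variable (s : SIn)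

theorem cA_le_X : cA (sn s) ≤ XX s ^ 12 := Cst.cA_le (XX_ge s) (sn_le s)

theorem kap_le_X' : Facet.kap (sn s) ≤ XX s ^ 9 := Cst.kap_le' (XX_ge s) (sn_le s)

theorem XX_lt_pow {a b : ℕ} (h : a < b) : XX s ^ a < XX s ^ b :=
  Nat.pow_lt_pow_right (lt_of_lt_of_le (by norm_num) (XX_ge s)) h

theorem cA_lt_w1 : (cA (sn s) : ℤ) < cPar.w₁ s := by
  have h1 : cA (sn s) < XX s ^ 112 := lt_of_le_of_lt (cA_le_X s) (XX_lt_pow s (by norm_num))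
  exact_mod_cast h1

theorem sn_le' : sn s ≤ XX s := (Nat.le_succ _).trans (sn_le s)

theorem kap_w1 : 16 * (sn s : ℤ) * (Facet.kap (sn s) : ℤ) + (4 * (sn s : ℤ) + 2) ≤ cPar.w₁ s := by
  have h1 : 16 * sn s * Facet.kap (sn s) + (4 * sn s + 2) ≤ XX s ^ 112 := by
    have hX := XX_ge s
    have hn := sn_le' s
    have hk := kap_le_X' s
    have e1 : 16 * sn s * Facet.kap (sn s) ≤ 16 * XX s ^ 10 := by
      calc 16 * sn s * Facet.kap (sn s) ≤ 16 * XX s * XX s ^ 9 :=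
            Nat.mul_le_mul (Nat.mul_le_mul_left _ hn) hk
        _ = 16 * XX s ^ 10 := by ring
    have e2 : 16 * XX s ^ 10 ≤ XX s ^ 11 := c_mul_pw hX (by norm_num)
    have e3 : 4 * sn s + 2 ≤ XX s ^ 11 := by
      have : 4 * sn s + 2 ≤ 5 * XX s ^ 1 := by rw [pow_one]; omega
      exact this.trans (c_mul_pw' hX (by norm_num) (by norm_num))
    have e4 : XX s ^ 11 + XX s ^ 11 ≤ XX s ^ 112 := pw_add hX (by norm_num) (by norm_num)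
    omega
  exact_mod_cast h1

theorem dk_pos : 0 < cPar.dk s := Num.one_le_XXpow s 75

theorem dk_le_w1 : (cPar.dk s : ℤ) ≤ cPar.w₁ s := by
  have h1 : XX s ^ 75 ≤ XX s ^ 112 := (XX_lt_pow s (by norm_num)).le
  exact_mod_cast h1

theorem big_w1 : 4 * (sn s : ℤ) * (cPar.dk s : ℤ) ≤ cPar.w₁ s := by
  have h1 : 4 * sn s * XX s ^ 75 ≤ XX s ^ 112 := by
    calc 4 * sn s * XX s ^ 75 ≤ 4 * XX s * XX s ^ 75 :=
          Nat.mul_le_mul_right _ (Nat.mul_le_mul_left _ (sn_le' s))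
      _ = 4 * XX s ^ 76 := by ring
      _ ≤ XX s ^ 112 := c_mul_pw' (XX_ge s) (by norm_num) (by norm_num)
  exact_mod_cast h1

theorem R_le_Lb : sR s ≤ cPar.Lb s := by
  have h1 : sR s < 2 ^ XX s := R_lt
  have h2 : (2 : ℕ) ^ XX s ≤ 2 ^ (5 * XX s) := Nat.pow_le_pow_right (by norm_num) (by omega)
  exact h1.le.trans h2

theorem len_le : 4 * sn s ^ 2 ≤ 2 ^ cPar.qa s := by
  show 4 * sn s ^ 2 ≤ 2 ^ (3 * ss s)
  rw [two_pow_mul_ss]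
  calc 4 * sn s ^ 2 ≤ 4 * XX s ^ 2 := Nat.mul_le_mul_left _ (Nat.pow_le_pow_left (sn_le' s) 2)
    _ ≤ XX s ^ 3 := c_mul_pw (XX_ge s) (by norm_num)

theorem four_X_le : 4 * XX s ≤ cPar.qb s := by
  show 4 * XX s ≤ XX s ^ 2
  have := c_mul_pw (c := 4) (a := 1) (XX_ge s) (by norm_num)
  simpa using this

theorem w1_le : (cPar.w₁ s : ℤ) ≤ 2 ^ (4 * XX s) := Num.w1_le_mx s

end num

section inst

variable {n R m : ℕ} {r₁ r₂ : Finset (Fin n) → ℕ} {lo hi : Fin n → ℤ} {𝒜 : AnnData n}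

/-- the stage data of the program with link exponent `a` -/
noncomputable abbrev Dc (𝒜 : AnnData n) (Q : Qf) (s : SIn) (t a : ℕ) (g : List ℤ) : SD (Fin n) :=
  sdA 𝒜 (t + 1) (parOf cPar s a) (ellOf cPar Q s t g)

theorem stQ_inst (h : IsInst (Prog.prg cPar) n R m r₁ r₂ lo hi 𝒜) {t : ℕ}
    (ht : t < (Prog.prg cPar).T (inp n R m lo hi)) :
    stQ n 𝒜.L (t + 1) ≤ 2 ^ (4 * XX (inp n R m lo hi)) := by
  refine Num.stQ_le_mx (inp n R m lo hi) 𝒜.L (t + 1) ?_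
  rw [h.AL]
  exact ht

theorem dc_len (Q : Qf) (t a : ℕ) (g : List ℤ) :
    (Dc 𝒜 Q (inp n R m lo hi) t a g).cs.length ≤ 2 ^ (Dc 𝒜 Q (inp n R m lo hi) t a g).qa := by
  have e : (Dc 𝒜 Q (inp n R m lo hi) t a g).qa = cPar.qa (inp n R m lo hi) := rfl
  have e2 : 4 * n ^ 2 ≤ 2 ^ cPar.qa (inp n R m lo hi) := by
    have := len_le (inp n R m lo hi)
    have e3 : sn (inp n R m lo hi) = n := rfl
    rw [e3] at this
    exact this
  rw [e]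
  exact le_trans (cs_length 𝒜 (t + 1) _ _) e2

theorem dc_exp (h : IsInst (Prog.prg cPar) n R m r₁ r₂ lo hi 𝒜) {t : ℕ}
    (ht : t < (Prog.prg cPar).T (inp n R m lo hi)) (Q : Qf) (a : ℕ) (g : List ℤ) :
    ∀ p ∈ (Dc 𝒜 Q (inp n R m lo hi) t a g).cs, p.2 ≤ (Dc 𝒜 Q (inp n R m lo hi) t a g).qb := by
  intro p hp
  have e : (Dc 𝒜 Q (inp n R m lo hi) t a g).qb = cPar.qb (inp n R m lo hi) := rfl
  rw [e]
  have e2 : (parOf cPar (inp n R m lo hi) a).w₁ ≤ 2 ^ (4 * XX (inp n R m lo hi)) :=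
    w1_le (inp n R m lo hi)
  exact (cs_exp 𝒜 (t + 1) (parOf cPar (inp n R m lo hi) a)
    (ellOf cPar Q (inp n R m lo hi) t g) e2 (stQ_inst h ht) p hp).trans
      (four_X_le (inp n R m lo hi))

theorem hB₁_inst (h : IsInst (Prog.prg cPar) n R m r₁ r₂ lo hi 𝒜) {t : ℕ}
    (ht : t < (Prog.prg cPar).T (inp n R m lo hi)) (e : Fin n) :
    slkLen (StageL.kV (cPar.dk (inp n R m lo hi))
      (GeoSpec.nnForest (mA 𝒜 𝒜.r₁ (t + 1)) (cPar.w₁ (inp n R m lo hi))) (mA 𝒜 𝒜.r₁ (t + 1)) e)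
      (cPar.N (inp n R m lo hi)) ≤ cPar.B (inp n R m lo hi) := by
  refine slkLen_cPar (inp n R m lo hi) ((kV_le (K := 4 * XX (inp n R m lo hi)) (fun a b => ?_)
    e).trans (by omega))
  have h1 : (stQ n 𝒜.L (t + 1) : ℤ) ≤ 2 ^ (4 * XX (inp n R m lo hi)) := by
    exact_mod_cast stQ_inst h ht
  exact (T893.mA_le_stQ 𝒜 𝒜.sub₁ 𝒜.mem₁ (t + 1) a b).trans h1

theorem hB₂_inst (h : IsInst (Prog.prg cPar) n R m r₁ r₂ lo hi 𝒜) {t : ℕ}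
    (ht : t < (Prog.prg cPar).T (inp n R m lo hi)) (e : Fin n) :
    slkLen (StageL.kV (cPar.dk (inp n R m lo hi))
      (GeoSpec.nnForest (mA 𝒜 𝒜.r₂ (t + 1)) (cPar.w₁ (inp n R m lo hi))) (mA 𝒜 𝒜.r₂ (t + 1)) e)
      (cPar.N (inp n R m lo hi)) ≤ cPar.B (inp n R m lo hi) := by
  refine slkLen_cPar (inp n R m lo hi) ((kV_le (K := 4 * XX (inp n R m lo hi)) (fun a b => ?_)
    e).trans (by omega))
  have h1 : (stQ n 𝒜.L (t + 1) : ℤ) ≤ 2 ^ (4 * XX (inp n R m lo hi)) := by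
    exact_mod_cast stQ_inst h ht
  exact (T893.mA_le_stQ 𝒜 𝒜.sub₂ 𝒜.mem₂ (t + 1) a b).trans h1

theorem parOK_c (h : IsInst (Prog.prg cPar) n R m r₁ r₂ lo hi 𝒜) (a : ℕ) :
    ConcF.ParOK 𝒜 (parOf cPar (inp n R m lo hi) a) :=
  ConcF.parOK_inst h (cA_lt_w1 (inp n R m lo hi)) (dk_pos (inp n R m lo hi))
    (big_w1 (inp n R m lo hi)) (by exact_mod_cast R_le_Lb (inp n R m lo hi))

theorem dc_ok (Q : Qf) (s : SIn) (t a : ℕ) (g : List ℤ) : (Dc 𝒜 Q s t a g).OK :=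
  ConcF.sdA_ok 𝒜 (t + 1) _ _ (dk_pos s) (dk_le_w1 s)

/-- the representatives of the components -/
noncomputable def repc (h : IsInst (Prog.prg cPar) n R m r₁ r₂ lo hi 𝒜) {t : ℕ}
    (ht : t < (Prog.prg cPar).T (inp n R m lo hi)) : Fin n → Fin n :=
  Rep646.rep (M₁ := Prog.matT cPar (rq r₁ r₂) (inp n R m lo hi) t false)
    (M₂ := Prog.matT cPar (rq r₁ r₂) (inp n R m lo hi) t true)
    (m₁ := mA 𝒜 𝒜.r₁ (t + 1)) (m₂ := mA 𝒜 𝒜.r₂ (t + 1))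
    (fun a b => by rw [matT₁ h ht, Conc.ofMat_getD]) (fun a b => by rw [matT₂ h ht, Conc.ofMat_getD])
    (cPar.w₁ (inp n R m lo hi))


theorem repC_c (h : IsInst (Prog.prg cPar) n R m r₁ r₂ lo hi 𝒜) {t : ℕ}
    (ht : t < (Prog.prg cPar).T (inp n R m lo hi)) (a : ℕ) :
    ConcF.RepC 𝒜 (parOf cPar (inp n R m lo hi) a) (t + 1) (repc h ht) :=
  ⟨fun _ _ hh => Rep646.rep_par₁ _ _ hh, fun _ _ hh => Rep646.rep_par₂ _ _ hh⟩

theorem ell_c (h : IsInst (Prog.prg cPar) n R m r₁ r₂ lo hi 𝒜) {t : ℕ}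
    (ht : t < (Prog.prg cPar).T (inp n R m lo hi)) (g : List ℤ) :
    ∃ f : Fin n → ℤ, ∀ e, ellOf cPar (rq r₁ r₂) (inp n R m lo hi) t g e = f (repc h ht e) :=
  ⟨fun i => g.getD i 0, fun _ => rfl⟩

/-- 342's specification -/
theorem spec_c (h : IsInst (Prog.prg cPar) n R m r₁ r₂ lo hi 𝒜) {t : ℕ}
    (ht : t < (Prog.prg cPar).T (inp n R m lo hi)) (a : ℕ) (g : List ℤ) :
    ConcF.Spec (Dc 𝒜 (rq r₁ r₂) (inp n R m lo hi) t a g) (mA 𝒜 𝒜.r₁ (t + 1))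
      (mA 𝒜 𝒜.r₂ (t + 1)) (parOf cPar (inp n R m lo hi) a).w₁ (parOf cPar (inp n R m lo hi) a).dk
      𝒜.L (t + 1) 𝒜.x₀ (𝒜.stR 𝒜.r₁ (t + 1)) (𝒜.stR 𝒜.r₂ (t + 1)) 𝒜.R (repc h ht) :=
  ConcF.spec_sdA (parOK_c h a) (repC_c h ht a) (ell_c h ht g)


end inst

end Crest.Agent.R302.Fields
end

-- ▼ part R302/Num166B

/-!
# R302, numbers (helper166): the tails and side conditions of `badm_sdA` and `farM_le'` for the concrete parameters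
-/

set_option autoImplicit false

namespace Crest.Agent.R302.Num

open Crest.Agent.R302.Smp Crest.Agent.R302.Top Crest.Agent.R302.Cst Crest.Agent.R302.Prog

/-- (b), generic -/
theorem tf_aux {x : ℕ} (hx : 2 ^ 16 ≤ x) {q : ℝ} (hq0 : 0 ≤ q) (hq : q ≤ 1 / 2) :
    4 * q ^ (x ^ 4 + 1) ≤ (1 / 2) ^ (x ^ 3 + 1) := by
  have h1 : q ^ (x ^ 4 + 1) ≤ (1 / 2) ^ (x ^ 4 + 1) := pow_le_pow_left₀ hq0 hq _
  have h2 : (1 / 2 : ℝ) ^ (x ^ 4 + 1) ≤ (1 / 2) ^ (x ^ 3 + 1 + 2) := by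
    apply pow_le_pow_of_le_one (by norm_num) (by norm_num)
    have e : x ^ 4 = x ^ 3 * x := by ring
    have h3 : 1 ≤ x ^ 3 := Nat.one_le_pow _ _ (by omega)
    rw [e]
    nlinarith
  rw [pow_add _ (x ^ 3 + 1) 2] at h2
  linarith

/-- (a), generic -/
theorem tb_aux {x n : ℕ} (hx : 2 ^ 16 ≤ x) (hn : n ≤ x) {q y : ℝ} (hq0 : 0 ≤ q) (hq : q ≤ 1 / 2)
    (hy : (x : ℝ) ^ 4 ≤ y) :
    4 * q ^ (x ^ 4 + 1) + 4 * (n : ℝ) * ((9 / 4 * Real.exp (-y)) * (9 / 4) ^ (2 * n)) ≤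
      1 / 2 ^ (x ^ 3) := by
  have h1 := tf_aux hx hq0 hq
  have h2 : Real.exp (-y) ≤ (1 / 2) ^ (x ^ 4) := exp_neg_le (by push_cast; exact hy)
  have h3 : (9 / 4 : ℝ) ^ (2 * n) ≤ 2 ^ (4 * x) := by
    calc (9 / 4 : ℝ) ^ (2 * n) ≤ 4 ^ (2 * n) := pow_le_pow_left₀ (by norm_num) (by norm_num) _
      _ = 2 ^ (4 * n) := by
          rw [show (4 : ℝ) = 2 ^ 2 by norm_num, ← pow_mul]
          congr 1
          ring
      _ ≤ 2 ^ (4 * x) := pow_le_pow_right₀ (by norm_num) (by omega)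
  have h4 : 4 * (n : ℝ) * (9 / 4) ≤ 2 ^ (x + 4) := by
    have h5 : (n : ℝ) ≤ 2 ^ x := by
      have : n < 2 ^ x := lt_of_le_of_lt hn Nat.lt_two_pow_self
      exact_mod_cast this.le
    rw [pow_add]
    linarith
  have h6 : 4 * (n : ℝ) * ((9 / 4 * Real.exp (-y)) * (9 / 4) ^ (2 * n)) ≤ (1 / 2) ^ (x ^ 3 + 1) := by
    calc 4 * (n : ℝ) * ((9 / 4 * Real.exp (-y)) * (9 / 4) ^ (2 * n))
        = 4 * (n : ℝ) * (9 / 4) * (Real.exp (-y) * (9 / 4) ^ (2 * n)) := by ring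
      _ ≤ 2 ^ (x + 4) * ((1 / 2) ^ (x ^ 4) * 2 ^ (4 * x)) := by
          apply mul_le_mul h4 _ (by positivity) (by positivity)
          exact mul_le_mul h2 h3 (by positivity) (by positivity)
      _ = (1 / 2) ^ (x ^ 4) * 2 ^ (5 * x + 4) := by
          rw [show 5 * x + 4 = (x + 4) + 4 * x by ring, pow_add 2 (x + 4) (4 * x)]
          ring
      _ ≤ (1 / 2) ^ ((5 * x + 4) + (x ^ 3 + 1)) * 2 ^ (5 * x + 4) := by
          apply mul_le_mul_of_nonneg_right _ (by positivity)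
          apply pow_le_pow_of_le_one (by norm_num) (by norm_num)
          have e : x ^ 4 = x ^ 3 * x := by ring
          have e2 : x ^ 3 = x * x * x := by ring
          have h5 : 10 * x ≤ x ^ 3 := by
            rw [e2]
            apply Nat.mul_le_mul_right
            nlinarith
          have h7 : 3 * x ^ 3 ≤ x ^ 4 := by
            rw [e]
            nlinarith
          omega
      _ = (1 / 2) ^ (x ^ 3 + 1) := by
          rw [pow_add, mul_right_comm, ← mul_pow]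
          norm_num
  have e : (1 : ℝ) / 2 ^ (x ^ 3) = (1 / 2) ^ (x ^ 3 + 1) + (1 / 2) ^ (x ^ 3 + 1) := by
    rw [pow_succ, one_div_pow]
    ring
  rw [e]
  exact add_le_add h1 h6

theorem dk16_aux {X : ℝ} (hX : 65536 ≤ X) : X ^ 4 ≤ X ^ 75 / 16 := by
  rw [le_div_iff₀ (by norm_num)]
  have hX1 : (1 : ℝ) ≤ X := by linarith
  calc X ^ 4 * 16 ≤ X ^ 4 * X := by gcongr; linarith
    _ = X ^ 5 := by ring
    _ ≤ X ^ 75 := pow_le_pow_right₀ hX1 (by norm_num)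

theorem dk16 (s : SIn) : (XX s : ℝ) ^ 4 ≤ (cPar.dk s : ℝ) / 16 := by
  rw [dk_cast]
  exact dk16_aux (XX_geR s)

/-- **(a)** -/
theorem tb_le (s : SIn) {q : ℝ} (hq0 : 0 ≤ q) (hq : q ≤ 1 / 2) :
    4 * q ^ (XX s ^ 4 + 1) +
      4 * (sn s : ℝ) * ((9 / 4 * Real.exp (-((cPar.dk s : ℝ) / 16))) * (9 / 4) ^ (2 * sn s)) ≤
      1 / 2 ^ (XX s ^ 3) :=
  tb_aux (XX_ge s) ((Nat.le_succ _).trans (sn_le s)) hq0 hq (dk16 s)

/-- **(b)** -/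
theorem tf_le (s : SIn) {q : ℝ} (hq0 : 0 ≤ q) (hq : q ≤ 1 / 2) :
    4 * q ^ (XX s ^ 4 + 1) ≤ 1 / 2 ^ (XX s ^ 3) := by
  refine (tf_aux (XX_ge s) hq0 hq).trans ?_
  rw [pow_succ, one_div_pow]
  have : (0 : ℝ) ≤ 1 / 2 ^ (XX s ^ 3) := by positivity
  linarith

/-- the two ratios are at most `1/2` -/
theorem qE_half (s : SIn) : 0 ≤ 1 / (XX s : ℝ) ∧ 1 / (XX s : ℝ) ≤ 1 / 2 := by
  have h := XX_geR s
  exact ⟨by positivity, one_div_le_one_div_of_le (by norm_num) (by linarith)⟩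

theorem qM_half (s : SIn) : 0 ≤ 1 / (XX s : ℝ) ^ 63 ∧ 1 / (XX s : ℝ) ^ 63 ≤ 1 / 2 := by
  have h := XX_geR s
  refine ⟨by positivity, one_div_le_one_div_of_le (by norm_num) ?_⟩
  calc (2 : ℝ) ≤ XX s := by linarith
    _ = (XX s : ℝ) ^ 1 := (pow_one _).symm
    _ ≤ (XX s : ℝ) ^ 63 := pow_le_pow_right₀ (by linarith) (by norm_num)

/-! ### side conditions -/

section side

variable (s : SIn)

theorem one_le_XXp (c : ℕ) : 1 ≤ XX s ^ c := Nat.one_le_pow _ _ (by have := XX_ge s; omega)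

theorem XXp_mono {a b : ℕ} (h : a ≤ b) : XX s ^ a ≤ XX s ^ b :=
  Nat.pow_le_pow_right (by have := XX_ge s; omega) h

theorem sd_lam : sn s + 1 ≤ XX s ^ 6 :=
  (sn_le s).trans (by simpa using XXp_mono s (a := 1) (b := 6) (by norm_num))

theorem sd_Kw : 2 * sn s * XX s ^ 4 ≤ XX s ^ 6 := by
  have h1 : sn s ≤ XX s := (Nat.le_succ _).trans (sn_le s)
  calc 2 * sn s * XX s ^ 4 ≤ 2 * XX s * XX s ^ 4 :=
        Nat.mul_le_mul_right _ (Nat.mul_le_mul_left _ h1)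
    _ = 2 * XX s ^ 5 := by ring
    _ ≤ XX s ^ 6 := c_mul_pw (XX_ge s) (by norm_num)

theorem sd_dk : 128 * Facet.kap (sn s) ≤ cPar.dk s := by
  show 128 * Facet.kap (sn s) ≤ XX s ^ 75
  calc 128 * Facet.kap (sn s) ≤ 128 * XX s ^ 9 :=
        Nat.mul_le_mul_left _ (kap_le' (XX_ge s) (sn_le s))
    _ ≤ XX s ^ 75 := c_mul_pw' (XX_ge s) (by norm_num) (by norm_num)

theorem sd_w : 8 * Facet.kap (sn s) ≤ cPar.w₁ s := by
  show 8 * Facet.kap (sn s) ≤ XX s ^ 112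
  calc 8 * Facet.kap (sn s) ≤ 8 * XX s ^ 9 :=
        Nat.mul_le_mul_left _ (kap_le' (XX_ge s) (sn_le s))
    _ ≤ XX s ^ 112 := c_mul_pw' (XX_ge s) (by norm_num) (by norm_num)

theorem sd_w' : 2 * (4 * sn s + 2) * XX s ^ 6 ≤ cPar.w₁ s := by
  show 2 * (4 * sn s + 2) * XX s ^ 6 ≤ XX s ^ 112
  have h1 := sn_le s
  calc 2 * (4 * sn s + 2) * XX s ^ 6 ≤ 8 * XX s * XX s ^ 6 :=
        Nat.mul_le_mul_right _ (by omega)
    _ = 8 * XX s ^ 7 := by ring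
    _ ≤ XX s ^ 112 := c_mul_pw' (XX_ge s) (by norm_num) (by norm_num)

theorem sd_wZ : (8 * Facet.kap (sn s) : ℤ) ≤ (cPar.w₁ s : ℤ) := by exact_mod_cast sd_w s

theorem sd_wZ' : (2 * (4 * sn s + 2) * (XX s ^ 6 : ℕ) : ℤ) ≤ (cPar.w₁ s : ℤ) := by
  exact_mod_cast sd_w' s

theorem sd_dk0 : 0 < cPar.dk s := one_le_XXp s 75

theorem sd_dkw : cPar.dk s ≤ cPar.w₁ s := XXp_mono s (by norm_num)

theorem sd_dkwZ : (cPar.dk s : ℤ) ≤ (cPar.w₁ s : ℤ) := by exact_mod_cast sd_dkw s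

theorem sd_C : 1 ≤ Center.cC (sn s) ∨ sn s = 0 := by
  rcases Nat.eq_zero_or_pos (sn s) with h | h
  · exact Or.inr h
  · left
    have : 0 < Center.cC (sn s) := by
      unfold Center.cC
      positivity
    exact this

theorem sd_G_nat : XX s ^ 6 * (8 * sn s ^ 3 * Center.cC (sn s) + sn s * (3 * sn s + 4)) + XX s ^ 6 + 2 ≤
    XX s ^ 18 := by
  have hX := XX_ge s
  have hn : sn s ≤ XX s := (Nat.le_succ _).trans (sn_le s)
  have hC := cC_le hX (sn_le s)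
  generalize XX s = x at *
  generalize sn s = n at *
  generalize Center.cC n = c at *
  have h3 : n ^ 3 ≤ x ^ 3 := Nat.pow_le_pow_left hn 3
  have a1 : 8 * n ^ 3 * c ≤ 8 * x ^ 10 := by
    calc 8 * n ^ 3 * c ≤ 8 * x ^ 3 * x ^ 7 := Nat.mul_le_mul (Nat.mul_le_mul_left _ h3) hC
      _ = 8 * x ^ 10 := by ring
  have a2 : n * (3 * n + 4) ≤ x ^ 3 := by
    calc n * (3 * n + 4) ≤ x * (x * x) := Nat.mul_le_mul hn (by nlinarith)
      _ = x ^ 3 := by ring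
  have a3 : x ^ 3 ≤ x ^ 10 := Nat.pow_le_pow_right (by omega) (by norm_num)
  have a4 : 8 * n ^ 3 * c + n * (3 * n + 4) ≤ 9 * x ^ 10 := by omega
  have a5 : x ^ 6 * (8 * n ^ 3 * c + n * (3 * n + 4)) ≤ 9 * x ^ 16 := by
    calc _ ≤ x ^ 6 * (9 * x ^ 10) := Nat.mul_le_mul_left _ a4
      _ = 9 * x ^ 16 := by ring
  have a6 : x ^ 6 ≤ x ^ 16 := Nat.pow_le_pow_right (by omega) (by norm_num)
  have a7 : 1 ≤ x ^ 16 := Nat.one_le_pow _ _ (by omega)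
  have a8 : 12 * x ^ 16 ≤ x ^ 18 := c_mul_pw' hX (by norm_num) (by norm_num)
  omega

/-- the window condition of `badm_sdA` -/
theorem sd_G : ((XX s ^ 6 * (8 * sn s ^ 3 * Center.cC (sn s) + sn s * (3 * sn s + 4)) + XX s ^ 6 + 2 : ℕ) :
    ℝ) ≤ G0 s := by
  unfold G0
  exact_mod_cast sd_G_nat s

end side

end Crest.Agent.R302.Num
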