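import Crest.Agent.R302.Mass151
import Crest.Agent.R302.Gau970D
import Crest.Agent.R302.Const302
import Mathlib
import Crest.Agent.R302.Gau970G
import Crest.Agent.R302.Loop272C
import Crest.Agent.R302.Ann425E
import Crest.Agent.R302.ConcFacts342B_Mg
import Crest.Agent.R302.ConcFacts351
import Crest.Agent.R302.Num272C
import Crest.Agent.R302.Num166B_Mg

-- ▼ part R302/Mass151B
section

/-!
# R302 (helper151): MASS1 and MASS3 in the names of `Stage536` / `Gau970D`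

`StOK D r₁ r₂ R c ..` : the two sides are `SideOK`, and either the stage weight is one (fat stages) or
there is no fat edge (thin stages).  `om D z = 2 ^ (-w (blk z))`.
-/

set_option autoImplicit false

namespace Crest.Agent.R302.Mass151

open Finset Crest.Agent.R302.Facet Crest.Agent.R302.Inst Crest.Agent.R302.Blk
open Crest.Agent.R302.Stage Crest.Agent.R302.KapR Crest.Agent.R302.Tail907

variable {V : Type*} [Fintype V] [DecidableEq V]

/-! ### sides without fat edges -/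

theorem F_thin {S : Side V} {r : Finset V → ℤ} {R : ℤ} {c : V → ℤ} {m k : V → ℕ}
    (h : SideOK S r R c m k) (hthin : ∀ a, S.T.par a = none) (z : V → ℤ) [Decidable (z ∈ S.J)] :
    F S z = if z ∈ S.J then 1 else 0 := by
  classical
  have hsh : ∀ t : V → ℤ, zpt S.T z t = z := by
    intro t
    unfold zpt
    simp [hthin]
  by_cases hz : z ∈ S.J
  · rw [if_pos hz]
    refine le_antisymm (F_le_one h z) ?_
    have := F_ge h z (fun _ => ∅) fun t _ _ => by rw [hsh]; exact (h.mem z).1 hz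
    simpa [hthin] using this
  · rw [if_neg hz]
    have h1 := F_le h z (S.J.image (S.tv z)) fun z' hz' => mem_image.2 ⟨z', hz', rfl⟩
    simp only [hsh, if_neg hz, sum_const_zero] at h1
    exact le_antisymm h1 (F_nonneg h z)

/-! ### stages -/

/-- stage weight as a function of the point -/
noncomputable def om (D : SD V) (z : V → ℤ) : ℝ := 2 ^ (-D.w (D.S₁.blk z))

theorem om_pos (D : SD V) (z : V → ℤ) : 0 < om D z := by unfold om; positivity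

/-- facts on a stage used in this file -/
structure StOK (D : SD V) (r₁ r₂ : Finset V → ℤ) (R : ℤ) (c : V → ℤ) (m₁ k₁ m₂ k₂ : V → ℕ) :
    Prop where
  s₁ : SideOK D.S₁ r₁ R c m₁ k₁
  s₂ : SideOK D.S₂ r₂ R c m₂ k₂
  alt : (∀ β, D.w β = 0) ∨ ((∀ a, D.S₁.T.par a = none) ∧ ∀ a, D.S₂.T.par a = none)
  gau₁ : ∀ a b, D.S₁.T.par a = some b → D.ell a = D.ell b
  gau₂ : ∀ a b, D.S₂.T.par a = some b → D.ell a = D.ell b

section Stage

variable {D : SD V} {r₁ r₂ : Finset V → ℤ} {R : ℤ} {c : V → ℤ} {m₁ k₁ m₂ k₂ : V → ℕ}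

theorem StOK.g₁ (h : StOK D r₁ r₂ R c m₁ k₁ m₂ k₂) : D.S₁.Gauge D.μ :=
  ⟨fun a => by unfold SD.μ; positivity, fun a b hab => by unfold SD.μ; rw [h.gau₁ a b hab]⟩

theorem StOK.g₂ (h : StOK D r₁ r₂ R c m₁ k₁ m₂ k₂) : D.S₂.Gauge D.μ :=
  ⟨fun a => by unfold SD.μ; positivity, fun a b hab => by unfold SD.μ; rw [h.gau₂ a b hab]⟩

/-- the soft weight of side 1 with the stage weight -/
theorem F₁_eq (z : V → ℤ) : Gau.F₁ D z = om D z * F D.S₁ z := SD.ff_S₁w z (D.S₁.blk z)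

theorem F₂_eq (z : V → ℤ) : Gau.F₂ D z = F D.S₂ z := rfl

/-- **upper bound**, all stages -/
theorem uppW (h : StOK D r₁ r₂ R c m₁ k₁ m₂ k₂) {η : ℝ} (t₁ : EtaOK D.S₁ m₁ k₁ η)
    (t₂ : EtaOK D.S₂ m₂ k₂ η) {s : V → ℤ} (hs0 : ∑ v, s v = 0)
    (hs1 : ∀ A : Finset V, |∑ v ∈ A, s v| ≤ 1) (P : Finset (V → ℤ))
    (hP : ∀ x, x ∈ P ↔ MemJ r₁ R x ∧ MemJ r₂ R (fun v => x v + s v)) (Y : Finset (V → ℤ)) :
    ∑ y ∈ Y, Gau.F₁ D y * Gau.F₂ D (fun v => y v + s v) ≤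
      Real.exp (20 * Fintype.card V * η) * ∑ x ∈ P, om D x := by
  classical
  have hη := t₁.η0
  rcases h.alt with hw | ⟨p1, p2⟩
  · have e : ∀ z, om D z = 1 := fun z => by unfold om; rw [hw]; simp
    simp only [F₁_eq, F₂_eq, e, one_mul, sum_const, nsmul_eq_mul, mul_one]
    exact upp h.s₁ h.s₂ t₁ t₂ hs0 hs1 P hP Y
  · have h1 : ∑ y ∈ Y, Gau.F₁ D y * Gau.F₂ D (fun v => y v + s v) ≤ ∑ x ∈ P, om D x := by
      have e : ∀ y, Gau.F₁ D y * Gau.F₂ D (fun v => y v + s v) = if y ∈ P then om D y else 0 := by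
        intro y
        rw [F₁_eq, F₂_eq, F_thin h.s₁ p1, F_thin h.s₂ p2]
        by_cases hy : y ∈ P
        · have := (hP y).1 hy
          rw [if_pos hy, if_pos ((h.s₁.mem _).2 this.1), if_pos ((h.s₂.mem _).2 this.2)]
          ring
        · rw [if_neg hy]
          by_cases h1 : y ∈ D.S₁.J
          · have h2 : (fun v => y v + s v) ∉ D.S₂.J := fun h2 =>
              hy ((hP y).2 ⟨(h.s₁.mem _).1 h1, (h.s₂.mem _).1 h2⟩)
            rw [if_neg h2, mul_zero]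
          · rw [if_neg h1, mul_zero, zero_mul]
      simp only [e]
      rw [← sum_filter]
      exact sum_le_sum_of_subset_of_nonneg (fun x hx => (mem_filter.1 hx).2)
        fun x _ _ => (om_pos D x).le
    have h2 : 1 ≤ Real.exp (20 * Fintype.card V * η) := Real.one_le_exp (by positivity)
    exact h1.trans (le_mul_of_one_le_left (sum_nonneg fun x _ => (om_pos D x).le) h2)

/-- **MASS1**, all stages and types -/
theorem lowW (h : StOK D r₁ r₂ R c m₁ k₁ m₂ k₂) {τ₁ τ₂ : V → ℕ} {ρ ε : ℝ}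
    (t₁ : TauOK D.S₁ m₁ k₁ τ₁ ρ ε) (t₂ : TauOK D.S₂ m₂ k₂ τ₂ ρ ε) {s : V → ℤ}
    (hs0 : ∑ v, s v = 0) (hs1 : ∀ A : Finset V, |∑ v ∈ A, s v| ≤ 1) (P : Finset (V → ℤ))
    (hP : ∀ x, x ∈ P ↔ MemJ r₁ R x ∧ MemJ r₂ R (fun v => x v + s v)) :
    ∑ x ∈ P, (om D x - Gau.F₁ D x * Gau.F₂ D (fun v => x v + s v)) ≤
      (2 * Fintype.card V * ε + 4 * Fintype.card V * ρ) * ∑ x ∈ P, om D x := by
  classical
  rcases h.alt with hw | ⟨p1, p2⟩
  · have e : ∀ z, om D z = 1 := fun z => by unfold om; rw [hw]; simp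
    simp only [F₁_eq, F₂_eq, e, one_mul, sum_const, nsmul_eq_mul, mul_one]
    exact low h.s₁ h.s₂ t₁ t₂ hs0 hs1 P hP
  · have e : ∀ x ∈ P, om D x - Gau.F₁ D x * Gau.F₂ D (fun v => x v + s v) = 0 := by
      intro y hy
      have := (hP y).1 hy
      rw [F₁_eq, F₂_eq, F_thin h.s₁ p1, F_thin h.s₂ p2, if_pos ((h.s₁.mem _).2 this.1),
        if_pos ((h.s₂.mem _).2 this.2)]
      ring
    rw [sum_congr rfl e, sum_const_zero]
    have := t₁.ρ0
    have := t₁.ε0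
    exact mul_nonneg (by positivity) (sum_nonneg fun x _ => (om_pos D x).le)

theorem F₁F₂_le (h : StOK D r₁ r₂ R c m₁ k₁ m₂ k₂) (x y : V → ℤ) :
    Gau.F₁ D x * Gau.F₂ D y ≤ om D x := by
  rw [F₁_eq, F₂_eq, mul_assoc]
  have h1 := F_nonneg h.s₁ x
  have h2 := F_le_one h.s₁ x
  have h3 := F_nonneg h.s₂ y
  have h4 := F_le_one h.s₂ y
  exact mul_le_of_le_one_right (om_pos D x).le (by nlinarith)

theorem F₁F₂_nonneg (h : StOK D r₁ r₂ R c m₁ k₁ m₂ k₂) (x y : V → ℤ) :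
    0 ≤ Gau.F₁ D x * Gau.F₂ D y := by
  rw [F₁_eq, F₂_eq]
  exact mul_nonneg (mul_nonneg (om_pos D x).le (F_nonneg h.s₁ x)) (F_nonneg h.s₂ y)




/-- **970's one-link hypothesis** `hN` -/
theorem hN_form (h : StOK D r₁ r₂ R c m₁ k₁ m₂ k₂) {η : ℝ} (t₁ : EtaOK D.S₁ m₁ k₁ η)
    (t₂ : EtaOK D.S₂ m₂ k₂ η) (u v : V) (P : Finset (V → ℤ))
    (hP : ∀ x, x ∈ P ↔ MemJ r₁ R x ∧ MemJ r₂ R (fun w => x w + hs v u w)) (B : Finset (V → ℤ)) :
    ∑ x ∈ B, Gau.F₁ D (x + Lor.ev u) * Gau.F₂ D (x + Lor.ev v) ≤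
      Real.exp (20 * Fintype.card V * η) * ∑ x ∈ P, om D x := by
  classical
  have h1 := uppW h t₁ t₂ (s := hs v u) (hs_univ v u) (fun A => by
    rw [hs_sum]; split_ifs <;> simp) P hP (B.image fun x => x + Lor.ev u)
  rw [sum_image (fun x _ y _ e => add_right_cancel e)] at h1
  refine le_trans (le_of_eq (sum_congr rfl fun x _ => ?_)) h1
  congr 2
  funext w
  simp only [Pi.add_apply, hs, Lor.ev, Pi.single_apply]
  ring

end Stage

end Crest.Agent.R302.Mass151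
end

-- ▼ part R302/Mass151C
section

/-!
# R302 (helper151): MASS3, the one-link classes

`mass3` : `∑_{σ ∈ bx, EvG u v σ} nuG σ = 2^(-2a) 2^(ell u - ell v) s` with `|s - N| ≤ ε₀ N`,
`N = ∑_{x ∈ J₁, x + e_v - e_u ∈ J₂} om x`.
-/

set_option autoImplicit false

namespace Crest.Agent.R302.Mass151

open Finset Crest.Agent.R302.Facet Crest.Agent.R302.Inst Crest.Agent.R302.Blk
open Crest.Agent.R302.Stage Crest.Agent.R302.KapR Crest.Agent.R302.Tail907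

variable {V : Type*} [Fintype V] [DecidableEq V]

/-! ### roots -/

omit [Fintype V] [DecidableEq V] in
theorem exists_root (T : MP3.Forest V) (u : V) : ∃ r, T.par r = none ∧ T.Le u r := by
  suffices H : ∀ d u, T.dep u ≤ d → ∃ r, T.par r = none ∧ T.Le u r from H _ u le_rfl
  intro d
  induction d with
  | zero =>
    intro u hu
    rcases h : T.par u with _ | b
    · exact ⟨u, h, MP3.Forest.Le.refl _ _⟩
    · have := T.dep_lt u b h; omega
  | succ d ih =>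
    intro u hu
    rcases h : T.par u with _ | b
    · exact ⟨u, h, MP3.Forest.Le.refl _ _⟩
    · obtain ⟨r, hr, hle⟩ := ih b (by have := T.dep_lt u b h; omega)
      exact ⟨r, hr, (MP3.Forest.Le.of_par h).trans hle⟩

/-- root of the tree of `u` -/
noncomputable def rt (T : MP3.Forest V) (u : V) : V := (exists_root T u).choose

omit [Fintype V] [DecidableEq V] in
theorem par_rt (T : MP3.Forest V) (u : V) : T.par (rt T u) = none := (exists_root T u).choose_spec.1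

omit [Fintype V] [DecidableEq V] in
theorem le_rt (T : MP3.Forest V) (u : V) : T.Le u (rt T u) := (exists_root T u).choose_spec.2

omit [Fintype V] [DecidableEq V] in
theorem root_le {T : MP3.Forest V} {a b : V} (ha : T.par a = none) (h : T.Le a b) : a = b := by
  rcases MP3.Forest.le_iff.1 h with h | ⟨c, hc, _⟩
  · exact h
  · rw [ha] at hc; exact absurd hc (by simp)

omit [Fintype V] [DecidableEq V] in
theorem eq_rt {T : MP3.Forest V} {u r : V} (hr : T.par r = none) (h : T.Le u r) : r = rt T u := by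
  rcases MP3.Forest.Le.total h (le_rt T u) with h1 | h1
  · exact root_le hr h1
  · exact (root_le (par_rt T u) h1).symm

omit [Fintype V] [DecidableEq V] in
theorem rt_thin {T : MP3.Forest V} (h : ∀ a, T.par a = none) (u : V) : rt T u = u :=
  (eq_rt (h u) (MP3.Forest.Le.refl T u)).symm

theorem mem_sub_root (T : MP3.Forest V) {r : V} (hr : T.par r = none) (u : V) :
    u ∈ T.sub r ↔ r = rt T u := by
  rw [MP3.Forest.mem_sub]
  exact ⟨fun h => eq_rt hr h, fun h => h ▸ le_rt T u⟩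

/-- block contents of `x + e_u` -/
theorem bs_add_ev_root (T : MP3.Forest V) (x : V → ℤ) (u : V) {r : V} (hr : T.par r = none) :
    bs T (x + Lor.ev u) r = bs T x r + if r = rt T u then 1 else 0 := by
  rw [bs_add, bs_ev]
  simp only [mem_sub_root T hr]

theorem bs_add_ev_fat (T : MP3.Forest V) (x : V → ℤ) {u : V} (hu : T.par u = none) {a : V}
    (ha : T.par a ≠ none) : bs T (x + Lor.ev u) a = bs T x a := by
  rw [bs_add, bs_ev, if_neg, add_zero]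
  rw [MP3.Forest.mem_sub]
  intro h
  exact ha (root_le hu h ▸ hu)

theorem load_ev (S : Side V) (x : V → ℤ) (u : V) :
    S.load x (S.blk (x + Lor.ev u)) = x + Lor.ev (rt S.T u) := by
  refine eq_of_bs S.T fun a => ?_
  rw [Side.bs_load]
  by_cases ha : S.T.par a = none
  · rw [dif_pos ha]
    show bs S.T (x + Lor.ev u) a = _
    rw [bs_add_ev_root S.T x u ha, bs_add_ev_root S.T x _ ha]
    rw [← eq_rt (par_rt S.T u) (MP3.Forest.Le.refl _ _)]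
  · rw [dif_neg ha, bs_add_ev_fat S.T x (par_rt S.T u) ha]

theorem ff_ev (S : Side V) (x : V → ℤ) (u : V) :
    S.ff x (S.blk (x + Lor.ev u)) = F S (x + Lor.ev (rt S.T u)) := by
  unfold F
  rw [Side.ff_load, load_ev]

/-! ### the exponent -/

/-- the gauge part through the elements -/
theorem sum_ell (S : Side V) (ell : V → ℤ) (h : ∀ a b, S.T.par a = some b → ell a = ell b)
    (z : V → ℤ) : ∑ r : S.Blk, ell r * S.blk z r = ∑ e, ell e * z e := by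
  have h1 := MP3.Forest.tele_all (F := S.T) (fun c => (z c : ℝ)) (fun c => (ell c : ℝ))
  have h2 : (∑ e, (z e : ℝ) * (ell e : ℝ)) =
      ∑ a, (if S.T.par a = none then (bs S.T z a : ℝ) * (ell a : ℝ) else 0) := by
    rw [h1]
    refine sum_congr rfl fun a _ => ?_
    have h3 : (∑ c ∈ S.T.sub a, (z c : ℝ)) = (bs S.T z a : ℝ) := by unfold bs; push_cast; rfl
    rw [h3]
    rcases h4 : S.T.par a with _ | b
    · simp
    · simp [h a b h4]
  rw [← sum_filter, sum_subtype (p := fun a => S.T.par a = none)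
    (univ.filter (fun a => S.T.par a = none)) (fun a => by simp)
    (fun a => (bs S.T z a : ℝ) * (ell a : ℝ))] at h2
  have h5 : ((∑ r : S.Blk, ell r * S.blk z r : ℤ) : ℝ) = ((∑ e, ell e * z e : ℤ) : ℝ) := by
    push_cast
    calc ∑ r : S.Blk, (ell r : ℝ) * (S.blk z r : ℝ)
        = ∑ r : {a // S.T.par a = none}, (bs S.T z r : ℝ) * (ell r : ℝ) :=
          sum_congr rfl fun r _ => by unfold Side.blk; ring
      _ = ∑ e, (z e : ℝ) * (ell e : ℝ) := h2.symm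
      _ = ∑ e, (ell e : ℝ) * (z e : ℝ) := sum_congr rfl fun e _ => by ring
  exact_mod_cast h5

theorem sum_abs_ev (S : Side V) (x : V → ℤ) (u : V) :
    ∑ r : S.Blk, |S.blk (x + Lor.ev u) r - bs S.T x r| = 1 := by
  have e : ∀ r : S.Blk, |S.blk (x + Lor.ev u) r - bs S.T x r| =
      if r = (⟨rt S.T u, par_rt S.T u⟩ : S.Blk) then 1 else 0 := by
    intro r
    unfold Side.blk
    rw [bs_add_ev_root S.T x u r.2, add_sub_cancel_left]
    by_cases h : (r : V) = rt S.T u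
    · rw [if_pos h, if_pos (Subtype.ext h)]; simp
    · rw [if_neg h, if_neg fun h' => h (by rw [h'])]; simp
  simp only [e, sum_ite_eq', mem_univ, if_true]

section Stage

variable {D : SD V} {r₁ r₂ : Finset V → ℤ} {R : ℤ} {c : V → ℤ} {m₁ k₁ m₂ k₂ : V → ℕ}

/-- the one-link state over `x` -/
noncomputable def lk1 (D : SD V) (u v : V) (x : V → ℤ) : St D :=
  (x, D.S₁.blk (x + Lor.ev u), D.S₂.blk (x + Lor.ev v))

theorem w_blk (h : StOK D r₁ r₂ R c m₁ k₁ m₂ k₂) (x : V → ℤ) (u : V) :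
    D.w (D.S₁.blk (x + Lor.ev u)) = D.w (D.S₁.blk (x + Lor.ev (rt D.S₁.T u))) := by
  rcases h.alt with hw | ⟨p1, _⟩
  · rw [hw, hw]
  · rw [rt_thin p1]

/-- weight of the one-link states -/
theorem nuG_lk1 (h : StOK D r₁ r₂ R c m₁ k₁ m₂ k₂) (u v : V) (x : V → ℤ) :
    D.nuG (lk1 D u v x) = (1 / 2) ^ (2 * D.a) * 2 ^ (D.ell u - D.ell v) *
      (Gau.F₁ D (x + Lor.ev (rt D.S₁.T u)) * Gau.F₂ D (x + Lor.ev (rt D.S₂.T v))) := by
  have h2 : (2 : ℝ) ≠ 0 := by norm_num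
  have hex : D.ex (lk1 D u v x) = -(2 * D.a : ℕ) + (D.ell u - D.ell v) +
      (-D.w (D.S₁.blk (x + Lor.ev (rt D.S₁.T u)))) := by
    unfold SD.ex lk1
    simp only
    rw [sum_abs_ev D.S₁, sum_abs_ev D.S₂, sum_ell D.S₁ D.ell h.gau₁, sum_ell D.S₂ D.ell h.gau₂,
      w_blk h]
    have e : ∀ w : V, ∑ e, D.ell e * (x + Lor.ev w) e = ∑ e, D.ell e * x e + D.ell w := by
      intro w
      simp only [Pi.add_apply, mul_add, sum_add_distrib]
      congr 1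
      simp [Lor.ev, Pi.single_apply]
    rw [e, e]
    push_cast
    ring
  unfold SD.nuG SD.u SD.FG
  rw [hex, zpow_add₀ h2, zpow_add₀ h2]
  rw [F₁_eq, F₂_eq]
  have e1 : D.S₁.ff (lk1 D u v x).1 (lk1 D u v x).2.1 = F D.S₁ (x + Lor.ev (rt D.S₁.T u)) :=
    ff_ev D.S₁ x u
  have e2 : D.S₂.ff (lk1 D u v x).1 (lk1 D u v x).2.2 = F D.S₂ (x + Lor.ev (rt D.S₂.T v)) :=
    ff_ev D.S₂ x v
  rw [e1, e2]
  have e3 : (2 : ℝ) ^ (-((2 * D.a : ℕ) : ℤ)) = (1 / 2) ^ (2 * D.a) := by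
    rw [zpow_neg, zpow_natCast, one_div, inv_pow]
  rw [e3]
  unfold om
  ring

/-! ### comparison of `N` at the roots -/

/-- `blk_le` with a general constant -/
theorem blk_exp {r₁ r₂ : Finset V → ℤ} {R : ℤ} (hr₁ : SubM r₁ R) (hr₂ : SubM r₂ R)
    {c : V → ℤ} (hc₁ : MemJ r₁ R c) (hc₂ : MemJ r₂ R c) {w1 : ℤ} {m : ℕ}
    (hm : (m : ℤ) + (4 * Fintype.card V + 2) ≤ w1) (hq : 4 ≤ m / Facet.kap (Fintype.card V) + 1)
    {G : SimpleGraph V} (hG : ∀ a b, G.Adj a b → w1 ≤ mn r₁ c a b ∨ w1 ≤ mn r₂ c a b)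
    {u u' v v' : V} (hu : G.Reachable u u') (hv : G.Reachable v v') :
    (NN r₁ r₂ R u v : ℝ) ≤
      Real.exp (8 * Fintype.card V / ((m / Facet.kap (Fintype.card V) + 1 : ℕ) : ℝ)) *
        NN r₁ r₂ R u' v' := by
  classical
  set n := Fintype.card V with hn
  set q : ℝ := ((m / Facet.kap n + 1 : ℕ) : ℝ) with hqd
  have hq0 : 0 < q := by rw [hqd]; positivity
  obtain ⟨p, hp⟩ := hu.exists_isPath
  obtain ⟨p', hp'⟩ := hv.exists_isPath
  have hl : p.length ≤ n := hp.length_lt.le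
  have hl' : p'.length ≤ n := hp'.length_lt.le
  have h1 := walk_le hr₁ hr₂ hc₁ hc₂ hG v hm hq p
  have h2 := walk_le hr₂ hr₁ hc₂ hc₁ (w1 := w1) (G := G) (fun a b h => (hG a b h).symm) u' hm hq p'
  rw [NN_swap v u', NN_swap v' u'] at h2
  rw [← hn, ← hqd] at h1 h2
  have hb : ∀ l : ℕ, l ≤ n → Real.exp ((l : ℝ) * (4 / q)) ≤ Real.exp (4 * n / q) := by
    intro l hl
    apply Real.exp_le_exp.2
    have hlr : (l : ℝ) ≤ n := by exact_mod_cast hl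
    calc (l : ℝ) * (4 / q) ≤ n * (4 / q) := mul_le_mul_of_nonneg_right hlr (by positivity)
      _ = _ := by ring
  have e : Real.exp (8 * n / q) = Real.exp (4 * n / q) * Real.exp (4 * n / q) := by
    rw [← Real.exp_add]; congr 1; ring
  calc (NN r₁ r₂ R u v : ℝ) ≤ Real.exp (4 * n / q) * NN r₁ r₂ R u' v :=
        h1.trans (mul_le_mul_of_nonneg_right (hb _ hl) (Nat.cast_nonneg _))
    _ ≤ Real.exp (4 * n / q) * (Real.exp (4 * n / q) * NN r₁ r₂ R u' v') :=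
        mul_le_mul_of_nonneg_left (h2.trans (mul_le_mul_of_nonneg_right (hb _ hl')
          (Nat.cast_nonneg _))) (Real.exp_pos _).le
    _ = _ := by rw [e]; ring

/-- the graph of the fat edges -/
def fG (T₁ T₂ : MP3.Forest V) : SimpleGraph V :=
  SimpleGraph.fromRel fun a b => T₁.par a = some b ∨ T₂.par a = some b

omit [Fintype V] [DecidableEq V] in
theorem fG_reach (T₁ T₂ : MP3.Forest V) {T : MP3.Forest V} (hT : T = T₁ ∨ T = T₂) {a b : V}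
    (h : T.Le a b) : (fG T₁ T₂).Reachable a b := by
  unfold MP3.Forest.Le at h
  induction h with
  | refl => exact SimpleGraph.Reachable.refl _
  | tail _ hbc ih =>
    refine ih.trans (SimpleGraph.Adj.reachable ?_)
    rw [fG, SimpleGraph.fromRel_adj]
    refine ⟨par_ne T hbc, Or.inl ?_⟩
    rcases hT with rfl | rfl
    · exact Or.inl hbc
    · exact Or.inr hbc

theorem mn_symm (r : Finset V → ℤ) (c : V → ℤ) (a b : V) : mn r c a b = mn r c b a := min_comm _ _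

theorem le_mn {S : Side V} {r : Finset V → ℤ} {m k : V → ℕ} (h : SideOK S r R c m k) {p b : V}
    (hpb : S.T.par p = some b) : (m p : ℤ) ≤ mn r c p b := by
  have hne := par_ne S.T hpb
  refine le_min ?_ ?_
  · obtain ⟨A, h1, h2, h3⟩ := exists_cap (r := r) (x := c) hne
    rw [← h3]; exact h.slk p b hpb A (Or.inl ⟨h1, h2⟩)
  · obtain ⟨A, h1, h2, h3⟩ := exists_cap (r := r) (x := c) hne.symm
    rw [← h3]; exact h.slk p b hpb A (Or.inr ⟨h1, h2⟩)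

theorem fG_le (h : StOK D r₁ r₂ R c m₁ k₁ m₂ k₂) {w1 : ℤ}
    (hw₁ : ∀ p, D.S₁.T.par p ≠ none → w1 ≤ m₁ p) (hw₂ : ∀ p, D.S₂.T.par p ≠ none → w1 ≤ m₂ p)
    (a b : V) (hab : (fG D.S₁.T D.S₂.T).Adj a b) : w1 ≤ mn r₁ c a b ∨ w1 ≤ mn r₂ c a b := by
  rw [fG, SimpleGraph.fromRel_adj] at hab
  rcases hab.2 with (h1 | h1) | (h1 | h1)
  · exact Or.inl ((hw₁ a (by rw [h1]; simp)).trans (le_mn h.s₁ h1))
  · exact Or.inr ((hw₂ a (by rw [h1]; simp)).trans (le_mn h.s₂ h1))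
  · rw [mn_symm r₁, mn_symm r₂]
    exact Or.inl ((hw₁ b (by rw [h1]; simp)).trans (le_mn h.s₁ h1))
  · rw [mn_symm r₁, mn_symm r₂]
    exact Or.inr ((hw₂ b (by rw [h1]; simp)).trans (le_mn h.s₂ h1))

theorem card_eq_NN {r₁ r₂ : Finset V → ℤ} {R : ℤ} {u v : V} (P : Finset (V → ℤ))
    (hP : ∀ x, x ∈ P ↔ MemJ r₁ R x ∧ MemJ r₂ R (fun w => x w + hs u v w)) :
    P.card = NN r₁ r₂ R u v := by
  unfold NN
  have : hol r₁ r₂ R u v = (P : Set (V → ℤ)) := by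
    ext x; rw [mem_coe, hP]; rfl
  rw [this, Set.ncard_coe_finset]

/-- numeric conditions of `mass3` -/
structure M3OK (V : Type*) [Fintype V] (w1 : ℤ) (m : ℕ) (η ρ ε ε₀ : ℝ) : Prop where
  hm : (m : ℤ) + (4 * Fintype.card V + 2) ≤ w1
  hq : 4 ≤ m / Facet.kap (Fintype.card V) + 1
  ε1 : ε₀ ≤ 1
  up : 20 * Fintype.card V * η + 8 * Fintype.card V / ((m / Facet.kap (Fintype.card V) + 1 : ℕ) : ℝ)
    ≤ ε₀ / 2
  lo : 2 * Fintype.card V * ε + 4 * Fintype.card V * ρ ≤ ε₀ / 2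

/-- **MASS3** : one-link classes -/
theorem mass3 (h : StOK D r₁ r₂ R c m₁ k₁ m₂ k₂) {η : ℝ} (e₁ : EtaOK D.S₁ m₁ k₁ η)
    (e₂ : EtaOK D.S₂ m₂ k₂ η) {τ₁ τ₂ : V → ℕ} {ρ ε ε₀ : ℝ} (t₁ : TauOK D.S₁ m₁ k₁ τ₁ ρ ε)
    (t₂ : TauOK D.S₂ m₂ k₂ τ₂ ρ ε) {w1 : ℤ} {m : ℕ} (hN : M3OK V w1 m η ρ ε ε₀)
    (hw₁ : ∀ p, D.S₁.T.par p ≠ none → w1 ≤ m₁ p) (hw₂ : ∀ p, D.S₂.T.par p ≠ none → w1 ≤ m₂ p)
    (hbx : ∀ z ∈ D.S₁.J, ∀ z' ∈ D.S₂.J, ∀ x, (∃ u, z = x + Lor.ev u) → (∃ v, z' = x + Lor.ev v) →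
      ((x, D.S₁.blk z, D.S₂.blk z') : St D) ∈ D.bx)
    (u v : V) (P : Finset (V → ℤ))
    (hP : ∀ x, x ∈ P ↔ MemJ r₁ R x ∧ MemJ r₂ R (fun w => x w + hs v u w))
    [DecidablePred (D.EvG u v)] :
    ∃ s : ℝ, ∑ σ ∈ D.bx.filter (D.EvG u v), D.nuG σ =
        (1 / 2) ^ (2 * D.a) * 2 ^ (D.ell u - D.ell v) * s ∧
      |s - ∑ x ∈ P, om D x| ≤ ε₀ * ∑ x ∈ P, om D x := by
  classical
  set n := Fintype.card V with hn
  set u' := rt D.S₁.T u with hu'
  set v' := rt D.S₂.T v with hv'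
  set X : Finset (V → ℤ) := (D.bx.filter (D.EvG u v)).image (fun σ => σ.1) with hX
  have hset : D.bx.filter (D.EvG u v) = X.image (lk1 D u v) := by
    ext σ
    rw [hX, mem_image]
    constructor
    · intro hσ
      refine ⟨σ.1, mem_image.2 ⟨σ, hσ, rfl⟩, ?_⟩
      have := (mem_filter.1 hσ).2
      obtain ⟨a1, a2⟩ := this
      exact Prod.ext rfl (Prod.ext a1.symm a2.symm)
    · rintro ⟨x, hx, rfl⟩
      obtain ⟨σ, hσ, rfl⟩ := mem_image.1 hx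
      obtain ⟨a1, a2⟩ := (mem_filter.1 hσ).2
      have : lk1 D u v σ.1 = σ := Prod.ext rfl (Prod.ext a1.symm a2.symm)
      rw [this]; exact hσ
  set s : ℝ := ∑ x ∈ X, Gau.F₁ D (x + Lor.ev u') * Gau.F₂ D (x + Lor.ev v') with hs'
  refine ⟨s, ?_, ?_⟩
  · rw [hset, sum_image (fun x _ y _ e => congrArg Prod.fst e), hs', mul_sum]
    exact sum_congr rfl fun x _ => nuG_lk1 h u v x
  -- the hard counts at the roots
  obtain ⟨P', hP'⟩ : ∃ P' : Finset (V → ℤ), ∀ x, x ∈ P' ↔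
      MemJ r₁ R x ∧ MemJ r₂ R (fun w => x w + hs v' u' w) := by
    obtain ⟨P0, hP0⟩ := exists_finset (r₂ := r₁) h.s₁.sub
    exact ⟨P0.filter fun x => MemJ r₂ R (fun w => x w + hs v' u' w), fun x => by
      rw [mem_filter, hP0]; tauto⟩
  have hup : s ≤ Real.exp (20 * n * η) * ∑ x ∈ P', om D x :=
    hN_form h e₁ e₂ u' v' P' hP' X
  have hom0 : 0 ≤ ∑ x ∈ P', om D x := sum_nonneg fun x _ => (om_pos D x).le
  have hlo : (1 - (2 * n * ε + 4 * n * ρ)) * ∑ x ∈ P', om D x ≤ s := by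
    have h1 := lowW h t₁ t₂ (s := hs v' u') (hs_univ v' u') (fun A => by
      rw [hs_sum]; split_ifs <;> simp) P' hP'
    rw [sum_sub_distrib] at h1
    have h2 : ∑ x ∈ P', Gau.F₁ D x * Gau.F₂ D (fun w => x w + hs v' u' w) ≤ s := by
      have hsub : P' ⊆ X.image (fun x => x + Lor.ev u') := by
        intro z hz
        obtain ⟨z1, z2⟩ := (hP' z).1 hz
        have hz1 := (h.s₁.mem _).2 z1
        have hz2 := (h.s₂.mem _).2 z2
        have ez2 : (fun w => z w + hs v' u' w) = (z - Lor.ev u') + Lor.ev v' := by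
          funext w
          simp only [Pi.add_apply, Pi.sub_apply, hs, Lor.ev, Pi.single_apply]
          ring
        rw [mem_image]
        refine ⟨z - Lor.ev u', ?_, sub_add_cancel _ _⟩
        rw [hX, mem_image]
        refine ⟨lk1 D u v (z - Lor.ev u'), ?_, rfl⟩
        rw [mem_filter]
        refine ⟨?_, rfl, rfl⟩
        have b1 : D.S₁.blk (z - Lor.ev u' + Lor.ev u) = D.S₁.blk z := by
          funext r
          unfold Side.blk
          rw [bs_add_ev_root _ _ _ r.2]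
          have : bs D.S₁.T z r = bs D.S₁.T (z - Lor.ev u' + Lor.ev u') r := by
            rw [sub_add_cancel]
          rw [this, bs_add_ev_root _ _ _ r.2, ← eq_rt (par_rt D.S₁.T u) (MP3.Forest.Le.refl _ _)]
        have b2 : D.S₂.blk (z - Lor.ev u' + Lor.ev v) =
            D.S₂.blk (fun w => z w + hs v' u' w) := by
          rw [ez2]
          funext r
          unfold Side.blk
          rw [bs_add_ev_root _ _ _ r.2, bs_add_ev_root _ _ _ r.2,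
            ← eq_rt (par_rt D.S₂.T v) (MP3.Forest.Le.refl _ _)]
        unfold lk1
        rw [b1, b2]
        exact hbx z hz1 _ hz2 _ ⟨u', (sub_add_cancel _ _).symm⟩ ⟨v', ez2⟩
      have h3 := sum_le_sum_of_subset_of_nonneg (f := fun z =>
        Gau.F₁ D z * Gau.F₂ D (fun w => z w + hs v' u' w)) hsub
        fun z _ _ => F₁F₂_nonneg h z _
      refine h3.trans (le_of_eq ?_)
      rw [sum_image (fun x _ y _ e => add_right_cancel e), hs']
      refine sum_congr rfl fun x _ => ?_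
      congr 2
      funext w
      simp only [Pi.add_apply, hs, Lor.ev, Pi.single_apply]
      ring
    linarith
  -- comparison with `P`
  set q : ℝ := ((m / Facet.kap n + 1 : ℕ) : ℝ) with hq
  have hq0 : 0 < q := by rw [hq]; positivity
  have hcmp : ∑ x ∈ P', om D x ≤ Real.exp (8 * n / q) * ∑ x ∈ P, om D x ∧
      ∑ x ∈ P, om D x ≤ Real.exp (8 * n / q) * ∑ x ∈ P', om D x := by
    rcases h.alt with hw | ⟨p1, p2⟩
    · have e : ∀ z, om D z = 1 := fun z => by unfold om; rw [hw]; simp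
      simp only [e, sum_const, nsmul_eq_mul, mul_one]
      rw [card_eq_NN P hP, card_eq_NN P' hP']
      have g1 : (fG D.S₁.T D.S₂.T).Reachable u u' := fG_reach _ _ (Or.inl rfl) (le_rt _ u)
      have g2 : (fG D.S₁.T D.S₂.T).Reachable v v' := fG_reach _ _ (Or.inr rfl) (le_rt _ v)
      exact ⟨blk_exp h.s₁.sub h.s₂.sub h.s₁.cen h.s₂.cen hN.hm hN.hq (fG_le h hw₁ hw₂) g2.symm
          g1.symm,
        blk_exp h.s₁.sub h.s₂.sub h.s₁.cen h.s₂.cen hN.hm hN.hq (fG_le h hw₁ hw₂) g2 g1⟩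
    · have ePP : P' = P := by
        ext x
        rw [hP, hP', hu', hv', rt_thin p1, rt_thin p2]
      rw [ePP]
      have h1 : 1 ≤ Real.exp (8 * n / q) := Real.one_le_exp (by positivity)
      have h2 : 0 ≤ ∑ x ∈ P, om D x := sum_nonneg fun x _ => (om_pos D x).le
      exact ⟨le_mul_of_one_le_left h2 h1, le_mul_of_one_le_left h2 h1⟩
  have hPn : 0 ≤ ∑ x ∈ P, om D x := sum_nonneg fun x _ => (om_pos D x).le
  set N := ∑ x ∈ P, om D x with hNdef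
  set N' := ∑ x ∈ P', om D x with hN'def
  have hup2 : s ≤ Real.exp (ε₀ / 2) * N := by
    calc s ≤ Real.exp (20 * n * η) * N' := hup
      _ ≤ Real.exp (20 * n * η) * (Real.exp (8 * n / q) * N) :=
          mul_le_mul_of_nonneg_left hcmp.1 (Real.exp_pos _).le
      _ = Real.exp (20 * n * η + 8 * n / q) * N := by rw [Real.exp_add]; ring
      _ ≤ _ := mul_le_mul_of_nonneg_right (Real.exp_le_exp.2 hN.up) hPn
  have hη := e₁.η0
  have hρ := t₁.ρ0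
  have hε := t₁.ε0
  have hε₀ : 0 ≤ ε₀ := by
    have h1 := hN.lo
    have h2 : 0 ≤ 2 * (Fintype.card V : ℝ) * ε + 4 * Fintype.card V * ρ := by positivity
    linarith
  have hexp1 : Real.exp (ε₀ / 2) ≤ 1 + ε₀ := by
    have h3 : 1 - ε₀ / 2 ≤ Real.exp (-(ε₀ / 2)) := by linarith [Real.add_one_le_exp (-(ε₀ / 2))]
    rw [Real.exp_neg] at h3
    have h4 := Real.exp_pos (ε₀ / 2)
    have h5 : (1 - ε₀ / 2) * Real.exp (ε₀ / 2) ≤ 1 := by
      have := mul_le_mul_of_nonneg_right h3 h4.le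
      rwa [inv_mul_cancel₀ h4.ne'] at this
    have h6 := hN.ε1
    by_contra hcon
    push Not at hcon
    nlinarith
  have hexp2 : (1 - ε₀ / 2) * N ≤ N' := by
    have h3 : 1 - ε₀ / 2 ≤ Real.exp (-(8 * n / q)) := by
      have h4 : 8 * n / q ≤ ε₀ / 2 := by
        have := hN.up
        have h5 : 0 ≤ 20 * (Fintype.card V : ℝ) * η := by positivity
        rw [← hn, ← hq] at this
        rw [← hn] at h5
        linarith
      linarith [Real.add_one_le_exp (-(8 * n / q))]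
    calc (1 - ε₀ / 2) * N ≤ Real.exp (-(8 * n / q)) * N := mul_le_mul_of_nonneg_right h3 hPn
      _ ≤ Real.exp (-(8 * n / q)) * (Real.exp (8 * n / q) * N') :=
          mul_le_mul_of_nonneg_left hcmp.2 (Real.exp_pos _).le
      _ = N' := by rw [← mul_assoc, ← Real.exp_add]; simp
  have hlo2 : (1 - ε₀) * N ≤ s := by
    have h1 : (1 - ε₀ / 2) * N' ≤ s := by
      refine le_trans (mul_le_mul_of_nonneg_right ?_ hom0) hlo
      have := hN.lo
      rw [← hn] at this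
      linarith
    have h2 : (1 - ε₀ / 2) * ((1 - ε₀ / 2) * N) ≤ (1 - ε₀ / 2) * N' :=
      mul_le_mul_of_nonneg_left hexp2 (by linarith [hN.ε1])
    nlinarith [mul_nonneg (mul_nonneg hε₀ hε₀) hPn]
  rw [abs_le]
  constructor
  · linarith
  · have := mul_le_mul_of_nonneg_right hexp1 hPn
    linarith

end Stage

end Crest.Agent.R302.Mass151
end

-- ▼ part R302/NumMass151
section

/-!
# R302 (helper151): numeric discharge of `TauOK`, `EtaOK`, `M3OK`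

`X = 2 ^ s`, `n + 1 ≤ X`, `64 s ≤ X`, `2^(k p) X^75 ≤ m p` on fat edges:
`ρ = 36 / X^64`, `ε = (9/4) / X^64`, `η = 8 / X^66`, `ε₀ = 1 / X^61`.
-/

set_option autoImplicit false

namespace Crest.Agent.R302.Mass151

open Finset Crest.Agent.R302.Facet Crest.Agent.R302.Inst Crest.Agent.R302.Blk
open Crest.Agent.R302.Stage Crest.Agent.R302.KapR Crest.Agent.R302.Tail907

variable {V : Type*} [Fintype V] [DecidableEq V]

theorem kapX {X n : ℕ} (hX : 2 ^ 16 ≤ X) (hn : n + 1 ≤ X) : (Facet.kap n : ℝ) ≤ (X : ℝ) ^ 9 := by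
  have := Cst.kap_le' hX hn
  exact_mod_cast this

/-- the denominators -/
theorem sub_ge {X n m : ℕ} (hX : 2 ^ 16 ≤ X) (hn : n + 1 ≤ X) (hm : X ^ 75 ≤ m) :
    4 * n + 2 ≤ m ∧ m ≤ 2 * (m - (4 * n + 2)) ∧ 8 * Facet.kap n ≤ m := by
  have h1 : X ^ 3 ≤ X ^ 75 := Nat.pow_le_pow_right (by omega) (by norm_num)
  have h2 : 8 * X ≤ X ^ 3 := by
    calc 8 * X ≤ X ^ 2 * X := Nat.mul_le_mul_right _ (by nlinarith)
      _ = X ^ 3 := by ring
  have h3 : 8 * Facet.kap n ≤ X ^ 75 := by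
    calc 8 * Facet.kap n ≤ 8 * X ^ 9 := Nat.mul_le_mul_left _ (Cst.kap_le' hX hn)
      _ ≤ X ^ 75 := Cst.c_mul_pw' hX (by norm_num) (by norm_num)
  refine ⟨by omega, by omega, h3.trans hm⟩

theorem exp_neg_le (B : ℕ) : Real.exp (-(B : ℝ)) ≤ (1 / 2) ^ B := by
  have h1 : Real.exp (-1) ≤ 1 / 2 := by
    have h2 : (2 : ℝ) ≤ Real.exp 1 := by linarith [Real.add_one_le_exp (1 : ℝ)]
    rw [Real.exp_neg, one_div]
    exact inv_anti₀ (by norm_num) h2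
  have h3 : Real.exp (-(B : ℝ)) = Real.exp (-1) ^ B := by
    rw [← Real.exp_nat_mul]; congr 1; ring
  rw [h3]
  exact pow_le_pow_left₀ (Real.exp_pos _).le h1 B

theorem tauOK_X {S : Side V} {m k : V → ℕ} {X s : ℕ} (hX : X = 2 ^ s) (h16 : 2 ^ 16 ≤ X)
    (hs : 64 * s ≤ X) (hn : Fintype.card V + 1 ≤ X)
    (h : ∀ p, S.T.par p ≠ none → 2 ^ k p * X ^ 75 ≤ m p) :
    TauOK S m k (fun p => 8 * 2 ^ k p * (64 * s)) (36 / (X : ℝ) ^ 64) (9 / 4 / (X : ℝ) ^ 64) := by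
  have hX0 : (0 : ℝ) < X := by have : 0 < X := by omega
                               exact_mod_cast this
  refine ⟨by positivity, by positivity, fun a ha => ?_, fun p hp => ?_⟩
  · refine le_trans ?_ (window_ge (k a) (8 * 2 ^ k a * (64 * s)))
    have h1 : Real.exp (-((((8 * 2 ^ k a * (64 * s) : ℕ) : ℝ) + 1) / (8 * 2 ^ k a))) ≤
        Real.exp (-((64 * s : ℕ) : ℝ)) := by
      apply Real.exp_le_exp.2
      rw [neg_le_neg_iff, le_div_iff₀ (by positivity)]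
      push_cast
      linarith
    have h2 := exp_neg_le (64 * s)
    have h3 : ((1 : ℝ) / 2) ^ (64 * s) = 1 / (X : ℝ) ^ 64 := by
      rw [one_div_pow]
      congr 1
      rw [hX]
      push_cast
      rw [← pow_mul, mul_comm]
    have h4 : (9 : ℝ) / 4 / (X : ℝ) ^ 64 = 9 / 4 * (1 / (X : ℝ) ^ 64) := by ring
    rw [h4, ← h3]
    linarith
  · set n := Fintype.card V with hnn
    have hmX : X ^ 75 ≤ m p := le_trans (Nat.le_mul_of_pos_left _ (by positivity)) (h p hp)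
    obtain ⟨a1, a2, a3⟩ := sub_ge h16 hn hmX
    refine ⟨a1, ?_⟩
    have hn1 : 1 ≤ n := Fintype.card_pos_iff.2 ⟨p⟩
    have hk : 0 < Facet.kap n := kap_pos hn1
    have hkr : (0 : ℝ) < Facet.kap n := by exact_mod_cast hk
    -- right side
    have b1 : ((m p - (4 * n + 2) : ℕ) : ℝ) / Facet.kap n ≤
        (((m p - (4 * n + 2)) / Facet.kap n + 1 : ℕ) : ℝ) := by
      rw [div_le_iff₀ hkr]
      have := Nat.lt_div_mul_add (a := m p - (4 * n + 2)) hk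
      have h5 : m p - (4 * n + 2) ≤ ((m p - (4 * n + 2)) / Facet.kap n + 1) * Facet.kap n := by
        rw [add_mul, one_mul]; exact this.le
      exact_mod_cast h5
    have b2 : (2 : ℝ) ^ k p * (X : ℝ) ^ 75 / (2 * Facet.kap n) ≤
        ((m p - (4 * n + 2) : ℕ) : ℝ) / Facet.kap n := by
      rw [div_le_div_iff₀ (by positivity) hkr]
      have h6 : (2 : ℝ) ^ k p * (X : ℝ) ^ 75 ≤ 2 * ((m p - (4 * n + 2) : ℕ) : ℝ) := by
        have : 2 ^ k p * X ^ 75 ≤ 2 * (m p - (4 * n + 2)) := (h p hp).trans a2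
        exact_mod_cast this
      calc (2 : ℝ) ^ k p * (X : ℝ) ^ 75 * Facet.kap n ≤
            2 * ((m p - (4 * n + 2) : ℕ) : ℝ) * Facet.kap n :=
            mul_le_mul_of_nonneg_right h6 hkr.le
        _ = _ := by ring
    have b3 : (18 : ℝ) * 2 ^ k p * (X : ℝ) ^ 2 ≤
        36 / (X : ℝ) ^ 64 * ((2 : ℝ) ^ k p * (X : ℝ) ^ 75 / (2 * Facet.kap n)) := by
      have h7 : (36 : ℝ) / (X : ℝ) ^ 64 * ((2 : ℝ) ^ k p * (X : ℝ) ^ 75 / (2 * Facet.kap n)) =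
          18 * 2 ^ k p * ((X : ℝ) ^ 11 / Facet.kap n) := by
        field_simp
        ring
      rw [h7]
      apply mul_le_mul_of_nonneg_left _ (by positivity)
      rw [le_div_iff₀ hkr]
      calc (X : ℝ) ^ 2 * Facet.kap n ≤ (X : ℝ) ^ 2 * (X : ℝ) ^ 9 :=
            mul_le_mul_of_nonneg_left (kapX h16 hn) (by positivity)
        _ = (X : ℝ) ^ 11 := by ring
    refine le_trans ?_ (mul_le_mul_of_nonneg_left (b2.trans b1) (by positivity))
    refine le_trans ?_ b3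
    -- left side
    have c1 : 2 * (n * (8 * 2 ^ k p * (64 * s)) + 1) ≤ 18 * 2 ^ k p * X ^ 2 := by
      have d1 : n * (64 * s) ≤ X * X := Nat.mul_le_mul (by omega) hs
      have d2 : 1 ≤ 2 ^ k p := Nat.one_le_two_pow
      have d3 : 1 ≤ X * X := Nat.one_le_iff_ne_zero.2 (by positivity)
      have d4 : 1 ≤ 2 ^ k p * (X * X) := Nat.one_le_iff_ne_zero.2 (by positivity)
      calc 2 * (n * (8 * 2 ^ k p * (64 * s)) + 1)
          = 16 * (2 ^ k p * (n * (64 * s))) + 2 := by ring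
        _ ≤ 16 * (2 ^ k p * (X * X)) + 2 * (2 ^ k p * (X * X)) := by
            apply Nat.add_le_add
            · exact Nat.mul_le_mul_left _ (Nat.mul_le_mul_left _ d1)
            · omega
        _ = 18 * 2 ^ k p * X ^ 2 := by ring
    have c2 : (2 * (((n * (8 * 2 ^ k p * (64 * s)) : ℕ) : ℝ) + 1)) ≤
        18 * 2 ^ k p * (X : ℝ) ^ 2 := by exact_mod_cast c1
    exact c2

theorem etaOK_X {S : Side V} {m k : V → ℕ} {X : ℕ} (h16 : 2 ^ 16 ≤ X)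
    (hn : Fintype.card V + 1 ≤ X) (h : ∀ p, S.T.par p ≠ none → 2 ^ k p * X ^ 75 ≤ m p) :
    EtaOK S m k (8 / (X : ℝ) ^ 66) := by
  have hX0 : (0 : ℝ) < X := by have : 0 < X := by omega
                               exact_mod_cast this
  have hX16 : (65536 : ℝ) ≤ X := by
    have : (65536 : ℕ) ≤ X := by simpa using h16
    exact_mod_cast this
  refine ⟨by positivity, ?_, fun p hp => ?_⟩
  · rw [div_le_div_iff₀ (by positivity) (by norm_num)]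
    have h1 : (65536 : ℝ) ≤ (X : ℝ) ^ 66 :=
      hX16.trans (le_self_pow₀ (by linarith) (by norm_num))
    linarith
  · set n := Fintype.card V with hnn
    have hmX : X ^ 75 ≤ m p := le_trans (Nat.le_mul_of_pos_left _ (by positivity)) (h p hp)
    obtain ⟨a1, a2, a3⟩ := sub_ge h16 hn hmX
    refine ⟨a1, by omega, ?_⟩
    have hmr : (2 : ℝ) ^ k p * (X : ℝ) ^ 75 ≤ 2 * ((m p - (4 * n + 2) : ℕ) : ℝ) := by
      have : 2 ^ k p * X ^ 75 ≤ 2 * (m p - (4 * n + 2)) := (h p hp).trans a2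
      exact_mod_cast this
    have hpos : (0 : ℝ) < ((m p - (4 * n + 2) : ℕ) : ℝ) := by
      have h1 : 0 < X ^ 75 := by positivity
      have : 0 < m p - (4 * n + 2) := by omega
      exact_mod_cast this
    rw [div_mul_eq_mul_div, div_le_div_iff₀ hpos (by positivity)]
    calc 4 * (Facet.kap n : ℝ) * 2 ^ k p * (X : ℝ) ^ 66 ≤
          4 * (X : ℝ) ^ 9 * 2 ^ k p * (X : ℝ) ^ 66 := by
          gcongr
          exact kapX h16 hn
      _ = 4 * (2 ^ k p * (X : ℝ) ^ 75) := by ring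
      _ ≤ 4 * (2 * ((m p - (4 * n + 2) : ℕ) : ℝ)) := mul_le_mul_of_nonneg_left hmr (by norm_num)
      _ = _ := by ring

/-- the error of MASS1 -/
theorem lo_X {X n : ℕ} (h16 : 2 ^ 16 ≤ X) (hn : n + 1 ≤ X) :
    2 * (n : ℝ) * (9 / 4 / (X : ℝ) ^ 64) + 4 * n * (36 / (X : ℝ) ^ 64) ≤ 1 / (X : ℝ) ^ 62 := by
  have hX0 : (0 : ℝ) < X := by have : 0 < X := by omega
                               exact_mod_cast this
  have hX16 : (65536 : ℝ) ≤ X := by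
    have : (65536 : ℕ) ≤ X := by simpa using h16
    exact_mod_cast this
  have hnr : (n : ℝ) ≤ X := by
    have : n ≤ X := by omega
    exact_mod_cast this
  have e : 2 * (n : ℝ) * (9 / 4 / (X : ℝ) ^ 64) + 4 * n * (36 / (X : ℝ) ^ 64) =
      (297 / 2 * n) / (X : ℝ) ^ 64 := by ring
  rw [e, div_le_div_iff₀ (by positivity) (by positivity), one_mul]
  calc 297 / 2 * (n : ℝ) * (X : ℝ) ^ 62 ≤ 65536 * X * (X : ℝ) ^ 62 := by
        gcongr
        · norm_num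
    _ ≤ X * X * (X : ℝ) ^ 62 := by gcongr
    _ = (X : ℝ) ^ 64 := by ring

/-- the factor of the upper bound: `exp (20 n η) ≤ 1 + 1 / X^63` -/
theorem up_X {X n : ℕ} (h16 : 2 ^ 16 ≤ X) (hn : n + 1 ≤ X) :
    20 * (n : ℝ) * (8 / (X : ℝ) ^ 66) ≤ 1 / (X : ℝ) ^ 64 := by
  have hX0 : (0 : ℝ) < X := by have : 0 < X := by omega
                               exact_mod_cast this
  have hX16 : (65536 : ℝ) ≤ X := by
    have : (65536 : ℕ) ≤ X := by simpa using h16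
    exact_mod_cast this
  have hnr : (n : ℝ) ≤ X := by
    have : n ≤ X := by omega
    exact_mod_cast this
  have e : 20 * (n : ℝ) * (8 / (X : ℝ) ^ 66) = (160 * n) / (X : ℝ) ^ 66 := by ring
  rw [e, div_le_div_iff₀ (by positivity) (by positivity), one_mul]
  calc 160 * (n : ℝ) * (X : ℝ) ^ 64 ≤ 65536 * X * (X : ℝ) ^ 64 := by gcongr; norm_num
    _ ≤ X * X * (X : ℝ) ^ 64 := by gcongr
    _ = (X : ℝ) ^ 66 := by ring

theorem exp_le_of {y : ℝ} (h0 : 0 ≤ y) (h1 : y ≤ 1 / 2) : Real.exp y ≤ 1 + 2 * y := by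
  have h3 : 1 - y ≤ Real.exp (-y) := by linarith [Real.add_one_le_exp (-y)]
  rw [Real.exp_neg] at h3
  have h4 := Real.exp_pos y
  have h5 : (1 - y) * Real.exp y ≤ 1 := by
    have := mul_le_mul_of_nonneg_right h3 h4.le
    rwa [inv_mul_cancel₀ h4.ne'] at this
  by_contra hcon
  push Not at hcon
  nlinarith

theorem exp_up_X {X n : ℕ} (h16 : 2 ^ 16 ≤ X) (hn : n + 1 ≤ X) :
    Real.exp (20 * (n : ℝ) * (8 / (X : ℝ) ^ 66)) ≤ 1 + 1 / (X : ℝ) ^ 63 := by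
  have hX0 : (0 : ℝ) < X := by have : 0 < X := by omega
                               exact_mod_cast this
  have hX16 : (65536 : ℝ) ≤ X := by
    have : (65536 : ℕ) ≤ X := by simpa using h16
    exact_mod_cast this
  have h1 := up_X h16 hn
  have h2 : (1 : ℝ) / (X : ℝ) ^ 64 ≤ 1 / 2 := by
    rw [div_le_div_iff₀ (by positivity) (by norm_num)]
    have : (65536 : ℝ) ≤ (X : ℝ) ^ 64 := hX16.trans (le_self_pow₀ (by linarith) (by norm_num))
    linarith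
  have h3 := exp_le_of (y := 20 * (n : ℝ) * (8 / (X : ℝ) ^ 66)) (by positivity) (h1.trans h2)
  have h4 : 2 * (1 / (X : ℝ) ^ 64) ≤ 1 / (X : ℝ) ^ 63 := by
    rw [mul_one_div, div_le_div_iff₀ (by positivity) (by positivity), one_mul]
    calc (2 : ℝ) * (X : ℝ) ^ 63 ≤ X * (X : ℝ) ^ 63 := by gcongr; linarith
      _ = (X : ℝ) ^ 64 := by ring
  linarith

/-- `M3OK` with `ε₀ = 1 / X^61` -/
theorem m3OK_X {X : ℕ} (h16 : 2 ^ 16 ≤ X) (h1 : 1 ≤ Fintype.card V)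
    (hn : Fintype.card V + 1 ≤ X) {w1 : ℕ}
    (hw : X ^ 75 ≤ w1) :
    M3OK V (w1 : ℤ) (w1 - (4 * Fintype.card V + 2)) (8 / (X : ℝ) ^ 66) (36 / (X : ℝ) ^ 64)
      (9 / 4 / (X : ℝ) ^ 64) (1 / (X : ℝ) ^ 61) := by
  set n := Fintype.card V with hnn
  have hX0 : (0 : ℝ) < X := by have : 0 < X := by omega
                               exact_mod_cast this
  have hX16 : (65536 : ℝ) ≤ X := by
    have : (65536 : ℕ) ≤ X := by simpa using h16
    exact_mod_cast this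
  obtain ⟨a1, a2, a3⟩ := sub_ge h16 hn hw
  have hhalf : (1 : ℝ) / (X : ℝ) ^ 62 ≤ 1 / (X : ℝ) ^ 61 / 2 := by
    rw [div_div, div_le_div_iff₀ (by positivity) (by positivity), one_mul]
    calc (X : ℝ) ^ 61 * 2 ≤ (X : ℝ) ^ 61 * X := by gcongr; linarith
      _ = 1 * (X : ℝ) ^ 62 := by ring
  refine ⟨?_, ?_, ?_, ?_, ?_⟩
  · rw [Nat.cast_sub a1]; push_cast; rw [← hnn]; linarith
  · rw [← hnn]
    have hk : 0 < Facet.kap n := kap_pos h1
    have : 3 ≤ (w1 - (4 * n + 2)) / Facet.kap n := by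
      rw [Nat.le_div_iff_mul_le hk]
      omega
    omega
  · rw [div_le_one (by positivity)]
    exact one_le_pow₀ (by linarith)
  · rw [← hnn]
    have b1 := up_X h16 hn
    have hkr := kapX h16 hn
    have b2 : 8 * (n : ℝ) / (((w1 - (4 * n + 2)) / Facet.kap n + 1 : ℕ) : ℝ) ≤
        1 / (X : ℝ) ^ 63 := by
      rcases Nat.eq_zero_or_pos n with h0 | hn1
      · rw [h0]; simp
      have hk : 0 < Facet.kap n := kap_pos hn1
      have hk0 : (0 : ℝ) < Facet.kap n := by exact_mod_cast hk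
      have c1 : ((w1 - (4 * n + 2) : ℕ) : ℝ) ≤
          (((w1 - (4 * n + 2)) / Facet.kap n + 1 : ℕ) : ℝ) * Facet.kap n := by
        have := Nat.lt_div_mul_add (a := w1 - (4 * n + 2)) hk
        have h5 : w1 - (4 * n + 2) ≤ ((w1 - (4 * n + 2)) / Facet.kap n + 1) * Facet.kap n := by
          rw [add_mul, one_mul]; exact this.le
        exact_mod_cast h5
      have c2 : (X : ℝ) ^ 75 ≤ 2 * ((w1 - (4 * n + 2) : ℕ) : ℝ) := by
        have : X ^ 75 ≤ 2 * (w1 - (4 * n + 2)) := hw.trans a2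
        exact_mod_cast this
      set q : ℝ := (((w1 - (4 * n + 2)) / Facet.kap n + 1 : ℕ) : ℝ) with hq
      have hq0 : 0 < q := by rw [hq]; positivity
      have c3 : (X : ℝ) ^ 75 ≤ 2 * q * (X : ℝ) ^ 9 := by
        calc (X : ℝ) ^ 75 ≤ 2 * (q * Facet.kap n) := c2.trans (by linarith)
          _ ≤ 2 * (q * (X : ℝ) ^ 9) := by gcongr
          _ = _ := by ring
      have c4 : (X : ℝ) ^ 66 ≤ 2 * q := by
        have : (X : ℝ) ^ 66 * (X : ℝ) ^ 9 ≤ 2 * q * (X : ℝ) ^ 9 := by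
          calc (X : ℝ) ^ 66 * (X : ℝ) ^ 9 = (X : ℝ) ^ 75 := by ring
            _ ≤ _ := c3
        exact le_of_mul_le_mul_right this (by positivity)
      have hnr : (n : ℝ) ≤ X := by
        have : n ≤ X := by omega
        exact_mod_cast this
      rw [div_le_div_iff₀ hq0 (by positivity), one_mul]
      calc 8 * (n : ℝ) * (X : ℝ) ^ 63 ≤ 8 * X * (X : ℝ) ^ 63 := by gcongr
        _ = 8 * (X : ℝ) ^ 64 := by ring
        _ ≤ (65536 * 65536 / 2) * (X : ℝ) ^ 64 := by gcongr; norm_num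
        _ ≤ (X * X / 2) * (X : ℝ) ^ 64 := by gcongr
        _ = (X : ℝ) ^ 66 / 2 := by ring
        _ ≤ q := by linarith
    have b3 : (1 : ℝ) / (X : ℝ) ^ 64 ≤ 1 / (X : ℝ) ^ 63 :=
      one_div_le_one_div_of_le (by positivity) (pow_le_pow_right₀ (by linarith) (by norm_num))
    have b4 : (1 : ℝ) / (X : ℝ) ^ 63 + 1 / (X : ℝ) ^ 63 ≤ 1 / (X : ℝ) ^ 62 := by
      rw [← two_mul, mul_one_div, div_le_div_iff₀ (by positivity) (by positivity), one_mul]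
      calc (2 : ℝ) * (X : ℝ) ^ 62 ≤ X * (X : ℝ) ^ 62 := by gcongr; linarith
        _ = (X : ℝ) ^ 63 := by ring
    linarith
  · rw [← hnn]
    exact (lo_X h16 hn).trans hhalf

end Crest.Agent.R302.Mass151
end

-- ▼ part R302/Gau970H
section

/-!
R302 (helper970), block GAUGE, part H: the field `good` of `MassIn` from `GoodR` and `blk`.
-/

set_option autoImplicit false
set_option linter.unusedSectionVars false

namespace Crest.Agent.R302.Gau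

open Finset Crest.Agent.R302.Inst Crest.Agent.R302.Stage Crest.Agent.R302.Loop

variable {n : ℕ}

/-- the gauge of all pairs from the gauge of the representatives -/
theorem good_of {D : SD (Fin n)} {rep : ℕ → ℕ} {N' : ℕ → ℕ → ℝ} {Z' Gam kap : ℝ} {g : List ℤ}
    (hg : GoodR n rep N' Z' Gam g) (hkap : 0 ≤ kap)
    (hblk : ∀ u < n, ∀ v < n, N' u v ≤ kap * N' (rep u) (rep v))
    (hell : ∀ e : Fin n, D.ell e = g.getD (rep e) 0) (u v : Fin n) :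
    N' u v * D.μ u ≤ (kap * Gam) * Z' * D.μ v := by
  have h1 := hg u u.2 v v.2
  have h2 := hblk u u.2 v v.2
  unfold SD.μ
  rw [hell, hell]
  have p1 : (0 : ℝ) < 2 ^ (g.getD (rep u) 0) := by positivity
  calc N' u v * (2 : ℝ) ^ (g.getD (rep u) 0)
      ≤ kap * N' (rep u) (rep v) * (2 : ℝ) ^ (g.getD (rep u) 0) :=
        mul_le_mul_of_nonneg_right h2 p1.le
    _ = kap * (N' (rep u) (rep v) * (2 : ℝ) ^ (g.getD (rep u) 0)) := by ring
    _ ≤ kap * (Gam * Z' * (2 : ℝ) ^ (g.getD (rep v) 0)) := mul_le_mul_of_nonneg_left h1 hkap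
    _ = _ := by ring

end Crest.Agent.R302.Gau
end

-- ▼ part R302/MassSt151
section

/-!
# R302 (helper151): the mass bundle of one annealing stage

`StD D A t ..` : the chain data `D` belong to stage `t` of the annealing data `A`.
* `StD.s1`  : `∑_{x ∈ A.PH 0} |nuG (pf x) - stW 0 t x| ≤ (2 (2 n ε + 4 n ρ) + (exp (20 n η) - 1)) Z_t`;
* `StD.rat` : `∑_{EvG u v} nuG = 2^(-2a) 2^(ell u - ell v) s`, `|s - Nst t v u| ≤ ε₀ Nst t v u`;
* `StD.massIn` : 970's bundle, hence `|mass - Z_t| ≤ (e + 4 q) Z_t`.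
-/

set_option autoImplicit false

namespace Crest.Agent.R302.Mass151

open Finset Crest.Agent.R302.Facet Crest.Agent.R302.Inst
open Crest.Agent.R302.Stage Crest.Agent.R302.AnnBox

variable {n : ℕ}

/-- the chain data `D` belong to stage `t` -/
structure StD (D : SD (Fin n)) (A : AnnData n) (t : ℕ) (m₁ k₁ m₂ k₂ τ₁ τ₂ : Fin n → ℕ)
    (η ρ ε : ℝ) : Prop where
  ok : StOK D (A.stR A.r₁ t) (A.stR A.r₂ t) A.R A.x₀ m₁ k₁ m₂ k₂
  om_eq : ∀ z, MemJ (A.stR A.r₁ t) A.R z → om D z = stOm n A.L t A.x₀ z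
  e₁ : EtaOK D.S₁ m₁ k₁ η
  e₂ : EtaOK D.S₂ m₂ k₂ η
  t₁ : TauOK D.S₁ m₁ k₁ τ₁ ρ ε
  t₂ : TauOK D.S₂ m₂ k₂ τ₂ ρ ε

section

variable {D : SD (Fin n)} {A : AnnData n} {t : ℕ} {m₁ k₁ m₂ k₂ τ₁ τ₂ : Fin n → ℕ} {η ρ ε : ℝ}

/-- the counts with the weight `om D` -/
theorem StD.Ns_eq (h : StD D A t m₁ k₁ m₂ k₂ τ₁ τ₂ η ρ ε) (s : Fin n → ℤ)
    (P : Finset (Fin n → ℤ)) (hP : ∀ x, x ∈ P ↔ MemJ (A.stR A.r₁ t) A.R x ∧
      MemJ (A.stR A.r₂ t) A.R (fun v => x v + s v)) :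
    ∑ x ∈ P, om D x = A.Ns s t := by
  rw [A.Ns_eq s t P hP]
  exact sum_congr rfl fun x hx => h.om_eq x ((hP x).1 hx).1


/-- finite set of the hole states of type `s` in the stage box -/
theorem exists_PS (A : AnnData n) (t : ℕ) (s : Fin n → ℤ) : ∃ P : Finset (Fin n → ℤ), ∀ x, x ∈ P ↔
    MemJ (A.stR A.r₁ t) A.R x ∧ MemJ (A.stR A.r₂ t) A.R (fun v => x v + s v) :=
  exists_PH (A.stR_sub A.sub₁ A.mem₁ t) s

/-- **the start mass** (`hsum` of `Warm272`) -/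
theorem StD.s1 (h : StD D A t m₁ k₁ m₂ k₂ τ₁ τ₂ η ρ ε) :
    ∑ x ∈ A.PH 0, |D.nuG (D.pf x) - stW A.L A.x₀ 0 t x| ≤
      (2 * (2 * n * ε + 4 * n * ρ) + (Real.exp (20 * n * η) - 1)) * A.Z t := by
  classical
  obtain ⟨P, hP⟩ := exists_PS A t 0
  have hP0 : ∀ x, x ∈ P ↔ MemJ (A.stR A.r₁ t) A.R x ∧ MemJ (A.stR A.r₂ t) A.R x := by
    intro x; rw [hP]; simp
  have hZ : ∑ x ∈ P, om D x = A.Z t := h.Ns_eq 0 P hP
  have hsub : P ⊆ A.PH 0 := by
    intro x hx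
    have := (hP0 x).1 hx
    rw [A.mem_P]
    exact ⟨((A.mem_stR A.sub₁ t x).1 this.1).1, ((A.mem_stR A.sub₂ t x).1 this.2).1⟩
  have hin : ∀ x ∈ P, stW A.L A.x₀ 0 t x = om D x := by
    intro x hx
    have h1 := (hP0 x).1 hx
    have hc := ((A.mem_stR A.sub₁ t x).1 h1.1).2
    unfold stW
    rw [if_pos ⟨hc, by simpa using hc⟩, h.om_eq x h1.1]
  have hout : ∀ x ∈ A.PH 0 \ P, stW A.L A.x₀ 0 t x = 0 := by
    intro x hx
    rw [mem_sdiff] at hx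
    have h1 := (A.mem_P x).1 hx.1
    unfold stW
    rw [if_neg]
    rintro ⟨hc, _⟩
    exact hx.2 ((hP0 x).2 ⟨(A.mem_stR A.sub₁ t x).2 ⟨h1.1, hc⟩, (A.mem_stR A.sub₂ t x).2 ⟨h1.2, hc⟩⟩)
  have hpf : ∀ x, D.nuG (D.pf x) = Gau.F₁ D x * Gau.F₂ D x := fun x =>
    Gau.nuG_pf h.ok.g₁ h.ok.g₂ x
  have hF0 : ∀ x, 0 ≤ Gau.F₁ D x * Gau.F₂ D x := fun x => F₁F₂_nonneg h.ok x x
  have a1 := lowW h.ok h.t₁ h.t₂ (s := 0) (by simp) (fun A => by simp) P hP
  have a2 := uppW h.ok h.e₁ h.e₂ (s := 0) (by simp) (fun A => by simp) P hP (A.PH 0)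
  simp only [Pi.zero_apply, add_zero, Fintype.card_fin] at a1 a2
  rw [hZ] at a1 a2
  rw [sum_sub_distrib, hZ] at a1
  rw [← sum_sdiff hsub] at a2 ⊢
  have b1 : ∑ x ∈ P, |D.nuG (D.pf x) - stW A.L A.x₀ 0 t x| =
      A.Z t - ∑ x ∈ P, Gau.F₁ D x * Gau.F₂ D x := by
    rw [← hZ, ← sum_sub_distrib]
    refine sum_congr rfl fun x hx => ?_
    rw [hin x hx, hpf, abs_sub_comm, abs_of_nonneg]
    linarith [F₁F₂_le h.ok x x]
  have b2 : ∑ x ∈ A.PH 0 \ P, |D.nuG (D.pf x) - stW A.L A.x₀ 0 t x| =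
      ∑ x ∈ A.PH 0 \ P, Gau.F₁ D x * Gau.F₂ D x := by
    refine sum_congr rfl fun x hx => ?_
    rw [hout x hx, hpf, sub_zero, abs_of_nonneg (hF0 x)]
  rw [b1, b2]
  linarith

/-- **the one-link classes** (`hE`, `hs` of `rat_of`) -/
theorem StD.rat (h : StD D A t m₁ k₁ m₂ k₂ τ₁ τ₂ η ρ ε) {w1 : ℤ} {m : ℕ} {ε₀ : ℝ}
    (hN : M3OK (Fin n) w1 m η ρ ε ε₀) (hw₁ : ∀ p, D.S₁.T.par p ≠ none → w1 ≤ m₁ p)
    (hw₂ : ∀ p, D.S₂.T.par p ≠ none → w1 ≤ m₂ p)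
    (hbx : ∀ z ∈ D.S₁.J, ∀ z' ∈ D.S₂.J, ∀ x, (∃ u, z = x + Lor.ev u) → (∃ v, z' = x + Lor.ev v) →
      ((x, D.S₁.blk z, D.S₂.blk z') : St D) ∈ D.bx) (u v : Fin n) [DecidablePred (D.EvG u v)] :
    ∃ s : ℝ, ∑ σ ∈ D.bx.filter (D.EvG u v), D.nuG σ =
        (1 / 2) ^ (2 * D.a) * 2 ^ (D.ell u - D.ell v) * s ∧
      |s - A.Nst t v u| ≤ ε₀ * A.Nst t v u := by
  obtain ⟨P, hP⟩ := exists_PS A t (hs v u)
  have h1 := mass3 h.ok h.e₁ h.e₂ h.t₁ h.t₂ hN hw₁ hw₂ hbx u v P hP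
  rw [h.Ns_eq _ P hP] at h1
  exact h1

/-- **970's bundle** -/
theorem StD.massIn (h : StD D A t m₁ k₁ m₂ k₂ τ₁ τ₂ η ρ ε) (lz : Gau.LzD D) {Γ e : ℝ}
    (e0 : 0 ≤ e) (e1 : e ≤ 1 / 4) (hup : Real.exp (20 * n * η) ≤ 1 + e)
    (hlo : 2 * n * ε + 4 * n * ρ ≤ e)
    (hpf : ∀ x, MemJ (A.stR A.r₁ t) A.R x → MemJ (A.stR A.r₂ t) A.R x → D.pf x ∈ D.bx)
    (good : ∀ u v : Fin n, A.Nst t v u * D.μ u ≤ Γ * A.Z t * D.μ v) :
    Gau.MassIn D (A.Z t) (fun u v => A.Nst t v u) Γ e where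
  lz := lz
  Z0 := A.Z_pos t
  e0 := e0
  e1 := e1
  upp u v B := by
    obtain ⟨P, hP⟩ := exists_PS A t (hs v u)
    have h1 := hN_form h.ok h.e₁ h.e₂ u v P hP B
    rw [h.Ns_eq _ P hP, Fintype.card_fin] at h1
    exact h1.trans (mul_le_mul_of_nonneg_right hup (A.Nst_nonneg t v u))
  diag u := A.Nst_self t u
  low := by
    obtain ⟨P, hP⟩ := exists_PS A t 0
    have hP0 : ∀ x, x ∈ P ↔ MemJ (A.stR A.r₁ t) A.R x ∧ MemJ (A.stR A.r₂ t) A.R x := by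
      intro x; rw [hP]; simp
    refine ⟨P, fun x hx => hpf x ((hP0 x).1 hx).1 ((hP0 x).1 hx).2, ?_⟩
    have hZ : ∑ x ∈ P, om D x = A.Z t := h.Ns_eq 0 P hP
    have a1 := lowW h.ok h.t₁ h.t₂ (s := 0) (by simp) (fun A => by simp) P hP
    simp only [Pi.zero_apply, add_zero, Fintype.card_fin] at a1
    rw [sum_sub_distrib, hZ] at a1
    have := mul_le_mul_of_nonneg_right hlo (A.Z_pos t).le
    linarith
  good := good

end

end Crest.Agent.R302.Mass151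
end

-- ▼ part R302/MassSdA151
section

/-!
# R302 (helper151): the mass bundle of the concrete stages

* `std_sdA`   : `StD` for `sdA 𝒜 t P ell` with the numbers of `NumMass151` (`X = 2 ^ s`);
* `massIn_sdA`, `s1_sdA`, `rat_sdA`, `mf_sdA` : generic parameters `XOK`;
* `massIn_prg`, `mf_prg`, `rat_prg` : the concrete program `cPar`, both link costs.
-/

set_option autoImplicit false
set_option linter.unusedSectionVars false

namespace Crest.Agent.R302.Mass151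

open Finset Crest.Agent.R302.Facet Crest.Agent.R302.Inst Crest.Agent.R302.Stage
open Crest.Agent.R302.AnnBox Crest.Agent.R302.ConcF Crest.Agent.R302.GeoSpec
open Crest.Agent.R302.Conc (sdA sdOf parOf ellOf jF mem_jF mA)
open Crest.Agent.R302.StageL (kV)

variable {n : ℕ}

/-- the numbers of a stage: `X = 2 ^ s` -/
structure XOK (n : ℕ) (R : ℤ) (P : Conc.Par) (X s : ℕ) : Prop where
  hX : X = 2 ^ s
  h16 : 2 ^ 16 ≤ X
  hs : 64 * s ≤ X
  hn : n + 1 ≤ X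
  n0 : 0 < n
  dk : P.dk = X ^ 75
  w : P.w₁ = ((X ^ 112 : ℕ) : ℤ)
  Lb : R ≤ P.Lb
  M : R + 1 ≤ P.M

namespace XOK

variable {R : ℤ} {P : Conc.Par} {X s : ℕ}

theorem X0 (h : XOK n R P X s) : 0 < X := by have := h.h16; omega

theorem XR (h : XOK n R P X s) : (65536 : ℝ) ≤ X := by
  have : (65536 : ℕ) ≤ X := by simpa using h.h16
  exact_mod_cast this

theorem dk0 (h : XOK n R P X s) : 0 < P.dk := by rw [h.dk]; exact Nat.pow_pos h.X0

theorem w75 (h : XOK n R P X s) : X ^ 75 ≤ X ^ 112 := Nat.pow_le_pow_right h.X0 (by norm_num)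

theorem dkw (h : XOK n R P X s) : (P.dk : ℤ) ≤ P.w₁ := by
  rw [h.dk, h.w]
  exact_mod_cast h.w75

theorem cAw (h : XOK n R P X s) : (cA n : ℤ) < P.w₁ := by
  rw [h.w]
  have h1 := Cst.cA_le h.h16 h.hn
  have h2 : X ^ 12 < X ^ 112 := Nat.pow_lt_pow_right (by have := h.h16; omega) (by norm_num)
  exact_mod_cast lt_of_le_of_lt h1 h2

theorem big (h : XOK n R P X s) : 4 * n * (P.dk : ℤ) ≤ P.w₁ := by
  rw [h.dk, h.w]
  have h1 : n ≤ X := by have := h.hn; omega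
  have h2 : 4 * n * X ^ 75 ≤ X ^ 112 := by
    calc 4 * n * X ^ 75 ≤ 4 * X * X ^ 75 :=
          Nat.mul_le_mul_right _ (Nat.mul_le_mul_left _ h1)
      _ = 4 * X ^ 76 := by ring
      _ ≤ X ^ 112 := Cst.c_mul_pw' h.h16 (by norm_num) (by norm_num)
  exact_mod_cast h2

end XOK

/-! ### the stage weight -/

theorem om_sdA (𝒜 : AnnData n) (t : ℕ) (P : Conc.Par) (ell : Fin n → ℤ)
    (hw : (cA n : ℤ) < P.w₁) (z : Fin n → ℤ) :
    om (sdA 𝒜 t P ell) z = stOm n 𝒜.L t 𝒜.x₀ z := by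
  unfold om
  rw [stOm_eq]
  have e : (sdA 𝒜 t P ell).w ((sdA 𝒜 t P ell).S₁.blk z) =
      (stH n 𝒜.L t 𝒜.x₀ (StageL.ext (sdA 𝒜 t P ell).S₁.T ((sdA 𝒜 t P ell).S₁.blk z)) : ℤ) := rfl
  rw [e]
  by_cases ht : t < T0 n 𝒜.L
  · rw [ext_blk_thin (S := (sdA 𝒜 t P ell).S₁) (fun a => (sdA_thin 𝒜 t P ell ht.le hw a).1),
      zpow_neg, zpow_natCast, one_div, inv_pow]
  · have h0 : ∀ y, stH n 𝒜.L t 𝒜.x₀ y = 0 := fun y => by unfold stH; rw [if_neg ht]
    rw [h0, h0]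
    simp

/-! ### the stage data -/

section gen

variable {𝒜 : AnnData n} {P : Conc.Par} {t : ℕ} {ell : Fin n → ℤ} {rep : Fin n → Fin n}
  {X s : ℕ}

/-- slack and exponent functions of the two sides -/
noncomputable def mS (𝒜 : AnnData n) (P : Conc.Par) (t : ℕ) (r : Finset (Fin n) → ℤ) :
    Fin n → ℕ := mW (nnForest (mA 𝒜 r t) P.w₁) (mA 𝒜 r t)

noncomputable def kS (𝒜 : AnnData n) (P : Conc.Par) (t : ℕ) (r : Finset (Fin n) → ℤ) :
    Fin n → ℕ := kV P.dk (nnForest (mA 𝒜 r t) P.w₁) (mA 𝒜 r t)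

theorem std_sdA (hx : XOK n 𝒜.R P X s) (hr : RepC 𝒜 P t rep)
    (hl : ∃ f : Fin n → ℤ, ∀ e, ell e = f (rep e)) :
    StD (sdA 𝒜 t P ell) 𝒜 t (mS 𝒜 P t 𝒜.r₁) (kS 𝒜 P t 𝒜.r₁) (mS 𝒜 P t 𝒜.r₂)
      (kS 𝒜 P t 𝒜.r₂) (fun p => 8 * 2 ^ kS 𝒜 P t 𝒜.r₁ p * (64 * s))
      (fun p => 8 * 2 ^ kS 𝒜 P t 𝒜.r₂ p * (64 * s)) (8 / (X : ℝ) ^ 66) (36 / (X : ℝ) ^ 64)
      (9 / 4 / (X : ℝ) ^ 64) := by
  obtain ⟨f, hf⟩ := hl
  have S₁ := stSide₁ 𝒜 t P ell hx.dk0 hx.dkw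
  have S₂ := stSide₂ 𝒜 t P ell hx.dk0 hx.dkw
  have c : Fintype.card (Fin n) + 1 ≤ X := by rw [Fintype.card_fin]; exact hx.hn
  have k₁ : ∀ p, (sdA 𝒜 t P ell).S₁.T.par p ≠ none →
      2 ^ kS 𝒜 P t 𝒜.r₁ p * X ^ 75 ≤ mS 𝒜 P t 𝒜.r₁ p := fun p hp => by
    have := S₁.k_le hp
    rw [hx.dk] at this
    have e : kS 𝒜 P t 𝒜.r₁ p = kV (X ^ 75) (sdA 𝒜 t P ell).S₁.T (TreeNN.mcap (𝒜.stR 𝒜.r₁ t) 𝒜.x₀) p := by
      unfold kS; rw [hx.dk]; rfl
    rw [e]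
    exact this
  have k₂ : ∀ p, (sdA 𝒜 t P ell).S₂.T.par p ≠ none →
      2 ^ kS 𝒜 P t 𝒜.r₂ p * X ^ 75 ≤ mS 𝒜 P t 𝒜.r₂ p := fun p hp => by
    have := S₂.k_le hp
    rw [hx.dk] at this
    have e : kS 𝒜 P t 𝒜.r₂ p = kV (X ^ 75) (sdA 𝒜 t P ell).S₂.T (TreeNN.mcap (𝒜.stR 𝒜.r₂ t) 𝒜.x₀) p := by
      unfold kS; rw [hx.dk]; rfl
    rw [e]
    exact this
  exact
    { ok :=
        { s₁ := S₁.sideOK
          s₂ := S₂.sideOK
          alt := sdA_cases 𝒜 t P ell hx.cAw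
          gau₁ := fun a b h => by
            show ell a = ell b
            rw [hf, hf, hr.1 a b h]
          gau₂ := fun a b h => by
            show ell a = ell b
            rw [hf, hf, hr.2 a b h] }
      om_eq := fun z _ => om_sdA 𝒜 t P ell hx.cAw z
      e₁ := etaOK_X hx.h16 c k₁
      e₂ := etaOK_X hx.h16 c k₂
      t₁ := tauOK_X hx.hX hx.h16 hx.hs c k₁
      t₂ := tauOK_X hx.hX hx.h16 hx.hs c k₂ }

/-- the conditions of 342's facts -/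
theorem XOK.parOK (hx : XOK n 𝒜.R P X s)
    (hlo₁ : ∀ z, MemJ 𝒜.r₁ 𝒜.R z → ∀ v, 0 ≤ z v)
    (hlo₂ : ∀ z, MemJ 𝒜.r₂ 𝒜.R z → ∀ v, 0 ≤ z v) : ParOK 𝒜 P :=
  ⟨hx.cAw, hx.dk0, hx.big, hx.Lb, hlo₁, hlo₂⟩

/-! ### windows -/

section win

variable (hlo₁ : ∀ z, MemJ 𝒜.r₁ 𝒜.R z → ∀ v, 0 ≤ z v) (hlo₂ : ∀ z, MemJ 𝒜.r₂ 𝒜.R z → ∀ v, 0 ≤ z v)
include hlo₁ hlo₂

/-- a coordinate in `[-1, R + 1]` is in the window -/
theorem win_x (hx : XOK n 𝒜.R P X s) {x : Fin n → ℤ} {e : Fin n} (h1 : -1 ≤ x e)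
    (h2 : x e ≤ 𝒜.R) :
    x e ∈ Icc ((sdA 𝒜 t P ell).c e - (sdA 𝒜 t P ell).M)
      ((sdA 𝒜 t P ell).c e + (sdA 𝒜 t P ell).M) := by
  have h7 : 𝒜.x₀ e ≤ 𝒜.R := by
    have h8 := 𝒜.mem₁.2
    rw [← h8]
    exact single_le_sum (f := 𝒜.x₀) (fun v _ => hlo₁ _ 𝒜.mem₁ v) (mem_univ e)
  have h8 := hlo₁ _ 𝒜.mem₁ e
  have h9 := hx.M
  rw [mem_Icc]
  show 𝒜.x₀ e - (P.M : ℤ) ≤ x e ∧ x e ≤ 𝒜.x₀ e + (P.M : ℤ)
  constructor <;> linarith

theorem coord_le {z : Fin n → ℤ} (hz : MemJ 𝒜.r₁ 𝒜.R z ∨ MemJ 𝒜.r₂ 𝒜.R z) (e : Fin n) :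
    0 ≤ z e ∧ z e ≤ 𝒜.R := by
  have h0 : ∀ v, 0 ≤ z v := by
    rcases hz with h | h
    · exact hlo₁ z h
    · exact hlo₂ z h
  have hR : ∑ v, z v = 𝒜.R := by
    rcases hz with h | h
    · exact h.2
    · exact h.2
  refine ⟨h0 e, ?_⟩
  rw [← hR]
  exact single_le_sum (f := z) (fun v _ => h0 v) (mem_univ e)

/-- perfect states over common bases are in the box -/
theorem pf_mem (hx : XOK n 𝒜.R P X s) {x : Fin n → ℤ} (h₁ : MemJ 𝒜.r₁ 𝒜.R x) :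
    (sdA 𝒜 t P ell).pf x ∈ (sdA 𝒜 t P ell).bx := by
  have h0 := hlo₁ x h₁
  have hR := h₁.2
  unfold SD.bx SD.pf
  rw [mem_product, mem_product, Fintype.mem_piFinset, Fintype.mem_piFinset, Fintype.mem_piFinset]
  refine ⟨fun e => ?_, fun r => ?_, fun r => ?_⟩
  · obtain ⟨a, b⟩ := coord_le hlo₁ hlo₂ (Or.inl h₁) e
    exact win_x hlo₁ hlo₂ hx (by linarith) b
  · exact mem_Icc.2 (abs_le.1 ((ConcF.bs_abs_le h0 hR _).trans hx.Lb))
  · exact mem_Icc.2 (abs_le.1 ((ConcF.bs_abs_le h0 hR _).trans hx.Lb))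

/-- states over one-link pairs are in the box -/
theorem lk_mem (hx : XOK n 𝒜.R P X s) {z z' x : Fin n → ℤ} (hz : z ∈ (sdA 𝒜 t P ell).S₁.J)
    (hz' : z' ∈ (sdA 𝒜 t P ell).S₂.J) (h : ∃ u, z = x + Lor.ev u) :
    ((x, (sdA 𝒜 t P ell).S₁.blk z, (sdA 𝒜 t P ell).S₂.blk z') : Stage.St (sdA 𝒜 t P ell)) ∈
      (sdA 𝒜 t P ell).bx := by
  have m1 := ((𝒜.mem_stR 𝒜.sub₁ t z).1 ((mem_jF 𝒜 𝒜.sub₁ t z).1 hz)).1
  have m2 := ((𝒜.mem_stR 𝒜.sub₂ t z').1 ((mem_jF 𝒜 𝒜.sub₂ t z').1 hz')).1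
  obtain ⟨u, hu⟩ := h
  unfold SD.bx
  rw [mem_product, mem_product, Fintype.mem_piFinset, Fintype.mem_piFinset, Fintype.mem_piFinset]
  refine ⟨fun e => ?_, fun r => ?_, fun r => ?_⟩
  · obtain ⟨a, b⟩ := coord_le hlo₁ hlo₂ (Or.inl m1) e
    have h1 : z e = x e + Lor.ev u e := by rw [hu]; rfl
    have h2 : 0 ≤ Lor.ev u e ∧ Lor.ev u e ≤ 1 := by
      unfold Lor.ev
      rw [Pi.single_apply]
      split_ifs <;> simp
    exact win_x hlo₁ hlo₂ hx (by linarith) (by linarith)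
  · exact mem_Icc.2 (abs_le.1 ((ConcF.bs_abs_le (hlo₁ z m1) m1.2 _).trans hx.Lb))
  · exact mem_Icc.2 (abs_le.1 ((ConcF.bs_abs_le (hlo₂ z' m2) m2.2 _).trans hx.Lb))

/-! ### the bundle -/

theorem lz_sdA (hx : XOK n 𝒜.R P X s) (hr : RepC 𝒜 P t rep)
    (hl : ∃ f : Fin n → ℤ, ∀ e, ell e = f (rep e)) : Gau.LzD (sdA 𝒜 t P ell) :=
  let S := facts_sdA (hx.parOK hlo₁ hlo₂) hr hl
  Gau.LzD.of_shape (sdA_ok 𝒜 t P ell hx.dk0 hx.dkw) S.sh₁ S.sh₂ (std_sdA hx hr hl).ok.g₁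
    (std_sdA hx hr hl).ok.g₂

/-- **the bundle of 970 / 425** -/
theorem massIn_sdA (hx : XOK n 𝒜.R P X s) (hr : RepC 𝒜 P t rep)
    (hl : ∃ f : Fin n → ℤ, ∀ e, ell e = f (rep e)) {Γ : ℝ}
    (good : ∀ u v : Fin n, 𝒜.Nst t v u * (sdA 𝒜 t P ell).μ u ≤
      Γ * 𝒜.Z t * (sdA 𝒜 t P ell).μ v) :
    Gau.MassIn (sdA 𝒜 t P ell) (𝒜.Z t) (fun u v => 𝒜.Nst t v u) Γ (1 / (X : ℝ) ^ 62) := by
  have hX := hx.XR
  have hX0 : (0 : ℝ) < X := by linarith
  have e1 : 1 / (X : ℝ) ^ 62 ≤ 1 / 4 := by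
    apply one_div_le_one_div_of_le (by norm_num)
    calc (4 : ℝ) ≤ X := by linarith
      _ ≤ (X : ℝ) ^ 62 := le_self_pow₀ (by linarith) (by norm_num)
  refine (std_sdA hx hr hl).massIn (lz_sdA hlo₁ hlo₂ hx hr hl) (by positivity) e1 ?_
    (lo_X hx.h16 hx.hn) (fun x h₁ _ => ?_) good
  · refine (exp_up_X hx.h16 hx.hn).trans ?_
    have : (1 : ℝ) / (X : ℝ) ^ 63 ≤ 1 / (X : ℝ) ^ 62 :=
      one_div_le_one_div_of_le (by positivity) (pow_le_pow_right₀ (by linarith) (by norm_num))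
    linarith
  · exact pf_mem hlo₁ hlo₂ hx ((𝒜.mem_stR 𝒜.sub₁ t x).1 h₁).1

theorem rat_sdA (hx : XOK n 𝒜.R P X s) (hr : RepC 𝒜 P t rep)
    (hl : ∃ f : Fin n → ℤ, ∀ e, ell e = f (rep e)) : Fields.Rat 𝒜 t (sdA 𝒜 t P ell) := by
  classical
  intro u v
  have hX := hx.XR
  have hX0 : (0 : ℝ) < X := by linarith
  have c : Fintype.card (Fin n) + 1 ≤ X := by rw [Fintype.card_fin]; exact hx.hn
  have c1 : 1 ≤ Fintype.card (Fin n) := by rw [Fintype.card_fin]; exact hx.n0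
  have S₁ := stSide₁ 𝒜 t P ell hx.dk0 hx.dkw
  have S₂ := stSide₂ 𝒜 t P ell hx.dk0 hx.dkw
  obtain ⟨q, h1, h2⟩ := (std_sdA hx hr hl).rat (m3OK_X (V := Fin n) hx.h16 c1 c hx.w75)
    (fun p hp => by rw [← hx.w]; exact S₁.w_le_mW hp)
    (fun p hp => by rw [← hx.w]; exact S₂.w_le_mW hp)
    (fun z hz z' hz' x h1 _ => lk_mem hlo₁ hlo₂ hx hz hz' h1) u v
  refine ⟨q, ?_, h2.trans ?_⟩
  · rw [← h1]
  · apply mul_le_mul_of_nonneg_right _ (𝒜.Nst_nonneg t v u)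
    apply one_div_le_one_div_of_le (by norm_num)
    calc (16 : ℝ) ≤ X := by linarith
      _ ≤ (X : ℝ) ^ 61 := le_self_pow₀ (by linarith) (by norm_num)

theorem s1_sdA (hx : XOK n 𝒜.R P X s) (hr : RepC 𝒜 P t rep)
    (hl : ∃ f : Fin n → ℤ, ∀ e, ell e = f (rep e)) :
    ∑ x ∈ 𝒜.PH 0, |(sdA 𝒜 t P ell).nuG ((sdA 𝒜 t P ell).pf x) - stW 𝒜.L 𝒜.x₀ 0 t x| ≤
      1 / (X : ℝ) ^ 61 * 𝒜.Z t := by
  have hX := hx.XR
  have hX0 : (0 : ℝ) < X := by linarith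
  refine (std_sdA hx hr hl).s1.trans (mul_le_mul_of_nonneg_right ?_ (𝒜.Z_pos t).le)
  have h1 := lo_X hx.h16 hx.hn
  have h2 := exp_up_X hx.h16 hx.hn
  have h3 : (1 : ℝ) / (X : ℝ) ^ 63 ≤ 1 / (X : ℝ) ^ 62 :=
    one_div_le_one_div_of_le (by positivity) (pow_le_pow_right₀ (by linarith) (by norm_num))
  have h4 : 3 * (1 / (X : ℝ) ^ 62) ≤ 1 / (X : ℝ) ^ 61 := by
    rw [mul_one_div, div_le_div_iff₀ (by positivity) (by positivity), one_mul]
    calc 3 * (X : ℝ) ^ 61 ≤ X * (X : ℝ) ^ 61 := by gcongr; linarith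
      _ = (X : ℝ) ^ 62 := by ring
  linarith

theorem mf_sdA (hx : XOK n 𝒜.R P X s) (hr : RepC 𝒜 P t rep)
    (hl : ∃ f : Fin n → ℤ, ∀ e, ell e = f (rep e)) {Γ q : ℝ}
    (good : ∀ u v : Fin n, 𝒜.Nst t v u * (sdA 𝒜 t P ell).μ u ≤
      Γ * 𝒜.Z t * (sdA 𝒜 t P ell).μ v)
    (hq : (sdA 𝒜 t P ell).θ ^ 2 * (2 * Γ * (2 * n) ^ 2) ≤ q) (hq1 : q ≤ 1 / 2) :
    Fields.MF 𝒜 t (sdA 𝒜 t P ell) (1 / (X : ℝ) ^ 61) (1 / (X : ℝ) ^ 62 + 4 * q) := by
  have : Nonempty (Fin n) := ⟨⟨0, hx.n0⟩⟩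
  refine Fields.MF.of_sdA (sdA_ok 𝒜 t P ell hx.dk0 hx.dkw) (fun x h => ?_)
    (s1_sdA hlo₁ hlo₂ hx hr hl) ?_
  · exact pf_mem hlo₁ hlo₂ hx ((𝒜.mem_P x).1 h).1
  · exact (massIn_sdA hlo₁ hlo₂ hx hr hl good).mass_close (by rw [Fintype.card_fin]; exact hq) hq1

end win

end gen

end Crest.Agent.R302.Mass151
end

-- ▼ part R302/MassC151

/-!
# R302 (helper151): the mass bundle of the two concrete chains `Dc`

* `good_c` : the gauge condition with constant `128`;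
* `massIn_c`, `rat_c`, `mf_c`, `mf_cE` (`a = 2 ss`), `mf_cM` (`a = 33 ss`).
-/

set_option autoImplicit false
set_option linter.unusedSectionVars false

namespace Crest.Agent.R302.Fields

open Finset Crest.Agent.R302.Inst Crest.Agent.R302.Stage Crest.Agent.R302.AnnBox
open Crest.Agent.R302.Loop Crest.Agent.R302.Prog
open Crest.Agent.R302.Smp Crest.Agent.R302.Top Crest.Agent.R302.Facet
open Crest.Agent.R302.Cst
open Crest.Agent.R302.Conc (sdA parOf ellOf)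
open Crest.Agent.R302.ORAM
open Crest.Agent.R302.Mass151 (XOK)

/-- the numbers of the concrete parameters -/
theorem xok_c {n R m : ℕ} {r₁ r₂ : Finset (Fin n) → ℕ} {lo hi : Fin n → ℤ} {𝒜 : AnnData n}
    (h : IsInst (Prog.prg cPar) n R m r₁ r₂ lo hi 𝒜) (a : ℕ) :
    XOK n 𝒜.R (parOf cPar (inp n R m lo hi) a) (XX (inp n R m lo hi))
      (ss (inp n R m lo hi)) where
  hX := XX_eq _
  h16 := XX_ge _
  hs := c_mul_s_le (by norm_num)
  hn := sn_le (inp n R m lo hi)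
  n0 := h.n0
  dk := rfl
  w := rfl
  Lb := by
    rw [h.AR]
    exact_mod_cast R_le_Lb (inp n R m lo hi)
  M := by
    rw [h.AR]
    have h1 : R < 2 ^ XX (inp n R m lo hi) := R_lt
    have h2 : (2 : ℕ) ^ XX (inp n R m lo hi) ≤ 2 ^ (5 * XX (inp n R m lo hi)) :=
      Nat.pow_le_pow_right (by norm_num) (by omega)
    have h3 : R + 1 ≤ cPar.M (inp n R m lo hi) := h1.trans_le h2
    exact_mod_cast h3

section

variable {n R m : ℕ} {r₁ r₂ : Finset (Fin n) → ℕ} {lo hi : Fin n → ℤ} {𝒜 : AnnData n}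

/-- **the gauge condition of all pairs** -/
theorem good_c (h : IsInst (Prog.prg cPar) n R m r₁ r₂ lo hi 𝒜) {t : ℕ}
    (ht : t < (Prog.prg cPar).T (inp n R m lo hi)) {g : List ℤ}
    (hg : GoodR n (Prog.repT cPar (rq r₁ r₂) (inp n R m lo hi) t) (Smp.NN 𝒜 (t + 1))
      (𝒜.Z (t + 1)) 64 g) (a : ℕ) (u v : Fin n) :
    𝒜.Nst (t + 1) v u * (Dc 𝒜 (rq r₁ r₂) (inp n R m lo hi) t a g).μ u ≤
      128 * 𝒜.Z (t + 1) * (Dc 𝒜 (rq r₁ r₂) (inp n R m lo hi) t a g).μ v := by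
  have hMM : ∀ b, Prog.matT cPar (rq r₁ r₂) (inp n R m lo hi) t b =
      Rep646.stMat (rq r₁ r₂) (inp n R m lo hi) 𝒜.L b (t + 1) := by
    intro b
    unfold Prog.matT Rep646.stMat Prog.loT Prog.hiT
    rw [Conc.tt_eq cPar ht, h.AL]
    rfl
  have hrep : ∀ u, Prog.repT cPar (rq r₁ r₂) (inp n R m lo hi) t u =
      (Rep646.repL n (cPar.w₁ (inp n R m lo hi))
      (Rep646.stMat (rq r₁ r₂) (inp n R m lo hi) 𝒜.L false (t + 1))
      (Rep646.stMat (rq r₁ r₂) (inp n R m lo hi) 𝒜.L true (t + 1))).getD u 0 := by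
    intro u
    unfold Prog.repT
    rw [hMM, hMM]
    rfl
  obtain ⟨_, b2⟩ := Rep646.blk_inst h (w₁ := (cPar.w₁ (inp n R m lo hi) : ℤ))
    (kap_w1 (inp n R m lo hi)) (cA_lt_w1 (inp n R m lo hi)) (t + 1)
  have hblk : ∀ u < n, ∀ v < n, Smp.NN 𝒜 (t + 1) u v ≤
      2 * Smp.NN 𝒜 (t + 1) (Prog.repT cPar (rq r₁ r₂) (inp n R m lo hi) t u)
        (Prog.repT cPar (rq r₁ r₂) (inp n R m lo hi) t v) := by
    intro u hu v hv
    rw [hrep u, hrep v]
    exact b2 u hu v hv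
  have key := Gau.good_of (D := Dc 𝒜 (rq r₁ r₂) (inp n R m lo hi) t a g) hg
    (by norm_num : (0 : ℝ) ≤ 2) hblk (fun _ => rfl) u v
  rw [Smp.NN_eq] at key
  have e : (2 : ℝ) * 64 = 128 := by norm_num
  rw [e] at key
  exact key

variable (h : IsInst (Prog.prg cPar) n R m r₁ r₂ lo hi 𝒜) {t : ℕ}
    (ht : t < (Prog.prg cPar).T (inp n R m lo hi)) {g : List ℤ}
    (hg : GoodR n (Prog.repT cPar (rq r₁ r₂) (inp n R m lo hi) t) (Smp.NN 𝒜 (t + 1))
      (𝒜.Z (t + 1)) 64 g)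

include h ht hg

/-- **the mass bundle** -/
theorem massIn_c (a : ℕ) :
    Gau.MassIn (Dc 𝒜 (rq r₁ r₂) (inp n R m lo hi) t a g) (𝒜.Z (t + 1))
      (fun u v => 𝒜.Nst (t + 1) v u) 128 (1 / (XX (inp n R m lo hi) : ℝ) ^ 62) :=
  Mass151.massIn_sdA (P := parOf cPar (inp n R m lo hi) a)
    (ell := ellOf cPar (rq r₁ r₂) (inp n R m lo hi) t g) (ConcF.inst_pos₁ h) (ConcF.inst_pos₂ h)
    (xok_c h a) (repC_c h ht a) (ell_c h ht g) (good_c h ht hg a)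

omit hg in
/-- **the one-link masses** -/
theorem rat_c (a : ℕ) : Rat 𝒜 (t + 1) (Dc 𝒜 (rq r₁ r₂) (inp n R m lo hi) t a g) :=
  Mass151.rat_sdA (P := parOf cPar (inp n R m lo hi) a)
    (ell := ellOf cPar (rq r₁ r₂) (inp n R m lo hi) t g) (ConcF.inst_pos₁ h) (ConcF.inst_pos₂ h)
    (xok_c h a) (repC_c h ht a) (ell_c h ht g)

/-- **the mass facts** -/
theorem mf_c (a : ℕ) {q : ℝ}
    (hq : ((1 / 2 : ℝ) ^ a) ^ 2 * (2 * 128 * (2 * (sn (inp n R m lo hi) : ℝ)) ^ 2) ≤ q)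
    (hq1 : q ≤ 1 / 2) :
    MF 𝒜 (t + 1) (Dc 𝒜 (rq r₁ r₂) (inp n R m lo hi) t a g)
      (1 / (XX (inp n R m lo hi) : ℝ) ^ 61) (1 / (XX (inp n R m lo hi) : ℝ) ^ 62 + 4 * q) :=
  Mass151.mf_sdA (P := parOf cPar (inp n R m lo hi) a)
    (ell := ellOf cPar (rq r₁ r₂) (inp n R m lo hi) t g) (ConcF.inst_pos₁ h) (ConcF.inst_pos₂ h)
    (xok_c h a) (repC_c h ht a) (ell_c h ht g) (good_c h ht hg a) hq hq1

omit h ht hg in
theorem MF.mono {D : SD (Fin n)} {t : ℕ} {ε₁ ε₂ ε₁' ε₂' : ℝ} (h : MF 𝒜 t D ε₁ ε₂)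
    (h1 : ε₁ ≤ ε₁') (h2 : ε₂ ≤ ε₂') : MF 𝒜 t D ε₁' ε₂' :=
  ⟨h.ok, h.sub, h.out, h.inb, h.s1.trans (mul_le_mul_of_nonneg_right h1 (𝒜.Z_pos t).le),
    h.s2.trans (mul_le_mul_of_nonneg_right h2 (𝒜.Z_pos t).le)⟩

/-- the estimator chain -/
theorem mf_cE : MF 𝒜 (t + 1) (Dc 𝒜 (rq r₁ r₂) (inp n R m lo hi) t (2 * ss (inp n R m lo hi)) g)
    (1 / (XX (inp n R m lo hi) : ℝ) ^ 61) (1 / 8) := by
  refine (mf_c h ht hg _ (Num.qE_le _) (Num.qE_half _).2).mono le_rfl ?_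
  have hX := XX_geR (inp n R m lo hi)
  generalize (XX (inp n R m lo hi) : ℝ) = X at hX ⊢
  have h1 : 1 / X ^ 62 ≤ 1 / X := by
    apply one_div_le_one_div_of_le (by linarith)
    exact le_self_pow₀ (by linarith) (by norm_num)
  have h2 : 1 / X ≤ 1 / 65536 := one_div_le_one_div_of_le (by norm_num) hX
  linarith

/-- the mover chain -/
theorem mf_cM : MF 𝒜 (t + 1) (Dc 𝒜 (rq r₁ r₂) (inp n R m lo hi) t (33 * ss (inp n R m lo hi)) g)
    (1 / (XX (inp n R m lo hi) : ℝ) ^ 61) (1 / (XX (inp n R m lo hi) : ℝ) ^ 61) := by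
  refine (mf_c h ht hg _ (Num.qM_le _) (Num.qM_half _).2).mono le_rfl ?_
  have hX := XX_geR (inp n R m lo hi)
  generalize (XX (inp n R m lo hi) : ℝ) = X at hX ⊢
  have h0 : 0 < X := by linarith
  have h1 : 1 / X ^ 63 ≤ 1 / X ^ 62 :=
    one_div_le_one_div_of_le (by positivity) (pow_le_pow_right₀ (by linarith) (by norm_num))
  have h2 : 5 * (1 / X ^ 62) ≤ 1 / X ^ 61 := by
    rw [mul_one_div, div_le_div_iff₀ (by positivity) (by positivity), one_mul]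
    calc 5 * X ^ 61 ≤ X * X ^ 61 := by gcongr; linarith
      _ = X ^ 62 := by ring
  linarith

end

end Crest.Agent.R302.Fields
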