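import Crest.Agent.R302.Soft907
import Crest.Agent.R302.EDMBox
import Crest.Agent.R302.TreeNN725

-- ▼ part R302/Ann907A
section

/-!
# R302: the annealing family `r^(k)(A) = min (r A + k) R`

Author: helper907.
-/

set_option autoImplicit false

namespace Crest.Agent.R302.Ann

open Finset Crest.Agent.R302.Facet

variable {V : Type*} [Fintype V] [DecidableEq V]

/-! ## 1. The truncated relaxed rank function -/

/-- Monotone set function. -/
def Mono (r : Finset V → ℤ) : Prop := ∀ A B, A ⊆ B → r A ≤ r B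

/-- `r^(k)` -/
def tr (r : Finset V → ℤ) (R k : ℤ) : Finset V → ℤ :=
  fun A => if A = ∅ then 0 else min (r A + k) R

omit [Fintype V] in
theorem tr_empty (r : Finset V → ℤ) (R k : ℤ) : tr r R k ∅ = 0 := by simp [tr]

omit [Fintype V] in
theorem tr_ne {A : Finset V} (hA : A ≠ ∅) (r : Finset V → ℤ) (R k : ℤ) :
    tr r R k A = min (r A + k) R := by simp [tr, hA]

omit [Fintype V] [DecidableEq V] in
theorem nonneg_of_mono {r : Finset V → ℤ} (h0 : r ∅ = 0) (hm : Mono r) (A : Finset V) : 0 ≤ r A :=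
  h0 ▸ hm ∅ A (empty_subset _)


theorem tr_subM {r : Finset V → ℤ} {R k : ℤ} (hr : SubM r R) (hm : Mono r) (hk : 0 ≤ k) :
    SubM (tr r R k) R := by
  have h0 : ∀ A, 0 ≤ r A := nonneg_of_mono hr.empty hm
  have hR : 0 ≤ R := (h0 univ).trans (hr.univ).le
  refine ⟨?_, tr_empty r R k, ?_⟩
  · intro A B
    by_cases hA : A = ∅
    · subst hA; simp [tr_empty]
    by_cases hB : B = ∅
    · subst hB; simp [tr_empty]
    have hAB : A ∪ B ≠ ∅ := fun h => hA (union_eq_empty.1 h).1
    rw [tr_ne hA, tr_ne hB, tr_ne hAB]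
    have h1 := hr.sub A B
    have h2 := h0 (A ∩ B)
    have h3 := h0 A
    have h4 := h0 B
    have h5 := hm A (A ∪ B) subset_union_left
    have h6 := hm B (A ∪ B) subset_union_right
    have h7 := hm (A ∩ B) A inter_subset_left
    have h8 := hm (A ∩ B) B inter_subset_right
    by_cases hI : A ∩ B = ∅
    · rw [hI, tr_empty]
      have h9 := min_le_left (r (A ∪ B) + k) R
      have h10 := min_le_right (r (A ∪ B) + k) R
      rcases min_choice (r A + k) R with h | h <;> rcases min_choice (r B + k) R with h' | h' <;>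
        rw [h, h'] <;> linarith
    · rw [tr_ne hI]
      have h9 := min_le_left (r (A ∪ B) + k) R
      have h10 := min_le_right (r (A ∪ B) + k) R
      have h11 := min_le_left (r (A ∩ B) + k) R
      have h12 := min_le_right (r (A ∩ B) + k) R
      rcases min_choice (r A + k) R with h | h <;> rcases min_choice (r B + k) R with h' | h' <;>
        rw [h, h'] <;> linarith
  · by_cases hu : (univ : Finset V) = ∅
    · rw [hu, tr_empty]
      rw [← hr.univ, hu, hr.empty]
    · rw [tr_ne hu, hr.univ]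
      exact min_eq_right (by linarith)







/-! ## 2. The centre of the `k`-th member -/

/-- `(1 - t) y + t (R / n) 1` with `t = k / (2 R)` -/
noncomputable def ctr (y : V → ℤ) (R k : ℤ) : V → ℝ :=
  fun v => (1 - (k : ℝ) / (2 * R)) * y v + (k : ℝ) / (2 * Fintype.card V)




/-! ## 3. Consecutive stages -/








/-! ## 4. Proximity -/

/-- **Proximity**: a point violating both systems by at most `k` is within `ℓ^∞` distance `2 k` of
a common base (if there is one). -/
theorem proximity {r₁ r₂ : Finset V → ℤ} {R : ℤ} (hr₁ : SubM r₁ R) (hr₂ : SubM r₂ R)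
    {y : V → ℤ} (hy₁ : MemJ r₁ R y) (hy₂ : MemJ r₂ R y) {k : ℤ} (hk : 0 ≤ k) {x : V → ℤ}
    (hxR : ∑ a, x a = R) (hx₁ : ∀ A, ∑ a ∈ A, x a ≤ r₁ A + k) (hx₂ : ∀ A, ∑ a ∈ A, x a ≤ r₂ A + k) :
    ∃ z : V → ℤ, MemJ r₁ R z ∧ MemJ r₂ R z ∧ ∀ v, |z v - x v| ≤ 2 * k := by
  classical
  have h1 : EDM.SubOn univ r₁ := fun A B _ _ => hr₁.sub A B
  have h2 : EDM.SubOn univ r₂ := fun A B _ _ => hr₂.sub A B
  have key := (EDM.exists_common_box h1 h2 hr₁.empty hr₂.empty hr₁.univ hr₂.univ
    (fun v => x v - 2 * k) (fun v => x v + 2 * k)).2 ?_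
  · obtain ⟨z, hz, hzR, hz1, hz2⟩ := key
    refine ⟨z, ⟨hz1, hzR⟩, ⟨hz2, hzR⟩, fun v => ?_⟩
    have := hz v
    rw [abs_le]
    constructor <;> linarith [this.1, this.2]
  · refine ⟨fun v => by linarith, fun X Y => ?_⟩
    have e1 := hx₁ X
    have e2 := hx₂ Yᶜ
    have e3 := sum_add_sum_compl Y x
    rw [hxR] at e3
    unfold EDM.bx
    rw [sum_add_distrib, sum_sub_distrib, sum_const, sum_const, nsmul_eq_mul, nsmul_eq_mul]
    have a6 : ∑ i ∈ Y \ X, x i + ∑ i ∈ X, x i = ∑ i ∈ X \ Y, x i + ∑ i ∈ Y, x i := by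
      have b1 := Finset.sum_sdiff (s₁ := X) (s₂ := X ∪ Y) (f := x) subset_union_left
      have b2 := Finset.sum_sdiff (s₁ := Y) (s₂ := X ∪ Y) (f := x) subset_union_right
      rw [union_sdiff_left] at b1
      rw [union_sdiff_right] at b2
      linarith
    by_cases hXY : X = Y
    · subst hXY
      have f1 := hy₁.1 X
      have f2 := hy₂.1 Xᶜ
      have f3 := sum_add_sum_compl X y
      rw [hy₁.2] at f3
      simp only [sdiff_self, bot_eq_empty, sum_empty, card_empty]
      push_cast
      linarith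
    · have hcard : 1 ≤ (Y \ X).card + (X \ Y).card := by
        by_contra hcon
        push Not at hcon
        have g1 : (Y \ X).card = 0 := by omega
        have g2 : (X \ Y).card = 0 := by omega
        rw [card_eq_zero, sdiff_eq_empty_iff_subset] at g1 g2
        exact hXY (Subset.antisymm g2 g1)
      have hcard' : (1 : ℤ) ≤ ((Y \ X).card : ℤ) + ((X \ Y).card : ℤ) := by exact_mod_cast hcard
      nlinarith

end Crest.Agent.R302.Ann
end

-- ▼ part R302/Tail907
section

/-!
# R302: points of relaxed intersections are controlled by points of the intersection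

Author: helper907.  `scaled_proximity`: if `x` violates both systems by at most
`b * slack(c) + h` then `x - c` is, up to `λ (3 n + 4)` in every coordinate, equal to `λ (z - c)`
for some point `z` of `P`; here `λ ≥ b + 1`, `λ ≥ h`.  Hence every estimate for the block sums
`z(A) - c(A)` on `P` carries over to the soft model.
-/

set_option autoImplicit false

namespace Crest.Agent.R302.Facet

open Finset

variable {V : Type*} [Fintype V] [DecidableEq V]

/-- **Scaled proximity.** -/
theorem scaled_proximity {r₁ r₂ : Finset V → ℤ} {R : ℤ} (hr₁ : SubM r₁ R) (hr₂ : SubM r₂ R)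
    {c : V → ℤ} (hc₁ : MemJ r₁ R c) (hc₂ : MemJ r₂ R c) (b h lam : ℕ) (hb : b + 1 ≤ lam)
    (hh : h ≤ lam) {x : V → ℤ} (hxR : ∑ a, x a = R)
    (hx₁ : ∀ A, ∑ a ∈ A, x a ≤ r₁ A + b * slk r₁ c A + h)
    (hx₂ : ∀ A, ∑ a ∈ A, x a ≤ r₂ A + b * slk r₂ c A + h) :
    ∃ z : V → ℤ, MemJ r₁ R z ∧ MemJ r₂ R z ∧
      ∀ v, |x v - c v - lam * (z v - c v)| ≤ lam * (3 * Fintype.card V + 4) := by
  classical
  rcases isEmpty_or_nonempty V with hV | ⟨⟨v₀⟩⟩
  · exact ⟨c, hc₁, hc₂, fun v => (hV.false v).elim⟩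
  set n := Fintype.card V with hn
  have hlam : (0 : ℤ) < lam := by
    have : 0 < lam := by omega
    exact_mod_cast this
  let q : V → ℤ := fun v => (x v - c v) / lam
  have hq1 : ∀ v, lam * q v ≤ x v - c v := fun v => Int.mul_ediv_self_le hlam.ne'
  have hq2 : ∀ v, x v - c v < lam * q v + lam := fun v => by
    have := Int.lt_mul_ediv_self_add (x := x v - c v) hlam
    exact this
  have hsum0 : ∑ v, (x v - c v) = 0 := by rw [sum_sub_distrib, hxR, hc₁.2, sub_self]
  let d : ℤ := - ∑ v, q v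
  have hd0 : 0 ≤ d := by
    have h1 : ∑ v, (lam : ℤ) * q v ≤ 0 := hsum0 ▸ sum_le_sum (fun v _ => hq1 v)
    rw [← mul_sum] at h1
    have : ∑ v, q v ≤ 0 := by
      by_contra hcon
      push Not at hcon
      nlinarith
    simp only [d]; linarith
  have hdn : d ≤ n := by
    have h1 : ∑ v, (x v - c v) ≤ ∑ v, (lam * q v + lam) := sum_le_sum (fun v _ => (hq2 v).le)
    rw [hsum0, sum_add_distrib, ← mul_sum, sum_const, card_univ, nsmul_eq_mul, ← hn] at h1
    have h2 : (lam : ℤ) * d ≤ lam * n := by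
      simp only [d]; nlinarith
    exact le_of_mul_le_mul_left h2 hlam
  let y : V → ℤ := fun v => c v + q v + (if v = v₀ then d else 0)
  have hyR : ∑ v, y v = R := by
    simp only [y]
    rw [sum_add_distrib, sum_add_distrib, hc₁.2, sum_ite_eq' univ v₀]
    simp [d]
  have key : ∀ r : Finset V → ℤ, SubM r R → MemJ r R c →
      (∀ A, ∑ a ∈ A, x a ≤ r A + b * slk r c A + h) →
      ∀ A, ∑ a ∈ A, y a ≤ r A + (n + 1 : ℤ) := by
    intro r hr hc hx A
    have hs := slk_nonneg hc A
    have h1 : ∑ a ∈ A, y a ≤ ∑ a ∈ A, c a + ∑ a ∈ A, q a + d := by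
      simp only [y]
      rw [sum_add_distrib, sum_add_distrib, sum_ite_eq' A v₀]
      split_ifs <;> linarith
    have h2 : (lam : ℤ) * ∑ a ∈ A, q a ≤ ∑ a ∈ A, x a - ∑ a ∈ A, c a := by
      rw [mul_sum, ← sum_sub_distrib]
      exact sum_le_sum (fun v _ => hq1 v)
    have h3 := hx A
    have h4 : slk r c A = r A - ∑ a ∈ A, c a := rfl
    -- lam * (q A) ≤ (b+1) slk + h ≤ lam * slk + lam
    have h5 : (lam : ℤ) * ∑ a ∈ A, q a ≤ lam * (slk r c A + 1) := by
      have hb' : ((b : ℤ) + 1) ≤ lam := by exact_mod_cast hb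
      have hh' : (h : ℤ) ≤ lam := by exact_mod_cast hh
      nlinarith
    have h6 := le_of_mul_le_mul_left h5 hlam
    linarith
  obtain ⟨z, hz1, hz2, hz⟩ := Ann.proximity hr₁ hr₂ hc₁ hc₂ (k := (n + 1 : ℤ)) (by positivity)
    hyR (key r₁ hr₁ hc₁ hx₁) (key r₂ hr₂ hc₂ hx₂)
  refine ⟨z, hz1, hz2, fun v => ?_⟩
  have h1 := hz v
  have hy : |y v - c v - q v| ≤ n := by
    simp only [y]
    split_ifs
    · rw [show c v + q v + d - c v - q v = d by ring, abs_of_nonneg hd0]; exact hdn
    · rw [show c v + q v + 0 - c v - q v = 0 by ring, abs_zero]; positivity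
  have h2 : |z v - c v - q v| ≤ 2 * (n + 1) + n := by
    have : z v - c v - q v = (z v - y v) + (y v - c v - q v) := by ring
    rw [this]
    exact (abs_add_le _ _).trans (add_le_add h1 hy)
  have h3 : |x v - c v - lam * q v| ≤ lam := by
    rw [abs_le]
    constructor <;> linarith [hq1 v, hq2 v]
  have h4 : x v - c v - lam * (z v - c v) =
      (x v - c v - lam * q v) - lam * (z v - c v - q v) := by ring
  rw [h4]
  calc _ ≤ |x v - c v - lam * q v| + |(lam : ℤ) * (z v - c v - q v)| := abs_sub _ _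
    _ ≤ lam + lam * (2 * (n + 1) + n) := by
        apply add_le_add h3
        rw [abs_mul, abs_of_pos hlam]
        exact mul_le_mul_of_nonneg_left h2 hlam.le
    _ ≤ lam * (3 * n + 4) := by nlinarith

/-- Block sums of relaxed points. -/
theorem relaxed_block {r₁ r₂ : Finset V → ℤ} {R : ℤ} (hr₁ : SubM r₁ R) (hr₂ : SubM r₂ R)
    {c : V → ℤ} (hc₁ : MemJ r₁ R c) (hc₂ : MemJ r₂ R c) (b h lam : ℕ) (hb : b + 1 ≤ lam)
    (hh : h ≤ lam) {x : V → ℤ} (hxR : ∑ a, x a = R)
    (hx₁ : ∀ A, ∑ a ∈ A, x a ≤ r₁ A + b * slk r₁ c A + h)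
    (hx₂ : ∀ A, ∑ a ∈ A, x a ≤ r₂ A + b * slk r₂ c A + h) {A : Finset V} {M : ℤ}
    (hM : ∀ z, MemJ r₁ R z → MemJ r₂ R z → |∑ a ∈ A, z a - ∑ a ∈ A, c a| ≤ M) :
    |∑ a ∈ A, x a - ∑ a ∈ A, c a| ≤
      lam * (M + Fintype.card V * (3 * Fintype.card V + 4)) := by
  classical
  obtain ⟨z, hz1, hz2, hz⟩ := scaled_proximity hr₁ hr₂ hc₁ hc₂ b h lam hb hh hxR hx₁ hx₂
  have h1 := hM z hz1 hz2
  have hlam : (0 : ℤ) ≤ lam := by positivity
  have h2 : ∑ a ∈ A, x a - ∑ a ∈ A, c a = lam * (∑ a ∈ A, z a - ∑ a ∈ A, c a) +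
      ∑ a ∈ A, (x a - c a - lam * (z a - c a)) := by
    rw [← sum_sub_distrib, ← sum_sub_distrib, mul_sum, ← sum_add_distrib]
    apply sum_congr rfl
    intro v _
    ring
  have h3 : |∑ a ∈ A, (x a - c a - lam * (z a - c a))| ≤
      Fintype.card V * (lam * (3 * Fintype.card V + 4)) := by
    refine (abs_sum_le_sum_abs _ _).trans ?_
    calc ∑ a ∈ A, |x a - c a - lam * (z a - c a)| ≤
          ∑ _a ∈ A, (lam * (3 * (Fintype.card V : ℤ) + 4)) := sum_le_sum (fun a _ => hz a)
      _ = A.card * (lam * (3 * (Fintype.card V : ℤ) + 4)) := by rw [sum_const, nsmul_eq_mul]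
      _ ≤ Fintype.card V * (lam * (3 * Fintype.card V + 4)) := by
          apply mul_le_mul_of_nonneg_right _ (by positivity)
          exact_mod_cast card_le_univ A
  rw [h2]
  refine (abs_add_le _ _).trans ?_
  rw [abs_mul, abs_of_nonneg hlam]
  have h4 := mul_le_mul_of_nonneg_left h1 hlam
  nlinarith

/-- Fat shifts of size at most `b` times the edge weight, and `h` units of links, produce a
violation of at most `|T| b * slack(c) + h`. -/
theorem shift_violation {r : Finset V → ℤ} {R : ℤ} {c x : V → ℤ} (hc : MemJ r R c)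
    (T : Finset (V × V)) (m : V × V → ℕ) (t : V × V → ℤ) (b : ℕ) (hbt : ∀ p ∈ T, |t p| ≤ b * m p)
    (hm : ∀ p ∈ T, ∀ A, (p.1 ∈ A ∧ p.2 ∉ A ∨ p.2 ∈ A ∧ p.1 ∉ A) → (m p : ℤ) ≤ slk r c A)
    (s : V → ℤ) (h : ℕ) (hs : ∀ A, ∑ a ∈ A, s a ≤ h)
    (hx : MemJ r R (fun v => x v - shift T t v - s v)) (A : Finset V) :
    ∑ a ∈ A, x a ≤ r A + (T.card * b : ℕ) * slk r c A + h := by
  have h1 := hx.1 A
  rw [sum_sub_distrib, sum_sub_distrib, sum_shift] at h1
  have h2 := hs A
  have hsl := slk_nonneg hc A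
  have h3 : ∑ p ∈ T, t p * ((if p.1 ∈ A then 1 else 0) - (if p.2 ∈ A then 1 else 0)) ≤
      ∑ _p ∈ T, (b : ℤ) * slk r c A := by
    apply sum_le_sum
    intro p hp
    have h4 := hbt p hp
    have h5 := le_abs_self (t p)
    have h6 := neg_abs_le (t p)
    have hb0 : (0 : ℤ) ≤ b := by positivity
    by_cases ha : p.1 ∈ A <;> by_cases hb : p.2 ∈ A
    · simp only [ha, hb, if_true, sub_self, mul_zero]; positivity
    · simp only [ha, hb, if_true, if_false, sub_zero, mul_one]
      have := hm p hp A (Or.inl ⟨ha, hb⟩)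
      nlinarith
    · simp only [ha, hb, if_true, if_false, zero_sub]
      have := hm p hp A (Or.inr ⟨hb, ha⟩)
      nlinarith
    · simp only [ha, hb, if_false, sub_self, mul_zero]; positivity
  rw [sum_const, nsmul_eq_mul] at h3
  push_cast
  nlinarith

end Crest.Agent.R302.Facet
end

-- ▼ part R302/Tail907B
section

/-!
# R302: the tails of the soft measure, fat part

Author: helper907.  States `(x, z₁, z₂)`, `zᵢ ∈ Jᵢ`, are described by the tree coordinates
`τᵢ = code parᵢ (x - zᵢ)` (descendant sums): at non-roots they are the fat slacks, at roots the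
link numbers.  `fat_tail`: the mass of the states outside the windows of the multi-scale Poincare
inequality is exponentially small times the hard link mass, plus the mass of the states with many
links.
-/

set_option autoImplicit false

namespace Crest.Agent.R302.Tail907

open Finset Crest.Agent.R302.Facet Crest.Agent.R302.TreeNN Crest.Agent.R302.Tree

variable {V : Type*} [Fintype V] [DecidableEq V]

/-! ## 1. Tree coordinates -/

/-- The edges `(p, par p)` of the forest. -/
def fedges (par : V → Option V) : Finset (V × V) := univ.filter (fun p => par p.1 = some p.2)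

omit [DecidableEq V] in
open Classical in
/-- Descendant sums. -/
noncomputable def code (par : V → Option V) (u : V → ℤ) (p : V) : ℤ :=
  ∑ q ∈ univ.filter (fun q => D par p q), u q

/-- Root part of a vector. -/
def rootPart (par : V → Option V) (τ : V → ℤ) : V → ℤ := fun v => if par v = none then τ v else 0

/-- The vector with given descendant sums. -/
def dec (par : V → Option V) (τ : V → ℤ) : V → ℤ :=
  fun v => shift (fedges par) (fun p => τ p.1) v + rootPart par τ v

/-- The tree on `Option V` of a forest. -/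
def toTree (par : V → Option V) (rk : V → ℕ) (hrk : ∀ a b, par a = some b → rk b < rk a) :
    RTree (Option V) where
  par w := w.bind par
  root := none
  dep w := w.elim 0 (fun a => rk a + 1)
  dep_lt := by
    intro q hq
    cases q with
    | none => exact absurd rfl hq
    | some a =>
      cases h : par a with
      | none => simp [h]
      | some b => simpa [h] using hrk a b h

omit [Fintype V] [DecidableEq V] in
theorem emb_toTree (par : V → Option V) (rk : V → ℕ) (hrk : ∀ a b, par a = some b → rk b < rk a) :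
    Emb (toTree par rk hrk) some par where
  inj := Option.some_injective V
  ne_root a := by simp [toTree]
  par_some a b h := by simp [toTree, h]
  par_none a h := by simp [toTree, h]
  child w a hw _ := by
    cases w with
    | none => exact absurd rfl hw
    | some b => exact ⟨b, rfl⟩

theorem code_eq (par : V → Option V) (rk : V → ℕ) (hrk : ∀ a b, par a = some b → rk b < rk a)
    (u : V → ℤ) (v : V) :
    code par u v = u v + ∑ q ∈ univ.filter (fun q => par q = some v), code par u q := by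
  classical
  have key : ∀ p, (code par u p : ℝ) =
      (toTree par rk hrk).cut (fun w => w.elim 0 (fun a => (u a : ℝ))) (some p) := by
    intro p
    unfold code RTree.cut
    rw [(emb_toTree par rk hrk).cut_sum p]
    push_cast
    rfl
  have h1 := RTree.cut_eq (T := toTree par rk hrk) (fun w => w.elim 0 (fun a => (u a : ℝ)))
    (some v)
  have h2 : (toTree par rk hrk).ch (some v) =
      (univ.filter (fun q => par q = some v)).map ⟨some, Option.some_injective V⟩ := by
    ext w
    rw [RTree.mem_ch, mem_map]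
    cases w with
    | none => simp [toTree]
    | some a => simp [toTree]
  rw [h2, sum_map] at h1
  have h3 : (code par u v : ℝ) =
      ((u v + ∑ q ∈ univ.filter (fun q => par q = some v), code par u q : ℤ) : ℝ) := by
    rw [key v, h1]
    push_cast
    congr 1
    apply sum_congr rfl
    intro q _
    exact (key q).symm
  exact_mod_cast h3

theorem dec_code (par : V → Option V) (rk : V → ℕ) (hrk : ∀ a b, par a = some b → rk b < rk a)
    (u : V → ℤ) : dec par (code par u) = u := by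
  funext v
  unfold dec shift rootPart
  have hA : ∑ p ∈ fedges par, code par u p.1 * (ev p.1 v - ev p.2 v) =
      ∑ p ∈ fedges par, code par u p.1 * ev p.1 v - ∑ p ∈ fedges par, code par u p.1 * ev p.2 v := by
    rw [← sum_sub_distrib]
    exact sum_congr rfl fun p _ => by ring
  have h1 : ∑ p ∈ fedges par, code par u p.1 * ev p.1 v =
      if par v = none then 0 else code par u v := by
    cases hv : par v with
    | none =>
      simp only [if_true]
      apply sum_eq_zero
      intro p hp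
      have hp' : par p.1 = some p.2 := by simpa [fedges] using hp
      have : v ≠ p.1 := by rintro rfl; rw [hv] at hp'; exact absurd hp' (by simp)
      simp [ev, this]
    | some b =>
      simp only [reduceCtorEq, if_false]
      rw [sum_eq_single (v, b)]
      · simp [ev]
      · rintro ⟨p, q⟩ hp hne
        have hp' : par p = some q := by simpa [fedges] using hp
        have : v ≠ p := by
          rintro rfl
          rw [hv] at hp'
          exact hne (by rw [Option.some.inj hp'])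
        simp [ev, this]
      · intro h
        exact absurd (by simpa [fedges] using hv) h
  have h2 : ∑ p ∈ fedges par, code par u p.1 * ev p.2 v =
      ∑ q ∈ univ.filter (fun q => par q = some v), code par u q := by
    have : ∑ q ∈ univ.filter (fun q => par q = some v), code par u q =
        ∑ p ∈ (univ.filter (fun q => par q = some v)).image (fun q => (q, v)),
          code par u p.1 * ev p.2 v := by
      rw [sum_image (fun a _ b _ h => (Prod.ext_iff.1 h).1)]
      exact sum_congr rfl fun q _ => by simp [ev]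
    rw [this]
    symm
    apply sum_subset
    · intro p hp
      obtain ⟨q, hq, rfl⟩ := mem_image.1 hp
      simpa [fedges] using (mem_filter.1 hq).2
    · rintro ⟨p, q⟩ hp hn
      have hp' : par p = some q := by simpa [fedges] using hp
      have : v ≠ q := by
        rintro rfl
        exact hn (mem_image.2 ⟨p, by simpa using hp', rfl⟩)
      simp [ev, this]
  rw [hA, h1, h2]
  have h3 := code_eq par rk hrk u v
  split_ifs <;> linarith

theorem card_fedges (par : V → Option V) : (fedges par).card ≤ Fintype.card V := by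
  have : Set.InjOn (fun p : V × V => p.1) (fedges par : Set (V × V)) := by
    intro p hp q hq h
    have hp' : par p.1 = some p.2 := by simpa [fedges] using hp
    have hq' : par q.1 = some q.2 := by simpa [fedges] using hq
    have h' : p.1 = q.1 := h
    rw [h'] at hp'
    exact Prod.ext h' (Option.some.inj (hp'.symm.trans hq'))
  rw [← card_image_of_injOn this]
  exact card_le_univ _

/-- The edges are in bijection with the non-roots. -/
theorem sum_fedges (par : V → Option V) (f : V → ℝ) :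
    ∑ p ∈ fedges par, f p.1 = ∑ v ∈ univ.filter (fun v => par v ≠ none), f v := by
  refine sum_bij (fun p _ => p.1) ?_ ?_ ?_ ?_
  · intro p hp
    have hp' : par p.1 = some p.2 := by simpa [fedges] using hp
    simp [hp']
  · intro p hp q hq h
    have hp' : par p.1 = some p.2 := by simpa [fedges] using hp
    have hq' : par q.1 = some q.2 := by simpa [fedges] using hq
    have h' : p.1 = q.1 := h
    rw [h'] at hp'
    exact Prod.ext h' (Option.some.inj (hp'.symm.trans hq'))
  · intro v hv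
    obtain ⟨b, hb⟩ := Option.ne_none_iff_exists'.1 (mem_filter.1 hv).2
    exact ⟨(v, b), by simpa [fedges] using hb, rfl⟩
  · intro p _; rfl


/-! ## 2. Product kernels -/

omit [Fintype V] [DecidableEq V] in
theorem rootPart_apply_none {par : V → Option V} {v : V} (h : par v = none) (τ : V → ℤ) :
    rootPart par τ v = τ v := by simp [rootPart, h]

omit [Fintype V] [DecidableEq V] in
theorem rootPart_apply_ne {par : V → Option V} {v : V} (h : par v ≠ none) (τ : V → ℤ) :
    rootPart par τ v = 0 := by simp [rootPart, h]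

/-- The product over the non-roots. -/
noncomputable def prodK (par : V → Option V) (κ : V → ℤ → ℝ) (τ : V → ℤ) : ℝ :=
  ∏ p ∈ univ.filter (fun p => par p ≠ none), κ p (τ p)

omit [DecidableEq V] in
theorem prodK_eq (par : V → Option V) (κ : V → ℤ → ℝ) (τ : V → ℤ) :
    prodK par κ τ = ∏ p, if par p = none then 1 else κ p (τ p) := by
  unfold prodK
  rw [prod_filter]
  apply prod_congr rfl
  intro p _
  by_cases h : par p = none <;> simp [h]

omit [DecidableEq V] in
theorem prodK_nonneg {par : V → Option V} {κ : V → ℤ → ℝ} (hκ : ∀ p t, 0 ≤ κ p t) (τ : V → ℤ) :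
    0 ≤ prodK par κ τ := prod_nonneg fun p _ => hκ p _


/-- One side of the sum over tree coordinates: the root part is kept, the fat part is summed. -/
theorem side_sum (par : V → Option V) (I : Finset ℤ) (φ : V → ℤ → ℝ) (hφ : ∀ p t, 0 ≤ φ p t)
    (A : V → ℝ) (hA : ∀ p, par p ≠ none → ∑ t ∈ I, φ p t ≤ A p) (g : (V → ℤ) → ℝ)
    (hg : ∀ s, 0 ≤ g s) (Z : Finset (V → ℤ))
    (hZ : ∀ τ ∈ Fintype.piFinset (fun _ : V => I), rootPart par τ ∈ Z) :
    ∑ τ ∈ Fintype.piFinset (fun _ : V => I), g (rootPart par τ) * prodK par φ τ ≤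
      (∏ p ∈ univ.filter (fun p => par p ≠ none), A p) * ∑ s ∈ Z, g s := by
  rw [← sum_fiberwise_of_maps_to hZ, mul_sum]
  apply sum_le_sum
  intro s hs
  have hAnn : ∀ p, par p ≠ none → 0 ≤ A p := fun p hp =>
    (sum_nonneg fun t _ => hφ p t).trans (hA p hp)
  calc ∑ τ ∈ (Fintype.piFinset (fun _ : V => I)).filter (fun τ => rootPart par τ = s),
        g (rootPart par τ) * prodK par φ τ
      = ∑ τ ∈ (Fintype.piFinset (fun _ : V => I)).filter (fun τ => rootPart par τ = s),
        g s * ∏ p, (if par p = none then 1 else φ p (τ p)) := by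
        apply sum_congr rfl
        intro τ hτ
        rw [(mem_filter.1 hτ).2, prodK_eq]
    _ ≤ ∑ τ ∈ Fintype.piFinset (fun p : V => if par p = none then {s p} else I),
        g s * ∏ p, (if par p = none then 1 else φ p (τ p)) := by
        apply sum_le_sum_of_subset_of_nonneg
        · intro τ hτ
          rw [mem_filter, Fintype.mem_piFinset] at hτ
          rw [Fintype.mem_piFinset]
          intro p
          by_cases h : par p = none
          · rw [if_pos h, mem_singleton, ← hτ.2, rootPart_apply_none h]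
          · rw [if_neg h]; exact hτ.1 p
        · intro τ _ _
          apply mul_nonneg (hg s)
          apply prod_nonneg
          intro p _
          split_ifs
          · exact zero_le_one
          · exact hφ _ _
    _ = g s * ∏ p, ∑ t ∈ (if par p = none then {s p} else I),
          (if par p = none then 1 else φ p t) := by
        rw [← mul_sum, prod_univ_sum]
    _ ≤ g s * ∏ p, (if par p = none then 1 else A p) := by
        apply mul_le_mul_of_nonneg_left _ (hg s)
        apply prod_le_prod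
        · intro p _
          apply sum_nonneg
          intro t _
          split_ifs
          · exact zero_le_one
          · exact hφ _ _
        · intro p _
          by_cases h : par p = none
          · simp [h]
          · simp only [h, if_false]
            exact hA p h
    _ = (∏ p ∈ univ.filter (fun p => par p ≠ none), A p) * g s := by
        rw [prod_filter, mul_comm]
        congr 1
        apply prod_congr rfl
        intro p _
        by_cases h : par p = none <;> simp [h]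

/-- Uniform version. -/
theorem side_sum_full (par : V → Option V) (I : Finset ℤ) (φ : V → ℤ → ℝ)
    (hφ : ∀ p t, 0 ≤ φ p t) {A : ℝ} (hA1 : 1 ≤ A)
    (hA : ∀ p, par p ≠ none → ∑ t ∈ I, φ p t ≤ A) (g : (V → ℤ) → ℝ)
    (hg : ∀ s, 0 ≤ g s) (Z : Finset (V → ℤ))
    (hZ : ∀ τ ∈ Fintype.piFinset (fun _ : V => I), rootPart par τ ∈ Z) :
    ∑ τ ∈ Fintype.piFinset (fun _ : V => I), g (rootPart par τ) * prodK par φ τ ≤
      A ^ Fintype.card V * ∑ s ∈ Z, g s := by
  refine (side_sum par I φ hφ (fun _ => A) hA g hg Z hZ).trans ?_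
  apply mul_le_mul_of_nonneg_right _ (sum_nonneg fun s _ => hg s)
  rw [prod_const]
  exact pow_le_pow_right₀ hA1 (card_le_univ _)

/-- Version with one large coordinate. -/
theorem side_sum_tail (par : V → Option V) (I : Finset ℤ) (φ : V → ℤ → ℝ)
    (hφ : ∀ p t, 0 ≤ φ p t) {A ε : ℝ} (hA1 : 1 ≤ A) (hε : 0 ≤ ε)
    (hA : ∀ p, par p ≠ none → ∑ t ∈ I, φ p t ≤ A) (p₀ : V) (hp₀ : par p₀ ≠ none)
    (big : ℤ → Prop) [DecidablePred big]
    (hbig : ∑ t ∈ I.filter big, φ p₀ t ≤ A * ε) (g : (V → ℤ) → ℝ)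
    (hg : ∀ s, 0 ≤ g s) (Z : Finset (V → ℤ))
    (hZ : ∀ τ ∈ Fintype.piFinset (fun _ : V => I), rootPart par τ ∈ Z) :
    ∑ τ ∈ (Fintype.piFinset (fun _ : V => I)).filter (fun τ => big (τ p₀)),
        g (rootPart par τ) * prodK par φ τ ≤
      ε * A ^ Fintype.card V * ∑ s ∈ Z, g s := by
  let ψ : V → ℤ → ℝ := fun p t => if p = p₀ then (if big t then φ p t else 0) else φ p t
  have hψ : ∀ p t, 0 ≤ ψ p t := by
    intro p t
    simp only [ψ]
    split_ifs
    · exact hφ _ _
    · exact le_rfl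
    · exact hφ _ _
  have h1 : ∑ τ ∈ (Fintype.piFinset (fun _ : V => I)).filter (fun τ => big (τ p₀)),
        g (rootPart par τ) * prodK par φ τ =
      ∑ τ ∈ Fintype.piFinset (fun _ : V => I), g (rootPart par τ) * prodK par ψ τ := by
    rw [sum_filter]
    apply sum_congr rfl
    intro τ _
    by_cases h : big (τ p₀)
    · rw [if_pos h]
      congr 1
      unfold prodK
      apply prod_congr rfl
      intro p _
      simp only [ψ]
      split_ifs with h1 h2
      · rfl
      · subst h1; exact absurd h h2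
      · rfl
    · rw [if_neg h]
      have : prodK par ψ τ = 0 := by
        unfold prodK
        apply prod_eq_zero (i := p₀) (by simpa using hp₀)
        simp [ψ, h]
      rw [this, mul_zero]
  rw [h1]
  refine (side_sum par I ψ hψ (fun p => if p = p₀ then A * ε else A) ?_ g hg Z hZ).trans ?_
  · intro p hp
    simp only [ψ]
    by_cases h : p = p₀
    · subst h
      simp only [if_true]
      rw [← sum_filter]
      exact hbig
    · simp only [h, if_false]
      exact hA p hp
  · apply mul_le_mul_of_nonneg_right _ (sum_nonneg fun s _ => hg s)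
    have hmem : p₀ ∈ univ.filter (fun p => par p ≠ none) := by simpa using hp₀
    rw [← mul_prod_erase _ _ hmem, if_pos rfl]
    have h2 : ∏ x ∈ (univ.filter (fun p => par p ≠ none)).erase p₀, (if x = p₀ then A * ε else A)
        = A ^ ((univ.filter (fun p => par p ≠ none)).erase p₀).card := by
      rw [← prod_const]
      apply prod_congr rfl
      intro p hp
      rw [if_neg (ne_of_mem_erase hp)]
    rw [h2]
    have h3 : A * A ^ ((univ.filter (fun p => par p ≠ none)).erase p₀).card ≤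
        A ^ Fintype.card V := by
      rw [← pow_succ']
      apply pow_le_pow_right₀ hA1
      rw [card_erase_add_one hmem]
      exact card_le_univ _
    nlinarith [h3, hε]

end Crest.Agent.R302.Tail907
end

-- ▼ part R302/Tail907C

/-!
# R302: the tails of the soft measure, fat part (2): counting, windows, the tail theorem

Author: helper907.
-/

set_option autoImplicit false

namespace Crest.Agent.R302.Tail907

open Finset Crest.Agent.R302.Facet Crest.Agent.R302.TreeNN Crest.Agent.R302.Tree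

variable {V : Type*} [Fintype V] [DecidableEq V]

/-- number of states without fat slack and with the given link vectors -/
def linkCount (J₁ J₂ : Finset (V → ℤ)) (s₁ s₂ : V → ℤ) : ℕ :=
  (J₁.filter (fun z => (fun v => z v + s₁ v - s₂ v) ∈ J₂)).card

/-- `r + s` -/
def addV (r : Finset V → ℤ) (s : V → ℤ) : Finset V → ℤ := fun A => r A + ∑ a ∈ A, s a

theorem addV_subM {r : Finset V → ℤ} {R : ℤ} (hr : SubM r R) (s : V → ℤ) :
    SubM (addV r s) (R + ∑ a, s a) where
  sub A B := by
    have h1 := hr.sub A B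
    have h2 := sum_union_inter (s₁ := A) (s₂ := B) (f := s)
    unfold addV
    linarith
  empty := by simp [addV, hr.empty]
  univ := by simp [addV, hr.univ]

omit [DecidableEq V] in
theorem memJ_addV {r : Finset V → ℤ} {R : ℤ} (s x : V → ℤ) :
    MemJ (addV r s) (R + ∑ a, s a) x ↔ MemJ r R (fun v => x v - s v) := by
  unfold MemJ addV
  simp only [sum_sub_distrib]
  constructor
  · rintro ⟨h1, h2⟩
    exact ⟨fun A => by have := h1 A; linarith, by linarith⟩
  · rintro ⟨h1, h2⟩
    exact ⟨fun A => by have := h1 A; linarith, by linarith⟩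

theorem dec_apply (par : V → Option V) (τ : V → ℤ) (v : V) :
    dec par τ v = shift (fedges par) (fun p => τ p.1) v + rootPart par τ v := rfl

theorem sum_dec (par : V → Option V) (τ : V → ℤ) : ∑ v, dec par τ v = ∑ v, rootPart par τ v := by
  simp only [dec_apply]
  rw [sum_add_distrib, sum_shift_univ, zero_add]

/-- **Counting**: the states with given fat slacks and few links. -/
theorem count_le {r₁ r₂ : Finset V → ℤ} {R : ℤ} (hr₁ : SubM r₁ R) (hr₂ : SubM r₂ R) {c : V → ℤ}
    (hc₁ : MemJ r₁ R c) (hc₂ : MemJ r₂ R c) (J₁ J₂ : Finset (V → ℤ))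
    (hJ₁ : ∀ z, z ∈ J₁ ↔ MemJ r₁ R z) (hJ₂ : ∀ z, z ∈ J₂ ↔ MemJ r₂ R z)
    (par₁ par₂ : V → Option V) (m₁ m₂ : V → ℕ) (h₀ : ℕ)
    (hm₁ : ∀ p b, par₁ p = some b → p ≠ b ∧ 8 * kap (Fintype.card V) ≤ m₁ p ∧
      2 * (4 * Fintype.card V + 2) * h₀ ≤ m₁ p ∧
      ∀ A, (p ∈ A ∧ b ∉ A ∨ b ∈ A ∧ p ∉ A) → (m₁ p : ℤ) ≤ slk r₁ c A)
    (hm₂ : ∀ p b, par₂ p = some b → p ≠ b ∧ 8 * kap (Fintype.card V) ≤ m₂ p ∧
      2 * (4 * Fintype.card V + 2) * h₀ ≤ m₂ p ∧
      ∀ A, (p ∈ A ∧ b ∉ A ∨ b ∈ A ∧ p ∉ A) → (m₂ p : ℤ) ≤ slk r₂ c A)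
    (τ₁ τ₂ : V → ℤ)
    (hh : ∑ v, |rootPart par₁ τ₁ v| + ∑ v, |rootPart par₂ τ₂ v| ≤ h₀) (B : Finset (V → ℤ)) :
    ((B.filter (fun x => (fun v => x v - dec par₁ τ₁ v) ∈ J₁ ∧
      (fun v => x v - dec par₂ τ₂ v) ∈ J₂)).card : ℝ) ≤
    Real.exp (∑ p ∈ univ.filter (fun p => par₁ p ≠ none),
        8 * (kap (Fintype.card V) : ℝ) / m₁ p * |(τ₁ p : ℝ)| +
      ∑ p ∈ univ.filter (fun p => par₂ p ≠ none),
        8 * (kap (Fintype.card V) : ℝ) / m₂ p * |(τ₂ p : ℝ)|) *
      linkCount J₁ J₂ (rootPart par₁ τ₁) (rootPart par₂ τ₂) := by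
  classical
  set n := Fintype.card V with hn
  set s₁ := rootPart par₁ τ₁ with hs₁
  set s₂ := rootPart par₂ τ₂ with hs₂
  set Q := B.filter (fun x => (fun v => x v - dec par₁ τ₁ v) ∈ J₁ ∧
      (fun v => x v - dec par₂ τ₂ v) ∈ J₂) with hQdef
  rcases isEmpty_or_nonempty V with hV | hV
  · -- trivial ground set
    have hQ1 : Q.card ≤ 1 := card_le_one_of_subsingleton Q
    rcases Q.eq_empty_or_nonempty with hQ0 | ⟨x, hx⟩
    · rw [hQ0]; simp only [card_empty, Nat.cast_zero]; positivity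
    · have hx' := (mem_filter.1 hx).2
      have hN : 1 ≤ linkCount J₁ J₂ s₁ s₂ := by
        unfold linkCount
        rw [Nat.one_le_iff_ne_zero, ← Nat.pos_iff_ne_zero, card_pos]
        refine ⟨fun v => x v - dec par₁ τ₁ v, mem_filter.2 ⟨hx'.1, ?_⟩⟩
        convert hx'.2 using 1
      have h1 : (Q.card : ℝ) ≤ 1 := by exact_mod_cast hQ1
      have h2 : (1 : ℝ) ≤ linkCount J₁ J₂ s₁ s₂ := by exact_mod_cast hN
      have h3 : (1 : ℝ) ≤ Real.exp (∑ p ∈ univ.filter (fun p => par₁ p ≠ none),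
        8 * (kap n : ℝ) / m₁ p * |(τ₁ p : ℝ)| + ∑ p ∈ univ.filter (fun p => par₂ p ≠ none),
        8 * (kap n : ℝ) / m₂ p * |(τ₂ p : ℝ)|) := by
        apply Real.one_le_exp
        positivity
      nlinarith
  by_cases hS : ∑ v, s₁ v = ∑ v, s₂ v
  swap
  · have : Q = ∅ := by
      rw [eq_empty_iff_forall_notMem]
      intro x hx
      have hx' := (mem_filter.1 hx).2
      have h1 := ((hJ₁ _).1 hx'.1).2
      have h2 := ((hJ₂ _).1 hx'.2).2
      rw [sum_sub_distrib, sum_dec] at h1 h2
      apply hS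
      linarith
    rw [this]
    simp only [card_empty, Nat.cast_zero]
    positivity
  -- the shifted systems
  set R' := R + ∑ v, s₁ v with hR'
  have hR'2 : R' = R + ∑ v, s₂ v := by rw [hR', hS]
  have hsub₁ : SubM (addV r₁ s₁) R' := addV_subM hr₁ s₁
  have hsub₂ : SubM (addV r₂ s₂) R' := hR'2 ▸ addV_subM hr₂ s₂
  set P' : Finset (V → ℤ) := (J₁.filter (fun z => (fun v => z v + s₁ v - s₂ v) ∈ J₂)).image
    (fun z => fun v => z v + s₁ v) with hP'def
  have hP' : ∀ x, x ∈ P' ↔ MemJ (addV r₁ s₁) R' x ∧ MemJ (addV r₂ s₂) R' x := by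
    intro x
    rw [hP'def, mem_image]
    have e1 : MemJ (addV r₁ s₁) R' x ↔ MemJ r₁ R (fun v => x v - s₁ v) := memJ_addV s₁ x
    have e2 : MemJ (addV r₂ s₂) R' x ↔ MemJ r₂ R (fun v => x v - s₂ v) := by
      rw [hR'2]; exact memJ_addV s₂ x
    rw [e1, e2]
    constructor
    · rintro ⟨z, hz, rfl⟩
      rw [mem_filter] at hz
      refine ⟨?_, (hJ₂ _).1 hz.2⟩
      have := (hJ₁ _).1 hz.1
      simpa using this
    · rintro ⟨h1, h2⟩
      refine ⟨fun v => x v - s₁ v, mem_filter.2 ⟨(hJ₁ _).2 h1, ?_⟩, by funext v; ring⟩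
      have h3 := (hJ₂ _).2 h2
      convert h3 using 1
      funext v
      ring
  have hcard : P'.card ≤ linkCount J₁ J₂ s₁ s₂ := card_image_le
  -- sums of the link vectors
  have habs : ∀ A : Finset V, |∑ a ∈ A, s₂ a - ∑ a ∈ A, s₁ a| ≤ h₀ := by
    intro A
    have h1 := abs_sum_le s₁ A
    have h2 := abs_sum_le s₂ A
    have h3 := abs_sub (∑ a ∈ A, s₂ a) (∑ a ∈ A, s₁ a)
    linarith
  let c' : V → ℝ := fun v => (c v : ℝ) + s₁ v
  have hc'A : ∀ A : Finset V, ∑ a ∈ A, c' a = ((∑ a ∈ A, c a + ∑ a ∈ A, s₁ a : ℤ) : ℝ) := by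
    intro A
    simp only [c']
    rw [sum_add_distrib]
    push_cast
    rfl
  have hh0 : (0 : ℤ) ≤ h₀ := by positivity
  have hkap : 0 < kap n := by
    apply kap_pos
    rw [hn]; exact Fintype.card_pos
  have hred : ∀ (par : V → Option V) (m : V → ℕ), (∀ p b, par p = some b → p ≠ b ∧
      8 * kap n ≤ m p ∧ 2 * (4 * n + 2) * h₀ ≤ m p) → ∀ p ∈ fedges par,
      (8 * kap n ≤ m p.1 ∧ 2 * (4 * n + 2) * h₀ ≤ m p.1) ∧
      (4 * kap n ≤ m p.1 - (4 * n + 2) * h₀) ∧ p.1 ≠ p.2 := by
    intro par m h p hp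
    have hp' : par p.1 = some p.2 := by simpa [fedges] using hp
    obtain ⟨h1, h2, h3⟩ := h p.1 p.2 hp'
    refine ⟨⟨h2, h3⟩, ?_, h1⟩
    have h4 : 2 * ((4 * n + 2) * h₀) ≤ m p.1 := by rw [← mul_assoc]; exact h3
    omega
  have main := shift_count_e hsub₁ hsub₂ P' hP' (c := c') (e := (h₀ : ℝ)) (by positivity)
    (fun A => by
      rw [hc'A]
      have h1 := hc₁.1 A
      have h2 : ∑ a ∈ A, c a + ∑ a ∈ A, s₁ a ≤ addV r₁ s₁ A + h₀ := by
        unfold addV; linarith
      exact_mod_cast h2)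
    (fun A => by
      rw [hc'A]
      have h1 := hc₂.1 A
      have h3 := (abs_le.1 (habs A)).1
      have h2 : ∑ a ∈ A, c a + ∑ a ∈ A, s₁ a ≤ addV r₂ s₂ A + h₀ := by
        unfold addV; linarith
      exact_mod_cast h2)
    (by
      rw [hc'A, hc₁.2])
    (fedges par₁) (fedges par₂) (fun p => m₁ p.1 - (4 * n + 2) * h₀)
    (fun p => m₂ p.1 - (4 * n + 2) * h₀)
    (fun p hp => by
      obtain ⟨⟨h1, h2⟩, h3, h4⟩ := hred par₁ m₁ (fun p b h => ⟨(hm₁ p b h).1, (hm₁ p b h).2.1,
        (hm₁ p b h).2.2.1⟩) p hp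
      refine ⟨h4, h3, fun A hA => ?_⟩
      have hp' : par₁ p.1 = some p.2 := by simpa [fedges] using hp
      have h5 := (hm₁ p.1 p.2 hp').2.2.2 A hA
      rw [hc'A]
      have h6 : ((m₁ p.1 - (4 * n + 2) * h₀ : ℕ) : ℤ) + (4 * n + 1) * h₀ ≤
          addV r₁ s₁ A - (∑ a ∈ A, c a + ∑ a ∈ A, s₁ a) := by
        have h7 : (4 * n + 2) * h₀ ≤ m₁ p.1 := by
          have : 2 * ((4 * n + 2) * h₀) ≤ m₁ p.1 := by rw [← mul_assoc]; exact h2
          omega
        rw [Nat.cast_sub h7]
        unfold addV slk at *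
        push_cast
        nlinarith
      exact_mod_cast h6)
    (fun p hp => by
      obtain ⟨⟨h1, h2⟩, h3, h4⟩ := hred par₂ m₂ (fun p b h => ⟨(hm₂ p b h).1, (hm₂ p b h).2.1,
        (hm₂ p b h).2.2.1⟩) p hp
      refine ⟨h4, h3, fun A hA => ?_⟩
      have hp' : par₂ p.1 = some p.2 := by simpa [fedges] using hp
      have h5 := (hm₂ p.1 p.2 hp').2.2.2 A hA
      rw [hc'A]
      have h8 := (abs_le.1 (habs A)).1
      have h6 : ((m₂ p.1 - (4 * n + 2) * h₀ : ℕ) : ℤ) + (4 * n + 1) * h₀ ≤
          addV r₂ s₂ A - (∑ a ∈ A, c a + ∑ a ∈ A, s₁ a) := by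
        have h7 : (4 * n + 2) * h₀ ≤ m₂ p.1 := by
          have : 2 * ((4 * n + 2) * h₀) ≤ m₂ p.1 := by rw [← mul_assoc]; exact h2
          omega
        rw [Nat.cast_sub h7]
        unfold addV slk at *
        push_cast
        nlinarith
      exact_mod_cast h6)
    (fun p => τ₁ p.1) (fun p => τ₂ p.1) Q
    (fun x hx => by
      have hx' := (mem_filter.1 hx).2
      constructor
      · have h1 := (hJ₁ _).1 hx'.1
        rw [show R' = R + ∑ v, s₁ v from rfl, memJ_addV]
        convert h1 using 1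
        funext v
        rw [dec_apply]
        ring
      · have h1 := (hJ₂ _).1 hx'.2
        rw [hR'2, memJ_addV]
        convert h1 using 1
        funext v
        rw [dec_apply]
        ring)
  refine main.trans ?_
  have hle : ∀ (par : V → Option V) (m : V → ℕ) (τ : V → ℤ), (∀ p b, par p = some b → p ≠ b ∧
      8 * kap n ≤ m p ∧ 2 * (4 * n + 2) * h₀ ≤ m p) →
      ∑ p ∈ fedges par, 4 * (kap n : ℝ) / ((m p.1 - (4 * n + 2) * h₀ : ℕ) : ℝ) * |(τ p.1 : ℝ)| ≤
      ∑ p ∈ univ.filter (fun p => par p ≠ none), 8 * (kap n : ℝ) / m p * |(τ p : ℝ)| := by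
    intro par m τ h
    rw [← sum_fedges par (fun p => 8 * (kap n : ℝ) / m p * |(τ p : ℝ)|)]
    apply sum_le_sum
    intro p hp
    obtain ⟨⟨h1, h2⟩, h3, h4⟩ := hred par m h p hp
    apply mul_le_mul_of_nonneg_right _ (abs_nonneg _)
    have hk : (0 : ℝ) < kap n := by exact_mod_cast hkap
    have hm0 : (0 : ℝ) < m p.1 := by
      have : 0 < m p.1 := by omega
      exact_mod_cast this
    have hm1 : (0 : ℝ) < ((m p.1 - (4 * n + 2) * h₀ : ℕ) : ℝ) := by
      have : 0 < m p.1 - (4 * n + 2) * h₀ := by omega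
      exact_mod_cast this
    rw [div_le_div_iff₀ hm1 hm0]
    have h5 : (m p.1 : ℝ) ≤ 2 * ((m p.1 - (4 * n + 2) * h₀ : ℕ) : ℝ) := by
      have h6 : 2 * ((4 * n + 2) * h₀) ≤ m p.1 := by rw [← mul_assoc]; exact h2
      have : m p.1 ≤ 2 * (m p.1 - (4 * n + 2) * h₀) := by omega
      exact_mod_cast this
    nlinarith
  have e1 := hle par₁ m₁ τ₁ (fun p b h => ⟨(hm₁ p b h).1, (hm₁ p b h).2.1, (hm₁ p b h).2.2.1⟩)
  have e2 := hle par₂ m₂ τ₂ (fun p b h => ⟨(hm₂ p b h).1, (hm₂ p b h).2.1, (hm₂ p b h).2.2.1⟩)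
  apply mul_le_mul (Real.exp_le_exp.2 (add_le_add e1 e2)) _ (by positivity) (Real.exp_pos _).le
  exact_mod_cast hcard

/-! ## Windows -/

/-- **Windows**: a state with small fat slacks and few links has all its block sums near those of
the centre. -/
theorem window {r₁ r₂ : Finset V → ℤ} {R : ℤ} (hr₁ : SubM r₁ R) (hr₂ : SubM r₂ R) {c : V → ℤ}
    (hc₁ : MemJ r₁ R c) (hc₂ : MemJ r₂ R c) (par₁ par₂ : V → Option V) (m₁ m₂ : V → ℕ)
    (hm₁ : ∀ p b, par₁ p = some b → ∀ A, (p ∈ A ∧ b ∉ A ∨ b ∈ A ∧ p ∉ A) → (m₁ p : ℤ) ≤ slk r₁ c A)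
    (hm₂ : ∀ p b, par₂ p = some b → ∀ A, (p ∈ A ∧ b ∉ A ∨ b ∈ A ∧ p ∉ A) → (m₂ p : ℤ) ≤ slk r₂ c A)
    (τ₁ τ₂ : V → ℤ) (h₀ b lam : ℕ) (hlam : Fintype.card V * b + 1 ≤ lam) (hlam' : h₀ ≤ lam)
    (hh : ∑ v, |rootPart par₁ τ₁ v| + ∑ v, |rootPart par₂ τ₂ v| ≤ h₀)
    (hb₁ : ∀ p, par₁ p ≠ none → |τ₁ p| ≤ b * m₁ p) (hb₂ : ∀ p, par₂ p ≠ none → |τ₂ p| ≤ b * m₂ p)
    {x : V → ℤ} (hx₁ : MemJ r₁ R (fun v => x v - dec par₁ τ₁ v))
    (hx₂ : MemJ r₂ R (fun v => x v - dec par₂ τ₂ v)) {A : Finset V} {M : ℤ}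
    (hM : ∀ z, MemJ r₁ R z → MemJ r₂ R z → |∑ a ∈ A, z a - ∑ a ∈ A, c a| ≤ M) :
    |∑ a ∈ A, x a - ∑ a ∈ A, c a| ≤
      lam * (M + Fintype.card V * (3 * Fintype.card V + 4)) + h₀ := by
  classical
  set n := Fintype.card V with hn
  set s₁ := rootPart par₁ τ₁ with hs₁
  set s₂ := rootPart par₂ τ₂ with hs₂
  have hh0 : (0 : ℤ) ≤ h₀ := by positivity
  have habs : ∀ A : Finset V, |∑ a ∈ A, s₂ a - ∑ a ∈ A, s₁ a| ≤ h₀ := by
    intro A
    have h1 := abs_sum_le s₁ A
    have h2 := abs_sum_le s₂ A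
    have h3 := abs_sub (∑ a ∈ A, s₂ a) (∑ a ∈ A, s₁ a)
    linarith
  let x' : V → ℤ := fun v => x v - s₁ v
  have hx'R : ∑ a, x' a = R := by
    have h1 := hx₁.2
    rw [sum_sub_distrib, sum_dec] at h1
    simp only [x']
    rw [sum_sub_distrib]
    exact h1
  have hedge : ∀ (par : V → Option V) (m : V → ℕ) (r : Finset V → ℤ),
      (∀ p b, par p = some b → ∀ A, (p ∈ A ∧ b ∉ A ∨ b ∈ A ∧ p ∉ A) → (m p : ℤ) ≤ slk r c A) →
      ∀ p ∈ fedges par, ∀ A, (p.1 ∈ A ∧ p.2 ∉ A ∨ p.2 ∈ A ∧ p.1 ∉ A) →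
        ((fun p : V × V => m p.1) p : ℤ) ≤ slk r c A := by
    intro par m r h p hp A hA
    have hp' : par p.1 = some p.2 := by simpa [fedges] using hp
    exact h p.1 p.2 hp' A hA
  have hbd : ∀ (par : V → Option V) (m : V → ℕ) (τ : V → ℤ),
      (∀ p, par p ≠ none → |τ p| ≤ b * m p) → ∀ p ∈ fedges par,
      |(fun p : V × V => τ p.1) p| ≤ b * (fun p : V × V => m p.1) p := by
    intro par m τ h p hp
    have hp' : par p.1 = some p.2 := by simpa [fedges] using hp
    exact h p.1 (by rw [hp']; simp)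
  have hcardb : ∀ par : V → Option V, (((fedges par).card * b : ℕ) : ℤ) ≤ ((n * b : ℕ) : ℤ) := by
    intro par
    exact_mod_cast Nat.mul_le_mul_right b (card_fedges par)
  have hA₁ : ∀ A, ∑ a ∈ A, x' a ≤ r₁ A + (n * b : ℕ) * slk r₁ c A + h₀ := by
    intro A
    have h1 := shift_violation hc₁ (fedges par₁) (fun p => m₁ p.1) (fun p => τ₁ p.1) b
      (hbd par₁ m₁ τ₁ hb₁) (hedge par₁ m₁ r₁ hm₁) (x := x') (s := fun _ => 0) 0 (by simp)
      (by
        convert hx₁ using 1
        funext v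
        simp only [x', dec_apply]
        ring) A
    have h2 := hcardb par₁
    have h3 := slk_nonneg hc₁ A
    have h4 := mul_le_mul_of_nonneg_right h2 h3
    simp only [Nat.cast_zero, add_zero] at h1
    linarith
  have hA₂ : ∀ A, ∑ a ∈ A, x' a ≤ r₂ A + (n * b : ℕ) * slk r₂ c A + h₀ := by
    intro A
    have h1 := shift_violation hc₂ (fedges par₂) (fun p => m₂ p.1) (fun p => τ₂ p.1) b
      (hbd par₂ m₂ τ₂ hb₂) (hedge par₂ m₂ r₂ hm₂) (x := x') (s := fun v => s₂ v - s₁ v) h₀
      (fun A => by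
        rw [sum_sub_distrib]
        exact (le_abs_self _).trans (habs A))
      (by
        convert hx₂ using 1
        funext v
        simp only [x', dec_apply]
        ring) A
    have h2 := hcardb par₂
    have h3 := slk_nonneg hc₂ A
    have h4 := mul_le_mul_of_nonneg_right h2 h3
    linarith
  have h5 := relaxed_block hr₁ hr₂ hc₁ hc₂ (n * b) h₀ lam hlam hlam' hx'R hA₁ hA₂ hM
  have h6 : ∑ a ∈ A, x a - ∑ a ∈ A, c a =
      (∑ a ∈ A, x' a - ∑ a ∈ A, c a) + ∑ a ∈ A, s₁ a := by
    simp only [x']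
    rw [sum_sub_distrib]
    ring
  rw [h6]
  have h7 : |∑ a ∈ A, s₁ a| ≤ h₀ := by
    have h1 := abs_sum_le s₁ A
    have h2 : (0 : ℤ) ≤ ∑ v, |s₂ v| := sum_nonneg fun v _ => abs_nonneg _
    linarith
  exact (abs_add_le _ _).trans (add_le_add h5 h7)

end Crest.Agent.R302.Tail907
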