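import Crest.Agent.R302.Num272C
import Crest.Agent.R302.Mono272_Mg
import Crest.Agent.R302.Gau970D
import Crest.Agent.R302.Tail907D
import Crest.Agent.R302.KapR151
import Crest.Agent.R302.Gau970F
import Crest.Agent.R302.Conc725
import Crest.Agent.R302.Gau970G
import Crest.Agent.R302.Badm907B
import Crest.Agent.R302.ConcFacts351
import Crest.Agent.R302.S1Prog893
import Crest.Agent.R302.Num166B_Mg
import Crest.Agent.R302.Num166
import Crest.Agent.R302.ConcFacts342B_Mg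
import Crest.Agent.R302.MassC151

-- ▼ part R302/Num272D
section

/-!
# R302, numbers D (helper272): the final forms for `cPar`
-/

set_option autoImplicit false

namespace Crest.Agent.R302.Num

open Crest.Agent.R302.Smp Crest.Agent.R302.Top Crest.Agent.R302.Cst Crest.Agent.R302.AnnBox
open Crest.Agent.R302.Prog Crest.Agent.R302.T893 Crest.Agent.R302.Inst

variable (s : SIn)

/-- threshold of `chainOK_prg` -/
theorem hw : (16 * sn s * Facet.kap (sn s) + (4 * sn s + 2) : ℤ) ≤ (cPar.w₁ s : ℤ) := by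
  have h1 := kap_le' (XX_ge s) (sn_le s)
  have h2 : sn s ≤ XX s := (Nat.le_succ _).trans (sn_le s)
  have h3 : 16 * sn s * Facet.kap (sn s) + (4 * sn s + 2) ≤ XX s ^ 112 := by
    have h4 : 16 * sn s * Facet.kap (sn s) ≤ 16 * XX s ^ 10 := by
      calc 16 * sn s * Facet.kap (sn s) ≤ 16 * XX s * XX s ^ 9 :=
            Nat.mul_le_mul (Nat.mul_le_mul_left _ h2) h1
        _ = 16 * XX s ^ 10 := by ring
    have h5 : XX s ≤ XX s ^ 10 := by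
      calc XX s = XX s ^ 1 := (pow_one _).symm
        _ ≤ XX s ^ 10 := Nat.pow_le_pow_right (by have := XX_ge s; omega) (by norm_num)
    have h6 := one_le_XXpow s 10
    calc 16 * sn s * Facet.kap (sn s) + (4 * sn s + 2) ≤ 22 * XX s ^ 10 := by omega
      _ ≤ XX s ^ 112 := c_mul_pw' (XX_ge s) (by norm_num) (by norm_num)
  exact_mod_cast h3

theorem hw' : (cA (sn s) : ℤ) < (cPar.w₁ s : ℤ) := by
  have h1 := cA_le (XX_ge s) (sn_le s)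
  have h2 : XX s ^ 12 < XX s ^ 112 := by
    apply Nat.pow_lt_pow_right _ (by norm_num)
    have := XX_ge s
    omega
  have h3 : cA (sn s) < cPar.w₁ s := lt_of_le_of_lt h1 h2
  exact_mod_cast h3

/-- **N1** -/
theorem N1 {a : ℕ} (ha : a ≤ 33 * ss s) :
    3 * A0n (sn s) (2 * sn s + 1) (kap ((1 / 2) ^ a) 1) (G0 s) ((XX s ^ 76 : ℕ) : ℝ)
      ((cPar.w₁ s : ℤ) : ℝ) ((1 / 2) ^ a) * kap ((1 / 2) ^ a) 1 ^ 3 ≤ (XX s : ℝ) ^ 1500 :=
  hA1_real (XR_ge s) (A00_le s ha) (kap_th_ge a) (kap_th_le s ha)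

theorem PPn_nonneg {N : ℕ} {κ G P w θ : ℝ} : 0 ≤ PPn N κ G P w θ := by unfold PPn; positivity

theorem A0n_nonneg {n N : ℕ} {κ G P w θ : ℝ} (hκ : 1 ≤ κ) : 0 ≤ A0n n N κ G P w θ := by
  have hCC := CC_nonneg (N := N) hκ (PPn_nonneg (N := N) (κ := κ) (G := G) (P := P) (w := w) (θ := θ))
  have hκ0 : 0 ≤ κ := by linarith
  unfold A0n
  positivity

theorem KSn_nonneg {n N : ℕ} {κ G P w θ mx : ℝ} (hκ : 1 ≤ κ) : 0 ≤ KSn n N κ G P w θ mx := by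
  have hCC := CC_nonneg (N := N) hκ (PPn_nonneg (N := N) (κ := κ) (G := G) (P := P) (w := w) (θ := θ))
  have hκ0 : 0 ≤ κ := by linarith
  unfold KSn
  positivity

theorem CD_nonneg {n N m : ℕ} {κ KS : ℝ} (hκ : 1 ≤ κ) (hK : 0 ≤ KS) : 0 ≤ CD n N m κ KS := by
  have := C2_nonneg (m := m) (n := n) hκ
  have hκ0 : 0 ≤ κ := by linarith
  unfold CD
  positivity

theorem A00_nonneg (a : ℕ) : 0 ≤ A00 s a := A0n_nonneg (kap_th_ge a)

theorem KSn_cast_le {n N x w : ℕ} {mx : ℤ} {κ θ : ℝ} (hw : w = x ^ 112)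
    (h : KSn n N κ ((x : ℝ) ^ 18) ((x : ℝ) ^ 76) ((x : ℝ) ^ 112) θ mx ≤ 2 ^ (9 * x)) :
    KSn n N κ ((x : ℝ) ^ 18) ((x ^ 76 : ℕ) : ℝ) (((w : ℕ) : ℤ) : ℝ) θ mx ≤ 2 ^ (9 * x) := by
  subst hw
  push_cast
  exact h

/-- **N2** -/
theorem N2 {a : ℕ} (ha : a ≤ 33 * ss s) {V : Type*} [Fintype V] (hV : Fintype.card V ≤ sn s) :
    (1 + (2 * sn s ^ 2 : ℕ) * (6 * A0n (sn s) (2 * sn s + 1) (kap ((1 / 2) ^ a) 1) (G0 s)
      ((XX s ^ 76 : ℕ) : ℝ) ((cPar.w₁ s : ℤ) : ℝ) ((1 / 2) ^ a) * kap ((1 / 2) ^ a) 1 ^ 3)) *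
        Link.KL V (2 * XX s ^ 4) ≤ (XX s : ℝ) ^ 1500 := by
  refine hA2_real (XR_ge s) (snR s) (A00_le s ha) (A00_nonneg s a) (kap_th_ge a) (kap_th_le s ha)
    ?_ ?_
  · exact le_trans (by exact_mod_cast hV) (snR s)
  · push_cast; exact le_rfl

/-- **N3** -/
theorem N3 {a : ℕ} (ha : a ≤ 33 * ss s) {β φ : ℝ} (hβ0 : 0 ≤ β) (hβ : β ≤ 1 / 2 ^ (XX s ^ 3))
    (hφ0 : 0 ≤ φ) (hφ : φ ≤ 1 / 2 ^ (XX s ^ 3)) :
    CD (sn s) (2 * sn s + 1) (2 * cPar.M s) (kap ((1 / 2) ^ a) 1)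
        (KSn (sn s) (2 * sn s + 1) (kap ((1 / 2) ^ a) 1) (G0 s) ((XX s ^ 76 : ℕ) : ℝ)
          ((cPar.w₁ s : ℤ) : ℝ) ((1 / 2) ^ a) ((mx0 s : ℤ) : ℝ)) * β +
      (1 + (2 * sn s ^ 2 : ℕ) * (6 * A0n (sn s) (2 * sn s + 1) (kap ((1 / 2) ^ a) 1) (G0 s)
        ((XX s ^ 76 : ℕ) : ℝ) ((cPar.w₁ s : ℤ) : ℝ) ((1 / 2) ^ a) * kap ((1 / 2) ^ a) 1 ^ 3)) *
          (8 * φ) ≤ 1 / 2 ^ XX s := by
  have hκ1 := kap_th_ge a
  have hκ := kap_th_le s ha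
  have hθ := th_pos a
  have hA0 := A00_nonneg s a
  have hmx : ((mx0 s : ℤ) : ℝ) ≤ 2 ^ (4 * XX s) := by unfold mx0; push_cast; exact le_rfl
  have hmx0 : (0 : ℝ) ≤ ((mx0 s : ℤ) : ℝ) := by
    have : (0 : ℤ) ≤ mx0 s := by
      have := w1_le_mx s
      have h0 : (0 : ℤ) ≤ (cPar.w₁ s : ℤ) := Int.natCast_nonneg _
      linarith
    exact_mod_cast this
  have hKS := KSn_cast_le (w := cPar.w₁ s) rfl (KSn_le (XR_ge s) (pow_le_two_powR s (by norm_num))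
    (snR s) (NR s) hκ1 hκ hθ (th_inv s ha) hmx0 hmx)
  have hCD := CD_le (XX_ge20 s) (pow_le_two_powR s (by norm_num)) (m := 2 * cPar.M s) le_rfl
    ((Nat.le_succ _).trans (sn_le s)) (NR s) hκ1 hκ (KSn_nonneg hκ1) hKS
  have hCD0 := CD_nonneg (n := sn s) (N := 2 * sn s + 1) (m := 2 * cPar.M s) hκ1
    (KSn_nonneg (n := sn s) (N := 2 * sn s + 1) (G := G0 s) (P := ((XX s ^ 76 : ℕ) : ℝ))
      (w := ((cPar.w₁ s : ℤ) : ℝ)) (θ := th a) (mx := ((mx0 s : ℤ) : ℝ)) hκ1)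
  refine drho_real (XX_ge20 s) (pow_le_two_powR s (by norm_num)) hCD0 hCD ?_
    (pre_le (XR_ge s) (snR s) (A00_le s ha) hA0 hκ1 hκ) hβ0 hβ hφ0 hφ
  have h3 : (0 : ℝ) ≤ kap (th a) 1 ^ 3 := by
    have : (0 : ℝ) ≤ kap (th a) 1 := by linarith
    exact pow_nonneg this 3
  have : (0 : ℝ) ≤ (2 * sn s ^ 2 : ℕ) * (6 * A00 s a * kap (th a) 1 ^ 3) :=
    mul_nonneg (Nat.cast_nonneg _) (mul_nonneg (mul_nonneg (by norm_num) hA0) h3)
  exact add_nonneg zero_le_one this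

/-- `A`, `δ`, `η` -/
noncomputable def AA0 : ℝ := (XX s : ℝ) ^ 1500
noncomputable def δ0 : ℝ := 1 / (XX s : ℝ) ^ 1630
noncomputable def η0 : ℝ := 1 / (XX s : ℝ) ^ 61

theorem XR_pos : (0 : ℝ) < (XX s : ℝ) := by
  have := XR_ge s
  linarith [show (0 : ℝ) < 2 ^ 20 by norm_num]

theorem δ0_pos : 0 < δ0 s := by have := XR_pos s; unfold δ0; positivity
theorem η0_pos : 0 < η0 s := by have := XR_pos s; unfold η0; positivity

theorem one_le_XR : (1 : ℝ) ≤ (XX s : ℝ) := one_le_of (XR_ge s)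

theorem δ0_le_one : δ0 s ≤ 1 := by
  unfold δ0
  rw [div_le_one (by have := XR_pos s; positivity)]
  exact one_le_pow₀ (one_le_XR s)

theorem qa_pow : (2 : ℝ) ^ (cPar.qa s + 2) = 4 * (XX s : ℝ) ^ 3 := by
  rw [pow_add]
  have h : (2 : ℝ) ^ cPar.qa s = (XX s : ℝ) ^ 3 := by
    show (2 : ℝ) ^ (3 * ss s) = _
    exact_mod_cast two_pow_mul_ss s 3
  rw [h]
  ring

/-- **N4** -/
theorem N4 {ρ τ : ℝ} (hρ : ρ ≤ 1 / 2 ^ XX s) (hτ : τ ≤ 4 * δ0 s + 1 / 2 ^ XX s) :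
    256 * ρ + 512 * (AA0 s * 2 ^ (cPar.qa s + 2)) * τ ≤ η0 s ^ 2 := by
  rw [qa_pow]
  exact hnum_real (XR_ge s) (pow_le_two_powR s (by norm_num)) hρ hτ

/-- number of halvings -/
def L0 : ℕ := 123 * ss s

/-- **N5** -/
theorem N5a : 8 ≤ η0 s ^ 2 * 2 ^ L0 s := by
  have h : (2 : ℝ) ^ L0 s = (XX s : ℝ) ^ 123 := by
    unfold L0
    exact_mod_cast two_pow_mul_ss s 123
  have hX := XR_pos s
  rw [h]
  unfold η0
  have e : (1 / (XX s : ℝ) ^ 61) ^ 2 * (XX s : ℝ) ^ 123 = (XX s : ℝ) := by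
    have : (XX s : ℝ) ^ 123 = ((XX s : ℝ) ^ 61) ^ 2 * (XX s : ℝ) := by
      rw [← pow_mul, ← pow_succ]
    rw [this]
    field_simp
  rw [e]
  exact le_trans (by norm_num) (XR_ge s)

theorem N5b : (L0 s : ℝ) ≤ δ0 s / (AA0 s * 2 ^ (cPar.qa s + 2)) * (cPar.TE s : ℕ) := by
  rw [qa_pow]
  have h : ((cPar.TE s : ℕ) : ℝ) = (XX s : ℝ) ^ 3135 := by
    show ((XX s ^ 3135 : ℕ) : ℝ) = _
    push_cast
    rfl
  rw [h]
  refine steps_real (XR_ge s) ?_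
  unfold L0
  exact_mod_cast (c_mul_s_le (n := sn s) (R := sR s) (m := sm s) (c := 123) (by norm_num))




/-- **N6** -/
theorem N6 : (cPar.TE s : ℕ) * ((1 / 2 : ℝ) ^ cPar.kmax s +
    ((sn s : ℝ) * (1 / 2 ^ cPar.N s) + (sn s : ℝ) * (1 / 2 ^ cPar.N s))) ≤ 1 / (XX s : ℝ) ^ 61 := by
  have h : ((cPar.TE s : ℕ) : ℝ) = (XX s : ℝ) ^ 3135 := by
    show ((XX s ^ 3135 : ℕ) : ℝ) = _
    push_cast
    rfl
  have h1 : (1 / 2 : ℝ) ^ cPar.kmax s = 1 / (XX s : ℝ) ^ 3210 := half_pow s 3210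
  have h2 : (1 : ℝ) / 2 ^ cPar.N s = 1 / (XX s : ℝ) ^ 3210 := by
    rw [← one_div_pow]; exact half_pow s 3210
  rw [h, h1, h2]
  exact es_real (XR_ge s) (snR s)

/-- the errors of the loop, estimators -/
theorem errE : 1 / (XX s : ℝ) ^ 61 + 4 * (1 / (XX s : ℝ) ^ 61) + η0 s ≤ eE0 s := by
  have hX := XR_pos s
  unfold η0 eE0
  have e : 1 / (XX s : ℝ) ^ 61 + 4 * (1 / (XX s : ℝ) ^ 61) + 1 / (XX s : ℝ) ^ 61 =
      6 / (XX s : ℝ) ^ 61 := by ring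
  rw [e, div_le_div_iff₀ (by positivity) (by positivity), one_mul]
  exact (cpw (XR_ge s) (by norm_num) 44).trans (pw_le (XR_ge s) (by norm_num))

/-- the errors of the loop, movers -/
theorem errM : 1 / (XX s : ℝ) ^ 61 + 4 * (1 / (XX s : ℝ) ^ 61) + η0 s +
    2 * (1 / (XX s : ℝ) ^ 61 + 1 / (XX s : ℝ) ^ 61) ≤ eM0 s := by
  have hX := XR_pos s
  unfold η0 eM0
  have e : 1 / (XX s : ℝ) ^ 61 + 4 * (1 / (XX s : ℝ) ^ 61) + 1 / (XX s : ℝ) ^ 61 +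
      2 * (1 / (XX s : ℝ) ^ 61 + 1 / (XX s : ℝ) ^ 61) = 10 / (XX s : ℝ) ^ 61 := by ring
  rw [e, div_le_div_iff₀ (by positivity) (by positivity), one_mul]
  exact cpw (XR_ge s) (by norm_num) 60

end Crest.Agent.R302.Num
end

-- ▼ part R302/Mass425B
section

/-!
# R302 (helper425), MASS4, part B: the explicit mass of the near states; small acceptance

* `u_eq` : `u = G(s)`, `G` the weight of the link vectors (fat stages, `w = 0`);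
* `near_mass` : the explicit mass of the near states is at most `4 Z`;
* `small_accept` : `∑_{FG < δ} nuG ≤ δ * (near mass) + far mass`.
-/

set_option autoImplicit false
set_option linter.unusedSectionVars false

namespace Crest.Agent.R302.Mass4

open Finset Crest.Agent.R302.Facet Crest.Agent.R302.Tail907 Crest.Agent.R302.Stage
open Crest.Agent.R302.Inst hiding kap tok
open Crest.Agent.R302.Lor (mon)
open Crest.Agent.R302.Gau (Lk el wt sv)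

variable {E : Type*} [Fintype E] [DecidableEq E]

/-! ### the split of the small acceptance region -/

/-- near states -/
def NearSt (D : SD E) (B₁ B₂ : E → ℕ) (σ : St D) : Prop :=
  NearS D.S₁ B₁ σ.1 σ.2.1 ∧ NearS D.S₂ B₂ σ.1 σ.2.2

/-- far part of `FG` -/
noncomputable def TG (D : SD E) (B₁ B₂ : E → ℕ) (σ : St D) : ℝ :=
  tf D.S₁ B₁ σ.1 σ.2.1 * D.S₂.ff σ.1 σ.2.2 + nf D.S₁ B₁ σ.1 σ.2.1 * tf D.S₂ B₂ σ.1 σ.2.2

theorem FG_eq (D : SD E) (B₁ B₂ : E → ℕ) (σ : St D) :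
    D.FG σ = nf D.S₁ B₁ σ.1 σ.2.1 * nf D.S₂ B₂ σ.1 σ.2.2 + TG D B₁ B₂ σ := by
  unfold SD.FG TG
  rw [← nf_add_tf D.S₁ B₁, ← nf_add_tf D.S₂ B₂]
  ring

theorem TG_nonneg {D : SD E} (h : D.OK) (B₁ B₂ : E → ℕ) (σ : St D) : 0 ≤ TG D B₁ B₂ σ := by
  have g1 : ∀ z, 0 ≤ D.S₁.g z := fun z => by rw [h.g₁]; exact zero_le_one
  have g2 : ∀ z, 0 ≤ D.S₂.g z := fun z => by rw [h.g₂]; exact zero_le_one
  exact add_nonneg (mul_nonneg (tf_nonneg h.κ₁ g1 _ _ _) (Side.ff_nonneg' h.κ₂ g2 _ _))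
    (mul_nonneg (nf_nonneg h.κ₁ g1 _ _ _) (tf_nonneg h.κ₂ g2 _ _ _))

open Classical in
/-- **small acceptance** : split into near states and far slacks -/
theorem small_accept {D : SD E} (h : D.OK) (B₁ B₂ : E → ℕ) {δ : ℝ} (hδ : 0 ≤ δ) :
    ∑ σ ∈ D.bx.filter (fun σ => D.FG σ < δ), D.nuG σ ≤
      δ * ∑ σ ∈ D.bx.filter (fun σ => NearSt D B₁ B₂ σ), D.u σ +
        ∑ σ ∈ D.bx, D.u σ * TG D B₁ B₂ σ := by
  rw [Finset.sum_filter, Finset.sum_filter, Finset.mul_sum, ← Finset.sum_add_distrib]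
  refine Finset.sum_le_sum fun σ _ => ?_
  have hu := (SD.u_pos σ).le
  have hT := TG_nonneg h B₁ B₂ σ
  have hn : 0 ≤ D.u σ * TG D B₁ B₂ σ := mul_nonneg hu hT
  by_cases hF : D.FG σ < δ
  · rw [if_pos hF]
    by_cases hN : NearSt D B₁ B₂ σ
    · rw [if_pos hN]
      have : D.nuG σ ≤ δ * D.u σ := by
        unfold SD.nuG
        rw [mul_comm]
        exact mul_le_mul_of_nonneg_right hF.le hu
      linarith
    · rw [if_neg hN, mul_zero, zero_add]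
      have h0 : nf D.S₁ B₁ σ.1 σ.2.1 * nf D.S₂ B₂ σ.1 σ.2.2 = 0 := by
        rcases not_and_or.1 hN with h1 | h1
        · rw [nf_eq_zero _ _ _ _ h1, zero_mul]
        · rw [nf_eq_zero _ _ _ _ h1, mul_zero]
      unfold SD.nuG
      rw [FG_eq D B₁ B₂, h0, zero_add]
  · rw [if_neg hF]
    split_ifs
    · have := mul_nonneg hδ hu
      linarith
    · linarith

/-! ### the explicit weight as a function of the link vectors -/

theorem μ_pos (D : SD E) (e : E) : 0 < D.μ e := by unfold SD.μ; positivity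

/-- **the explicit weight** in the fat stages -/
theorem u_eq (D : SD E) (hw : ∀ β, D.w β = 0)
    (h₁ : Side.Gauge D.S₁ D.μ) (h₂ : Side.Gauge D.S₂ D.μ) (σ : St D) :
    D.u σ = D.θ ^ (∑ i, (sv D σ i).natAbs) * ∏ i, wt D i ^ sv D σ i := by
  have h2 : (2 : ℝ) ≠ 0 := by norm_num
  have e2 : ∀ (r : E) (b : ℤ), D.μ r ^ b = 2 ^ (D.ell r * b) := by
    intro r b; unfold SD.μ; rw [← zpow_mul]
  have p1 : ∀ {ι : Type _} (s : Finset ι) (f : ι → ℤ),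
      ∏ i ∈ s, (2 : ℝ) ^ f i = 2 ^ ∑ i ∈ s, f i := by
    intro ι s f
    classical
    induction s using Finset.induction_on with
    | empty => simp
    | insert i s hi ih => rw [Finset.prod_insert hi, Finset.sum_insert hi, ih, zpow_add₀ h2]
  -- the gauge sums of the subtree sums agree
  have hm : (2 : ℝ) ^ (∑ r : D.S₁.Blk, D.ell r * bs D.S₁.T σ.1 r) =
      2 ^ (∑ r : D.S₂.Blk, D.ell r * bs D.S₂.T σ.1 r) := by
    rw [← p1, ← p1]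
    simp only [← e2]
    rw [← Side.mon_eq h₁ σ.1, ← Side.mon_eq h₂ σ.1]
  have hm' : (∑ r : D.S₁.Blk, D.ell r * bs D.S₁.T σ.1 r) =
      ∑ r : D.S₂.Blk, D.ell r * bs D.S₂.T σ.1 r :=
    zpow_right_injective₀ (by norm_num) (by norm_num) hm
  have hθ : ∀ k : ℕ, D.θ ^ k = 2 ^ (-(D.a : ℤ) * k) := by
    intro k
    unfold SD.θ
    rw [← pow_mul, one_div, inv_pow, ← zpow_natCast, ← zpow_neg]
    congr 1
    push_cast
    ring
  unfold SD.u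
  rw [hθ]
  have e3 : ∏ i, wt D i ^ sv D σ i = 2 ^ (∑ r : D.S₁.Blk, D.ell r * (σ.2.1 r - bs D.S₁.T σ.1 r) +
      ∑ r : D.S₂.Blk, D.ell r * (-(σ.2.2 r - bs D.S₂.T σ.1 r))) := by
    rw [Fintype.prod_sum_type, zpow_add₀ h2, ← p1, ← p1]
    simp only [← e2]
    rfl
  rw [e3, ← zpow_add₀ h2]
  congr 1
  unfold SD.ex sv
  rw [hw]
  push_cast [Int.natCast_natAbs]
  rw [Fintype.sum_sum_type]
  simp only [Sum.elim_inl, Sum.elim_inr, abs_neg, mul_sub, mul_neg, Finset.sum_sub_distrib,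
    Finset.sum_neg_distrib]
  linarith

/-! ### the near mass -/

/-- the hard count with link vector `γ` on the tokens -/
noncomputable def hc (X J₁ J₂ : Finset (E → ℤ)) (γ : E ⊕ E → ℤ) : ℝ :=
  ((X.filter fun x => (x + fun e => γ (Sum.inl e)) ∈ J₁ ∧ (x - fun e => γ (Sum.inr e)) ∈ J₂).card : ℝ)

theorem sum_sv (D : SD E) (σ : St D) :
    (fun e => (∑ i, sv D σ i • Lor.ev (Gau.tok D i)) (Sum.inl e)) = lk D.S₁ σ.1 σ.2.1 ∧
    (fun e => (∑ i, sv D σ i • Lor.ev (Gau.tok D i)) (Sum.inr e)) = -lk D.S₂ σ.1 σ.2.2 := by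
  constructor
  · funext e
    rw [Fintype.sum_sum_type, Pi.add_apply, Finset.sum_apply, Finset.sum_apply]
    unfold lk
    rw [Finset.sum_apply]
    have : ∑ i : D.S₂.Blk, (sv D σ (Sum.inr i) • Lor.ev (Gau.tok D (Sum.inr i))) (Sum.inl e) = 0 := by
      refine Finset.sum_eq_zero fun i _ => ?_
      simp [Gau.tok, Lor.ev]
    rw [this, add_zero]
    refine Finset.sum_congr rfl fun i _ => ?_
    simp [Gau.tok, sv, Lor.ev, Pi.single_apply]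
  · funext e
    rw [Fintype.sum_sum_type, Pi.add_apply, Finset.sum_apply, Finset.sum_apply]
    unfold lk
    rw [Pi.neg_apply, Finset.sum_apply]
    have : ∑ i : D.S₁.Blk, (sv D σ (Sum.inl i) • Lor.ev (Gau.tok D (Sum.inl i))) (Sum.inr e) = 0 := by
      refine Finset.sum_eq_zero fun i _ => ?_
      simp [Gau.tok, Lor.ev]
    rw [this, zero_add, ← Finset.sum_neg_distrib]
    refine Finset.sum_congr rfl fun i _ => ?_
    simp only [Gau.tok, sv, Lor.ev, Pi.single_apply, Sum.elim_inr, Pi.smul_apply,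
      smul_eq_mul, Sum.inr.injEq]
    split_ifs <;> ring

/-- `(x, ls)` determines the state -/
theorem ls_inj (D : SD E) {σ σ' : St D} (hx : σ.1 = σ'.1) (hs : sv D σ = sv D σ') : σ = σ' := by
  obtain ⟨x, β₁, β₂⟩ := σ
  obtain ⟨x', β₁', β₂'⟩ := σ'
  obtain rfl : x = x' := hx
  have h1 : β₁ = β₁' := by
    funext r
    have := congrFun hs (Sum.inl r)
    simpa [sv] using this
  have h2 : β₂ = β₂' := by
    funext r
    have := congrFun hs (Sum.inr r)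
    simpa [sv] using this
  rw [h1, h2]

open Classical in
/-- the near mass is at most the relaxed link sum -/
theorem near_le {D : SD E} (hw : ∀ β, D.w β = 0)
    (h₁ : Side.Gauge D.S₁ D.μ) (h₂ : Side.Gauge D.S₂ D.μ) {r₁ r₂ : Finset E → ℤ} {R : ℤ}
    (hJ₁ : ∀ z, z ∈ D.S₁.J ↔ MemJ r₁ R z) (hJ₂ : ∀ z, z ∈ D.S₂.J ↔ MemJ r₂ R z)
    {B₁ B₂ : E → ℕ} {J₁' J₂' X : Finset (E → ℤ)}
    (hJ₁' : ∀ z, MemJ (relaxL r₁ (nearL D.S₁.T B₁ univ.toList)) R z → z ∈ J₁')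
    (hJ₂' : ∀ z, MemJ (relaxL r₂ (nearL D.S₂.T B₂ univ.toList)) R z → z ∈ J₂')
    (hX : ∀ σ ∈ D.bx, σ.1 ∈ X) :
    ∃ F : Finset (Lk D → ℤ),
      ∑ σ ∈ D.bx.filter (fun σ => NearSt D B₁ B₂ σ), D.u σ ≤
        ∑ s ∈ F, D.θ ^ (∑ i, (s i).natAbs) * (∏ i, wt D i ^ s i) *
          hc X J₁' J₂' (∑ i, s i • Lor.ev (Gau.tok D i)) := by
  set F := (D.bx.filter (fun σ => NearSt D B₁ B₂ σ)).image (sv D) with hF
  refine ⟨F, ?_⟩
  have h0 : ∀ σ ∈ D.bx.filter (fun σ => NearSt D B₁ B₂ σ), sv D σ ∈ F := fun σ hσ =>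
    Finset.mem_image_of_mem _ hσ
  rw [← Finset.sum_fiberwise_of_maps_to h0]
  refine Finset.sum_le_sum fun s _ => ?_
  have e1 : ∑ σ ∈ (D.bx.filter (fun σ => NearSt D B₁ B₂ σ)).filter (fun σ => sv D σ = s), D.u σ =
      ((D.bx.filter (fun σ => NearSt D B₁ B₂ σ)).filter (fun σ => sv D σ = s)).card *
        (D.θ ^ (∑ i, (s i).natAbs) * ∏ i, wt D i ^ s i) := by
    rw [Finset.cast_card, Finset.sum_mul]
    refine Finset.sum_congr rfl fun σ hσ => ?_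
    rw [u_eq D hw h₁ h₂, (Finset.mem_filter.1 hσ).2, one_mul]
  rw [e1, mul_comm]
  refine mul_le_mul_of_nonneg_left ?_ (mul_nonneg (pow_nonneg (by unfold SD.θ; positivity) _)
    (Finset.prod_nonneg fun i _ => zpow_nonneg (Gau.wt_pos D i).le _))
  unfold hc
  have h2 : ((D.bx.filter (fun σ => NearSt D B₁ B₂ σ)).filter (fun σ => sv D σ = s)).card ≤
      (X.filter fun x => (x + fun e => (∑ i, s i • Lor.ev (Gau.tok D i)) (Sum.inl e)) ∈ J₁' ∧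
        (x - fun e => (∑ i, s i • Lor.ev (Gau.tok D i)) (Sum.inr e)) ∈ J₂').card := by
    refine Finset.card_le_card_of_injOn (fun σ => σ.1) ?_ ?_
    · intro σ hσ
      simp only [Finset.coe_filter, Set.mem_ofPred_eq, Finset.mem_filter] at hσ ⊢
      obtain ⟨⟨hb, hn⟩, hs⟩ := hσ
      rw [← hs, (sum_sv D σ).1, (sum_sv D σ).2]
      refine ⟨hX σ hb, hJ₁' _ (near_mem hJ₁ hn.1), ?_⟩
      rw [sub_neg_eq_add]
      exact hJ₂' _ (near_mem hJ₂ hn.2)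
    · intro σ hσ σ' hσ' hx
      simp only [Finset.coe_filter, Set.mem_ofPred_eq, Finset.mem_filter] at hσ hσ'
      exact ls_inj D hx (hσ.2.trans hσ'.2.symm)
  exact_mod_cast h2

/-! ### one-link counts of the relaxed systems -/

/-- capacities on the relaxation list -/
def mm (T : MP3.Forest E) (m : E → ℕ) (p : E × E) : ℕ :=
  if T.par p.1 = some p.2 then m p.1 else m p.2

theorem par_asymm (T : MP3.Forest E) {a b : E} (h : T.par a = some b) : T.par b ≠ some a := by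
  intro h'
  have h1 := T.dep_lt _ _ h
  have h2 := T.dep_lt _ _ h'
  omega

theorem sum_nearL (T : MP3.Forest E) (B m : E → ℕ) (k : ℝ) (l : List E) :
    ((nearL T B l).map fun p => k / mm T m p).sum =
      (l.map fun a => if T.par a = none then 0 else 2 * (B a * (k / m a))).sum := by
  induction l with
  | nil => rfl
  | cons a l ih =>
    have e : nearL T B (a :: l) = (match T.par a with
      | none => []
      | some b => List.replicate (B a) (a, b) ++ List.replicate (B a) (b, a)) ++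
        nearL T B l := rfl
    rw [e, List.map_append, List.sum_append, ih, List.map_cons, List.sum_cons]
    congr 1
    rcases hb : T.par a with _ | b
    · simp
    · have h1 : mm T m (a, b) = m a := by simp [mm, hb]
      have h2 : mm T m (b, a) = m a := by simp [mm, par_asymm T hb]
      simp only [List.map_append, List.map_replicate, List.sum_append, List.sum_replicate, h1, h2]
      simp
      ring

/-- the growth constant of the relaxation is at most `2` -/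
theorem exp_nearL_le {T₁ T₂ : MP3.Forest E} {B₁ B₂ m₁ m₂ : E → ℕ}
    (h₁ : ∀ a, T₁.par a ≠ none → 64 * Fintype.card E * kap (Fintype.card E) * B₁ a ≤ m₁ a)
    (h₂ : ∀ a, T₂.par a ≠ none → 64 * Fintype.card E * kap (Fintype.card E) * B₂ a ≤ m₂ a) :
    Real.exp (((nearL T₁ B₁ univ.toList).map fun p =>
        8 * (kap (Fintype.card E) : ℝ) / mm T₁ m₁ p).sum +
      ((nearL T₂ B₂ univ.toList).map fun p =>
        8 * (kap (Fintype.card E) : ℝ) / mm T₂ m₂ p).sum) ≤ 2 := by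
  set n := Fintype.card E with hn
  have key : ∀ (T : MP3.Forest E) (B m : E → ℕ),
      (∀ a, T.par a ≠ none → 64 * n * kap n * B a ≤ m a) →
      ((nearL T B univ.toList).map fun p => 8 * (kap n : ℝ) / mm T m p).sum ≤ 1 / 4 := by
    intro T B m h
    rw [sum_nearL, Finset.sum_map_toList]
    calc ∑ a, (if T.par a = none then (0 : ℝ) else 2 * (B a * (8 * (kap n : ℝ) / m a)))
        ≤ ∑ _a : E, 1 / (4 * (n : ℝ)) := by
          refine Finset.sum_le_sum fun a _ => ?_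
          have hn0 : 0 < n := by rw [hn]; exact Fintype.card_pos_iff.2 ⟨a⟩
          have hn' : (0 : ℝ) < n := by exact_mod_cast hn0
          split_ifs with hp
          · positivity
          · have h1 := h a hp
            have h1' : 64 * (n : ℝ) * kap n * B a ≤ m a := by exact_mod_cast h1
            rcases Nat.eq_zero_or_pos (m a) with h0 | h0
            · rw [h0]; simp
            · have h0' : (0 : ℝ) < m a := by exact_mod_cast h0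
              rw [le_div_iff₀ (by positivity)]
              have : 2 * (↑(B a) * (8 * ↑(kap n) / ↑(m a))) * (4 * (n : ℝ)) =
                  (64 * (n : ℝ) * kap n * B a) / m a := by
                field_simp
                ring
              rw [this, div_le_one h0']
              exact h1'
      _ ≤ 1 / 4 := by
          rw [Finset.sum_const, Finset.card_univ, ← hn, nsmul_eq_mul]
          rcases Nat.eq_zero_or_pos n with h0 | h0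
          · rw [h0]; norm_num
          · have h0' : (0 : ℝ) < n := by exact_mod_cast h0
            have : (n : ℝ) * (1 / (4 * n)) = 1 / 4 := by field_simp
            rw [this]
  have k1 := key T₁ B₁ m₁ h₁
  have k2 := key T₂ B₂ m₂ h₂
  have h3 : Real.exp (1 / 2) ≤ 2 := by
    have h := Real.exp_one_lt_d9
    have h4 : Real.exp (1 / 2) ^ 2 = Real.exp 1 := by rw [← Real.exp_nat_mul]; norm_num
    have h5 : (0 : ℝ) < Real.exp (1 / 2) := Real.exp_pos _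
    nlinarith
  refine (Real.exp_le_exp.2 ?_).trans h3
  linarith

/-- **relaxed one-link counts** : at most twice the exact ones -/
theorem hc_relax_le {T₁ T₂ : MP3.Forest E} {B₁ B₂ m₁ m₂ : E → ℕ} {r₁ r₂ : Finset E → ℤ} {R : ℤ}
    (hr₁ : SubM r₁ R) (hr₂ : SubM r₂ R) {c : E → ℤ} (hc₁ : MemJ r₁ R c) (hc₂ : MemJ r₂ R c)
    {J₁ J₂ J₁' J₂' X : Finset (E → ℤ)}
    (hJ₁ : ∀ z, z ∈ J₁ ↔ MemJ r₁ R z) (hJ₂ : ∀ z, z ∈ J₂ ↔ MemJ r₂ R z)
    (hJ₁' : ∀ z, z ∈ J₁' → MemJ (relaxL r₁ (nearL T₁ B₁ univ.toList)) R z)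
    (hJ₂' : ∀ z, z ∈ J₂' → MemJ (relaxL r₂ (nearL T₂ B₂ univ.toList)) R z)
    (hB₁ : ∀ a, T₁.par a ≠ none → 64 * Fintype.card E * kap (Fintype.card E) * B₁ a ≤ m₁ a)
    (hB₂ : ∀ a, T₂.par a ≠ none → 64 * Fintype.card E * kap (Fintype.card E) * B₂ a ≤ m₂ a)
    {h₀ : ℕ}
    (hm₁ : ∀ a b, T₁.par a = some b → 8 * kap (Fintype.card E) ≤ m₁ a ∧
      2 * (4 * Fintype.card E + 2) * h₀ ≤ m₁ a ∧
      ∀ A, (a ∈ A ∧ b ∉ A ∨ b ∈ A ∧ a ∉ A) → (m₁ a : ℤ) ≤ slk r₁ c A)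
    (hm₂ : ∀ a b, T₂.par a = some b → 8 * kap (Fintype.card E) ≤ m₂ a ∧
      2 * (4 * Fintype.card E + 2) * h₀ ≤ m₂ a ∧
      ∀ A, (a ∈ A ∧ b ∉ A ∨ b ∈ A ∧ a ∉ A) → (m₂ a : ℤ) ≤ slk r₂ c A)
    (γ : E ⊕ E → ℤ) (hγ : ∑ t, |γ t| ≤ h₀) :
    hc X J₁' J₂' γ ≤ 2 * linkCount J₁ J₂ (fun e => -γ (Sum.inl e)) (fun e => γ (Sum.inr e)) := by
  classical
  have hcap : ∀ (T : MP3.Forest E) (B m : E → ℕ) (r : Finset E → ℤ),
      (∀ a b, T.par a = some b → 8 * kap (Fintype.card E) ≤ m a ∧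
        2 * (4 * Fintype.card E + 2) * h₀ ≤ m a ∧
        ∀ A, (a ∈ A ∧ b ∉ A ∨ b ∈ A ∧ a ∉ A) → (m a : ℤ) ≤ slk r c A) →
      ∀ p ∈ nearL T B univ.toList, p.1 ≠ p.2 ∧ 8 * kap (Fintype.card E) ≤ mm T m p ∧
        2 * (4 * Fintype.card E + 2) * h₀ ≤ mm T m p ∧
        ∀ A, p.1 ∈ A → p.2 ∉ A → (mm T m p : ℤ) ≤ slk r c A := by
    intro T B m r h p hp
    obtain ⟨a, b, _, hab, hp⟩ := mem_nearL hp
    have hne : a ≠ b := by
      rintro rfl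
      exact absurd (T.dep_lt _ _ hab) (lt_irrefl _)
    obtain ⟨g1, g2, g3⟩ := h a b hab
    rcases hp with rfl | rfl
    · have e : mm T m (a, b) = m a := by simp [mm, hab]
      rw [e]
      exact ⟨hne, g1, g2, fun A h1 h2 => g3 A (Or.inl ⟨h1, h2⟩)⟩
    · have e : mm T m (b, a) = m a := by simp [mm, par_asymm T hab]
      rw [e]
      exact ⟨hne.symm, g1, g2, fun A h1 h2 => g3 A (Or.inr ⟨h1, h2⟩)⟩
  have hsum : ∑ v, |(fun e => -γ (Sum.inl e)) v| + ∑ v, |(fun e => γ (Sum.inr e)) v| ≤ (h₀ : ℤ) := by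
    simp only [abs_neg]
    rw [← Fintype.sum_sum_type (fun t => |γ t|)]
    exact hγ
  have h1 := relax_count hr₁ hr₂ hc₁ hc₂ J₁ J₂ hJ₁ hJ₂ (nearL T₁ B₁ univ.toList)
    (nearL T₂ B₂ univ.toList) (mm T₁ m₁) (mm T₂ m₂) h₀ (hcap T₁ B₁ m₁ r₁ hm₁)
    (hcap T₂ B₂ m₂ r₂ hm₂) (fun e => -γ (Sum.inl e)) (fun e => γ (Sum.inr e)) hsum
    (X.filter fun x => (x + fun e => γ (Sum.inl e)) ∈ J₁' ∧ (x - fun e => γ (Sum.inr e)) ∈ J₂')
    (fun x hx => by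
      obtain ⟨_, h2, h3⟩ := mem_filter.1 hx
      refine ⟨?_, ?_⟩
      · have := hJ₁' _ h2
        convert this using 1
        funext e
        simp
      · exact hJ₂' _ h3)
  have h2 := exp_nearL_le hB₁ hB₂
  unfold hc
  exact h1.trans (mul_le_mul_of_nonneg_right h2 (by positivity))

/-! ### the Lorentzian property of the hard counts -/

/-- indicator -/
noncomputable def ind (J : Finset (E → ℤ)) (z : E → ℤ) : ℝ := if z ∈ J then 1 else 0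

theorem hc_eq (X J₁ J₂ : Finset (E → ℤ)) : hc X J₁ J₂ = Gau.pairA X (ind J₁) (ind J₂) := by
  funext γ
  unfold hc Gau.pairA ind
  rw [Finset.cast_card, Finset.sum_filter]
  refine Finset.sum_congr rfl fun x _ => ?_
  by_cases h1 : (x + fun e => γ (Sum.inl e)) ∈ J₁ <;>
    by_cases h2 : (x - fun e => γ (Sum.inr e)) ∈ J₂ <;> simp [h1, h2]

theorem Lz_hc {r₁ r₂ : Finset E → ℤ} {R : ℤ} (hr₁ : SubM r₁ R) (hr₂ : SubM r₂ R)
    {J₁ J₂ : Finset (E → ℤ)} (hJ₁ : ∀ z, z ∈ J₁ ↔ MemJ r₁ R z) (hJ₂ : ∀ z, z ∈ J₂ ↔ MemJ r₂ R z)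
    (lo : E → ℤ) (m : E → ℕ) :
    Lor.Lz 0 (hc (Fintype.piFinset fun e => Icc (lo e) (lo e + m e)) J₁ J₂) ∧
      ∃ C, ∀ g, hc (Fintype.piFinset fun e => Icc (lo e) (lo e + m e)) J₁ J₂ g ≤ C := by
  rw [hc_eq]
  refine Gau.Lz_pair (R := R) ?_ ?_ (C₁ := 1) (C₂ := 1) ?_ ?_ lo m
  · exact Lor.Lz.memJ hr₁ (fun z hz => by unfold ind; rw [if_pos ((hJ₁ z).2 hz)])
      (fun z hz => by unfold ind; rw [if_neg (fun h => hz ((hJ₁ z).1 h))])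
  · have := Lor.Lz.memJ_reflect hr₂ 0 (c := fun p => ind J₂ (-p))
      (fun z hz => by rw [zero_sub] at hz; unfold ind; rw [if_pos ((hJ₂ _).2 hz)])
      (fun z hz => by rw [zero_sub] at hz; unfold ind; rw [if_neg (fun h => hz ((hJ₂ _).1 h))])
    simpa using this
  · intro p; unfold ind; split_ifs <;> norm_num
  · intro p; unfold ind; split_ifs <;> norm_num

end Crest.Agent.R302.Mass4
end

-- ▼ part R302/Mass425C
section

/-!
# R302 (helper425), MASS4, part C: the mass of the small acceptance region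

* `near_mass` : the explicit mass of the near states is at most `4 Z`;
* `hard_sum` : the hard link mass is at most `2 Z`;
* `mass4` : `∑_{FG < δ} nuG ≤ 4 δ Z + (mass of many links) + 4 n ε A ^ (2 n) Z`.
-/

set_option autoImplicit false
set_option linter.unusedSectionVars false

namespace Crest.Agent.R302.Mass4

open Finset Crest.Agent.R302.Facet Crest.Agent.R302.Tail907 Crest.Agent.R302.Stage
open Crest.Agent.R302.Inst hiding kap tok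
open Crest.Agent.R302.Lor (mon)
open Crest.Agent.R302.Gau (Lk el wt sv bx1)

variable {E : Type*} [Fintype E] [DecidableEq E]

/-- the geometry of one side -/
structure Geo (S : Side E) (r : Finset E → ℤ) (R : ℤ) (c : E → ℤ) (m B : E → ℕ) (h₀ : ℕ) :
    Prop where
  sub : SubM r R
  cen : MemJ r R c
  J : ∀ z, z ∈ S.J ↔ MemJ r R z
  cap : ∀ a b, S.T.par a = some b → 8 * kap (Fintype.card E) ≤ m a ∧
    2 * (4 * Fintype.card E + 2) * h₀ ≤ m a ∧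
    ∀ A, (a ∈ A ∧ b ∉ A ∨ b ∈ A ∧ a ∉ A) → (m a : ℤ) ≤ slk r c A
  small : ∀ a, S.T.par a ≠ none → 64 * Fintype.card E * kap (Fintype.card E) * B a ≤ m a

theorem linkCount_congr (J₁ J₂ : Finset (E → ℤ)) {s₁ s₂ t₁ t₂ : E → ℤ}
    (h : ∀ v, s₁ v - s₂ v = t₁ v - t₂ v) : linkCount J₁ J₂ s₁ s₂ = linkCount J₁ J₂ t₁ t₂ := by
  unfold linkCount
  congr 1
  apply filter_congr
  intro z _
  have : (fun v => z v + s₁ v - s₂ v) = (fun v => z v + t₁ v - t₂ v) := by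
    funext v
    have := h v
    linarith
  rw [this]

/-- sum of the two places of a token -/
theorem tok_sum (D : SD E) (i : Lk D) (e : E) :
    Lor.ev (Gau.tok D i) (Sum.inl e) + Lor.ev (Gau.tok D i) (Sum.inr e) = Lor.ev (el D i) e := by
  rcases i with r | r
  · have a1 : Lor.ev (Gau.tok D (Sum.inl r)) (Sum.inr e) = 0 := Lor.ev_ne (by simp [Gau.tok])
    have a2 : Lor.ev (Gau.tok D (Sum.inl r)) (Sum.inl e) = Lor.ev (r : E) e :=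
      Gau.ev_inl_apply _ _
    rw [a1, a2, add_zero]; rfl
  · have a1 : Lor.ev (Gau.tok D (Sum.inr r)) (Sum.inl e) = 0 := Lor.ev_ne (by simp [Gau.tok])
    have a2 : Lor.ev (Gau.tok D (Sum.inr r)) (Sum.inr e) = Lor.ev (r : E) e :=
      Gau.ev_inr_apply _ _
    rw [a1, a2, zero_add]; rfl

theorem linkCount_tok (D : SD E) (J₁ J₂ : Finset (E → ℤ)) (i j : Lk D) :
    linkCount J₁ J₂ (fun e => -(Lor.ev (Gau.tok D i) - Lor.ev (Gau.tok D j)) (Sum.inl e))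
      (fun e => (Lor.ev (Gau.tok D i) - Lor.ev (Gau.tok D j)) (Sum.inr e)) =
    hardN J₁ J₂ (Lor.ev (el D i)) (Lor.ev (el D j)) := by
  rw [hardN_eq]
  apply linkCount_congr
  intro v
  have h1 := tok_sum D i v
  have h2 := tok_sum D j v
  simp only [Pi.sub_apply]
  linarith

theorem sum_abs_tok (D : SD E) (i j : Lk D) :
    ∑ t, |(Lor.ev (Gau.tok D i) - Lor.ev (Gau.tok D j)) t| ≤ 2 := by
  have h1 : ∀ a : E ⊕ E, ∑ t, |Lor.ev a t| = (1 : ℤ) := by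
    intro a
    rw [Finset.sum_eq_single a]
    · simp [Lor.ev]
    · intro b _ hb
      have : Lor.ev a b = 0 := Lor.ev_ne (Ne.symm hb)
      rw [this, abs_zero]
    · intro h; exact absurd (mem_univ _) h
  calc ∑ t, |(Lor.ev (Gau.tok D i) - Lor.ev (Gau.tok D j)) t|
      ≤ ∑ t, (|Lor.ev (Gau.tok D i) t| + |Lor.ev (Gau.tok D j) t|) :=
        Finset.sum_le_sum fun t _ => abs_sub _ _
    _ = 2 := by rw [Finset.sum_add_distrib, h1, h1]; norm_num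

/-- link sum of a pair of base polytopes over a window -/
theorem hc_sum_le {D : SD E} {r₁ r₂ : Finset E → ℤ} {R : ℤ} (hr₁ : SubM r₁ R) (hr₂ : SubM r₂ R)
    {J₁ J₂ : Finset (E → ℤ)} (hJ₁ : ∀ z, z ∈ J₁ ↔ MemJ r₁ R z) (hJ₂ : ∀ z, z ∈ J₂ ↔ MemJ r₂ R z)
    (lo : E → ℤ) (w : E → ℕ) {Z Γ : ℝ}
    (hpos : 0 < hc (Fintype.piFinset fun e => Icc (lo e) (lo e + w e)) J₁ J₂ 0)
    (hZ : Z ≤ hc (Fintype.piFinset fun e => Icc (lo e) (lo e + w e)) J₁ J₂ 0) (hΓ : 0 ≤ Γ)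
    (hone : ∀ i j : Lk D, wt D i / wt D j * hc (Fintype.piFinset fun e => Icc (lo e) (lo e + w e))
      J₁ J₂ (Lor.ev (Gau.tok D i) - Lor.ev (Gau.tok D j)) ≤ Γ * Z)
    (hq : D.θ ^ 2 * (Γ * Fintype.card (Lk D) ^ 2) ≤ 1 / 2) (F : Finset (Lk D → ℤ)) :
    ∑ s ∈ F, D.θ ^ (∑ i, (s i).natAbs) * (∏ i, wt D i ^ s i) *
      hc (Fintype.piFinset fun e => Icc (lo e) (lo e + w e)) J₁ J₂
        (∑ i, s i • Lor.ev (Gau.tok D i)) ≤
      2 * hc (Fintype.piFinset fun e => Icc (lo e) (lo e + w e)) J₁ J₂ 0 := by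
  classical
  obtain ⟨hL, C, hC⟩ := Lz_hc hr₁ hr₂ hJ₁ hJ₂ lo w
  set X := Fintype.piFinset fun e => Icc (lo e) (lo e + w e) with hX
  have hK : ∑ i : Lk D, ∑ j : Lk D, wt D i / wt D j *
      hc X J₁ J₂ (Lor.ev (Gau.tok D i) - Lor.ev (Gau.tok D j)) ≤
      (Γ * Fintype.card (Lk D) ^ 2) * hc X J₁ J₂ 0 := by
    calc _ ≤ ∑ _i : Lk D, ∑ _j : Lk D, Γ * Z :=
          Finset.sum_le_sum fun i _ => Finset.sum_le_sum fun j _ => hone i j
      _ = (Γ * Fintype.card (Lk D) ^ 2) * Z := by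
          rw [Finset.sum_const, Finset.sum_const, Finset.card_univ, nsmul_eq_mul, nsmul_eq_mul]
          ring
      _ ≤ _ := mul_le_mul_of_nonneg_left hZ (by positivity)
  have h1 := Gau.link_mass hL hC hpos (Gau.tok D) (Gau.wt_pos D) hK (Gau.θ_pos D).le
    (lt_of_le_of_lt hq (by norm_num)) 0 F (fun _ _ => Nat.zero_le _)
  refine h1.trans ?_
  rw [pow_zero]
  refine mul_le_mul_of_nonneg_right ?_ hpos.le
  rw [div_le_iff₀ (by linarith)]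
  linarith

variable {D : SD E} {r₁ r₂ : Finset E → ℤ} {R : ℤ} {c : E → ℤ} {m₁ m₂ B₁ B₂ : E → ℕ} {h₀ : ℕ}

/-- number of the hard common points -/
noncomputable def Zc (D : SD E) : ℝ := ((D.S₁.J ∩ D.S₂.J).card : ℝ)

theorem linkCount_zero (J₁ J₂ : Finset (E → ℤ)) (s : E → ℤ) :
    linkCount J₁ J₂ s s = (J₁ ∩ J₂).card := by
  unfold linkCount
  congr 1
  ext z
  simp

theorem Zc_pos (G₁ : Geo D.S₁ r₁ R c m₁ B₁ h₀) (G₂ : Geo D.S₂ r₂ R c m₂ B₂ h₀) : 0 < Zc D := by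
  unfold Zc
  have : 0 < (D.S₁.J ∩ D.S₂.J).card := card_pos.2 ⟨c, mem_inter.2 ⟨(G₁.J c).2 G₁.cen, (G₂.J c).2 G₂.cen⟩⟩
  exact_mod_cast this

open Classical in
/-- **the near mass** -/
theorem near_mass (hw : ∀ β, D.w β = 0)
    (g₁ : Side.Gauge D.S₁ D.μ) (g₂ : Side.Gauge D.S₂ D.μ)
    (G₁ : Geo D.S₁ r₁ R c m₁ B₁ h₀) (G₂ : Geo D.S₂ r₂ R c m₂ B₂ h₀) (hh : 2 ≤ h₀)
    (hX : ∀ z ∈ D.S₁.J, z ∈ D.S₂.J → z ∈ bx1 D) {Γ : ℝ} (hΓ : 0 ≤ Γ)
    (hG : ∀ i j : Lk D, (hardN D.S₁.J D.S₂.J (Lor.ev (el D i)) (Lor.ev (el D j)) : ℝ) *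
      D.μ (el D i) ≤ Γ * Zc D * D.μ (el D j))
    (hq : D.θ ^ 2 * (2 * Γ * Fintype.card (Lk D) ^ 2) ≤ 1 / 2) :
    ∑ σ ∈ D.bx.filter (fun σ => NearSt D B₁ B₂ σ), D.u σ ≤ 4 * Zc D := by
  obtain ⟨J₁', hJ₁'⟩ := exists_finset (r₁ := relaxL r₁ (nearL D.S₁.T B₁ univ.toList))
    (r₂ := relaxL r₁ (nearL D.S₁.T B₁ univ.toList)) (R := R) (relaxL_subM G₁.sub _)
  obtain ⟨J₂', hJ₂'⟩ := exists_finset (r₁ := relaxL r₂ (nearL D.S₂.T B₂ univ.toList))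
    (r₂ := relaxL r₂ (nearL D.S₂.T B₂ univ.toList)) (R := R) (relaxL_subM G₂.sub _)
  simp only [and_self] at hJ₁' hJ₂'
  obtain ⟨F, hF⟩ := near_le (X := bx1 D) hw g₁ g₂ G₁.J G₂.J (fun z hz => (hJ₁' z).2 hz)
    (fun z hz => (hJ₂' z).2 hz) (fun σ hσ => by
      unfold SD.bx at hσ
      exact (Finset.mem_product.1 hσ).1)
  refine hF.trans ?_
  have hle : ∀ γ : E ⊕ E → ℤ, ∑ t, |γ t| ≤ h₀ → hc (bx1 D) J₁' J₂' γ ≤
      2 * linkCount D.S₁.J D.S₂.J (fun e => -γ (Sum.inl e)) (fun e => γ (Sum.inr e)) :=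
    fun γ hγ => hc_relax_le (T₁ := D.S₁.T) (T₂ := D.S₂.T) G₁.sub G₂.sub G₁.cen G₂.cen G₁.J G₂.J
      (fun z hz => (hJ₁' z).1 hz) (fun z hz => (hJ₂' z).1 hz) G₁.small G₂.small G₁.cap G₂.cap γ hγ
  -- the window contains the hard points
  have hZ : Zc D ≤ hc (bx1 D) J₁' J₂' 0 := by
    unfold Zc hc
    have : (D.S₁.J ∩ D.S₂.J).card ≤ ((bx1 D).filter fun x =>
        (x + fun e => (0 : E ⊕ E → ℤ) (Sum.inl e)) ∈ J₁' ∧
        (x - fun e => (0 : E ⊕ E → ℤ) (Sum.inr e)) ∈ J₂').card := by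
      apply card_le_card
      intro z hz
      obtain ⟨h1, h2⟩ := mem_inter.1 hz
      rw [mem_filter]
      have e1 : (z + fun e => (0 : E ⊕ E → ℤ) (Sum.inl e)) = z := by funext e; simp
      have e2 : (z - fun e => (0 : E ⊕ E → ℤ) (Sum.inr e)) = z := by funext e; simp
      rw [e1, e2]
      have hrel : ∀ (r : Finset E → ℤ) (L : List (E × E)), MemJ r R z → MemJ (relaxL r L) R z :=
        fun r L h => ⟨fun A => (h.1 A).trans (le_relaxL r L A), h.2⟩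
      exact ⟨hX z h1 h2, (hJ₁' z).2 (hrel _ _ ((G₁.J z).1 h1)),
        (hJ₂' z).2 (hrel _ _ ((G₂.J z).1 h2))⟩
    exact_mod_cast this
  have hpos : 0 < hc (bx1 D) J₁' J₂' 0 := (Zc_pos G₁ G₂).trans_le hZ
  have h0 : hc (bx1 D) J₁' J₂' 0 ≤ 2 * Zc D := by
    have h1 := hle 0 (by simp)
    have h2 : linkCount D.S₁.J D.S₂.J (fun e => -(0 : E ⊕ E → ℤ) (Sum.inl e))
        (fun e => (0 : E ⊕ E → ℤ) (Sum.inr e)) = (D.S₁.J ∩ D.S₂.J).card := by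
      rw [← linkCount_zero D.S₁.J D.S₂.J 0]
      apply linkCount_congr
      intro v; simp
    rw [h2] at h1
    exact h1
  have hone : ∀ i j : Lk D, wt D i / wt D j *
      hc (bx1 D) J₁' J₂' (Lor.ev (Gau.tok D i) - Lor.ev (Gau.tok D j)) ≤ 2 * Γ * Zc D := by
    intro i j
    have h1 := hle (Lor.ev (Gau.tok D i) - Lor.ev (Gau.tok D j))
      ((sum_abs_tok D i j).trans (by exact_mod_cast hh))
    rw [linkCount_tok] at h1
    have h2 := hG i j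
    have p1 : 0 < D.μ (el D j) := μ_pos D _
    have p2 : 0 < D.μ (el D i) := μ_pos D _
    calc wt D i / wt D j * hc (bx1 D) J₁' J₂' (Lor.ev (Gau.tok D i) - Lor.ev (Gau.tok D j))
        ≤ D.μ (el D i) / D.μ (el D j) *
          (2 * hardN D.S₁.J D.S₂.J (Lor.ev (el D i)) (Lor.ev (el D j))) :=
          mul_le_mul_of_nonneg_left h1 (div_pos p2 p1).le
      _ = 2 * ((hardN D.S₁.J D.S₂.J (Lor.ev (el D i)) (Lor.ev (el D j)) : ℝ) *
          D.μ (el D i)) / D.μ (el D j) := by ring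
      _ ≤ 2 * (Γ * Zc D * D.μ (el D j)) / D.μ (el D j) := by
          apply div_le_div_of_nonneg_right _ p1.le
          linarith
      _ = 2 * Γ * Zc D := by field_simp
  rw [Gau.bx1_eq] at hpos hZ hone h0 ⊢
  have h1 := hc_sum_le (D := D) (relaxL_subM G₁.sub _) (relaxL_subM G₂.sub _) hJ₁' hJ₂'
    (fun e => D.c e - D.M) (fun _ => 2 * D.M) hpos hZ (by positivity) hone hq F
  linarith

/-- the weight of a pair of link vectors -/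
noncomputable def Gf (D : SD E) (s₁ s₂ : E → ℤ) : ℝ :=
  D.θ ^ (∑ v, (s₁ v).natAbs + ∑ v, (s₂ v).natAbs) *
    ((∏ v, D.μ v ^ s₁ v) * ∏ v, D.μ v ^ (-s₂ v))

theorem Gf_nonneg (D : SD E) (s₁ s₂ : E → ℤ) : 0 ≤ Gf D s₁ s₂ := by
  unfold Gf
  exact mul_nonneg (pow_nonneg (Gau.θ_pos D).le _) (mul_nonneg
    (prod_nonneg fun v _ => zpow_nonneg (μ_pos D v).le _)
    (prod_nonneg fun v _ => zpow_nonneg (μ_pos D v).le _))

/-- restriction of a pair of link vectors to the tokens -/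
def toLk (D : SD E) (s₁ s₂ : E → ℤ) : Lk D → ℤ := Sum.elim (fun r => s₁ r) (fun r => -s₂ r)

theorem Gf_toLk {s₁ s₂ : E → ℤ} (h₁ : ∀ v, D.S₁.T.par v ≠ none → s₁ v = 0)
    (h₂ : ∀ v, D.S₂.T.par v ≠ none → s₂ v = 0) :
    Gf D s₁ s₂ = D.θ ^ (∑ i, (toLk D s₁ s₂ i).natAbs) * ∏ i, wt D i ^ toLk D s₁ s₂ i := by
  unfold Gf
  rw [Fintype.sum_sum_type, Fintype.prod_sum_type]
  have a1 : ∑ v, (s₁ v).natAbs = ∑ r : D.S₁.Blk, (s₁ r).natAbs := by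
    rw [← Finset.sum_subtype (p := fun a => D.S₁.T.par a = none)
      (univ.filter (fun a => D.S₁.T.par a = none)) (fun a => by simp) (fun a => (s₁ a).natAbs)]
    symm
    apply Finset.sum_subset (Finset.filter_subset _ _)
    intro v _ hv
    rw [h₁ v (by simpa using hv)]; rfl
  have a2 : ∑ v, (s₂ v).natAbs = ∑ r : D.S₂.Blk, (s₂ r).natAbs := by
    rw [← Finset.sum_subtype (p := fun a => D.S₂.T.par a = none)
      (univ.filter (fun a => D.S₂.T.par a = none)) (fun a => by simp) (fun a => (s₂ a).natAbs)]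
    symm
    apply Finset.sum_subset (Finset.filter_subset _ _)
    intro v _ hv
    rw [h₂ v (by simpa using hv)]; rfl
  have a3 : ∏ v, D.μ v ^ s₁ v = ∏ r : D.S₁.Blk, D.μ r ^ s₁ r := by
    rw [← Finset.prod_subtype (p := fun a => D.S₁.T.par a = none)
      (univ.filter (fun a => D.S₁.T.par a = none)) (fun a => by simp) (fun a => D.μ a ^ s₁ a)]
    symm
    apply Finset.prod_subset (Finset.filter_subset _ _)
    intro v _ hv
    rw [h₁ v (by simpa using hv), zpow_zero]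
  have a4 : ∏ v, D.μ v ^ (-s₂ v) = ∏ r : D.S₂.Blk, D.μ r ^ (-s₂ r) := by
    rw [← Finset.prod_subtype (p := fun a => D.S₂.T.par a = none)
      (univ.filter (fun a => D.S₂.T.par a = none)) (fun a => by simp) (fun a => D.μ a ^ (-s₂ a))]
    symm
    apply Finset.prod_subset (Finset.filter_subset _ _)
    intro v _ hv
    rw [h₂ v (by simpa using hv), neg_zero, zpow_zero]
  rw [a1, a2, a3, a4]
  congr 3
  exact Finset.sum_congr rfl fun r _ => (Int.natAbs_neg _).symm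

theorem toLk_sum {s₁ s₂ : E → ℤ} (h₁ : ∀ v, D.S₁.T.par v ≠ none → s₁ v = 0)
    (h₂ : ∀ v, D.S₂.T.par v ≠ none → s₂ v = 0) :
    (fun e => (∑ i, toLk D s₁ s₂ i • Lor.ev (Gau.tok D i)) (Sum.inl e)) = s₁ ∧
    (fun e => (∑ i, toLk D s₁ s₂ i • Lor.ev (Gau.tok D i)) (Sum.inr e)) = -s₂ := by
  have key : ∀ (T : MP3.Forest E) (s : E → ℤ) (e : E), (∀ v, T.par v ≠ none → s v = 0) →
      ∑ r : {a : E // T.par a = none}, s r * Lor.ev (r : E) e = s e := by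
    intro T s e h
    by_cases he : T.par e = none
    · rw [Finset.sum_eq_single (⟨e, he⟩ : {a : E // T.par a = none})]
      · simp [Lor.ev]
      · intro r _ hr
        have : Lor.ev (r : E) e = 0 := Lor.ev_ne (fun h' => hr (Subtype.ext h'))
        rw [this, mul_zero]
      · intro h'; exact absurd (mem_univ _) h'
    · rw [h e he]
      apply Finset.sum_eq_zero
      intro r _
      have : Lor.ev (r : E) e = 0 := Lor.ev_ne (fun h' => he (h' ▸ r.2))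
      rw [this, mul_zero]
  constructor
  · funext e
    rw [Fintype.sum_sum_type, Pi.add_apply, Finset.sum_apply, Finset.sum_apply]
    have h3 : ∑ i : D.S₂.Blk, (toLk D s₁ s₂ (Sum.inr i) • Lor.ev (Gau.tok D (Sum.inr i)))
        (Sum.inl e) = 0 := by
      refine Finset.sum_eq_zero fun i _ => ?_
      simp [Gau.tok, Lor.ev]
    rw [h3, add_zero, ← key D.S₁.T s₁ e h₁]
    refine Finset.sum_congr rfl fun i _ => ?_
    rw [Pi.smul_apply, smul_eq_mul]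
    congr 1
    exact Gau.ev_inl_apply _ _
  · funext e
    rw [Fintype.sum_sum_type, Pi.add_apply, Finset.sum_apply, Finset.sum_apply]
    have h3 : ∑ i : D.S₁.Blk, (toLk D s₁ s₂ (Sum.inl i) • Lor.ev (Gau.tok D (Sum.inl i)))
        (Sum.inr e) = 0 := by
      refine Finset.sum_eq_zero fun i _ => ?_
      simp [Gau.tok, Lor.ev]
    rw [h3, zero_add, Pi.neg_apply, ← key D.S₂.T s₂ e h₂, ← Finset.sum_neg_distrib]
    refine Finset.sum_congr rfl fun i _ => ?_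
    rw [Pi.smul_apply, smul_eq_mul]
    show -s₂ i * _ = _
    rw [neg_mul]
    congr 2
    exact Gau.ev_inr_apply _ _

theorem toLk_inj {s₁ s₂ t₁ t₂ : E → ℤ} (h₁ : ∀ v, D.S₁.T.par v ≠ none → s₁ v = 0)
    (h₂ : ∀ v, D.S₂.T.par v ≠ none → s₂ v = 0) (h₁' : ∀ v, D.S₁.T.par v ≠ none → t₁ v = 0)
    (h₂' : ∀ v, D.S₂.T.par v ≠ none → t₂ v = 0) (h : toLk D s₁ s₂ = toLk D t₁ t₂) :
    s₁ = t₁ ∧ s₂ = t₂ := by
  have a := toLk_sum h₁ h₂
  have b := toLk_sum h₁' h₂'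
  rw [h] at a
  exact ⟨a.1.symm.trans b.1, neg_injective (a.2.symm.trans b.2)⟩

theorem linkSet_zero {par : E → Option E} {h : ℕ} {s : E → ℤ} (hs : s ∈ linkSet par h) :
    ∀ v, par v ≠ none → s v = 0 := by
  intro v hv
  unfold linkSet at hs
  rw [Fintype.mem_piFinset] at hs
  have := hs v
  rw [if_neg hv, mem_singleton] at this
  exact this

/-- **the hard link mass** -/
theorem hard_sum (G₁ : Geo D.S₁ r₁ R c m₁ B₁ h₀) (G₂ : Geo D.S₂ r₂ R c m₂ B₂ h₀)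
    {Γ : ℝ} (hΓ : 0 ≤ Γ)
    (hG : ∀ i j : Lk D, (hardN D.S₁.J D.S₂.J (Lor.ev (el D i)) (Lor.ev (el D j)) : ℝ) *
      D.μ (el D i) ≤ Γ * Zc D * D.μ (el D j))
    (hq : D.θ ^ 2 * (Γ * Fintype.card (Lk D) ^ 2) ≤ 1 / 2) (h : ℕ) :
    ∑ s₁ ∈ linkSet D.S₁.T.par h, ∑ s₂ ∈ linkSet D.S₂.T.par h,
      gN D.S₁.J D.S₂.J (Gf D) h s₁ s₂ ≤ 2 * Zc D := by
  classical
  -- a large window
  obtain ⟨W, hW⟩ : ∃ W : ℕ, ∀ z ∈ D.S₁.J, ∀ e, |z e| + h ≤ W := by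
    refine ⟨(D.S₁.J.sup fun z => univ.sup fun e => (z e).natAbs) + h, fun z hz e => ?_⟩
    have h1 : (z e).natAbs ≤ D.S₁.J.sup fun z => univ.sup fun e => (z e).natAbs :=
      (Finset.le_sup (f := fun e => (z e).natAbs) (mem_univ e)).trans
        (Finset.le_sup (f := fun z : E → ℤ => univ.sup fun e => (z e).natAbs) hz)
    have h2 : |z e| = ((z e).natAbs : ℤ) := (Int.natCast_natAbs _).symm
    rw [h2]
    exact_mod_cast Nat.add_le_add_right h1 h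
  set X := Fintype.piFinset fun _ : E => Icc (-(W : ℤ)) (-(W : ℤ) + (2 * W : ℕ)) with hXdef
  have hmemX : ∀ x : E → ℤ, (∀ e, |x e| ≤ W) → x ∈ X := by
    intro x hx
    rw [hXdef, Fintype.mem_piFinset]
    intro e
    have := abs_le.1 (hx e)
    rw [mem_Icc]
    push_cast
    constructor <;> linarith [this.1, this.2]
  have hcl : ∀ γ : E ⊕ E → ℤ, hc X D.S₁.J D.S₂.J γ ≤
      linkCount D.S₁.J D.S₂.J (fun e => -γ (Sum.inl e)) (fun e => γ (Sum.inr e)) := by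
    intro γ
    unfold hc linkCount
    have : (X.filter fun x => (x + fun e => γ (Sum.inl e)) ∈ D.S₁.J ∧
        (x - fun e => γ (Sum.inr e)) ∈ D.S₂.J).card ≤
        (D.S₁.J.filter fun z => (fun v => z v + -γ (Sum.inl v) - γ (Sum.inr v)) ∈ D.S₂.J).card := by
      refine Finset.card_le_card_of_injOn (fun x => x + fun e => γ (Sum.inl e)) ?_ ?_
      · intro x hx
        simp only [Finset.coe_filter, Set.mem_ofPred_eq] at hx ⊢
        refine ⟨hx.2.1, ?_⟩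
        have := hx.2.2
        convert this using 1
        funext v
        simp
      · intro x _ y _ hxy
        exact add_left_injective _ hxy
    exact_mod_cast this
  have hcg : ∀ s₁ s₂ : E → ℤ, (∀ e, |s₁ e| ≤ (h : ℤ)) → ∀ γ : E ⊕ E → ℤ,
      (fun e => γ (Sum.inl e)) = s₁ → (fun e => γ (Sum.inr e)) = -s₂ →
      (hardN D.S₁.J D.S₂.J s₁ s₂ : ℝ) ≤ hc X D.S₁.J D.S₂.J γ := by
    intro s₁ s₂ hs γ h1 h2
    unfold hc hardN
    rw [h1, h2]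
    have : (D.S₁.J.filter fun z => (fun v => z v - s₁ v + s₂ v) ∈ D.S₂.J).card ≤
        (X.filter fun x => (x + s₁) ∈ D.S₁.J ∧ (x - -s₂) ∈ D.S₂.J).card := by
      refine Finset.card_le_card_of_injOn (fun z => z - s₁) ?_ ?_
      · intro z hz
        simp only [Finset.coe_filter, Set.mem_ofPred_eq] at hz ⊢
        refine ⟨hmemX _ fun e => ?_, ?_, ?_⟩
        · have g1 := hW z hz.1 e
          have g2 := hs e
          have g3 := abs_sub (z e) (s₁ e)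
          simp only [Pi.sub_apply]
          linarith
        · rw [sub_add_cancel]; exact hz.1
        · rw [sub_neg_eq_add]
          exact hz.2
      · intro x _ y _ hxy
        exact sub_left_injective hxy
    exact_mod_cast this
  have hZ : Zc D ≤ hc X D.S₁.J D.S₂.J 0 := by
    have h1 := hcg 0 0 (fun e => by simp) 0 rfl (by funext e; simp)
    have h2 : hardN D.S₁.J D.S₂.J 0 0 = (D.S₁.J ∩ D.S₂.J).card := by
      rw [hardN_eq, ← linkCount_zero D.S₁.J D.S₂.J 0]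
      apply linkCount_congr
      intro v; simp
    rw [h2] at h1
    exact h1
  have hpos : 0 < hc X D.S₁.J D.S₂.J 0 := (Zc_pos G₁ G₂).trans_le hZ
  have h0 : hc X D.S₁.J D.S₂.J 0 ≤ Zc D := by
    have h1 := hcl 0
    have h2 : linkCount D.S₁.J D.S₂.J (fun e => -(0 : E ⊕ E → ℤ) (Sum.inl e))
        (fun e => (0 : E ⊕ E → ℤ) (Sum.inr e)) = (D.S₁.J ∩ D.S₂.J).card := by
      rw [← linkCount_zero D.S₁.J D.S₂.J 0]
      apply linkCount_congr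
      intro v; simp
    rw [h2] at h1
    exact h1
  have hone : ∀ i j : Lk D, wt D i / wt D j *
      hc X D.S₁.J D.S₂.J (Lor.ev (Gau.tok D i) - Lor.ev (Gau.tok D j)) ≤ Γ * Zc D := by
    intro i j
    have h1 := hcl (Lor.ev (Gau.tok D i) - Lor.ev (Gau.tok D j))
    rw [linkCount_tok] at h1
    have h2 := hG i j
    have p1 : 0 < D.μ (el D j) := μ_pos D _
    have p2 : 0 < D.μ (el D i) := μ_pos D _
    calc wt D i / wt D j * hc X D.S₁.J D.S₂.J (Lor.ev (Gau.tok D i) - Lor.ev (Gau.tok D j))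
        ≤ D.μ (el D i) / D.μ (el D j) *
          (hardN D.S₁.J D.S₂.J (Lor.ev (el D i)) (Lor.ev (el D j))) :=
          mul_le_mul_of_nonneg_left h1 (div_pos p2 p1).le
      _ = ((hardN D.S₁.J D.S₂.J (Lor.ev (el D i)) (Lor.ev (el D j)) : ℝ) *
          D.μ (el D i)) / D.μ (el D j) := by ring
      _ ≤ (Γ * Zc D * D.μ (el D j)) / D.μ (el D j) := div_le_div_of_nonneg_right h2 p1.le
      _ = Γ * Zc D := by field_simp
  -- the sum over the link vectors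
  set P := linkSet D.S₁.T.par h ×ˢ linkSet D.S₂.T.par h with hP
  have hinj : Set.InjOn (fun p : (E → ℤ) × (E → ℤ) => toLk D p.1 p.2) (P : Set _) := by
    intro p hp q hq hpq
    rw [hP, Finset.mem_coe, mem_product] at hp hq
    obtain ⟨h3, h4⟩ := toLk_inj (linkSet_zero hp.1) (linkSet_zero hp.2) (linkSet_zero hq.1)
      (linkSet_zero hq.2) hpq
    exact Prod.ext h3 h4
  have h1 := hc_sum_le (D := D) G₁.sub G₂.sub G₁.J G₂.J (fun _ => -(W : ℤ)) (fun _ => 2 * W)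
    hpos hZ hΓ hone hq (P.image fun p => toLk D p.1 p.2)
  rw [Finset.sum_image hinj] at h1
  rw [← Finset.sum_product']
  refine le_trans (Finset.sum_le_sum fun p hp => ?_) (h1.trans (by linarith))
  rw [mem_product] at hp
  have z1 := linkSet_zero hp.1
  have z2 := linkSet_zero hp.2
  rw [← Gf_toLk z1 z2]
  unfold gN
  split_ifs with hs
  · refine mul_le_mul_of_nonneg_left ?_ (Gf_nonneg D _ _)
    refine hcg p.1 p.2 (fun e => ?_) _ (toLk_sum z1 z2).1 (toLk_sum z1 z2).2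
    have g1 : |p.1 e| ≤ ∑ v, |p.1 v| :=
      single_le_sum (f := fun v => |p.1 v|) (fun v _ => abs_nonneg _) (mem_univ e)
    have g2 : 0 ≤ ∑ v, |p.2 v| := sum_nonneg fun v _ => abs_nonneg _
    linarith
  · exact mul_nonneg (Gf_nonneg D _ _) (by unfold hc; positivity)

end Crest.Agent.R302.Mass4
end

-- ▼ part R302/Mass425D
section

/-!
# R302 (helper425), MASS4, part D: the far slacks and the final theorem
-/

set_option autoImplicit false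
set_option linter.unusedSectionVars false

namespace Crest.Agent.R302.Mass4

open Finset Crest.Agent.R302.Facet Crest.Agent.R302.Tail907 Crest.Agent.R302.Stage
open Crest.Agent.R302.Inst hiding kap tok
open Crest.Agent.R302.Lor (mon)
open Crest.Agent.R302.Gau (Lk el wt sv bx1)

variable {E : Type*} [Fintype E] [DecidableEq E]

theorem rootPart_bs {T : MP3.Forest E} {x z : E → ℤ} (v : E) (h : T.par v = none) :
    rootPart T.par (bs T (z - x)) v = bs T z v - bs T x v := by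
  rw [rootPart_apply_none h, bs_sub]

theorem rootPart_ne {T : MP3.Forest E} (τ : E → ℤ) :
    ∀ v, T.par v ≠ none → rootPart T.par τ v = 0 := fun _ hv => rootPart_apply_ne hv _

/-- the kernel product of one side -/
theorem fk_prod (S : Side E) (x : E → ℤ) (β : S.Blk → ℤ) (z : E → ℤ) :
    ∏ a, S.fk x β z a = if S.blk z = β then prodK S.T.par S.κ (bs S.T (z - x)) else 0 := by
  split_ifs with h
  · rw [prodK_eq]
    refine Finset.prod_congr rfl fun a _ => ?_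
    unfold Side.fk
    by_cases ha : S.T.par a = none
    · rw [dif_pos ha, if_pos ha, if_pos]
      exact congrFun h ⟨a, ha⟩
    · rw [dif_neg ha, if_neg ha, bs_sub]
  · exact fk_prod_eq_zero S x β z h

variable {D : SD E}

/-- the state of a triple -/
noncomputable def stz (D : SD E) (x z₁ z₂ : E → ℤ) : St D := (x, D.S₁.blk z₁, D.S₂.blk z₂)

theorem sv_stz (x z₁ z₂ : E → ℤ) : sv D (stz D x z₁ z₂) =
    toLk D (rootPart D.S₁.T.par (bs D.S₁.T (z₁ - x))) (rootPart D.S₂.T.par (bs D.S₂.T (z₂ - x))) := by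
  funext i
  rcases i with r | r
  · show bs D.S₁.T z₁ r - bs D.S₁.T x r = rootPart D.S₁.T.par (bs D.S₁.T (z₁ - x)) r
    rw [rootPart_bs _ r.2]
  · show -(bs D.S₂.T z₂ r - bs D.S₂.T x r) = -rootPart D.S₂.T.par (bs D.S₂.T (z₂ - x)) r
    rw [rootPart_bs _ r.2]

theorem u_stz (hw : ∀ β, D.w β = 0) (g₁ : Side.Gauge D.S₁ D.μ) (g₂ : Side.Gauge D.S₂ D.μ)
    (x z₁ z₂ : E → ℤ) : D.u (stz D x z₁ z₂) =
    Gf D (rootPart D.S₁.T.par (bs D.S₁.T (z₁ - x))) (rootPart D.S₂.T.par (bs D.S₂.T (z₂ - x))) := by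
  rw [u_eq D hw g₁ g₂, sv_stz, Gf_toLk (rootPart_ne _) (rootPart_ne _)]

theorem nlink_stz (x z₁ z₂ : E → ℤ) : nlink D.S₁.T D.S₂.T x z₁ z₂ =
    ((∑ i, (sv D (stz D x z₁ z₂) i).natAbs : ℕ) : ℤ) := by
  rw [sv_stz]
  unfold nlink
  rw [Fintype.sum_sum_type]
  have key : ∀ (T : MP3.Forest E) (τ : E → ℤ), ∑ v, |rootPart T.par τ v| =
      ∑ r : {a : E // T.par a = none}, |rootPart T.par τ r| := by
    intro T τ
    rw [← Finset.sum_subtype (p := fun a => T.par a = none)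
      (univ.filter (fun a => T.par a = none)) (fun a => by simp) (fun a => |rootPart T.par τ a|)]
    symm
    apply Finset.sum_subset (Finset.filter_subset _ _)
    intro v _ hv
    rw [rootPart_ne τ v (by simpa using hv), abs_zero]
  rw [key, key]
  push_cast [Int.natCast_natAbs]
  congr 1
  exact Finset.sum_congr rfl fun r _ => (abs_neg _).symm

/-- weight of a triple -/
theorem wt3_stz (hw : ∀ β, D.w β = 0) (g₁ : Side.Gauge D.S₁ D.μ) (g₂ : Side.Gauge D.S₂ D.μ)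
    (x z₁ z₂ : E → ℤ) : wt3 D.S₁.T D.S₂.T D.S₁.κ D.S₂.κ (Gf D) x z₁ z₂ =
    D.u (stz D x z₁ z₂) * (prodK D.S₁.T.par D.S₁.κ (bs D.S₁.T (z₁ - x)) *
      prodK D.S₂.T.par D.S₂.κ (bs D.S₂.T (z₂ - x))) := by
  unfold wt3
  rw [u_stz hw g₁ g₂]

section OK

variable (h : D.OK)

include h

/-- `ff` as a sum over the points with given block contents -/
theorem ff₁_eq (x : E → ℤ) (β : D.S₁.Blk → ℤ) : D.S₁.ff x β =
    ∑ z ∈ D.S₁.J, if D.S₁.blk z = β then prodK D.S₁.T.par D.S₁.κ (bs D.S₁.T (z - x)) else 0 := by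
  unfold Side.ff
  refine Finset.sum_congr rfl fun z _ => ?_
  rw [h.g₁, one_mul, fk_prod]

theorem ff₂_eq (x : E → ℤ) (β : D.S₂.Blk → ℤ) : D.S₂.ff x β =
    ∑ z ∈ D.S₂.J, if D.S₂.blk z = β then prodK D.S₂.T.par D.S₂.κ (bs D.S₂.T (z - x)) else 0 := by
  unfold Side.ff
  refine Finset.sum_congr rfl fun z _ => ?_
  rw [h.g₂, one_mul, fk_prod]

open Classical in
theorem nf₁_eq (B : E → ℕ) (x : E → ℤ) (β : D.S₁.Blk → ℤ) : nf D.S₁ B x β =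
    ∑ z ∈ D.S₁.J, if NearZ D.S₁.T B x z then
      (if D.S₁.blk z = β then prodK D.S₁.T.par D.S₁.κ (bs D.S₁.T (z - x)) else 0) else 0 := by
  unfold nf
  rw [Finset.sum_filter]
  refine Finset.sum_congr rfl fun z _ => ?_
  rw [h.g₁, one_mul, fk_prod]

open Classical in
theorem nf₂_eq (B : E → ℕ) (x : E → ℤ) (β : D.S₂.Blk → ℤ) : nf D.S₂ B x β =
    ∑ z ∈ D.S₂.J, if NearZ D.S₂.T B x z then
      (if D.S₂.blk z = β then prodK D.S₂.T.par D.S₂.κ (bs D.S₂.T (z - x)) else 0) else 0 := by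
  unfold nf
  rw [Finset.sum_filter]
  refine Finset.sum_congr rfl fun z _ => ?_
  rw [h.g₂, one_mul, fk_prod]

theorem prodK₁_nonneg (τ : E → ℤ) : 0 ≤ prodK D.S₁.T.par D.S₁.κ τ :=
  prodK_nonneg h.κ₁ τ

theorem prodK₂_nonneg (τ : E → ℤ) : 0 ≤ prodK D.S₂.T.par D.S₂.κ τ :=
  prodK_nonneg h.κ₂ τ

open Classical in
/-- `FG` as a double sum -/
theorem FG_double (σ : St D) : D.FG σ = ∑ z₁ ∈ D.S₁.J, ∑ z₂ ∈ D.S₂.J,
    if stz D σ.1 z₁ z₂ = σ then prodK D.S₁.T.par D.S₁.κ (bs D.S₁.T (z₁ - σ.1)) *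
      prodK D.S₂.T.par D.S₂.κ (bs D.S₂.T (z₂ - σ.1)) else 0 := by
  unfold SD.FG
  rw [ff₁_eq h, ff₂_eq h, Finset.sum_mul_sum]
  refine Finset.sum_congr rfl fun z₁ _ => Finset.sum_congr rfl fun z₂ _ => ?_
  have e : stz D σ.1 z₁ z₂ = σ ↔ D.S₁.blk z₁ = σ.2.1 ∧ D.S₂.blk z₂ = σ.2.2 := by
    constructor
    · intro hs
      exact ⟨congrArg (fun s : St D => s.2.1) hs, congrArg (fun s : St D => s.2.2) hs⟩
    · rintro ⟨h1, h2⟩
      exact Prod.ext rfl (Prod.ext h1 h2)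
  by_cases h1 : D.S₁.blk z₁ = σ.2.1 <;> by_cases h2 : D.S₂.blk z₂ = σ.2.2 <;> simp [e, h1, h2]

/-- a triple with a far slack -/
def Big (D : SD E) (B₁ B₂ : E → ℕ) (x z₁ z₂ : E → ℤ) : Prop :=
  ¬ (NearZ D.S₁.T B₁ x z₁ ∧ NearZ D.S₂.T B₂ x z₂)

open Classical in
/-- the far part as a double sum -/
theorem TG_double (B₁ B₂ : E → ℕ) (σ : St D) : TG D B₁ B₂ σ = ∑ z₁ ∈ D.S₁.J, ∑ z₂ ∈ D.S₂.J,
    if Big D B₁ B₂ σ.1 z₁ z₂ then (if stz D σ.1 z₁ z₂ = σ then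
      prodK D.S₁.T.par D.S₁.κ (bs D.S₁.T (z₁ - σ.1)) *
      prodK D.S₂.T.par D.S₂.κ (bs D.S₂.T (z₂ - σ.1)) else 0) else 0 := by
  have h1 := FG_eq D B₁ B₂ σ
  have h2 : nf D.S₁ B₁ σ.1 σ.2.1 * nf D.S₂ B₂ σ.1 σ.2.2 = ∑ z₁ ∈ D.S₁.J, ∑ z₂ ∈ D.S₂.J,
      if ¬ Big D B₁ B₂ σ.1 z₁ z₂ then (if stz D σ.1 z₁ z₂ = σ then
      prodK D.S₁.T.par D.S₁.κ (bs D.S₁.T (z₁ - σ.1)) *
      prodK D.S₂.T.par D.S₂.κ (bs D.S₂.T (z₂ - σ.1)) else 0) else 0 := by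
    rw [nf₁_eq h, nf₂_eq h, Finset.sum_mul_sum]
    refine Finset.sum_congr rfl fun z₁ _ => Finset.sum_congr rfl fun z₂ _ => ?_
    have e : stz D σ.1 z₁ z₂ = σ ↔ D.S₁.blk z₁ = σ.2.1 ∧ D.S₂.blk z₂ = σ.2.2 := by
      constructor
      · intro hs
        exact ⟨congrArg (fun s : St D => s.2.1) hs, congrArg (fun s : St D => s.2.2) hs⟩
      · rintro ⟨h1, h2⟩
        exact Prod.ext rfl (Prod.ext h1 h2)
    have hB : ¬ Big D B₁ B₂ σ.1 z₁ z₂ ↔ NearZ D.S₁.T B₁ σ.1 z₁ ∧ NearZ D.S₂.T B₂ σ.1 z₂ := by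
      unfold Big; exact not_not
    by_cases n1 : NearZ D.S₁.T B₁ σ.1 z₁ <;> by_cases n2 : NearZ D.S₂.T B₂ σ.1 z₂ <;>
      by_cases h1 : D.S₁.blk z₁ = σ.2.1 <;> by_cases h2 : D.S₂.blk z₂ = σ.2.2 <;>
      simp [e, h1, h2, n1, n2, hB]
  rw [FG_double h, h2] at h1
  have h3 : TG D B₁ B₂ σ = ∑ z₁ ∈ D.S₁.J, ∑ z₂ ∈ D.S₂.J,
      ((if stz D σ.1 z₁ z₂ = σ then prodK D.S₁.T.par D.S₁.κ (bs D.S₁.T (z₁ - σ.1)) *
        prodK D.S₂.T.par D.S₂.κ (bs D.S₂.T (z₂ - σ.1)) else 0) -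
      (if ¬ Big D B₁ B₂ σ.1 z₁ z₂ then (if stz D σ.1 z₁ z₂ = σ then
        prodK D.S₁.T.par D.S₁.κ (bs D.S₁.T (z₁ - σ.1)) *
        prodK D.S₂.T.par D.S₂.κ (bs D.S₂.T (z₂ - σ.1)) else 0) else 0)) := by
    simp only [Finset.sum_sub_distrib]
    linarith
  rw [h3]
  refine Finset.sum_congr rfl fun z₁ _ => Finset.sum_congr rfl fun z₂ _ => ?_
  by_cases hb : Big D B₁ B₂ σ.1 z₁ z₂ <;> simp [hb]

/-- exchange of the sums -/
theorem swap_sum (P : (E → ℤ) → (E → ℤ) → (E → ℤ) → Prop) [∀ x z₁ z₂, Decidable (P x z₁ z₂)]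
    (hw : ∀ β, D.w β = 0) (g₁ : Side.Gauge D.S₁ D.μ) (g₂ : Side.Gauge D.S₂ D.μ) :
    ∑ σ ∈ D.bx, D.u σ * (∑ z₁ ∈ D.S₁.J, ∑ z₂ ∈ D.S₂.J,
      if P σ.1 z₁ z₂ then (if stz D σ.1 z₁ z₂ = σ then
        prodK D.S₁.T.par D.S₁.κ (bs D.S₁.T (z₁ - σ.1)) *
        prodK D.S₂.T.par D.S₂.κ (bs D.S₂.T (z₂ - σ.1)) else 0) else 0) ≤
    ∑ x ∈ bx1 D, ∑ z₁ ∈ D.S₁.J, ∑ z₂ ∈ D.S₂.J,
      (if P x z₁ z₂ then wt3 D.S₁.T D.S₂.T D.S₁.κ D.S₂.κ (Gf D) x z₁ z₂ else 0) := by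
  classical
  unfold SD.bx
  rw [Finset.sum_product]
  refine Finset.sum_le_sum fun x _ => ?_
  simp only [Finset.mul_sum]
  rw [Finset.sum_comm]
  refine Finset.sum_le_sum fun z₁ _ => ?_
  rw [Finset.sum_comm]
  refine Finset.sum_le_sum fun z₂ _ => ?_
  by_cases hP : P x z₁ z₂
  · simp only [hP, if_true]
    rw [wt3_stz hw g₁ g₂]
    have hk : 0 ≤ prodK D.S₁.T.par D.S₁.κ (bs D.S₁.T (z₁ - x)) *
        prodK D.S₂.T.par D.S₂.κ (bs D.S₂.T (z₂ - x)) :=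
      mul_nonneg (prodK₁_nonneg h _) (prodK₂_nonneg h _)
    have e : ∀ y : (D.S₁.Blk → ℤ) × (D.S₂.Blk → ℤ), stz D x z₁ z₂ = (x, y) ↔
        y = (D.S₁.blk z₁, D.S₂.blk z₂) := by
      intro y
      unfold stz
      constructor
      · intro hs
        exact (Prod.ext_iff.1 hs).2.symm
      · rintro rfl; rfl
    calc ∑ y ∈ (Fintype.piFinset fun _ => Icc (-(D.Lb : ℤ)) D.Lb) ×ˢ
          (Fintype.piFinset fun _ => Icc (-(D.Lb : ℤ)) D.Lb), D.u (x, y) *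
          (if stz D x z₁ z₂ = (x, y) then prodK D.S₁.T.par D.S₁.κ (bs D.S₁.T (z₁ - x)) *
            prodK D.S₂.T.par D.S₂.κ (bs D.S₂.T (z₂ - x)) else 0)
        = ∑ y ∈ (Fintype.piFinset fun _ => Icc (-(D.Lb : ℤ)) D.Lb) ×ˢ
          (Fintype.piFinset fun _ => Icc (-(D.Lb : ℤ)) D.Lb),
          (if y = (D.S₁.blk z₁, D.S₂.blk z₂) then D.u (stz D x z₁ z₂) *
            (prodK D.S₁.T.par D.S₁.κ (bs D.S₁.T (z₁ - x)) *
            prodK D.S₂.T.par D.S₂.κ (bs D.S₂.T (z₂ - x))) else 0) := by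
          refine Finset.sum_congr rfl fun y _ => ?_
          by_cases hy : y = (D.S₁.blk z₁, D.S₂.blk z₂)
          · rw [if_pos ((e y).2 hy), if_pos hy, (e y).2 hy]
          · rw [if_neg (fun h' => hy ((e y).1 h')), if_neg hy, mul_zero]
      _ ≤ _ := by
          rw [Finset.sum_ite_eq']
          split_ifs
          · exact le_rfl
          · exact mul_nonneg (SD.u_pos _).le hk
  · simp only [hP, if_false, mul_zero, Finset.sum_const_zero]; exact le_rfl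

/-- the triples with many links -/
theorem many_links (hw : ∀ β, D.w β = 0) (g₁ : Side.Gauge D.S₁ D.μ) (g₂ : Side.Gauge D.S₂ D.μ)
    (hLb₁ : ∀ z ∈ D.S₁.J, ∀ r, |D.S₁.blk z r| ≤ D.Lb)
    (hLb₂ : ∀ z ∈ D.S₂.J, ∀ r, |D.S₂.blk z r| ≤ D.Lb) (k : ℕ) :
    ∑ x ∈ bx1 D, ∑ z₁ ∈ D.S₁.J, ∑ z₂ ∈ D.S₂.J,
      (if (k : ℤ) < nlink D.S₁.T D.S₂.T x z₁ z₂ then
        wt3 D.S₁.T D.S₂.T D.S₁.κ D.S₂.κ (Gf D) x z₁ z₂ else 0) ≤
    ∑ σ ∈ D.bx.filter (fun σ => k < ∑ i, (sv D σ i).natAbs), D.nuG σ := by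
  classical
  rw [Finset.sum_filter]
  unfold SD.bx
  rw [Finset.sum_product]
  refine Finset.sum_le_sum fun x _ => ?_
  set Y : Finset ((D.S₁.Blk → ℤ) × (D.S₂.Blk → ℤ)) :=
    (Fintype.piFinset fun _ => Icc (-(D.Lb : ℤ)) D.Lb) ×ˢ
      (Fintype.piFinset fun _ => Icc (-(D.Lb : ℤ)) D.Lb) with hY
  have e0 : ∀ y ∈ Y, (if k < ∑ i, (sv D (x, y) i).natAbs then D.nuG (x, y) else 0) =
      ∑ z₁ ∈ D.S₁.J, ∑ z₂ ∈ D.S₂.J, (if y = (D.S₁.blk z₁, D.S₂.blk z₂) then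
        (if (k : ℤ) < nlink D.S₁.T D.S₂.T x z₁ z₂ then
        wt3 D.S₁.T D.S₂.T D.S₁.κ D.S₂.κ (Gf D) x z₁ z₂ else 0) else 0) := by
    intro y _
    have e : ∀ z₁ z₂, stz D x z₁ z₂ = (x, y) ↔ y = (D.S₁.blk z₁, D.S₂.blk z₂) := by
      intro z₁ z₂
      unfold stz
      constructor
      · intro hs
        exact (Prod.ext_iff.1 hs).2.symm
      · rintro rfl; rfl
    by_cases hk : k < ∑ i, (sv D (x, y) i).natAbs
    · rw [if_pos hk]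
      unfold SD.nuG
      rw [FG_double h, Finset.mul_sum]
      refine Finset.sum_congr rfl fun z₁ _ => ?_
      rw [Finset.mul_sum]
      refine Finset.sum_congr rfl fun z₂ _ => ?_
      by_cases hy : y = (D.S₁.blk z₁, D.S₂.blk z₂)
      · have hs := (e z₁ z₂).2 hy
        rw [if_pos hy, if_pos hs, wt3_stz hw g₁ g₂, nlink_stz, hs, if_pos (by exact_mod_cast hk)]
      · rw [if_neg hy, if_neg (fun h' => hy ((e z₁ z₂).1 h')), mul_zero]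
    · rw [if_neg hk]
      symm
      refine Finset.sum_eq_zero fun z₁ _ => Finset.sum_eq_zero fun z₂ _ => ?_
      by_cases hy : y = (D.S₁.blk z₁, D.S₂.blk z₂)
      · have hs := (e z₁ z₂).2 hy
        rw [if_pos hy, nlink_stz, hs, if_neg (by exact_mod_cast hk)]
      · rw [if_neg hy]
  have e1 : ∑ y ∈ Y, (if k < ∑ i, (sv D (x, y) i).natAbs then D.nuG (x, y) else 0) =
      ∑ z₁ ∈ D.S₁.J, ∑ z₂ ∈ D.S₂.J, ∑ y ∈ Y, (if y = (D.S₁.blk z₁, D.S₂.blk z₂) then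
        (if (k : ℤ) < nlink D.S₁.T D.S₂.T x z₁ z₂ then
        wt3 D.S₁.T D.S₂.T D.S₁.κ D.S₂.κ (Gf D) x z₁ z₂ else 0) else 0) := by
    rw [Finset.sum_congr rfl e0, Finset.sum_comm]
    exact Finset.sum_congr rfl fun z₁ _ => Finset.sum_comm
  rw [e1]
  refine Finset.sum_le_sum fun z₁ hz₁ => ?_
  refine Finset.sum_le_sum fun z₂ hz₂ => ?_
  have hmem : (D.S₁.blk z₁, D.S₂.blk z₂) ∈ Y := by
    rw [hY, mem_product, Fintype.mem_piFinset, Fintype.mem_piFinset]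
    exact ⟨fun r => by rw [mem_Icc]; exact abs_le.1 (hLb₁ z₁ hz₁ r),
      fun r => by rw [mem_Icc]; exact abs_le.1 (hLb₂ z₂ hz₂ r)⟩
  rw [Finset.sum_ite_eq', if_pos hmem]

end OK

variable {r₁ r₂ : Finset E → ℤ} {R : ℤ} {c : E → ℤ} {m₁ m₂ B₁ B₂ : E → ℕ} {h₀ : ℕ}

/-- **MASS4**: the mass of the small acceptance region in a fat stage. -/
theorem mass4 (h : D.OK) (hw : ∀ β, D.w β = 0)
    (g₁ : Side.Gauge D.S₁ D.μ) (g₂ : Side.Gauge D.S₂ D.μ)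
    (G₁ : Geo D.S₁ r₁ R c m₁ B₁ h₀) (G₂ : Geo D.S₂ r₂ R c m₂ B₂ h₀) (hh : 2 ≤ h₀)
    (hX : ∀ z ∈ D.S₁.J, z ∈ D.S₂.J → z ∈ bx1 D)
    (hLb₁ : ∀ z ∈ D.S₁.J, ∀ r, |D.S₁.blk z r| ≤ D.Lb)
    (hLb₂ : ∀ z ∈ D.S₂.J, ∀ r, |D.S₂.blk z r| ≤ D.Lb)
    {A ε : ℝ} (hA : 1 ≤ A) (hε : 0 ≤ ε)
    (D₁ : SideData D.S₁.T D.S₁.κ r₁ c m₁ h₀ (fun a => B₁ a) A ε)
    (D₂ : SideData D.S₂.T D.S₂.κ r₂ c m₂ h₀ (fun a => B₂ a) A ε)
    {Γ : ℝ} (hΓ : 0 ≤ Γ)
    (hG : ∀ i j : Lk D, (hardN D.S₁.J D.S₂.J (Lor.ev (el D i)) (Lor.ev (el D j)) : ℝ) *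
      D.μ (el D i) ≤ Γ * Zc D * D.μ (el D j))
    (hq : D.θ ^ 2 * (2 * Γ * Fintype.card (Lk D) ^ 2) ≤ 1 / 2) {δ : ℝ} (hδ : 0 ≤ δ) :
    ∑ σ ∈ D.bx.filter (fun σ => D.FG σ < δ), D.nuG σ ≤
      4 * δ * Zc D + ∑ σ ∈ D.bx.filter (fun σ => h₀ < ∑ i, (sv D σ i).natAbs), D.nuG σ +
        4 * Fintype.card E * (ε * A ^ (2 * Fintype.card E)) * Zc D := by
  classical
  have h1 := small_accept h B₁ B₂ hδ
  have h2 := near_mass hw g₁ g₂ G₁ G₂ hh hX hΓ hG hq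
  have h3 : ∑ σ ∈ D.bx, D.u σ * TG D B₁ B₂ σ ≤ ∑ x ∈ bx1 D, ∑ z₁ ∈ D.S₁.J, ∑ z₂ ∈ D.S₂.J,
      (if Big D B₁ B₂ x z₁ z₂ then wt3 D.S₁.T D.S₂.T D.S₁.κ D.S₂.κ (Gf D) x z₁ z₂ else 0) := by
    simp only [TG_double h]
    exact swap_sum h (Big D B₁ B₂) hw g₁ g₂
  have h4 := slack_tail G₁.sub G₂.sub G₁.cen G₂.cen D.S₁.J D.S₂.J G₁.J G₂.J D₁ D₂ hA hε (Gf D)
    (Gf_nonneg D) (bx1 D) (Big D B₁ B₂) (fun x z₁ _ z₂ _ hb => by
      right
      unfold Big at hb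
      rcases not_and_or.1 hb with h5 | h5
      · left
        unfold NearZ at h5
        push Not at h5
        obtain ⟨a, ha, hlt⟩ := h5
        exact ⟨a, ha, by rw [bs_sub]; exact hlt⟩
      · right
        unfold NearZ at h5
        push Not at h5
        obtain ⟨a, ha, hlt⟩ := h5
        exact ⟨a, ha, by rw [bs_sub]; exact hlt⟩)
  have h5 := many_links h hw g₁ g₂ hLb₁ hLb₂ h₀
  have hq' : D.θ ^ 2 * (Γ * Fintype.card (Lk D) ^ 2) ≤ 1 / 2 := by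
    refine le_trans ?_ hq
    apply mul_le_mul_of_nonneg_left _ (by positivity)
    have : 0 ≤ Γ * (Fintype.card (Lk D) : ℝ) ^ 2 := by positivity
    nlinarith
  have h6 := hard_sum G₁ G₂ hΓ hG hq' h₀
  have h7 : 0 ≤ 2 * (Fintype.card E : ℝ) * (ε * A ^ (2 * Fintype.card E)) := by positivity
  have h8 := mul_le_mul_of_nonneg_left h6 h7
  have h9 := mul_le_mul_of_nonneg_left h2 hδ
  have hfin : ∑ σ ∈ D.bx.filter (fun σ => D.FG σ < δ), D.nuG σ ≤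
      δ * (4 * Zc D) + (∑ σ ∈ D.bx.filter (fun σ => h₀ < ∑ i, (sv D σ i).natAbs), D.nuG σ +
        2 * (Fintype.card E : ℝ) * (ε * A ^ (2 * Fintype.card E)) * (2 * Zc D)) := by
    linarith
  refine hfin.trans (le_of_eq ?_)
  ring

/-- thin stages: `FG` has the values `0` and `1`, the small acceptance region has mass `0` -/
theorem mass4_thin (h : D.OK) (h₁ : ∀ a, D.S₁.T.par a = none) (h₂ : ∀ a, D.S₂.T.par a = none)
    {δ : ℝ} (hδ : δ ≤ 1) : ∑ σ ∈ D.bx.filter (fun σ => D.FG σ < δ), D.nuG σ = 0 := by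
  classical
  refine Finset.sum_eq_zero fun σ hσ => ?_
  have hlt := (mem_filter.1 hσ).2
  have key : ∀ (S : Side E), (∀ a, S.T.par a = none) → (∀ z, S.g z = 1) →
      ∀ x β, S.ff x β = 0 ∨ S.ff x β = 1 := by
    intro S hS hg x β
    have e : ∀ z, S.g z * ∏ a, S.fk x β z a = if S.blk z = β then 1 else 0 := by
      intro z
      rw [hg, one_mul, fk_prod]
      congr 1
      rw [prodK_eq]
      exact Finset.prod_eq_one fun a _ => by rw [if_pos (hS a)]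
    have hinj : ∀ z z', S.blk z = S.blk z' → z = z' := by
      intro z z' hzz
      have h3 : ∀ a, bs S.T z a = bs S.T z' a := fun a => congrFun hzz ⟨a, hS a⟩
      rw [eq_sum_dq S.T z, eq_sum_dq S.T z']
      exact Finset.sum_congr rfl fun a _ => by rw [h3]
    unfold Side.ff
    simp only [e]
    by_cases hz : ∃ z ∈ S.J, S.blk z = β
    · right
      obtain ⟨z, hz, hb⟩ := hz
      rw [Finset.sum_eq_single z]
      · rw [if_pos hb]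
      · intro z' _ hne
        rw [if_neg]
        intro hb'
        exact hne (hinj _ _ (hb'.trans hb.symm))
      · intro h'; exact absurd hz h'
    · left
      refine Finset.sum_eq_zero fun z hz' => ?_
      rw [if_neg]
      intro hb
      exact hz ⟨z, hz', hb⟩
  unfold SD.nuG
  unfold SD.FG at hlt ⊢
  rcases key D.S₁ h₁ h.g₁ σ.1 σ.2.1 with h3 | h3
  · rw [h3]; ring
  · rcases key D.S₂ h₂ h.g₂ σ.1 σ.2.2 with h4 | h4
    · rw [h4]; ring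
    · rw [h3, h4] at hlt
      linarith

end Crest.Agent.R302.Mass4
end

-- ▼ part R302/Mass425E
section

/-!
# R302 (helper425), MASS4, part E: the slack data for the kernels `kapR`, numeric form of MASS4
-/

set_option autoImplicit false
set_option linter.unusedSectionVars false

namespace Crest.Agent.R302.Mass4

open Finset Crest.Agent.R302.Facet Crest.Agent.R302.Tail907 Crest.Agent.R302.Stage
open Crest.Agent.R302.Inst hiding kap tok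
open Crest.Agent.R302.Lor (mon)
open Crest.Agent.R302.Gau (Lk el wt sv bx1)

variable {E : Type*} [Fintype E] [DecidableEq E]

/-- **slack data of `kapR`** with an arbitrary threshold -/
theorem sideData_kapR {T : MP3.Forest E} {κ : E → ℤ → ℝ} {r : Finset E → ℤ} {c : E → ℤ}
    {m : E → ℕ} {h₀ : ℕ} {k : E → ℕ} {bt : E → ℤ} {lam Cb : ℝ}
    (hκ : ∀ a, T.par a ≠ none → κ a = kapR (k a))
    (edge : ∀ p q, T.par p = some q → 8 * kap (Fintype.card E) ≤ m p ∧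
      2 * (4 * Fintype.card E + 2) * h₀ ≤ m p ∧
      ∀ U, (p ∈ U ∧ q ∉ U ∨ q ∈ U ∧ p ∉ U) → (m p : ℤ) ≤ slk r c U)
    (hm : ∀ a, T.par a ≠ none → (2 : ℝ) ^ k a * lam ≤ m a)
    (hlam : 128 * (kap (Fintype.card E) : ℝ) ≤ lam) (hl0 : 0 < lam) (hCb : 0 < Cb)
    (hbt : ∀ a, T.par a ≠ none → (m a : ℝ) ≤ Cb * ((bt a : ℝ) + 1)) :
    SideData T κ r c m h₀ bt (9 / 4) (Real.exp (-(lam / (16 * Cb)))) where
  edge := edge
  nonneg := fun p hp t => by rw [hκ p hp]; exact KapR.kapR_nonneg _ _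
  full := by
    intro p hp I
    rw [hκ p hp]
    have hk2 : (0 : ℝ) < 2 ^ k p := by positivity
    have h1 := hm p hp
    have hm0 : (0 : ℝ) < m p := lt_of_lt_of_le (by positivity) h1
    have hkap : (0 : ℝ) ≤ kap (Fintype.card E) := Nat.cast_nonneg _
    have hc : 8 * (kap (Fintype.card E) : ℝ) / m p * 2 ^ k p ≤ 1 / 8 := by
      rw [div_mul_eq_mul_div, div_le_iff₀ hm0]
      nlinarith
    refine (KapR.sum_kapR_exp_le (k p) (by positivity) hc I).trans ?_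
    linarith
  tail := by
    intro p hp I
    rw [hκ p hp]
    have hk2 : (0 : ℝ) < 2 ^ k p := by positivity
    have h1 := hm p hp
    have hm0 : (0 : ℝ) < m p := lt_of_lt_of_le (by positivity) h1
    have hkap : (0 : ℝ) ≤ kap (Fintype.card E) := Nat.cast_nonneg _
    set c₁ : ℝ := 8 * (kap (Fintype.card E) : ℝ) / m p with hc₁
    set c₂ : ℝ := 1 / (8 * 2 ^ k p) with hc₂
    have e2 : c₂ * 2 ^ k p ≤ 1 / 8 := by
      rw [hc₂]; field_simp; norm_num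
    have h3 : lam / (8 * m p) ≤ c₂ := by
      rw [hc₂, div_le_div_iff₀ (by positivity) (by positivity)]
      nlinarith
    have h4 : c₁ ≤ lam / (16 * m p) := by
      rw [hc₁, div_le_div_iff₀ hm0 (by positivity)]
      nlinarith
    have h5 : lam / (16 * m p) ≤ c₂ - c₁ := by
      have : lam / (8 * m p) = 2 * (lam / (16 * m p)) := by field_simp; ring
      linarith
    have h6 := hbt p hp
    have hbt0 : 0 < (bt p : ℝ) + 1 := by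
      by_contra hcon
      push Not at hcon
      nlinarith
    have h7 : lam / (16 * Cb) ≤ (c₂ - c₁) * ((bt p : ℝ) + 1) := by
      calc lam / (16 * Cb) = lam / (16 * m p) * (m p / Cb) := by field_simp
        _ ≤ (c₂ - c₁) * ((bt p : ℝ) + 1) := by
            apply mul_le_mul h5 _ (by positivity) (le_trans (by positivity) h5)
            rw [div_le_iff₀ hCb]; linarith
    calc ∑ t ∈ I.filter (fun t => bt p < |t|), kapR (k p) t * Real.exp (c₁ * |(t : ℝ)|)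
        ≤ ∑ t ∈ I.filter (fun t => bt p < |t|), Real.exp (-(lam / (16 * Cb))) *
            (kapR (k p) t * Real.exp (c₂ * |(t : ℝ)|)) := by
          refine Finset.sum_le_sum fun t ht => ?_
          have h8 := (mem_filter.1 ht).2
          have h9 : (bt p : ℝ) + 1 ≤ |(t : ℝ)| := by
            have : bt p + 1 ≤ |t| := h8
            exact_mod_cast this
          rw [mul_left_comm, ← Real.exp_add]
          refine mul_le_mul_of_nonneg_left (Real.exp_le_exp.2 ?_) (KapR.kapR_nonneg _ _)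
          have h10 : (c₂ - c₁) * ((bt p : ℝ) + 1) ≤ (c₂ - c₁) * |(t : ℝ)| :=
            mul_le_mul_of_nonneg_left h9 (le_trans (by positivity) h5)
          linarith
      _ = Real.exp (-(lam / (16 * Cb))) * ∑ t ∈ I.filter (fun t => bt p < |t|),
            kapR (k p) t * Real.exp (c₂ * |(t : ℝ)|) := by rw [Finset.mul_sum]
      _ ≤ Real.exp (-(lam / (16 * Cb))) * (9 / 4) := by
          refine mul_le_mul_of_nonneg_left ?_ (Real.exp_pos _).le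
          refine (KapR.sum_kapR_exp_le (k p) (by positivity) e2 _).trans ?_
          linarith
      _ = _ := by ring

variable {D : SD E} {r₁ r₂ : Finset E → ℤ} {R : ℤ} {c : E → ℤ} {m₁ m₂ : E → ℕ} {h₀ : ℕ}

/-- geometric and kernel data of one side with kernels `kapR` -/
structure KGeo (S : Side E) (r : Finset E → ℤ) (R : ℤ) (c : E → ℤ) (m k : E → ℕ) (h₀ : ℕ)
    (lam : ℝ) : Prop where
  sub : SubM r R
  cen : MemJ r R c
  J : ∀ z, z ∈ S.J ↔ MemJ r R z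
  cap : ∀ a b, S.T.par a = some b → 8 * kap (Fintype.card E) ≤ m a ∧
    2 * (4 * Fintype.card E + 2) * h₀ ≤ m a ∧
    ∀ A, (a ∈ A ∧ b ∉ A ∨ b ∈ A ∧ a ∉ A) → (m a : ℤ) ≤ slk r c A
  ker : ∀ a, S.T.par a ≠ none → S.κ a = kapR (k a)
  scale : ∀ a, S.T.par a ≠ none → (2 : ℝ) ^ k a * lam ≤ m a

/-- the threshold of the near slacks -/
def Bth (n : ℕ) (m : E → ℕ) (a : E) : ℕ := m a / (64 * n * kap n)

theorem KGeo.geo {S : Side E} {r : Finset E → ℤ} {m k : E → ℕ} {lam : ℝ}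
    (h : KGeo S r R c m k h₀ lam) : Geo S r R c m (Bth (Fintype.card E) m) h₀ where
  sub := h.sub
  cen := h.cen
  J := h.J
  cap := h.cap
  small := fun _ _ => Nat.mul_div_le _ _

theorem KGeo.side {S : Side E} {r : Finset E → ℤ} {m k : E → ℕ} {lam : ℝ}
    (h : KGeo S r R c m k h₀ lam) (hlam : 128 * (kap (Fintype.card E) : ℝ) ≤ lam) (hl0 : 0 < lam)
    (hn : 1 ≤ Fintype.card E) :
    SideData S.T S.κ r c m h₀ (fun a => (Bth (Fintype.card E) m a : ℤ)) (9 / 4)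
      (Real.exp (-(lam / (16 * (64 * Fintype.card E * kap (Fintype.card E)))))) := by
  have hk := kap_pos hn
  have hC : 0 < 64 * Fintype.card E * kap (Fintype.card E) := by positivity
  refine sideData_kapR h.ker h.cap h.scale hlam hl0 (by exact_mod_cast hC) fun a _ => ?_
  have h1 := Nat.lt_mul_div_succ (m a) hC
  unfold Bth
  have h2 : (m a : ℝ) ≤ ((64 * Fintype.card E * kap (Fintype.card E) : ℕ) : ℝ) *
      ((m a / (64 * Fintype.card E * kap (Fintype.card E)) + 1 : ℕ) : ℝ) := by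
    exact_mod_cast h1.le
  push_cast at h2 ⊢
  exact h2

/-- **MASS4, numeric form** -/
theorem mass4_num {k₁ k₂ : E → ℕ} {lam : ℝ} (h : D.OK) (hw : ∀ β, D.w β = 0)
    (g₁ : Side.Gauge D.S₁ D.μ) (g₂ : Side.Gauge D.S₂ D.μ)
    (G₁ : KGeo D.S₁ r₁ R c m₁ k₁ h₀ lam) (G₂ : KGeo D.S₂ r₂ R c m₂ k₂ h₀ lam)
    (hn : 1 ≤ Fintype.card E) (hh : 2 ≤ h₀)
    (hX : ∀ z ∈ D.S₁.J, z ∈ D.S₂.J → z ∈ bx1 D)
    (hLb₁ : ∀ z ∈ D.S₁.J, ∀ r, |D.S₁.blk z r| ≤ D.Lb)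
    (hLb₂ : ∀ z ∈ D.S₂.J, ∀ r, |D.S₂.blk z r| ≤ D.Lb)
    (hlam : 128 * (kap (Fintype.card E) : ℝ) ≤ lam) (hl0 : 0 < lam)
    {Γ : ℝ} (hΓ : 0 ≤ Γ)
    (hG : ∀ i j : Lk D, (hardN D.S₁.J D.S₂.J (Lor.ev (el D i)) (Lor.ev (el D j)) : ℝ) *
      D.μ (el D i) ≤ Γ * Zc D * D.μ (el D j))
    (hq : D.θ ^ 2 * (2 * Γ * Fintype.card (Lk D) ^ 2) ≤ 1 / 2)
    (hL : Gau.LzD D) (hpos : 0 < Gau.AA D 0) (hAA : Gau.AA D 0 ≤ 2 * Zc D) {K : ℝ}
    (hK : ∑ i : Lk D, ∑ j : Lk D, wt D i / wt D j *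
      Gau.AA D (Lor.ev (Gau.tok D i) - Lor.ev (Gau.tok D j)) ≤ K * Gau.AA D 0)
    (hqK : D.θ ^ 2 * K ≤ 1 / 2) (hK0 : 0 ≤ K) {j : ℕ} (hj : 2 * j ≤ h₀ + 1)
    {δ : ℝ} (hδ : 0 ≤ δ) :
    ∑ σ ∈ D.bx.filter (fun σ => D.FG σ < δ), D.nuG σ ≤
      (4 * δ + 4 * (1 / 2) ^ j + 4 * Fintype.card E *
        (Real.exp (-(lam / (16 * (64 * Fintype.card E * kap (Fintype.card E))))) *
          (9 / 4) ^ (2 * Fintype.card E))) * Zc D := by
  have h1 := mass4 h hw g₁ g₂ G₁.geo G₂.geo hh hX hLb₁ hLb₂ (by norm_num) (Real.exp_pos _).le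
    (G₁.side hlam hl0 hn) (G₂.side hlam hl0 hn) hΓ hG hq hδ
  have h2 : ∑ σ ∈ D.bx.filter (fun σ => h₀ < ∑ i, (sv D σ i).natAbs), D.nuG σ ≤
      4 * (1 / 2) ^ j * Zc D := by
    have h3 := Gau.links_tail hL hpos hK (lt_of_le_of_lt hqK (by norm_num)) j
    have h4 : ∑ σ ∈ D.bx.filter (fun σ => h₀ < ∑ i, (sv D σ i).natAbs), D.nuG σ ≤
        ∑ σ ∈ D.bx.filter (fun σ => 2 * j ≤ (∑ r, (σ.2.1 r - D.S₁.blk σ.1 r).natAbs) +
          ∑ r, (σ.2.2 r - D.S₂.blk σ.1 r).natAbs), D.nuG σ := by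
      refine Finset.sum_le_sum_of_subset_of_nonneg ?_ fun σ _ _ => SD.nuG_nonneg h σ
      intro σ hσ
      rw [mem_filter] at hσ ⊢
      refine ⟨hσ.1, ?_⟩
      have h5 : ∑ i, (sv D σ i).natAbs = (∑ r, (σ.2.1 r - D.S₁.blk σ.1 r).natAbs) +
          ∑ r, (σ.2.2 r - D.S₂.blk σ.1 r).natAbs := by
        rw [Fintype.sum_sum_type]
        congr 1
        refine Finset.sum_congr rfl fun r _ => ?_
        show (-(σ.2.2 r - D.S₂.blk σ.1 r)).natAbs = _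
        rw [Int.natAbs_neg]
      have h6 := hσ.2
      omega
    refine h4.trans (h3.trans ?_)
    have hq0 : 0 ≤ D.θ ^ 2 * K := mul_nonneg (sq_nonneg _) hK0
    have h7 : (D.θ ^ 2 * K) ^ j / (1 - D.θ ^ 2 * K) ≤ 2 * (1 / 2) ^ j := by
      rw [div_le_iff₀ (by linarith)]
      have h8 : (D.θ ^ 2 * K) ^ j ≤ (1 / 2) ^ j := pow_le_pow_left₀ hq0 hqK j
      have h9 : (0 : ℝ) ≤ (1 / 2) ^ j := by positivity
      nlinarith
    calc (D.θ ^ 2 * K) ^ j / (1 - D.θ ^ 2 * K) * Gau.AA D 0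
        ≤ (2 * (1 / 2) ^ j) * (2 * Zc D) := by
          apply mul_le_mul h7 hAA hpos.le (by positivity)
      _ = _ := by ring
  have : (4 * δ + 4 * (1 / 2) ^ j + 4 * Fintype.card E *
        (Real.exp (-(lam / (16 * (64 * Fintype.card E * kap (Fintype.card E))))) *
          (9 / 4) ^ (2 * Fintype.card E))) * Zc D = 4 * δ * Zc D + 4 * (1 / 2) ^ j * Zc D +
      4 * Fintype.card E *
        (Real.exp (-(lam / (16 * (64 * Fintype.card E * kap (Fintype.card E))))) *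
          (9 / 4) ^ (2 * Fintype.card E)) * Zc D := by ring
  rw [this]
  linarith

end Crest.Agent.R302.Mass4
end

-- ▼ part R302/S2mZ425
section

/-!
# R302 (helper425), MASS4 for the concrete stage data `sdA`

`hsm_sdA` : the hypothesis `hsm` of `Stage536D.poincD_final` at every stage.
-/

set_option autoImplicit false
set_option linter.unusedSectionVars false

namespace Crest.Agent.R302.Mass4

open Finset Crest.Agent.R302.Facet Crest.Agent.R302.Tail907 Crest.Agent.R302.Stage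
open Crest.Agent.R302.Conc Crest.Agent.R302.AnnBox
open Crest.Agent.R302.Inst hiding kap tok
open Crest.Agent.R302.Gau (Lk el wt sv bx1 MassIn)
open Crest.Agent.R302.StageL (kV lgE lgE_le)
open Crest.Agent.R302.GeoSpec (nnForest nn_nnForest)
open Crest.Agent.R302.TreeNN (mcap mcap_le_slk)

variable {n : ℕ}

/-- the key of the fat link above `a` -/
def keyA (T : MP3.Forest (Fin n)) (m : Fin n → Fin n → ℤ) (a : Fin n) : ℕ :=
  match T.par a with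
  | none => 0
  | some b => (m a b).toNat

theorem cen_stR (𝒜 : AnnData n) {r : Finset (Fin n) → ℤ} (hr : SubM r 𝒜.R) (hx : MemJ r 𝒜.R 𝒜.x₀)
    (t : ℕ) : MemJ (𝒜.stR r t) 𝒜.R 𝒜.x₀ :=
  (𝒜.mem_stR hr t _).2 ⟨hx, fun v => by constructor <;> simp⟩

/-- **the side data of a stage** -/
theorem kGeo_sdA (𝒜 : AnnData n) {r : Finset (Fin n) → ℤ} (hr : SubM r 𝒜.R)
    (hx : MemJ r 𝒜.R 𝒜.x₀) (t : ℕ) {w₁ : ℤ} {dk h₀ : ℕ} (hdk : 0 < dk) (hdk' : (dk : ℤ) ≤ w₁)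
    (hw : (8 * kap n : ℤ) ≤ w₁) (hw' : (2 * (4 * n + 2) * h₀ : ℤ) ≤ w₁) :
    KGeo (sideOf (mA 𝒜 r t) w₁ dk (jF 𝒜 r t)) (𝒜.stR r t) 𝒜.R 𝒜.x₀
      (keyA (nnForest (mA 𝒜 r t) w₁) (mA 𝒜 r t))
      (kV dk (nnForest (mA 𝒜 r t) w₁) (mA 𝒜 r t)) h₀ dk where
  sub := 𝒜.stR_sub hr hx t
  cen := cen_stR 𝒜 hr hx t
  J := mem_jF 𝒜 hr t
  cap := by
    intro a b hab
    have hab' : (nnForest (mA 𝒜 r t) w₁).par a = some b := hab
    have h1 := (nn_nnForest (mA 𝒜 r t) w₁).ge a b hab'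
    have e : (keyA (nnForest (mA 𝒜 r t) w₁) (mA 𝒜 r t) a : ℤ) = mA 𝒜 r t a b := by
      unfold keyA
      rw [hab']
      simp only
      rw [Int.toNat_of_nonneg]
      have : (0 : ℤ) ≤ 8 * kap n := by positivity
      linarith
    rw [Fintype.card_fin]
    refine ⟨?_, ?_, ?_⟩
    · have : ((8 * kap n : ℕ) : ℤ) ≤ keyA (nnForest (mA 𝒜 r t) w₁) (mA 𝒜 r t) a := by
        rw [e]; push_cast; linarith
      exact_mod_cast this
    · have : ((2 * (4 * n + 2) * h₀ : ℕ) : ℤ) ≤ keyA (nnForest (mA 𝒜 r t) w₁) (mA 𝒜 r t) a := by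
        rw [e]; push_cast; linarith
      exact_mod_cast this
    · intro A hA
      rw [e]
      exact mcap_le_slk hA
  ker := fun a _ => rfl
  scale := by
    intro a ha
    have ha' : (nnForest (mA 𝒜 r t) w₁).par a ≠ none := ha
    obtain ⟨b, hb⟩ := Option.ne_none_iff_exists'.1 ha'
    have h1 := (nn_nnForest (mA 𝒜 r t) w₁).ge a b hb
    have h2 := lgE_le hdk (hdk'.trans h1)
    have h0 : (0 : ℤ) ≤ mA 𝒜 r t a b := by
      have : (0 : ℤ) ≤ 8 * kap n := by positivity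
      linarith
    unfold keyA kV
    rw [hb]
    simp only
    have h3 : ((2 ^ lgE dk (mA 𝒜 r t a b) * dk : ℕ) : ℤ) ≤ ((mA 𝒜 r t a b).toNat : ℤ) := by
      rw [Int.toNat_of_nonneg h0]; push_cast; exact h2
    have h4 : 2 ^ lgE dk (mA 𝒜 r t a b) * dk ≤ (mA 𝒜 r t a b).toNat := by exact_mod_cast h3
    exact_mod_cast h4

/-- the one-link masses of the fat stages as counts -/
theorem Ns_count (𝒜 : AnnData n) {t : ℕ} (ht : T0 n 𝒜.L ≤ t) (s : Fin n → ℤ) :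
    𝒜.Ns s t = (((jF 𝒜 𝒜.r₁ t).filter fun z => (fun v => z v + s v) ∈ jF 𝒜 𝒜.r₂ t).card : ℝ) := by
  rw [𝒜.Ns_eq s t ((jF 𝒜 𝒜.r₁ t).filter fun z => (fun v => z v + s v) ∈ jF 𝒜 𝒜.r₂ t)
    (fun x => by rw [mem_filter, mem_jF 𝒜 𝒜.sub₁, mem_jF 𝒜 𝒜.sub₂])]
  rw [Finset.cast_card]
  exact Finset.sum_congr rfl fun x _ => stOm_fat ht _ _

theorem hardN_Nst (𝒜 : AnnData n) {t : ℕ} (ht : T0 n 𝒜.L ≤ t) (u v : Fin n) :
    (hardN (jF 𝒜 𝒜.r₁ t) (jF 𝒜 𝒜.r₂ t) (Lor.ev u) (Lor.ev v) : ℝ) = 𝒜.Nst t v u := by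
  unfold AnnData.Nst
  rw [Ns_count 𝒜 ht]
  unfold hardN
  congr 2
  apply filter_congr
  intro z _
  have : (fun w => z w - Lor.ev u w + Lor.ev v w) = fun w => z w + hs v u w := by
    funext w
    unfold hs
    simp only [Lor.ev, Pi.single_apply]
    ring
  rw [this]

theorem Zc_sdA (𝒜 : AnnData n) {t : ℕ} (ht : T0 n 𝒜.L ≤ t) (P : Par) (ell : Fin n → ℤ) :
    Zc (sdA 𝒜 t P ell) = 𝒜.Z t := by
  classical
  unfold AnnData.Z
  rw [Ns_count 𝒜 ht]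
  unfold Zc
  congr 2
  ext z
  rw [mem_inter, mem_filter]
  have : (fun v => z v + (0 : Fin n → ℤ) v) = z := by funext v; simp
  rw [this]
  rfl

/-- **MASS4 for the concrete stage data** : the hypothesis `hsm` of `poincD_final` -/
theorem hsm_sdA (𝒜 : AnnData n) (hn : 1 ≤ n) {t : ℕ} {P : Par} {ell : Fin n → ℤ} {Γ e : ℝ}
    (hOK : (sdA 𝒜 t P ell).OK)
    (M : MassIn (sdA 𝒜 t P ell) (𝒜.Z t) (fun u v => 𝒜.Nst t v u) Γ e)
    (hLb₁ : ∀ z ∈ jF 𝒜 𝒜.r₁ t, ∀ r, |(sdA 𝒜 t P ell).S₁.blk z r| ≤ P.Lb)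
    (hLb₂ : ∀ z ∈ jF 𝒜 𝒜.r₂ t, ∀ r, |(sdA 𝒜 t P ell).S₂.blk z r| ≤ P.Lb)
    (hM : stQ n 𝒜.L t ≤ P.M) {h₀ j : ℕ} (hh : 2 ≤ h₀) (hj : 2 * j ≤ h₀ + 1)
    (hthin : t < T0 n 𝒜.L → (∀ a, (sdA 𝒜 t P ell).S₁.T.par a = none) ∧
      ∀ a, (sdA 𝒜 t P ell).S₂.T.par a = none)
    (hlam : 128 * kap n ≤ P.dk) (hdk0 : 0 < P.dk) (hdk : (P.dk : ℤ) ≤ P.w₁)
    (hw : (8 * kap n : ℤ) ≤ P.w₁) (hw' : (2 * (4 * n + 2) * h₀ : ℤ) ≤ P.w₁)
    (hq : (sdA 𝒜 t P ell).θ ^ 2 * (2 * Γ * (2 * n) ^ 2) ≤ 1 / 2)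
    {δ : ℝ} (hδ : 0 ≤ δ) (hδ1 : δ ≤ 1) :
    ∑ σ ∈ (sdA 𝒜 t P ell).bx.filter (fun σ => (sdA 𝒜 t P ell).FG σ < δ), (sdA 𝒜 t P ell).nuG σ ≤
      (4 * δ + 4 * (1 / 2) ^ j + 4 * n *
        (Real.exp (-(P.dk / (16 * (64 * n * kap n)))) * (9 / 4) ^ (2 * n))) * 𝒜.Z t := by
  classical
  have : Nonempty (Fin n) := ⟨⟨0, hn⟩⟩
  have hZ := 𝒜.Z_pos t
  rcases lt_or_ge t (T0 n 𝒜.L) with ht | ht
  · rw [mass4_thin hOK (hthin ht).1 (hthin ht).2 hδ1]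
    positivity
  · have hΓ : 0 ≤ Γ := zero_le_one.trans M.Γ0
    have hZc := Zc_sdA 𝒜 ht P ell
    have hcard : Fintype.card (Fin n) = n := Fintype.card_fin n
    have hLk : (Fintype.card (Lk (sdA 𝒜 t P ell)) : ℝ) ≤ 2 * n := by
      have := Gau.card_Lk (sdA 𝒜 t P ell)
      rw [hcard] at this
      exact_mod_cast this
    have hq' : (sdA 𝒜 t P ell).θ ^ 2 *
        (2 * Γ * Fintype.card (Lk (sdA 𝒜 t P ell)) ^ 2) ≤ 1 / 2 := by
      refine le_trans ?_ hq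
      gcongr
    have hAA := M.AA_upp
    have he1 := M.e1
    have key := mass4_num (D := sdA 𝒜 t P ell) (r₁ := 𝒜.stR 𝒜.r₁ t) (r₂ := 𝒜.stR 𝒜.r₂ t)
      (R := 𝒜.R) (c := 𝒜.x₀) (h₀ := h₀) (lam := (P.dk : ℝ)) hOK
      (fun β => by
        show ((stH n 𝒜.L t 𝒜.x₀ _ : ℕ) : ℤ) = 0
        unfold stH
        rw [if_neg (not_lt.2 ht)]; rfl)
      M.lz.gauge₁ M.lz.gauge₂
      (kGeo_sdA 𝒜 𝒜.sub₁ 𝒜.mem₁ t hdk0 hdk hw hw') (kGeo_sdA 𝒜 𝒜.sub₂ 𝒜.mem₂ t hdk0 hdk hw hw')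
      (by rw [hcard]; exact hn) hh
      (fun z hz _ => by
        have h1 := ((𝒜.mem_stR 𝒜.sub₁ t z).1 ((mem_jF 𝒜 𝒜.sub₁ t z).1 hz)).2
        show z ∈ Fintype.piFinset fun e => Icc (𝒜.x₀ e - P.M) (𝒜.x₀ e + P.M)
        rw [Fintype.mem_piFinset]
        intro e
        have h2 := h1 e
        have h3 : (stQ n 𝒜.L t : ℤ) ≤ P.M := by exact_mod_cast hM
        rw [mem_Icc]
        constructor <;> linarith [h2.1, h2.2])
      hLb₁ hLb₂ (by rw [hcard]; exact_mod_cast hlam) (by exact_mod_cast hdk0) hΓ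
      (fun i j => by
        have h1 := M.good (el _ i) (el _ j)
        rw [hZc]
        have h2 := hardN_Nst 𝒜 ht (el (sdA 𝒜 t P ell) i) (el (sdA 𝒜 t P ell) j)
        show (hardN (jF 𝒜 𝒜.r₁ t) (jF 𝒜 𝒜.r₂ t) _ _ : ℝ) * _ ≤ _
        rw [h2]
        exact h1)
      hq' M.lz M.AA_pos' (by rw [hZc]; nlinarith) M.hK (by rw [hcard]; exact hq)
      (by positivity) hj hδ
    rw [hZc, hcard] at key
    exact key

end Crest.Agent.R302.Mass4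
end

-- ▼ part R302/BadmSdA907
section

/-!
# R302: the defect masses of (S1) for the concrete stage data

Author: helper907.  `farM_sdA` : 536's far mass over the enlarged box; `badm_sdA` : 893's `badm`.
-/

set_option autoImplicit false
set_option linter.unusedSectionVars false

namespace Crest.Agent.R302.Tail907

open Finset Crest.Agent.R302.Facet
open Crest.Agent.R302.Lor Crest.Agent.R302.Stage Crest.Agent.R302.Gau
open Crest.Agent.R302.Conc Crest.Agent.R302.AnnBox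
open Crest.Agent.R302.Inst hiding kap
open Crest.Agent.R302.GeoSpec (nnForest nn_nnForest keyV bs_diff₁ bs_diff₂)
open Crest.Agent.R302.TreeNN (mcap wt_none wt_some)
open Crest.Agent.R302.T893 (lvl badm ww LL cen wtV)

variable {E : Type*} [Fintype E] [DecidableEq E]

/-- the same stage with a larger window -/
noncomputable def up (D : SD E) : SD E := { D with M := D.M + 1 }

theorem lzD_up {D : SD E} (h : LzD D) : LzD (up D) where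
  gauge₁ := h.gauge₁
  gauge₂ := h.gauge₂
  lz := h.lz
  bdd₁ := h.bdd₁
  bdd₂ := h.bdd₂

theorem Bx_up (D : SD E) :
    (up D).Bx = Fintype.piFinset fun a => Icc (D.c a - D.M - 1) (D.c a + D.M + 1) := by
  unfold SD.Bx
  have h1 : ((up D).M : ℤ) = D.M + 1 := by
    show ((D.M + 1 : ℕ) : ℤ) = _
    push_cast; rfl
  have h2 : (up D).c = D.c := rfl
  rw [h1, h2]
  congr 1
  funext a
  congr 1 <;> ring

theorem massIn_up {D : SD E} {Z : ℝ} {N : E → E → ℝ} {Γ e : ℝ} (h : MassIn D Z N Γ e) :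
    MassIn (up D) Z N Γ e where
  lz := lzD_up h.lz
  Z0 := h.Z0
  e0 := h.e0
  e1 := h.e1
  upp := h.upp
  diag := h.diag
  low := by
    obtain ⟨P, hP, hl⟩ := h.low
    refine ⟨P, fun x hx => ?_, hl⟩
    have h1 := Finset.mem_product.1 (hP x hx)
    refine Finset.mem_product.2 ⟨?_, h1.2⟩
    have h2 : x ∈ D.Bx := h1.1
    show x ∈ (up D).Bx
    rw [Bx_up]
    unfold SD.Bx at h2
    rw [Fintype.mem_piFinset] at h2 ⊢
    intro a
    have := mem_Icc.1 (h2 a)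
    rw [mem_Icc]
    constructor <;> linarith [this.1, this.2]
  good := h.good

/-- far mass over the enlarged box -/
theorem farM_up [Nonempty E] {D : SD E} {Z : ℝ} {N : E → E → ℝ} {Γ e : ℝ} (h : MassIn D Z N Γ e)
    {q : ℝ} (hq : D.θ ^ 2 * (2 * Γ * (2 * Fintype.card E) ^ 2) ≤ q) (hq1 : q ≤ 1 / 2) (Kw : ℕ) :
    Joint.farM (Fintype.piFinset fun a => Icc (D.c a - D.M - 1) (D.c a + D.M + 1))
      D.a₁ D.a₂ D.Λ₁ D.Λ₂ D.S₁.blk D.S₂.blk Kw ≤ 4 * q ^ (Kw + 1) * Z := by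
  have h1 := (massIn_up h).farM_le' hq hq1 Kw
  rw [Bx_up] at h1
  exact h1

variable {n : ℕ}

theorem hardN_zero (J₁ J₂ : Finset (Fin n → ℤ)) : hardN J₁ J₂ 0 0 = (J₁ ∩ J₂).card := by
  unfold hardN
  congr 1
  ext z
  rw [mem_filter, mem_inter]
  simp only [Pi.zero_apply, sub_zero, add_zero]

/-- the windows of 893 -/
theorem wtV_X {m₁ m₂ : Fin n → Fin n → ℤ} {w₁ : ℤ} (a : Fin n) :
    wtV m₁ m₂ w₁ (tX a) = (TreeNN.wt m₁ w₁ (nnForest m₁ w₁).par a : ℤ) := by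
  unfold wtV keyV tX
  simp only
  rcases hp : (nnForest m₁ w₁).par a with _ | b
  · rw [wt_none hp]
    simp
  · rw [wt_some hp]
    simp only
    rw [max_eq_left ((nn_nnForest m₁ w₁).ge a b hp)]

theorem wtV_Y {m₁ m₂ : Fin n → Fin n → ℤ} {w₁ : ℤ} (a : Fin n) :
    wtV m₁ m₂ w₁ (tY a) = (TreeNN.wt m₂ w₁ (nnForest m₂ w₁).par a : ℤ) := by
  unfold wtV keyV tY
  simp only
  rcases hp : (nnForest m₂ w₁).par a with _ | b
  · rw [wt_none hp]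
    simp
  · rw [wt_some hp]
    simp only
    rw [max_eq_left ((nn_nnForest m₂ w₁).ge a b hp)]

theorem wt_ge {m : Fin n → Fin n → ℤ} {w₁ : ℤ} (a : Fin n) :
    w₁ ≤ TreeNN.wt m w₁ (nnForest m w₁).par a := by
  rcases hp : (nnForest m w₁).par a with _ | b
  · rw [wt_none hp]
  · rw [wt_some hp]
    exact (nn_nnForest m w₁).ge a b hp

/-- the number condition on the windows -/
theorem win_num {lam h₀ C : ℕ} {G : ℝ}
    (hG : ((lam * (8 * n ^ 3 * C + n * (3 * n + 4)) + h₀ + 2 : ℕ) : ℝ) ≤ G) {w : ℤ} (hw : 1 ≤ w) :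
    ((lam * (2 * (n : ℤ) ^ 3 * ((2 * C : ℕ) * (w + 1)) + n * (3 * n + 4)) + h₀ : ℤ) : ℝ) ≤
      G * (w : ℝ) - 2 := by
  have hwr : (1 : ℝ) ≤ w := by exact_mod_cast hw
  have h1 : (((lam * (8 * n ^ 3 * C + n * (3 * n + 4)) + h₀ + 2 : ℕ) : ℝ)) * w ≤ G * w :=
    mul_le_mul_of_nonneg_right hG (by linarith)
  push_cast at h1 ⊢
  have h2 : (0 : ℝ) ≤ lam * (4 * n ^ 3 * C) * (w - 1) := by
    have : (0 : ℝ) ≤ w - 1 := by linarith
    positivity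
  have h3 : (0 : ℝ) ≤ lam * (n * (3 * n + 4)) * (w - 1) := by
    have : (0 : ℝ) ≤ w - 1 := by linarith
    positivity
  have h4 : (0 : ℝ) ≤ (h₀ + 2 : ℝ) * (w - 1) := by
    have : (0 : ℝ) ≤ w - 1 := by linarith
    positivity
  nlinarith

/-- **893's `badm` for the concrete stage data.** -/
theorem badm_sdA (𝒜 : AnnData n) (hn : 1 ≤ n) {t : ℕ} {P : Par} {ell : Fin n → ℤ} {Γ e : ℝ}
    (M : MassIn (sdA 𝒜 t P ell) (𝒜.Z t) (fun u v => 𝒜.Nst t v u) Γ e)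
    {C : ℕ} (hC : 1 ≤ C) (hctr : IsCenter 𝒜.r₁ 𝒜.r₂ (𝒜.PH 0) C 𝒜.x₀)
    (hLb₁ : ∀ z ∈ jF 𝒜 𝒜.r₁ t, ∀ r, |(sdA 𝒜 t P ell).S₁.blk z r| ≤ P.Lb)
    (hLb₂ : ∀ z ∈ jF 𝒜 𝒜.r₂ t, ∀ r, |(sdA 𝒜 t P ell).S₂.blk z r| ≤ P.Lb)
    (hthin : t < T0 n 𝒜.L → (∀ a, (sdA 𝒜 t P ell).S₁.T.par a = none) ∧
      ∀ a, (sdA 𝒜 t P ell).S₂.T.par a = none)
    {h₀ lam Kw : ℕ} (hlam : n + 1 ≤ lam) (hlam' : h₀ ≤ lam) (hKw : 2 * n * Kw ≤ h₀)
    (hd : 0 < P.dk) (hdw : (P.dk : ℤ) ≤ P.w₁) (hdk : 128 * kap n ≤ P.dk)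
    (hw : (8 * kap n : ℤ) ≤ P.w₁) (hw' : (2 * (4 * n + 2) * h₀ : ℤ) ≤ P.w₁)
    {G : ℝ} (hG : ((lam * (8 * n ^ 3 * C + n * (3 * n + 4)) + h₀ + 2 : ℕ) : ℝ) ≤ G)
    {q : ℝ} (hq : (sdA 𝒜 t P ell).θ ^ 2 * (2 * Γ * (2 * n) ^ 2) ≤ q) (hq1 : q ≤ 1 / 2) :
    badm (sdA 𝒜 t P ell).S₁.T (sdA 𝒜 t P ell).S₂.T
      (LL G (wtV (mA 𝒜 𝒜.r₁ t) (mA 𝒜 𝒜.r₂ t) P.w₁))
      (cen (sdA 𝒜 t P ell).S₁.T (sdA 𝒜 t P ell).S₂.T (sdA 𝒜 t P ell).c) (sdA 𝒜 t P ell).Wx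
      (Fintype.piFinset fun a => Icc ((sdA 𝒜 t P ell).c a - (sdA 𝒜 t P ell).M - 1)
        ((sdA 𝒜 t P ell).c a + (sdA 𝒜 t P ell).M + 1)) ≤
    (4 * q ^ (Kw + 1) + 4 * n * ((9 / 4 * Real.exp (-((P.dk : ℝ) / 16))) * (9 / 4) ^ (2 * n))) *
      𝒜.Z t := by
  classical
  have : Nonempty (Fin n) := ⟨⟨0, hn⟩⟩
  have hcard : Fintype.card (Fin n) = n := Fintype.card_fin n
  have hZ := 𝒜.Z_pos t
  set D := sdA 𝒜 t P ell with hD
  have hst₁ := ConcF.stSide₁ 𝒜 t P ell hd hdw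
  have hst₂ := ConcF.stSide₂ 𝒜 t P ell hd hdw
  have hw1 : 1 ≤ P.w₁ := by
    have : (1 : ℤ) ≤ P.dk := by exact_mod_cast hd
    linarith
  have hθ : 0 ≤ D.θ := (θ_pos D).le
  -- windows
  have hP : ∀ x, x ∈ jF 𝒜 𝒜.r₁ t ∩ jF 𝒜 𝒜.r₂ t ↔
      MemJ (𝒜.stR 𝒜.r₁ t) 𝒜.R x ∧ MemJ (𝒜.stR 𝒜.r₂ t) 𝒜.R x := fun x => by
    rw [mem_inter, mem_jF 𝒜 𝒜.sub₁, mem_jF 𝒜 𝒜.sub₂]
  have hc := 𝒜.stR_center hC hctr t _ hP
  have hcP : 𝒜.x₀ ∈ jF 𝒜 𝒜.r₁ t ∩ jF 𝒜 𝒜.r₂ t := (hP _).2 ⟨hst₁.cen, hst₂.cen⟩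
  have hM₁ : ∀ (e : Fin n) (z : Fin n → ℤ), MemJ (𝒜.stR 𝒜.r₁ t) 𝒜.R z →
      MemJ (𝒜.stR 𝒜.r₂ t) 𝒜.R z → |bs D.S₁w.T z e - bs D.S₁w.T 𝒜.x₀ e| ≤
      2 * (n : ℤ) ^ 3 * ((2 * C : ℕ) * (TreeNN.wt (mA 𝒜 𝒜.r₁ t) P.w₁
        (nnForest (mA 𝒜 𝒜.r₁ t) P.w₁).par e + 1)) := fun e z h1 h2 =>
    bs_diff₁ hst₁.sub hP (by omega) hcP hc (by linarith) ((hP z).2 ⟨h1, h2⟩) e
  have hM₂ : ∀ (e : Fin n) (z : Fin n → ℤ), MemJ (𝒜.stR 𝒜.r₁ t) 𝒜.R z →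
      MemJ (𝒜.stR 𝒜.r₂ t) 𝒜.R z → |bs D.S₂.T z e - bs D.S₂.T 𝒜.x₀ e| ≤
      2 * (n : ℤ) ^ 3 * ((2 * C : ℕ) * (TreeNN.wt (mA 𝒜 𝒜.r₂ t) P.w₁
        (nnForest (mA 𝒜 𝒜.r₂ t) P.w₁).par e + 1)) := fun e z h1 h2 =>
    bs_diff₂ hst₂.sub hP (by omega) hcP hc (by linarith) ((hP z).2 ⟨h1, h2⟩) e
  have hL₁ : ∀ e : Fin n, ((lam * (2 * (n : ℤ) ^ 3 * ((2 * C : ℕ) * (TreeNN.wt (mA 𝒜 𝒜.r₁ t) P.w₁
        (nnForest (mA 𝒜 𝒜.r₁ t) P.w₁).par e + 1)) +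
        Fintype.card (Fin n) * (3 * Fintype.card (Fin n) + 4)) + h₀ : ℤ) : ℝ) ≤
      LL G (wtV (mA 𝒜 𝒜.r₁ t) (mA 𝒜 𝒜.r₂ t) P.w₁) (tX e) - 2 := by
    intro e
    unfold LL
    rw [wtV_X, hcard]
    exact win_num hG (hw1.trans (wt_ge e))
  have hL₂ : ∀ e : Fin n, ((lam * (2 * (n : ℤ) ^ 3 * ((2 * C : ℕ) * (TreeNN.wt (mA 𝒜 𝒜.r₂ t) P.w₁
        (nnForest (mA 𝒜 𝒜.r₂ t) P.w₁).par e + 1)) +
        Fintype.card (Fin n) * (3 * Fintype.card (Fin n) + 4)) + h₀ : ℤ) : ℝ) ≤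
      LL G (wtV (mA 𝒜 𝒜.r₁ t) (mA 𝒜 𝒜.r₂ t) P.w₁) (tY e) - 2 := by
    intro e
    unfold LL
    rw [wtV_Y, hcard]
    exact win_num hG (hw1.trans (wt_ge e))
  have hcen₁ : ∀ e : Fin n, cen D.S₁.T D.S₂.T D.c (tX e) = bs D.S₁w.T 𝒜.x₀ e := fun e => rfl
  have hcen₂ : ∀ e : Fin n, cen D.S₁.T D.S₂.T D.c (tY e) = bs D.S₂.T 𝒜.x₀ e := fun e => rfl
  set B : Finset (Fin n → ℤ) := Fintype.piFinset fun a => Icc (D.c a - D.M - 1) (D.c a + D.M + 1)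
    with hB
  -- the far mass
  have hg₁ : ∀ z ∈ D.S₁w.J, 0 ≤ D.S₁w.g z := fun z _ => by
    show (0 : ℝ) ≤ 1 * 2 ^ (-_)
    positivity
  have hg₂ : ∀ z ∈ D.S₂.J, 0 ≤ D.S₂.g z := fun z _ => zero_le_one
  have hκ₁ : ∀ p, D.S₁w.T.par p ≠ none → ∀ s, 0 ≤ D.S₁w.κ p s := fun p hp s => by
    show 0 ≤ D.S₁.κ p s
    rw [hst₁.ker p hp]; exact KapR.kapR_nonneg _ _
  have hκ₂ : ∀ p, D.S₂.T.par p ≠ none → ∀ s, 0 ≤ D.S₂.κ p s := fun p hp s => by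
    rw [hst₂.ker p hp]; exact KapR.kapR_nonneg _ _
  have hfar : far3 D.S₁w D.S₂ D.θ D.μ h₀ B ≤ 4 * q ^ (Kw + 1) * 𝒜.Z t := by
    refine (far3_le_farM (S₁ := D.S₁w) (S₂ := D.S₂) hg₁ hg₂ hκ₁ hκ₂ hθ M.lz.gauge₁ M.lz.gauge₂ B
      D.Λ₁ (fun z hz => Fintype.mem_piFinset.2 fun r => mem_Icc.2 (abs_le.1 (hLb₁ z hz r)))
      D.Λ₂ (fun z hz => Fintype.mem_piFinset.2 fun r => mem_Icc.2 (abs_le.1 (hLb₂ z hz r)))
      (K := Kw) (by rw [hcard]; exact hKw)).trans ?_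
    exact farM_up M (by rw [hcard]; exact hq) hq1 Kw
  have hq0 : 0 ≤ q := by
    refine le_trans ?_ hq
    have : 0 ≤ Γ := zero_le_one.trans M.Γ0
    positivity
  rcases lt_or_ge t (T0 n 𝒜.L) with ht | ht
  · have key := badm_thin (S₁ := D.S₁w) (S₂ := D.S₂) (θ := D.θ) (μ := D.μ) (h₀ := h₀)
      hst₁.sub hst₂.sub hst₁.cen hst₂.cen hst₁.mem hst₂.mem hg₁ hg₂ (hthin ht).1 (hthin ht).2 hθ
      M.lz.gauge₁ M.lz.gauge₂ B lam (by omega) hlam' hM₁ hM₂ hcen₁ hcen₂ hL₁ hL₂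
    refine le_trans key (hfar.trans ?_)
    apply mul_le_mul_of_nonneg_right _ hZ.le
    have : (0 : ℝ) ≤ 4 * n * ((9 / 4 * Real.exp (-((P.dk : ℝ) / 16))) * (9 / 4) ^ (2 * n)) := by
      positivity
    linarith
  · have hkr : (128 * (kap n : ℝ)) ≤ P.dk := by exact_mod_cast hdk
    have hdr : (0 : ℝ) < P.dk := by exact_mod_cast hd
    have hA : 1 + 80 * (kap n : ℝ) / P.dk ≤ 9 / 4 := by
      have : 80 * (kap n : ℝ) / P.dk ≤ 5 / 4 := by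
        rw [div_le_iff₀ hdr]
        have : (0 : ℝ) ≤ kap n := Nat.cast_nonneg _
        linarith
      linarith
    have hε : 9 / 4 * Real.exp (-(((1 : ℕ) : ℝ) * P.dk / 16)) ≤
        9 / 4 * Real.exp (-((P.dk : ℝ) / 16)) := by
      rw [Nat.cast_one, one_mul]
    have D₁ := hst₁.sideData_b (h₀ := h₀) (b := 1) hw hw' hdk hA hε
    have D₂ := hst₂.sideData_b (h₀ := h₀) (b := 1) hw hw' hdk hA hε
    have hw0 : ∀ β, D.w β = 0 := ConcF.sdA_w_fat 𝒜 t P ell ht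
    have hZc : (hardN D.S₁.J D.S₂.J 0 0 : ℝ) = 𝒜.Z t := by
      rw [← Mass4.Zc_sdA 𝒜 ht P ell, hardN_zero]
      rfl
    have hsum := sum_gN_stage D hst₁.sub hst₂.sub hst₁.mem hst₂.mem M.lz.gauge₁ M.lz.gauge₂
      (by
        have : (0 : ℝ) < hardN D.S₁.J D.S₂.J 0 0 := by rw [hZc]; exact hZ
        exact_mod_cast this)
      (Γ := Γ) (zero_le_one.trans M.Γ0)
      (fun u v _ _ => by
        rw [hZc]
        have h1 := M.good u v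
        have h2 : (hardN D.S₁.J D.S₂.J (Lor.ev u) (Lor.ev v) : ℝ) = 𝒜.Nst t v u :=
          Mass4.hardN_Nst 𝒜 ht u v
        rw [h2]
        exact h1)
      (by
        rw [hcard]
        have h3 : D.θ ^ 2 * (Γ * (2 * n) ^ 2) ≤ D.θ ^ 2 * (2 * Γ * (2 * n) ^ 2) := by
          have hΓ : 0 ≤ Γ := zero_le_one.trans M.Γ0
          have : 0 ≤ D.θ ^ 2 * (Γ * (2 * (n : ℝ)) ^ 2) := by positivity
          nlinarith
        linarith) h₀
    rw [hZc, hcard] at hsum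
    have hq' : D.θ ^ 2 * (Γ * (2 * n) ^ 2) ≤ 1 / 2 := by
      have hΓ : 0 ≤ Γ := zero_le_one.trans M.Γ0
      have : 0 ≤ D.θ ^ 2 * (Γ * (2 * (n : ℝ)) ^ 2) := by positivity
      nlinarith
    have hsum2 : ∑ s₁ ∈ linkSet D.S₁.T.par h₀, ∑ s₂ ∈ linkSet D.S₂.T.par h₀,
        gN D.S₁.J D.S₂.J (Gl D.θ D.μ) h₀ s₁ s₂ ≤ 2 * 𝒜.Z t := by
      refine hsum.trans (mul_le_mul_of_nonneg_right ?_ hZ.le)
      rw [div_le_iff₀ (by linarith)]
      linarith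
    have key := badm_fat (S₁ := D.S₁w) (S₂ := D.S₂) (θ := D.θ) (μ := D.μ) (h₀ := h₀) (b := 1)
      hst₁.sub hst₂.sub hst₁.cen hst₂.cen hst₁.mem hst₂.mem
      (fun z _ => by
        show (1 : ℝ) * 2 ^ (-D.w (D.S₁.blk z)) = 1
        rw [hw0]; norm_num)
      (fun z _ => rfl) D₁ D₂ (fun p _ => le_of_eq (by push_cast; rfl))
      (fun p _ => le_of_eq (by push_cast; rfl)) (by norm_num)
      (by positivity) hθ M.lz.gauge₁ M.lz.gauge₂ B lam (by rw [hcard]; omega) hlam' hM₁ hM₂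
      hcen₁ hcen₂ hL₁ hL₂
    rw [hcard] at key
    refine le_trans key ?_
    have h5 : 2 * (n : ℝ) * (9 / 4 * Real.exp (-((P.dk : ℝ) / 16)) * (9 / 4) ^ (2 * n)) *
        ∑ s₁ ∈ linkSet D.S₁w.T.par h₀, ∑ s₂ ∈ linkSet D.S₂.T.par h₀,
          gN D.S₁w.J D.S₂.J (Gl D.θ D.μ) h₀ s₁ s₂ ≤
        2 * (n : ℝ) * (9 / 4 * Real.exp (-((P.dk : ℝ) / 16)) * (9 / 4) ^ (2 * n)) *
          (2 * 𝒜.Z t) :=
      mul_le_mul_of_nonneg_left hsum2 (by positivity)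
    calc _ ≤ 4 * q ^ (Kw + 1) * 𝒜.Z t +
          2 * (n : ℝ) * (9 / 4 * Real.exp (-((P.dk : ℝ) / 16)) * (9 / 4) ^ (2 * n)) *
            (2 * 𝒜.Z t) := add_le_add hfar h5
      _ = _ := by ring

end Crest.Agent.R302.Tail907
end

-- ▼ part R302/MixC893
section

/-!
R302 (helper893): `StIn.mix` for the two chains of the concrete program, from `MassIn`.

* `mix_gen` : for any stage data `sdA 𝒜 t Pr ell`, all numbers as hypotheses;
* `mix_cPar` : the concrete program.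
-/

set_option autoImplicit false
set_option linter.unusedSectionVars false
set_option linter.unusedVariables false

namespace Crest.Agent.R302.T893

open Finset
open Crest.Agent.R302.Inst Crest.Agent.R302.Stage Crest.Agent.R302.Macro
open Crest.Agent.R302.GeoSpec Crest.Agent.R302.StageL
open Crest.Agent.R302.ConcF Crest.Agent.R302.AnnBox
open Crest.Agent.R302.Conc (sdA sdOf parOf ellOf jF mem_jF mA)
open Crest.Agent.R302.Mix Crest.Agent.R302.Smp Crest.Agent.R302.Top Crest.Agent.R302.Prog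
open Crest.Agent.R302.Fields Crest.Agent.R302.Facet Crest.Agent.R302.ORAM
open Crest.Agent.R309.MC

variable {n : ℕ}

/-- the constant `1 + 2 n ^ 2 * 6 A₀ κ ^ 3` of (S1) -/
noncomputable def KA (n : ℕ) (θ G P w1 : ℝ) : ℝ :=
  1 + (2 * n ^ 2 : ℕ) * (6 * A0n n (2 * n + 1) (Inst.kap θ 1) G P w1 θ * Inst.kap θ 1 ^ 3)

/-- the constant of the mass outside of the windows -/
noncomputable def KD (n M : ℕ) (θ G P w1 mx : ℝ) : ℝ :=
  CD n (2 * n + 1) (2 * M) (Inst.kap θ 1) (KSn n (2 * n + 1) (Inst.kap θ 1) G P w1 θ mx)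

theorem kap_one_ge {θ : ℝ} (h0 : 0 < θ) (h1 : θ ≤ 1) : 1 ≤ Inst.kap θ 1 := by
  unfold Inst.kap
  have h2 : 1 ≤ θ⁻¹ := (one_le_inv₀ h0).2 h1
  have h3 : 1 ≤ Real.exp 1 := by
    have := Real.add_one_le_exp (1 : ℝ)
    linarith
  have h4 : 1 ≤ θ⁻¹ * Real.exp 1 := by nlinarith
  nlinarith

theorem KD_nonneg {k M : ℕ} {θ G P w1 mx : ℝ} (h0 : 0 < θ) (h1 : θ ≤ 1) :
    0 ≤ KD k M θ G P w1 mx :=
  Num.CD_nonneg (kap_one_ge h0 h1) (Num.KSn_nonneg (kap_one_ge h0 h1))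

theorem KA_nonneg {k : ℕ} {θ G P w1 : ℝ} (h0 : 0 < θ) (h1 : θ ≤ 1) : 0 ≤ KA k θ G P w1 := by
  have hκ := kap_one_ge h0 h1
  unfold KA
  have hA : 0 ≤ A0n k (2 * k + 1) (Inst.kap θ 1) G P w1 θ := Num.A0n_nonneg hκ
  have : 0 ≤ (2 * k ^ 2 : ℕ) * (6 * A0n k (2 * k + 1) (Inst.kap θ 1) G P w1 θ *
      Inst.kap θ 1 ^ 3) := by
    positivity
  linarith

theorem half_pow_pos (a : ℕ) : (0 : ℝ) < (1 / 2) ^ a := by positivity

theorem half_pow_le (a : ℕ) : ((1 / 2 : ℝ)) ^ a ≤ 1 := pow_le_one₀ (by norm_num) (by norm_num)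

theorem farM_nonneg' {D : SD (Fin n)} (hOK : D.OK) (Kw : ℕ) :
    0 ≤ Joint.farM D.Bx D.a₁ D.a₂ D.Λ₁ D.Λ₂ D.S₁.blk D.S₂.blk Kw := by
  unfold Joint.farM
  refine Finset.sum_nonneg fun p _ => ?_
  rw [← SD.nuG_eq_joint]
  exact SD.nuG_nonneg hOK p

/-- **`StIn.mix`**, all numbers as hypotheses -/
theorem mix_gen (𝒜 : AnnData n) (hn : 1 ≤ n) {t : ℕ} (Pr : Conc.Par) (ell : Fin n → ℤ)
    {L' t' : ℕ} {x₀ : Fin n → ℤ} {r₁ r₂ : Finset (Fin n) → ℤ} {R : ℤ} {rep : Fin n → Fin n}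
    (hS : Spec (sdA 𝒜 t Pr ell) (mA 𝒜 𝒜.r₁ t) (mA 𝒜 𝒜.r₂ t) Pr.w₁ Pr.dk L' t' x₀ r₁ r₂ R rep)
    {P : ℕ} {mx : ℤ} {G : ℝ} (hN : PNum n Pr.a Pr.dk Pr.dl P Pr.w₁ mx G)
    (hmx : (stQ n 𝒜.L t : ℤ) ≤ mx) (hM : n * (G * mx) + 2 * mx ≤ Pr.M)
    (Kw : ℕ) {A : ℝ} (hA : 1 ≤ A)
    (hA1 : 3 * A0n n (2 * n + 1) (Inst.kap ((1 / 2) ^ Pr.a) 1) G P Pr.w₁ ((1 / 2) ^ Pr.a) *
      Inst.kap ((1 / 2) ^ Pr.a) 1 ^ 3 ≤ A)
    (hA2 : KA n ((1 / 2) ^ Pr.a) G P Pr.w₁ *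
        Link.KL (sdA 𝒜 t Pr ell).S₁.Blk (2 * Kw) ≤ A)
    (hA3 : KA n ((1 / 2) ^ Pr.a) G P Pr.w₁ *
        Link.KL (sdA 𝒜 t Pr ell).S₂.Blk (2 * Kw) ≤ A)
    (hOK : (sdA 𝒜 t Pr ell).OK)
    (hlen : (sdA 𝒜 t Pr ell).cs.length ≤ 2 ^ (sdA 𝒜 t Pr ell).qa)
    (hexp : ∀ p ∈ (sdA 𝒜 t Pr ell).cs, p.2 ≤ (sdA 𝒜 t Pr ell).qb)
    {Γ e : ℝ} (Mi : Gau.MassIn (sdA 𝒜 t Pr ell) (𝒜.Z t) (fun u v => 𝒜.Nst t v u) Γ e)
    {C : ℕ} (hC : 1 ≤ C) (hctr : IsCenter 𝒜.r₁ 𝒜.r₂ (𝒜.PH 0) C 𝒜.x₀)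
    (hLb₁ : ∀ z ∈ jF 𝒜 𝒜.r₁ t, ∀ r, |(sdA 𝒜 t Pr ell).S₁.blk z r| ≤ Pr.Lb)
    (hLb₂ : ∀ z ∈ jF 𝒜 𝒜.r₂ t, ∀ r, |(sdA 𝒜 t Pr ell).S₂.blk z r| ≤ Pr.Lb)
    (hthin : t < T0 n 𝒜.L → (∀ a, (sdA 𝒜 t Pr ell).S₁.T.par a = none) ∧
      ∀ a, (sdA 𝒜 t Pr ell).S₂.T.par a = none)
    {h₀ lam j : ℕ} (hlam : n + 1 ≤ lam) (hlam' : h₀ ≤ lam) (hKw : 2 * n * Kw ≤ h₀)
    (hh : 2 ≤ h₀) (hj : 2 * j ≤ h₀ + 1)
    (hd : 0 < Pr.dk) (hdw : (Pr.dk : ℤ) ≤ Pr.w₁) (hdk : 128 * Facet.kap n ≤ Pr.dk)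
    (hw : (8 * Facet.kap n : ℤ) ≤ Pr.w₁) (hw' : (2 * (4 * n + 2) * h₀ : ℤ) ≤ Pr.w₁)
    (hG : ((lam * (8 * n ^ 3 * C + n * (3 * n + 4)) + h₀ + 2 : ℕ) : ℝ) ≤ G)
    (hsM : stQ n 𝒜.L t ≤ Pr.M)
    {q : ℝ} (hq : (sdA 𝒜 t Pr ell).θ ^ 2 * (2 * Γ * (2 * n) ^ 2) ≤ q) (hq1 : q ≤ 1 / 2)
    {tb tf ρ : ℝ}
    (htb : 4 * q ^ (Kw + 1) + 4 * n * ((9 / 4 * Real.exp (-((Pr.dk : ℝ) / 16))) *
      (9 / 4) ^ (2 * n)) ≤ tb)
    (htf : 4 * q ^ (Kw + 1) ≤ tf)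
    (hρ : KD n Pr.M ((1 / 2) ^ Pr.a) G P Pr.w₁ mx * tb +
      KA n ((1 / 2) ^ Pr.a) G P Pr.w₁ * (8 * tf) ≤ ρ)
    {δ τ η : ℝ} (hδ : 0 < δ) (hδ1 : δ ≤ 1)
    (hτ : 4 * δ + 4 * (1 / 2) ^ j + 4 * n *
        (Real.exp (-(Pr.dk / (16 * (64 * n * Facet.kap n)))) * (9 / 4) ^ (2 * n)) ≤ τ)
    (hnum : 256 * ρ + 512 * (A * 2 ^ (Pr.qa + 2)) * τ ≤ η ^ 2) {T L : ℕ}
    (hL : 8 ≤ η ^ 2 * 2 ^ L) (hT : (L : ℝ) ≤ δ / (A * 2 ^ (Pr.qa + 2)) * T) :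
    ∃ (c e : ℝ) (L : ℕ), 0 < c ∧ c ≤ 1 ∧ 0 ≤ e ∧
      PoincD (fun σ : (sdA 𝒜 t Pr ell).bx => (sdA 𝒜 t Pr ell).nuG σ) (sdA 𝒜 t Pr ell).Kch c e ∧
      128 * e ≤ c * mass (fun σ : (sdA 𝒜 t Pr ell).bx => (sdA 𝒜 t Pr ell).nuG σ) * η ^ 2 ∧
      8 ≤ η ^ 2 * 2 ^ L ∧ (L : ℝ) ≤ c * T := by
  classical
  have : Nonempty (Fin n) := ⟨⟨0, hn⟩⟩
  have hcard : Fintype.card (Fin n) = n := Fintype.card_fin n
  have hZ := 𝒜.Z_pos t
  have hθ0 := half_pow_pos Pr.a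
  have hθ1 := half_pow_le Pr.a
  have hq' : (sdA 𝒜 t Pr ell).θ ^ 2 * (2 * Γ * (2 * Fintype.card (Fin n)) ^ 2) ≤ q := by
    rw [hcard]; exact hq
  -- far mass
  have hfar : Joint.farM (sdA 𝒜 t Pr ell).Bx (sdA 𝒜 t Pr ell).a₁ (sdA 𝒜 t Pr ell).a₂
      (sdA 𝒜 t Pr ell).Λ₁ (sdA 𝒜 t Pr ell).Λ₂ (sdA 𝒜 t Pr ell).S₁.blk
      (sdA 𝒜 t Pr ell).S₂.blk Kw ≤ tf * 𝒜.Z t :=
    (Mi.farM_le' hq' hq1 Kw).trans (mul_le_mul_of_nonneg_right htf hZ.le)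
  -- mass outside of the windows
  have hbad := (Tail907.badm_sdA 𝒜 hn Mi hC hctr hLb₁ hLb₂ hthin hlam hlam' hKw hd hdw hdk hw hw'
    hG hq hq1).trans (mul_le_mul_of_nonneg_right htb hZ.le)
  have hbad0 : 0 ≤ badm (sdA 𝒜 t Pr ell).S₁.T (sdA 𝒜 t Pr ell).S₂.T
      (LL G (wtV (mA 𝒜 𝒜.r₁ t) (mA 𝒜 𝒜.r₂ t) Pr.w₁))
      (cen (sdA 𝒜 t Pr ell).S₁.T (sdA 𝒜 t Pr ell).S₂.T 𝒜.x₀) (sdA 𝒜 t Pr ell).Wx
      (Fintype.piFinset fun a => Icc (𝒜.x₀ a - Pr.M - 1) (𝒜.x₀ a + Pr.M + 1)) :=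
    badm_nonneg (fun y => (ww_pos hS.facts.pair y).le) _ _ _ _ _
  have hfar0 := farM_nonneg' hOK Kw
  have hKD := KD_nonneg (k := n) (M := Pr.M) (G := G) (P := (P : ℝ)) (w1 := (Pr.w₁ : ℝ))
    (mx := (mx : ℝ)) hθ0 hθ1
  have hKA := KA_nonneg (k := n) (G := G) (P := (P : ℝ)) (w1 := (Pr.w₁ : ℝ)) hθ0 hθ1
  have hP := fun (f : Stage.St (sdA 𝒜 t Pr ell) → ℝ) (M : ℝ) (hM0 : 0 ≤ M) (hfM : ∀ p, |f p| ≤ M) =>
    S1_ann 𝒜 t Pr ell hS hn hN hmx hM Kw hA1 hA2 hA3 f hM0 hfM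
  refine mix_of hOK hlen hexp hA hP hδ hδ1 hZ ?_ (ρ := ρ) ?_
    ((Mass4.hsm_sdA 𝒜 hn hOK Mi hLb₁ hLb₂ hsM hh hj hthin hdk hd hdw hw hw' (hq.trans hq1) hδ.le
      hδ1).trans (mul_le_mul_of_nonneg_right hτ hZ.le)) Mi.half_mass hnum hL hT
  · exact add_nonneg (mul_nonneg hKD hbad0) (mul_nonneg hKA (by positivity))
  · calc _ ≤ KD n Pr.M ((1 / 2) ^ Pr.a) G P Pr.w₁ mx * (tb * 𝒜.Z t) +
          KA n ((1 / 2) ^ Pr.a) G P Pr.w₁ * (8 * (tf * 𝒜.Z t)) :=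
        add_le_add (mul_le_mul_of_nonneg_left hbad hKD)
          (mul_le_mul_of_nonneg_left (mul_le_mul_of_nonneg_left hfar (by norm_num)) hKA)
      _ = (KD n Pr.M ((1 / 2) ^ Pr.a) G P Pr.w₁ mx * tb +
          KA n ((1 / 2) ^ Pr.a) G P Pr.w₁ * (8 * tf)) * 𝒜.Z t := by ring
      _ ≤ ρ * 𝒜.Z t := mul_le_mul_of_nonneg_right hρ hZ.le

theorem two_le_X6 (s : SIn) : 2 ≤ XX s ^ 6 := by
  have h1 := XX_ge s
  have h2 : XX s ^ 1 ≤ XX s ^ 6 := Nat.pow_le_pow_right (by omega) (by norm_num)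
  rw [pow_one] at h2
  omega

theorem two_X4_le (s : SIn) : 2 * XX s ^ 4 ≤ XX s ^ 6 + 1 := by
  have h1 : 2 * XX s ^ 4 ≤ XX s ^ 6 := Cst.c_mul_pw' (XX_ge s) (by norm_num) (by norm_num)
  omega

section inst

variable {R m : ℕ} {r₁ r₂ : Finset (Fin n) → ℕ} {lo hi : Fin n → ℤ} {𝒜 : AnnData n}

theorem mix_aux (h : IsInst (Prog.prg cPar) n R m r₁ r₂ lo hi 𝒜) {t : ℕ}
    (ht : t < (Prog.prg cPar).T (inp n R m lo hi)) {a : ℕ} (ha : a ≤ 33 * ss (inp n R m lo hi))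
    (g : List ℤ) {e : ℝ}
    (M : Gau.MassIn (Dc 𝒜 (rq r₁ r₂) (inp n R m lo hi) t a g) (𝒜.Z (t + 1))
      (fun u v => 𝒜.Nst (t + 1) v u) 128 e) {q : ℝ} (hq0 : 0 ≤ q) (hq1 : q ≤ 1 / 2)
    (hq : ((1 / 2 : ℝ) ^ a) ^ 2 * (2 * 128 * (2 * (sn (inp n R m lo hi) : ℝ)) ^ 2) ≤ q) :
    ∃ (c e' : ℝ) (L : ℕ), 0 < c ∧ c ≤ 1 ∧ 0 ≤ e' ∧
      PoincD (fun σ : (Dc 𝒜 (rq r₁ r₂) (inp n R m lo hi) t a g).bx =>
        (Dc 𝒜 (rq r₁ r₂) (inp n R m lo hi) t a g).nuG σ)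
        (Dc 𝒜 (rq r₁ r₂) (inp n R m lo hi) t a g).Kch c e' ∧
      128 * e' ≤ c * mass (fun σ : (Dc 𝒜 (rq r₁ r₂) (inp n R m lo hi) t a g).bx =>
        (Dc 𝒜 (rq r₁ r₂) (inp n R m lo hi) t a g).nuG σ) * (Num.η0 (inp n R m lo hi)) ^ 2 ∧
      8 ≤ (Num.η0 (inp n R m lo hi)) ^ 2 * 2 ^ L ∧
      (L : ℝ) ≤ c * (cPar.TE (inp n R m lo hi) : ℕ) := by
  classical
  have hOK := dc_ok (𝒜 := 𝒜) (rq r₁ r₂) (inp n R m lo hi) t a g
  have hlen := dc_len (𝒜 := 𝒜) (R := R) (m := m) (lo := lo) (hi := hi) (rq r₁ r₂) t a g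
  have hexp := dc_exp h ht (rq r₁ r₂) a g
  have hS := spec_c h ht a g
  have hst := stQ_inst h ht
  have hlo₁ := ConcF.inst_pos₁ h
  have hlo₂ := ConcF.inst_pos₂ h
  have hctr := h.ctr
  have hRL : 𝒜.R ≤ ((cPar.Lb (inp n R m lo hi) : ℕ) : ℤ) := by
    rw [h.AR]
    exact_mod_cast R_le_Lb (inp n R m lo hi)
  have hn0 := h.n0
  have hsn : sn (inp n R m lo hi) = n := rfl
  unfold Dc at *
  set s := inp n R m lo hi with hs
  have hst' : (stQ n 𝒜.L (t + 1) : ℤ) ≤ Num.mx0 s := by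
    unfold Num.mx0
    exact_mod_cast hst
  have hsM : stQ n 𝒜.L (t + 1) ≤ cPar.M s :=
    hst.trans (Nat.pow_le_pow_right (by norm_num) (by omega))
  have hblk : ∀ (V : Type) [Fintype V], Fintype.card V ≤ n → KA n ((1 / 2) ^ a) (Num.G0 s)
      ((XX s ^ 76 : ℕ) : ℝ) ((cPar.w₁ s : ℤ) : ℝ) * Link.KL V (2 * XX s ^ 4) ≤ (XX s : ℝ) ^ 1500 := by
    intro V _ hV
    exact Num.N2 s ha hV
  have hA2 : KA n ((1 / 2) ^ a) (Num.G0 s) ((XX s ^ 76 : ℕ) : ℝ) ((cPar.w₁ s : ℤ) : ℝ) *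
      Link.KL (sdA 𝒜 (t + 1) (parOf cPar s a) (ellOf cPar (rq r₁ r₂) s t g)).S₁.Blk
        (2 * XX s ^ 4) ≤ (XX s : ℝ) ^ 1500 := by
    refine hblk _ ((Fintype.card_subtype_le _).trans (le_of_eq (Fintype.card_fin n)))
  have hA3 : KA n ((1 / 2) ^ a) (Num.G0 s) ((XX s ^ 76 : ℕ) : ℝ) ((cPar.w₁ s : ℤ) : ℝ) *
      Link.KL (sdA 𝒜 (t + 1) (parOf cPar s a) (ellOf cPar (rq r₁ r₂) s t g)).S₂.Blk
        (2 * XX s ^ 4) ≤ (XX s : ℝ) ^ 1500 := by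
    refine hblk _ ((Fintype.card_subtype_le _).trans (le_of_eq (Fintype.card_fin n)))
  have hC : 1 ≤ Center.cC n := by
    rcases Num.sd_C s with h1 | h1
    · exact h1
    · rw [hsn] at h1; omega
  have hLb₁ : ∀ z ∈ jF 𝒜 𝒜.r₁ (t + 1), ∀ r,
      |(sdA 𝒜 (t + 1) (parOf cPar s a) (ellOf cPar (rq r₁ r₂) s t g)).S₁.blk z r| ≤
        (parOf cPar s a).Lb := fun z hz r =>
    ConcF.sdA_blk₁ 𝒜 (t + 1) (parOf cPar s a) (ellOf cPar (rq r₁ r₂) s t g) hlo₁ hlo₂ hRL z hz r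
  have hLb₂ : ∀ z ∈ jF 𝒜 𝒜.r₂ (t + 1), ∀ r,
      |(sdA 𝒜 (t + 1) (parOf cPar s a) (ellOf cPar (rq r₁ r₂) s t g)).S₂.blk z r| ≤
        (parOf cPar s a).Lb := fun z hz r =>
    ConcF.sdA_blk₂ 𝒜 (t + 1) (parOf cPar s a) (ellOf cPar (rq r₁ r₂) s t g) hlo₁ hlo₂ hRL z hz r
  have hthin : t + 1 < T0 n 𝒜.L →
      (∀ b, (sdA 𝒜 (t + 1) (parOf cPar s a) (ellOf cPar (rq r₁ r₂) s t g)).S₁.T.par b = none) ∧
      ∀ b, (sdA 𝒜 (t + 1) (parOf cPar s a) (ellOf cPar (rq r₁ r₂) s t g)).S₂.T.par b = none :=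
    fun h1 => ⟨fun b => (ConcF.sdA_thin 𝒜 (t + 1) (parOf cPar s a) _ h1.le (cA_lt_w1 s) b).1,
      fun b => (ConcF.sdA_thin 𝒜 (t + 1) (parOf cPar s a) _ h1.le (cA_lt_w1 s) b).2⟩
  exact mix_gen 𝒜 hn0 (parOf cPar s a) (ellOf cPar (rq r₁ r₂) s t g) hS (P := XX s ^ 76)
    (mx := Num.mx0 s) (G := Num.G0 s) (Num.pnum s ha) hst' (Num.hM s) (XX s ^ 4)
    (A := (XX s : ℝ) ^ 1500) (one_le_pow₀ (Num.one_le_XR s)) (Num.N1 s ha) hA2 hA3 hOK hlen hexp M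
    hC hctr hLb₁ hLb₂ hthin (h₀ := XX s ^ 6) (lam := XX s ^ 6) (j := XX s ^ 4) (Num.sd_lam s)
    le_rfl (Num.sd_Kw s) (two_le_X6 s) (two_X4_le s) (Num.sd_dk0 s) (Num.sd_dkwZ s) (Num.sd_dk s) (Num.sd_wZ s)
    (Num.sd_wZ' s) (Num.sd_G s) hsM hq hq1 (tb := 1 / 2 ^ (XX s ^ 3)) (tf := 1 / 2 ^ (XX s ^ 3))
    (ρ := 1 / 2 ^ XX s) (Num.tb_le s hq0 hq1) (Num.tf_le s hq0 hq1)
    (Num.N3 s ha (by positivity) le_rfl (by positivity) le_rfl) (Num.δ0_pos s) (Num.δ0_le_one s)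
    (Num.tau_le s hn0) (Num.N4 s le_rfl le_rfl) (Num.N5a s) (Num.N5b s)

/-- **`StIn.mix` of the two chains of the concrete program** -/
theorem mix_cPar (h : IsInst (Prog.prg cPar) n R m r₁ r₂ lo hi 𝒜) {t : ℕ}
    (ht : t < (Prog.prg cPar).T (inp n R m lo hi)) {a : ℕ}
    (ha : a = 2 * ss (inp n R m lo hi) ∨ a = 33 * ss (inp n R m lo hi)) (g : List ℤ) {e : ℝ}
    (M : Gau.MassIn (Dc 𝒜 (rq r₁ r₂) (inp n R m lo hi) t a g) (𝒜.Z (t + 1))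
      (fun u v => 𝒜.Nst (t + 1) v u) 128 e) :
    ∃ (c e' : ℝ) (L : ℕ), 0 < c ∧ c ≤ 1 ∧ 0 ≤ e' ∧
      PoincD (fun σ : (Dc 𝒜 (rq r₁ r₂) (inp n R m lo hi) t a g).bx =>
        (Dc 𝒜 (rq r₁ r₂) (inp n R m lo hi) t a g).nuG σ)
        (Dc 𝒜 (rq r₁ r₂) (inp n R m lo hi) t a g).Kch c e' ∧
      128 * e' ≤ c * mass (fun σ : (Dc 𝒜 (rq r₁ r₂) (inp n R m lo hi) t a g).bx =>
        (Dc 𝒜 (rq r₁ r₂) (inp n R m lo hi) t a g).nuG σ) * (Num.η0 (inp n R m lo hi)) ^ 2 ∧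
      8 ≤ (Num.η0 (inp n R m lo hi)) ^ 2 * 2 ^ L ∧
      (L : ℝ) ≤ c * (cPar.TE (inp n R m lo hi) : ℕ) := by
  rcases ha with rfl | rfl
  · exact mix_aux h ht (Nat.mul_le_mul_right _ (by norm_num)) g M (Num.qE_half _).1
      (Num.qE_half _).2 (Num.qE_le _)
  · exact mix_aux h ht le_rfl g M (Num.qM_half _).1 (Num.qM_half _).2 (Num.qM_le _)

end inst

end Crest.Agent.R302.T893
end

-- ▼ part R302/Stage536Z

/-!
R302 (helper536), STAGE: **the final record** `stagesOK : Prog.StagesOK`.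
-/

set_option autoImplicit false
set_option linter.unusedSectionVars false

namespace Crest.Agent.R302.Fields

open Finset Crest.Agent.R302.Inst Crest.Agent.R302.Stage Crest.Agent.R302.AnnBox
open Crest.Agent.R302.Loop Crest.Agent.R302.Mix Crest.Agent.R302.Prog
open Crest.Agent.R302.Smp Crest.Agent.R302.Top Crest.Agent.R302.Facet
open Crest.Agent.R302.Conc (sdA parOf ellOf)
open Crest.Agent.R302.ORAM
open Crest.Agent.R309.MC Crest.Agent.R309.Tape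

theorem small_real {X : ℝ} (hX : 65536 ≤ X) : 1 / X ^ 61 ≤ 1 / 8 := by
  have h1 : (8 : ℝ) ≤ X ^ 61 := by
    calc (8 : ℝ) ≤ X := by linarith
      _ = X ^ 1 := (pow_one _).symm
      _ ≤ X ^ 61 := pow_le_pow_right₀ (by linarith) (by norm_num)
  exact one_div_le_one_div_of_le (by norm_num) h1

/-- **`ChainOK` at every stage of the concrete program** -/
theorem stagesOK : Prog.StagesOK := by
  intro n R m r₁ r₂ lo hi 𝒜 h t ht
  have hsmall := small_real (XX_geR (inp n R m lo hi))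
  obtain ⟨π, hπ⟩ := chainOK_prg (P := cPar) h ht (ε₁ := 1 / (XX (inp n R m lo hi) : ℝ) ^ 61)
    (εE := 1 / 8) (εM := 1 / (XX (inp n R m lo hi) : ℝ) ^ 61) (η := Num.η0 (inp n R m lo hi))
    (es := 1 / (XX (inp n R m lo hi) : ℝ) ^ 61) rfl hsmall le_rfl hsmall
    (Num.η0_pos _).le (kap_w1 (inp n R m lo hi)) (cA_lt_w1 (inp n R m lo hi))
    (hB₁_inst h ht) (hB₂_inst h ht) (Num.N6 (inp n R m lo hi)) (Num.N6 (inp n R m lo hi))
    (fun g hg => ⟨⟨mf_cE h ht hg, T893.mix_cPar h ht (Or.inl rfl) g (massIn_c h ht hg _)⟩,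
      rat_c h ht _⟩)
    (fun g hg => ⟨mf_cM h ht hg, T893.mix_cPar h ht (Or.inr rfl) g (massIn_c h ht hg _)⟩)
  exact ⟨π, hπ.mono (Num.errE (inp n R m lo hi)) (Num.errM (inp n R m lo hi))⟩

end Crest.Agent.R302.Fields

namespace Crest.Agent.R302.Prog

/-- **the remaining fact** -/
theorem stagesOK : StagesOK := Fields.stagesOK

end Crest.Agent.R302.Prog
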