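import Crest.Agent.R302.LinkInst342
import Crest.Agent.R302.Stage536B

/-!
R302 (helper342): the hypotheses of helper536's `Stage.SD.stage_poinc` from the official facts
(`Pair`, `Shape`, `Gauge`, window of the block contents).
-/

set_option autoImplicit false
set_option linter.unusedSectionVars false

namespace Crest.Agent.R302.LInst

open Finset Crest.Agent.R302.Lor Crest.Agent.R302.Inst Crest.Agent.R302.Link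
open Crest.Agent.R302.Macro Crest.Agent.R302.Stage Crest.Agent.R302.Joint
open Crest.Agent.R302.Inst.Side (Gauge tcost fcost tcost_neg fcost_neg)

variable {E : Type*} [Fintype E] [DecidableEq E]

/-- the official facts about one stage -/
structure Facts (D : SD E) (b₁ D₁ b₂ D₂ : E → ℝ) (β₀ : ℝ) (r₁ r₂ : Finset E → ℤ) (R₁ R₂ : ℤ)
    (ω₁ ω₂ : E → ℤ → ℝ) : Prop where
  pair : Pair D.S₁w D.S₂ b₁ D₁ b₂ D₂ D.θ D.μ β₀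
  sh₁ : Shape D.S₁w r₁ R₁ ω₁
  sh₂ : Shape D.S₂ r₂ R₂ ω₂
  ga₁ : Gauge D.S₁w D.μ
  ga₂ : Gauge D.S₂ D.μ
  lb₁ : ∀ z ∈ D.S₁.J, ∀ r, |D.S₁.blk z r| ≤ D.Lb
  lb₂ : ∀ z ∈ D.S₂.J, ∀ r, |D.S₂.blk z r| ≤ D.Lb

variable {D : SD E} {b₁ D₁ b₂ D₂ : E → ℝ} {β₀ : ℝ} {r₁ r₂ : Finset E → ℤ} {R₁ R₂ : ℤ}
  {ω₁ ω₂ : E → ℤ → ℝ}

theorem Facts.mem₁ (h : Facts D b₁ D₁ b₂ D₂ β₀ r₁ r₂ R₁ R₂ ω₁ ω₂) :
    ∀ z ∈ D.S₁w.J, D.S₁w.blk z ∈ D.Λ₁ := fun z hz =>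
  Fintype.mem_piFinset.2 fun r => mem_Icc.2 (abs_le.1 (h.lb₁ z hz r))

theorem Facts.mem₂ (h : Facts D b₁ D₁ b₂ D₂ β₀ r₁ r₂ R₁ R₂ ω₁ ω₂) :
    ∀ z ∈ D.S₂.J, D.S₂.blk z ∈ D.Λ₂ := fun z hz =>
  Fintype.mem_piFinset.2 fun r => mem_Icc.2 (abs_le.1 (h.lb₂ z hz r))




theorem Facts.nuG_nonneg (h : Facts D b₁ D₁ b₂ D₂ β₀ r₁ r₂ R₁ R₂ ω₁ ω₂) (p : St D) :
    0 ≤ D.nuG p := by
  rw [D.nuG_eq_joint]
  exact mul_nonneg (h.pair.ok₁.ok.lw_nonneg h.pair.θ0 h.pair.μ0 _ _)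
    (h.pair.ok₂.ok.lw_nonneg h.pair.θ0 h.pair.μi _ _)




end Crest.Agent.R302.LInst
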